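import Mathlib
import Vale.Agent.P153.MathlibUsed
import Vale.Agent.P152.Bd3.B2
import Vale.Agent.P152.Bd3.B24

set_option linter.all false

section

namespace Vale.Agent.P153

/-- Nearest-neighbour adjacency of the triangular lattice; a vertex `x : ℤ × ℤ` stands for the
point `x.1 • (1, 0) + x.2 • (1/2, √3/2)` of the plane. -/
def Adj (x y : ℤ × ℤ) : Prop :=
  (y.1 - x.1, y.2 - x.2) ∈
    ({(1, 0), (-1, 0), (0, 1), (0, -1), (1, -1), (-1, 1)} : Set (ℤ × ℤ))

/-- The height functions of the model: odd-integer functions on the lattice which are equal to the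
boundary data `η` off the finite set `D` of interior vertices and whose values at adjacent vertices
differ by at most two (so by `0` or `2`). -/
def Conf (D : Finset (ℤ × ℤ)) (η : ℤ × ℤ → ℤ) : Set (ℤ × ℤ → ℤ) :=
  {h | (∀ x, Odd (h x)) ∧ (∀ x, x ∉ D → h x = η x) ∧ ∀ x y, Adj x y → |h x - h y| ≤ 2}

end Vale.Agent.P153
end

section

/-!
Connections inside a set of vertices of the triangular lattice.
-/

namespace Vale.Agent.P153.Topo

open Vale.Agent.P153

theorem adj_iff {x y : ℤ × ℤ} : Adj x y ↔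
    (y.1 = x.1 + 1 ∧ y.2 = x.2) ∨ (y.1 = x.1 - 1 ∧ y.2 = x.2) ∨
    (y.1 = x.1 ∧ y.2 = x.2 + 1) ∨ (y.1 = x.1 ∧ y.2 = x.2 - 1) ∨
    (y.1 = x.1 + 1 ∧ y.2 = x.2 - 1) ∨ (y.1 = x.1 - 1 ∧ y.2 = x.2 + 1) := by
  obtain ⟨x1, x2⟩ := x
  obtain ⟨y1, y2⟩ := y
  simp only [Adj, Set.mem_insert_iff, Prod.mk.injEq, Set.mem_singleton_iff]
  omega

theorem adj_symm {x y : ℤ × ℤ} (h : Adj x y) : Adj y x := by
  rw [adj_iff] at h ⊢
  omega

theorem adj_comm {x y : ℤ × ℤ} : Adj x y ↔ Adj y x := ⟨adj_symm, adj_symm⟩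

/-- `x` and `y` are joined by a lattice path inside `S` (both end points in `S`). -/
def Conn (S : Set (ℤ × ℤ)) (x y : ℤ × ℤ) : Prop :=
  x ∈ S ∧ Relation.ReflTransGen (fun u v => Adj u v ∧ v ∈ S) x y

theorem Conn.left_mem {S : Set (ℤ × ℤ)} {x y : ℤ × ℤ} (h : Conn S x y) : x ∈ S := h.1

theorem Conn.right_mem {S : Set (ℤ × ℤ)} {x y : ℤ × ℤ} (h : Conn S x y) : y ∈ S := by
  obtain ⟨hx, h⟩ := h
  induction h with
  | refl => exact hx
  | tail _ h _ => exact h.2

theorem Conn.refl {S : Set (ℤ × ℤ)} {x : ℤ × ℤ} (h : x ∈ S) : Conn S x x :=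
  ⟨h, Relation.ReflTransGen.refl⟩

theorem Conn.trans {S : Set (ℤ × ℤ)} {x y z : ℤ × ℤ} (h : Conn S x y) (h' : Conn S y z) :
    Conn S x z :=
  ⟨h.1, h.2.trans h'.2⟩

theorem Conn.tail {S : Set (ℤ × ℤ)} {x y z : ℤ × ℤ} (h : Conn S x y) (h' : Adj y z)
    (hz : z ∈ S) : Conn S x z :=
  ⟨h.1, h.2.tail ⟨h', hz⟩⟩

theorem Conn.of_adj {S : Set (ℤ × ℤ)} {x y : ℤ × ℤ} (hx : x ∈ S) (hy : y ∈ S)
    (h' : Adj x y) : Conn S x y :=
  (Conn.refl hx).tail h' hy

theorem Conn.symm {S : Set (ℤ × ℤ)} {x y : ℤ × ℤ} (h : Conn S x y) : Conn S y x := by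
  obtain ⟨hx, h⟩ := h
  induction h with
  | refl => exact Conn.refl hx
  | @tail b c hb h ih =>
    have hbS : b ∈ S := ih.left_mem
    exact (Conn.of_adj h.2 hbS (adj_symm h.1)).trans ih

theorem Conn.mono {S T : Set (ℤ × ℤ)} (hST : S ⊆ T) {x y : ℤ × ℤ} (h : Conn S x y) :
    Conn T x y :=
  ⟨hST h.1, Relation.ReflTransGen.mono (fun _ _ h => ⟨h.1, hST h.2⟩) _ _ h.2⟩

/-- Induction along a connection, from its start. -/
theorem Conn.ind {S : Set (ℤ × ℤ)} {x : ℤ × ℤ} (P : ℤ × ℤ → Prop) (h0 : P x)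
    (hs : ∀ u v, Conn S x u → Adj u v → v ∈ S → P u → P v) {y : ℤ × ℤ} (h : Conn S x y) :
    P y := by
  obtain ⟨hx, h⟩ := h
  induction h with
  | refl => exact h0
  | tail hb h ih => exact hs _ _ ⟨hx, hb⟩ h.1 h.2 ih

/-- The set of the vertices joined to a vertex of `K` inside `S`. -/
def comp (S K : Set (ℤ × ℤ)) : Set (ℤ × ℤ) := {y | ∃ x ∈ K, Conn S x y}

/-- A connection in `S` stays connected inside any set closed under steps in `S`. -/
theorem Conn.of_closed {S T : Set (ℤ × ℤ)} {x y : ℤ × ℤ} (h : Conn S x y) (hx : x ∈ T)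
    (hT : ∀ u v, u ∈ T → u ∈ S → v ∈ S → Adj u v → v ∈ T) : Conn (S ∩ T) x y := by
  refine Conn.ind (S := S) (fun z => Conn (S ∩ T) x z) (Conn.refl ⟨h.1, hx⟩) ?_ h
  intro u v hu huv hv ih
  exact ih.tail huv ⟨hv, hT u v ih.right_mem.2 hu.right_mem hv huv⟩

end Vale.Agent.P153.Topo
end

section

/-!
The crossing lemma in a parallelogram: a path from left to right meets every path from bottom
to top.
-/

namespace Vale.Agent.P153.Topo

open Vale.Agent.P153

/-- The step `u v` passes from column `z.1` to column `z.1 + 1` (or back) above `z`. -/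
def above (u v z : ℤ × ℤ) : ZMod 2 :=
  if (u.1 = z.1 ∧ v.1 = z.1 + 1 ∧ z.2 < u.2) ∨ (v.1 = z.1 ∧ u.1 = z.1 + 1 ∧ z.2 < v.2)
    then 1 else 0

/-- `1` on the part of column `i` strictly above height `j`. -/
def col (i j : ℤ) (x : ℤ × ℤ) : ZMod 2 := if x.1 = i ∧ j < x.2 then 1 else 0

/-- `1` on the columns up to `i`. -/
def lft (i : ℤ) (x : ℤ × ℤ) : ZMod 2 := if x.1 ≤ i then 1 else 0

theorem z2_add_self (a : ZMod 2) : a + a = 0 := by
  revert a; decide

theorem above_up {u v z : ℤ × ℤ} (hu : u ≠ (z.1, z.2 + 1)) (hv : v ≠ (z.1, z.2 + 1)) :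
    above u v z = above u v (z.1, z.2 + 1) := by
  obtain ⟨u1, u2⟩ := u
  obtain ⟨v1, v2⟩ := v
  obtain ⟨z1, z2⟩ := z
  simp only [ne_eq, Prod.mk.injEq] at hu hv
  simp only [above]
  congr 1
  apply propext
  (clear * - hu hv; omega)

theorem above_right {u v z : ℤ × ℤ} (huv : Adj u v) (hu : u ≠ z) (hv : v ≠ z)
    (hu' : u ≠ (z.1 + 1, z.2)) (hv' : v ≠ (z.1 + 1, z.2)) :
    above u v z + above u v (z.1 + 1, z.2) = col (z.1 + 1) z.2 u + col (z.1 + 1) z.2 v := by
  obtain ⟨u1, u2⟩ := u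
  obtain ⟨v1, v2⟩ := v
  obtain ⟨z1, z2⟩ := z
  rw [adj_iff] at huv
  simp only [ne_eq, Prod.mk.injEq] at hu hv hu' hv' huv
  simp only [above, col]
  rcases huv with h | h | h | h | h | h <;> obtain ⟨rfl, rfl⟩ := h <;>
    split_ifs <;> first | rfl | (exfalso; omega)

theorem above_diag {u v z : ℤ × ℤ} (huv : Adj u v) (hu : u ≠ z) (hv : v ≠ z)
    (hu' : u ≠ (z.1 + 1, z.2 - 1)) (hv' : v ≠ (z.1 + 1, z.2 - 1)) :
    above u v z + above u v (z.1 + 1, z.2 - 1) =
      col (z.1 + 1) (z.2 - 1) u + col (z.1 + 1) (z.2 - 1) v := by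
  obtain ⟨u1, u2⟩ := u
  obtain ⟨v1, v2⟩ := v
  obtain ⟨z1, z2⟩ := z
  rw [adj_iff] at huv
  simp only [ne_eq, Prod.mk.injEq] at hu hv hu' hv' huv
  simp only [above, col]
  rcases huv with h | h | h | h | h | h <;> obtain ⟨rfl, rfl⟩ := h <;>
    split_ifs <;> first | rfl | (exfalso; omega)

theorem above_low {u v z : ℤ × ℤ} (huv : Adj u v)
    (hu : u.1 = z.1 → z.2 < u.2) (hv : v.1 = z.1 → z.2 < v.2) :
    above u v z = lft z.1 u + lft z.1 v := by
  obtain ⟨u1, u2⟩ := u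
  obtain ⟨v1, v2⟩ := v
  obtain ⟨z1, z2⟩ := z
  rw [adj_iff] at huv
  simp only at hu hv huv
  simp only [above, lft]
  rcases huv with h | h | h | h | h | h <;> obtain ⟨rfl, rfl⟩ := h <;>
    split_ifs <;> first | rfl | (exfalso; omega)

/-- **Parity of a path.** For a path in `A` from `x` to `u` there is a function (the parity of
the number of steps of the path above a vertex) which is constant along steps off `A`, up to
explicit contributions of the two end points. -/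
theorem exists_parity {A : Set (ℤ × ℤ)} {x u : ℤ × ℤ} (h : Conn A x u) :
    ∃ U : ℤ × ℤ → ZMod 2,
      (∀ z, (z.1, z.2 + 1) ∉ A → U z = U (z.1, z.2 + 1)) ∧
      (∀ z, z ∉ A → (z.1 + 1, z.2) ∉ A →
        U z + U (z.1 + 1, z.2) = col (z.1 + 1) z.2 x + col (z.1 + 1) z.2 u) ∧
      (∀ z, z ∉ A → (z.1 + 1, z.2 - 1) ∉ A →
        U z + U (z.1 + 1, z.2 - 1) = col (z.1 + 1) (z.2 - 1) x + col (z.1 + 1) (z.2 - 1) u) ∧
      (∀ z, (∀ w ∈ A, w.1 = z.1 → w.2 ≤ z.2) → U z = 0) ∧
      (∀ z, (∀ w ∈ A, w.1 = z.1 → z.2 < w.2) → U z = lft z.1 x + lft z.1 u) := by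
  refine Conn.ind (S := A) (fun u => ∃ U : ℤ × ℤ → ZMod 2,
      (∀ z, (z.1, z.2 + 1) ∉ A → U z = U (z.1, z.2 + 1)) ∧
      (∀ z, z ∉ A → (z.1 + 1, z.2) ∉ A →
        U z + U (z.1 + 1, z.2) = col (z.1 + 1) z.2 x + col (z.1 + 1) z.2 u) ∧
      (∀ z, z ∉ A → (z.1 + 1, z.2 - 1) ∉ A →
        U z + U (z.1 + 1, z.2 - 1) = col (z.1 + 1) (z.2 - 1) x + col (z.1 + 1) (z.2 - 1) u) ∧
      (∀ z, (∀ w ∈ A, w.1 = z.1 → w.2 ≤ z.2) → U z = 0) ∧
      (∀ z, (∀ w ∈ A, w.1 = z.1 → z.2 < w.2) → U z = lft z.1 x + lft z.1 u)) ?_ ?_ h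
  · refine ⟨fun _ => 0, fun z _ => rfl, fun z _ _ => ?_, fun z _ _ => ?_, fun z _ => rfl,
      fun z _ => ?_⟩ <;> simp [z2_add_self]
  · rintro u v hu huv hv ⟨U, h1, h2, h3, h4, h5⟩
    have huA := hu.right_mem
    refine ⟨fun z => U z + above u v z, ?_, ?_, ?_, ?_, ?_⟩
    · intro z hz
      dsimp only
      rw [h1 z hz, above_up (z := z) (fun h => hz (h ▸ huA)) (fun h => hz (h ▸ hv))]
    · intro z hz hz'
      have e1 := h2 z hz hz'
      have e2 := above_right (z := z) huv (fun h => hz (h ▸ huA)) (fun h => hz (h ▸ hv))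
        (fun h => hz' (h ▸ huA)) (fun h => hz' (h ▸ hv))
      have e3 := z2_add_self (col (z.1 + 1) z.2 u)
      dsimp only
      linear_combination e1 + e2 + e3
    · intro z hz hz'
      have e1 := h3 z hz hz'
      have e2 := above_diag (z := z) huv (fun h => hz (h ▸ huA)) (fun h => hz (h ▸ hv))
        (fun h => hz' (h ▸ huA)) (fun h => hz' (h ▸ hv))
      have e3 := z2_add_self (col (z.1 + 1) (z.2 - 1) u)
      dsimp only
      linear_combination e1 + e2 + e3
    · intro z hz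
      dsimp only
      rw [h4 z hz, zero_add, above, if_neg]
      have := hz u huA
      have := hz v hv
      omega
    · intro z hz
      have e1 := h5 z hz
      have e2 := above_low (z := z) huv (hz u huA) (hz v hv)
      have e3 := z2_add_self (lft z.1 u)
      dsimp only
      linear_combination e1 + e2 + e3

/-- **Crossing lemma.** In the parallelogram `[a, b] × [c, d]` a path of `A` from the left side
to the right side and a path of `B` from the bottom to the top have a common vertex. -/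
theorem cross {A B : Set (ℤ × ℤ)} {a b c d : ℤ}
    (hA : ∀ z ∈ A, a ≤ z.1 ∧ z.1 ≤ b ∧ c ≤ z.2 ∧ z.2 ≤ d)
    (hB : ∀ z ∈ B, a ≤ z.1 ∧ z.1 ≤ b ∧ c ≤ z.2 ∧ z.2 ≤ d)
    {x x' y y' : ℤ × ℤ} (hx : Conn A x x') (hxa : x.1 = a) (hxb : x'.1 = b)
    (hy : Conn B y y') (hyc : y.2 = c) (hyd : y'.2 = d) : ∃ z, z ∈ A ∧ z ∈ B := by
  by_contra hno
  push Not at hno
  set A' : Set (ℤ × ℤ) := insert (b + 1, x'.2) A with hA'
  have hBA : ∀ z ∈ B, z ∉ A' := by
    intro z hz hz'
    rcases hz' with rfl | hz'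
    · have := (hB _ hz).2.1
      simp only [add_le_iff_nonpos_right, Int.reduceLE] at this
    · exact hno z hz' hz
  have hconn : Conn A' x (b + 1, x'.2) := by
    refine (hx.mono (Set.subset_insert _ _)).tail ?_ (Set.mem_insert _ _)
    rw [adj_iff]
    left
    exact ⟨by rw [hxb], rfl⟩
  obtain ⟨U, h1, h2, h3, h4, h5⟩ := exists_parity hconn
  have key : ∀ z, Conn B y z → U z = 1 := by
    intro z hz
    refine Conn.ind (S := B) (fun z => U z = 1) ?_ ?_ hz
    · have hyB := hy.left_mem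
      have hyr := hB y hyB
      rw [h5 y]
      · simp only [lft]
        rw [if_pos (by omega), if_neg (by omega)]
        decide
      · intro w hw hwy
        rcases hw with rfl | hw
        · exfalso
          have : b + 1 = y.1 := hwy
          omega
        · have hwr := hA w hw
          rcases lt_or_eq_of_le hwr.2.2.1 with h | h
          · omega
          · exfalso
            exact hno w hw (by
              have : w = y := Prod.ext hwy (by omega)
              rw [this]; exact hyB)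
    · intro u v hu huv hv ih
      have huB := hu.right_mem
      have hur := hB u huB
      have hvr := hB v hv
      have huA := hBA u huB
      have hvA := hBA v hv
      obtain ⟨u1, u2⟩ := u
      obtain ⟨v1, v2⟩ := v
      rw [adj_iff] at huv
      dsimp only at huv hur hvr
      have fin2 : ∀ s t : ZMod 2, s + t = 0 → s = 1 → t = 1 := by (clear * -; decide)
      have fin2' : ∀ s t : ZMod 2, s + t = 0 → t = 1 → s = 1 := by decide
      have hx1 : x.1 = a := hxa
      rcases huv with h | h | h | h | h | h <;> obtain ⟨rfl, rfl⟩ := h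
      · refine fin2 _ _ ?_ ih
        rw [h2 (u1, v2) huA hvA]
        simp only [col]
        rw [if_neg (by omega), if_neg (by omega)]
        rfl
      · have e : (u1 - 1 + 1, v2) = (u1, v2) := by simp
        refine fin2' _ _ ?_ ih
        have := h2 (u1 - 1, v2) hvA (by rw [e]; exact huA)
        dsimp only at this
        rw [e] at this
        rw [this]
        simp only [col]
        rw [if_neg (by omega), if_neg (by omega)]
        rfl
      · rw [← h1 (v1, u2) hvA]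
        exact ih
      · have e : (v1, u2 - 1 + 1) = (v1, u2) := by simp
        have := h1 (v1, u2 - 1) (by dsimp only; rw [e]; exact huA)
        dsimp only at this
        rw [this, e]
        exact ih
      · refine fin2 _ _ ?_ ih
        rw [h3 (u1, u2) huA hvA]
        simp only [col]
        rw [if_neg (by omega), if_neg (by omega)]
        rfl
      · have e : (u1 - 1 + 1, u2 + 1 - 1) = (u1, u2) := by simp
        refine fin2' _ _ ?_ ih
        have := h3 (u1 - 1, u2 + 1) hvA (by dsimp only; rw [e]; exact huA)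
        dsimp only at this
        rw [e] at this
        rw [this]
        simp only [col]
        rw [if_neg (by omega), if_neg (by omega)]
        rfl
  have hy1 := key y' hy
  have hy'r := hB y' hy.right_mem
  rw [h4 y'] at hy1
  · exact zero_ne_one hy1
  · intro w hw hwy
    rcases hw with rfl | hw
    · exfalso
      have : b + 1 = y'.1 := hwy
      omega
    · have := hA w hw
      omega

end Vale.Agent.P153.Topo
end

section

/-!
# P145, block F-B: crossing events of a random subset of the square lattice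

Nearest-neighbour connections inside an arbitrary set `S` of points of `ℤ × ℤ`. All boxes have even
coordinates, `rc a b c d = [2a, 2b] × [2c, 2d]` (the fine lattice codes the bond configuration: a
point with two even coordinates is a vertex, a point with one odd coordinate is an edge).
-/

namespace Vale.Agent.P145.FB

open Relation

/-- Nearest neighbours of the square lattice. -/
def NN (u v : ℤ × ℤ) : Prop :=
  (v.2 = u.2 ∧ (v.1 = u.1 + 1 ∨ v.1 = u.1 - 1)) ∨ (v.1 = u.1 ∧ (v.2 = u.2 + 1 ∨ v.2 = u.2 - 1))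

/-- `x` and `y` are joined by a nearest-neighbour path inside `S`. -/
def NC (S : Set (ℤ × ℤ)) (x y : ℤ × ℤ) : Prop :=
  x ∈ S ∧ ReflTransGen (fun u v => NN u v ∧ v ∈ S) x y

/-- The rectangle `[2a, 2b] × [2c, 2d]`. -/
def rc (a b c d : ℤ) : Set (ℤ × ℤ) :=
  {z | 2 * a ≤ z.1 ∧ z.1 ≤ 2 * b ∧ 2 * c ≤ z.2 ∧ z.2 ≤ 2 * d}

/-- `S` crosses the rectangle `rc a b c d` from left to right. -/
def LRc (a b c d : ℤ) (S : Set (ℤ × ℤ)) : Prop :=
  ∃ x y, NC (S ∩ rc a b c d) x y ∧ x.1 = 2 * a ∧ y.1 = 2 * b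

/-- `S` crosses the rectangle `rc a b c d` from bottom to top. -/
def BTc (a b c d : ℤ) (S : Set (ℤ × ℤ)) : Prop :=
  ∃ x y, NC (S ∩ rc a b c d) x y ∧ x.2 = 2 * c ∧ y.2 = 2 * d

/-- A path of `S` in the rectangle from its left side to the segment `{2b} × [2u, 2v]` of its
right side. -/
def Hc (a b c d u v : ℤ) (S : Set (ℤ × ℤ)) : Prop :=
  ∃ x y, NC (S ∩ rc a b c d) x y ∧ x.1 = 2 * a ∧ y.1 = 2 * b ∧ 2 * u ≤ y.2 ∧ y.2 ≤ 2 * v

/-- A path of `S` in the rectangle from its right side to the segment `{2a} × [2u, 2v]` of its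
left side. -/
def Hm (a b c d u v : ℤ) (S : Set (ℤ × ℤ)) : Prop :=
  ∃ x y, NC (S ∩ rc a b c d) x y ∧ x.1 = 2 * b ∧ y.1 = 2 * a ∧ 2 * u ≤ y.2 ∧ y.2 ≤ 2 * v

/-- The box with centre `(p, q)` and half side `n` is crossed from bottom to top, and there are paths
from its left (right) side to the upper and to the lower part `{|y - q| ≥ h}` of its right (left)
side. -/
def XX (p q n h : ℤ) (S : Set (ℤ × ℤ)) : Prop :=
  Hc (p - n) (p + n) (q - n) (q + n) (q + h) (q + n) S ∧
  Hc (p - n) (p + n) (q - n) (q + n) (q - n) (q - h) S ∧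
  Hm (p - n) (p + n) (q - n) (q + n) (q + h) (q + n) S ∧
  Hm (p - n) (p + n) (q - n) (q + n) (q - n) (q - h) S ∧
  BTc (p - n) (p + n) (q - n) (q + n) S

/-- The four rectangles around the box with centre `(p, q)` and half side `t`, inside the box with
half side `2t`, are crossed in the long direction. -/
def Ann (p q t : ℤ) (S : Set (ℤ × ℤ)) : Prop :=
  LRc (p - 2 * t) (p + 2 * t) (q + t) (q + 2 * t) S ∧
  LRc (p - 2 * t) (p + 2 * t) (q - 2 * t) (q - t) S ∧
  BTc (p - 2 * t) (p - t) (q - 2 * t) (q + 2 * t) S ∧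
  BTc (p + t) (p + 2 * t) (q - 2 * t) (q + 2 * t) S

/-- The event whose probability is small by anti-concentration: circuits around the boxes
`B_s(0)`, `B_{2R}(0)` and `B_R(3R, 0)`, and a path from distance `4R` to `{0} × [0, s]`. -/
def Arm (s R : ℤ) (S : Set (ℤ × ℤ)) : Prop :=
  Ann 0 0 s S ∧ Ann 0 0 (2 * R) S ∧ Ann (3 * R) 0 R S ∧
    Hc (-(4 * R)) 0 (-(2 * R)) (2 * R) 0 s S

/-- The deterministic facts about crossing paths (proved in `FB/Geo.lean`). -/
structure Geo : Prop where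
  /-- Two left-right crossings joined by a bottom-top crossing of the common part. -/
  chain : ∀ (a a' b b' c d : ℤ) (S : Set (ℤ × ℤ)), a ≤ a' → a' ≤ b → b ≤ b' → c ≤ d →
    LRc a b c d S → BTc a' b c d S → LRc a' b' c d S → LRc a b' c d S
  /-- A crossing of a longer and thinner rectangle crosses a shorter and wider one. -/
  mono : ∀ (a a' b b' c c' d d' : ℤ) (S : Set (ℤ × ℤ)), a ≤ a' → a' ≤ b' → b' ≤ b → c' ≤ c →
    d ≤ d' → LRc a b c d S → LRc a' b' c' d' S
  /-- Two paths landing in `{±m} × [-al, al]` are joined by the cross `XX` of the box `B_m`. -/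
  f1 : ∀ (n m v al : ℤ) (S : Set (ℤ × ℤ)), 0 ≤ al → 0 < m → m ≤ n → m + v ≤ n → 0 ≤ v →
    Hc (m - 2 * n) m (-v - n) (-v + n) (-al) al S →
    Hm (-m) (2 * n - m) (-v - n) (-v + n) (-al) al S → XX 0 0 m al S →
    LRc (m - 2 * n) (2 * n - m) (-v - n) (-v + n) S
  /-- Zig-zag. -/
  zig : ∀ (n h : ℤ) (S : Set (ℤ × ℤ)), 0 < n → 0 ≤ h → h ≤ n → XX 0 0 n h S →
    XX 0 (-(2 * h)) n h S → BTc (-n) n (-n - 2 * h) n S
  /-- Two paths landing in `{0} × [0, s]` are joined by the annulus event. -/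
  f2 : ∀ (s t : ℤ) (S : Set (ℤ × ℤ)), 0 < s → 2 * s ≤ t → Hc (-(2 * t)) 0 (-t) t 0 s S →
    Hm 0 (2 * t) (-t) t 0 s S → Ann 0 0 s S → LRc (-(2 * t)) (2 * t) (-t) t S
  /-- Two paths landing in `{0} × [0, 1]` are joined by the edge between `(0, 0)` and `(0, 1)`. -/
  f2' : ∀ (t : ℤ) (S : Set (ℤ × ℤ)), 1 ≤ t → Hc (-(2 * t)) 0 (-t) t 0 1 S →
    Hm 0 (2 * t) (-t) t 0 1 S → (0, 0) ∈ S → (0, 1) ∈ S → (0, 2) ∈ S →
    LRc (-(2 * t)) (2 * t) (-t) t S

end Vale.Agent.P145.FB
end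

section

/-!
# P145, block F-B: increasing local events, symmetries
-/

namespace Vale.Agent.P145.FB

open Relation

/-- Increasing events. -/
def Inc (Q : Set (ℤ × ℤ) → Prop) : Prop := ∀ S T : Set (ℤ × ℤ), S ⊆ T → Q S → Q T

/-- Events which depend on the points of a bounded box only. -/
def Loc (Q : Set (ℤ × ℤ) → Prop) : Prop :=
  ∃ N : ℤ, ∀ S T : Set (ℤ × ℤ),
    (∀ z : ℤ × ℤ, |z.1| ≤ N → |z.2| ≤ N → (z ∈ S ↔ z ∈ T)) → Q S → Q T

/-- Increasing local events. -/
def IL (Q : Set (ℤ × ℤ) → Prop) : Prop := Inc Q ∧ Loc Q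

theorem IL.and {Q R : Set (ℤ × ℤ) → Prop} (hQ : IL Q) (hR : IL R) :
    IL (fun S => Q S ∧ R S) := by
  refine ⟨fun S T h hS => ⟨hQ.1 S T h hS.1, hR.1 S T h hS.2⟩, ?_⟩
  obtain ⟨N, hN⟩ := hQ.2
  obtain ⟨M, hM⟩ := hR.2
  refine ⟨max N M, fun S T h hS => ⟨hN S T (fun z h1 h2 => h z ?_ ?_) hS.1,
    hM S T (fun z h1 h2 => h z ?_ ?_) hS.2⟩⟩
  · exact h1.trans (le_max_left _ _)
  · exact h2.trans (le_max_left _ _)
  · exact h1.trans (le_max_right _ _)
  · exact h2.trans (le_max_right _ _)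

/-- The data of the abstract theorem: `p Q` is the probability of the event `Q` for a random
subset of the fine lattice. -/
structure PP where
  /-- probability of an event -/
  p : (Set (ℤ × ℤ) → Prop) → ℝ
  nonneg : ∀ Q, 0 ≤ p Q
  le_one : ∀ Q, p Q ≤ 1
  mono : ∀ Q R : Set (ℤ × ℤ) → Prop, (∀ S, Q S → R S) → p Q ≤ p R
  or_le : ∀ Q R : Set (ℤ × ℤ) → Prop, p (fun S => Q S ∨ R S) ≤ p Q + p R
  fkg : ∀ Q R : Set (ℤ × ℤ) → Prop, IL Q → IL R → p Q * p R ≤ p (fun S => Q S ∧ R S)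
  shift : ∀ (a b : ℤ) (Q : Set (ℤ × ℤ) → Prop), IL Q →
    p (fun S => Q {z | (z.1 + 2 * a, z.2 + 2 * b) ∈ S}) = p Q
  reflx : ∀ Q : Set (ℤ × ℤ) → Prop, IL Q → p (fun S => Q {z | (-z.1, z.2) ∈ S}) = p Q
  refly : ∀ Q : Set (ℤ × ℤ) → Prop, IL Q → p (fun S => Q {z | (z.1, -z.2) ∈ S}) = p Q
  swap : ∀ Q : Set (ℤ × ℤ) → Prop, IL Q → p (fun S => Q {z | (z.2, z.1) ∈ S}) = p Q

theorem NC.mono_ {S T : Set (ℤ × ℤ)} {x y : ℤ × ℤ} (h : NC S x y) (hST : S ⊆ T) : NC T x y := by
  refine ⟨hST h.1, ?_⟩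
  have h2 := h.2
  induction h2 with
  | refl => exact ReflTransGen.refl
  | tail h1 h2 ih => exact (ih ⟨h.1, h1⟩).tail ⟨h2.1, hST h2.2⟩

theorem NC.map_ {S S' : Set (ℤ × ℤ)} {x y : ℤ × ℤ} {T : ℤ × ℤ → ℤ × ℤ}
    (hT : ∀ u v, NN u v → NN (T u) (T v)) (hS : ∀ z ∈ S, T z ∈ S') (h : NC S x y) :
    NC S' (T x) (T y) := by
  refine ⟨hS _ h.1, ?_⟩
  have h2 := h.2
  induction h2 with
  | refl => exact ReflTransGen.refl
  | tail h1 h2 ih => exact (ih ⟨h.1, h1⟩).tail ⟨hT _ _ h2.1, hS _ h2.2⟩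

/-- Transport of a connection event by a symmetry of the lattice. -/
theorem ex_iff {T T' : ℤ × ℤ → ℤ × ℤ} (h1 : ∀ z, T (T' z) = z)
    (hT : ∀ u v, NN u v → NN (T u) (T v)) (hT' : ∀ u v, NN u v → NN (T' u) (T' v))
    {R R' : Set (ℤ × ℤ)} (hR : ∀ z, z ∈ R ↔ T z ∈ R')
    {P P' : ℤ × ℤ → ℤ × ℤ → Prop} (hP : ∀ x y, P x y ↔ P' (T x) (T y)) (S : Set (ℤ × ℤ)) :
    (∃ x y, NC ({z | T z ∈ S} ∩ R) x y ∧ P x y) ↔ ∃ x y, NC (S ∩ R') x y ∧ P' x y := by
  constructor
  · rintro ⟨x, y, h, hp⟩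
    exact ⟨T x, T y, h.map_ hT (fun z hz => ⟨hz.1, (hR z).1 hz.2⟩), (hP x y).1 hp⟩
  · rintro ⟨x, y, h, hp⟩
    refine ⟨T' x, T' y, h.map_ hT' (fun z hz => ⟨?_, ?_⟩), (hP _ _).2 (by rw [h1, h1]; exact hp)⟩
    · show T (T' z) ∈ S
      rw [h1]; exact hz.1
    · rw [hR, h1]; exact hz.2

/-- A connection event in a bounded region is increasing and local. -/
theorem IL_ex {R : Set (ℤ × ℤ)} (N : ℤ) (hR : ∀ z ∈ R, |z.1| ≤ N ∧ |z.2| ≤ N)
    (P : ℤ × ℤ → ℤ × ℤ → Prop) : IL (fun S => ∃ x y, NC (S ∩ R) x y ∧ P x y) := by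
  constructor
  · rintro S T hST ⟨x, y, h, hp⟩
    exact ⟨x, y, h.mono_ (Set.inter_subset_inter_left _ hST), hp⟩
  · refine ⟨N, ?_⟩
    rintro S T hST ⟨x, y, h, hp⟩
    refine ⟨x, y, h.mono_ ?_, hp⟩
    rintro z ⟨hz, hzR⟩
    exact ⟨(hST z (hR z hzR).1 (hR z hzR).2).1 hz, hzR⟩

theorem rc_bdd (a b c d : ℤ) : ∀ z ∈ rc a b c d,
    |z.1| ≤ 2 * (|a| + |b| + |c| + |d|) ∧ |z.2| ≤ 2 * (|a| + |b| + |c| + |d|) := by
  rintro ⟨x, y⟩ ⟨h1, h2, h3, h4⟩
  dsimp only at h1 h2 h3 h4 ⊢
  have := abs_nonneg a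
  have := abs_nonneg b
  have := abs_nonneg c
  have := abs_nonneg d
  have := le_abs_self a
  have := le_abs_self b
  have := le_abs_self c
  have := le_abs_self d
  have := neg_abs_le a
  have := neg_abs_le b
  have := neg_abs_le c
  have := neg_abs_le d
  constructor <;> rw [abs_le] <;> constructor <;> linarith

theorem IL_LRc (a b c d : ℤ) : IL (LRc a b c d) :=
  IL_ex _ (rc_bdd a b c d) (fun x y => x.1 = 2 * a ∧ y.1 = 2 * b)

theorem IL_BTc (a b c d : ℤ) : IL (BTc a b c d) :=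
  IL_ex _ (rc_bdd a b c d) (fun x y => x.2 = 2 * c ∧ y.2 = 2 * d)

theorem IL_Hc (a b c d u v : ℤ) : IL (Hc a b c d u v) :=
  IL_ex _ (rc_bdd a b c d) (fun x y => x.1 = 2 * a ∧ y.1 = 2 * b ∧ 2 * u ≤ y.2 ∧ y.2 ≤ 2 * v)

theorem IL_Hm (a b c d u v : ℤ) : IL (Hm a b c d u v) :=
  IL_ex _ (rc_bdd a b c d) (fun x y => x.1 = 2 * b ∧ y.1 = 2 * a ∧ 2 * u ≤ y.2 ∧ y.2 ≤ 2 * v)

theorem IL_XX (p q n h : ℤ) : IL (XX p q n h) :=
  (IL_Hc _ _ _ _ _ _).and ((IL_Hc _ _ _ _ _ _).and ((IL_Hm _ _ _ _ _ _).and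
    ((IL_Hm _ _ _ _ _ _).and (IL_BTc _ _ _ _))))

theorem IL_Ann (p q t : ℤ) : IL (Ann p q t) :=
  (IL_LRc _ _ _ _).and ((IL_LRc _ _ _ _).and ((IL_BTc _ _ _ _).and (IL_BTc _ _ _ _)))

section sym

theorem nn_shift (p q : ℤ) (u v : ℤ × ℤ) (h : NN u v) :
    NN (u.1 + 2 * p, u.2 + 2 * q) (v.1 + 2 * p, v.2 + 2 * q) := by
  unfold NN at *; dsimp only; (clear * - h; omega)

theorem nn_reflx (u v : ℤ × ℤ) (h : NN u v) : NN (-u.1, u.2) (-v.1, v.2) := by
  unfold NN at *; dsimp only; (clear * - h; omega)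

theorem nn_refly (u v : ℤ × ℤ) (h : NN u v) : NN (u.1, -u.2) (v.1, -v.2) := by
  unfold NN at *; dsimp only; omega

theorem nn_swap (u v : ℤ × ℤ) (h : NN u v) : NN (u.2, u.1) (v.2, v.1) := by
  unfold NN at *; dsimp only; omega

variable (S : Set (ℤ × ℤ))

theorem LRc_shift (a b c d p q : ℤ) :
    LRc a b c d {z | (z.1 + 2 * p, z.2 + 2 * q) ∈ S} ↔ LRc (a + p) (b + p) (c + q) (d + q) S := by
  refine ex_iff (T := fun z => (z.1 + 2 * p, z.2 + 2 * q))
    (T' := fun z => (z.1 + 2 * (-p), z.2 + 2 * (-q))) ?_ (nn_shift p q) (nn_shift (-p) (-q)) ?_ ?_ S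
  · rintro ⟨x, y⟩; ext <;> dsimp only <;> ring
  · rintro ⟨x, y⟩; simp only [rc, Set.mem_ofPred_eq]; constructor <;> intro h <;> omega
  · rintro ⟨x, y⟩ ⟨x', y'⟩; dsimp only; omega

theorem BTc_shift (a b c d p q : ℤ) :
    BTc a b c d {z | (z.1 + 2 * p, z.2 + 2 * q) ∈ S} ↔ BTc (a + p) (b + p) (c + q) (d + q) S := by
  refine ex_iff (T := fun z => (z.1 + 2 * p, z.2 + 2 * q))
    (T' := fun z => (z.1 + 2 * (-p), z.2 + 2 * (-q))) ?_ (nn_shift p q) (nn_shift (-p) (-q)) ?_ ?_ S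
  · rintro ⟨x, y⟩; ext <;> dsimp only <;> ring
  · rintro ⟨x, y⟩; simp only [rc, Set.mem_ofPred_eq]; constructor <;> intro h <;> omega
  · rintro ⟨x, y⟩ ⟨x', y'⟩; dsimp only; omega

theorem Hc_shift (a b c d u v p q : ℤ) :
    Hc a b c d u v {z | (z.1 + 2 * p, z.2 + 2 * q) ∈ S} ↔
      Hc (a + p) (b + p) (c + q) (d + q) (u + q) (v + q) S := by
  refine ex_iff (T := fun z => (z.1 + 2 * p, z.2 + 2 * q))
    (T' := fun z => (z.1 + 2 * (-p), z.2 + 2 * (-q))) ?_ (nn_shift p q) (nn_shift (-p) (-q)) ?_ ?_ S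
  · rintro ⟨x, y⟩; ext <;> dsimp only <;> ring
  · rintro ⟨x, y⟩; simp only [rc, Set.mem_ofPred_eq]; constructor <;> intro h <;> omega
  · rintro ⟨x, y⟩ ⟨x', y'⟩; dsimp only; omega

theorem Hm_shift (a b c d u v p q : ℤ) :
    Hm a b c d u v {z | (z.1 + 2 * p, z.2 + 2 * q) ∈ S} ↔
      Hm (a + p) (b + p) (c + q) (d + q) (u + q) (v + q) S := by
  refine ex_iff (T := fun z => (z.1 + 2 * p, z.2 + 2 * q))
    (T' := fun z => (z.1 + 2 * (-p), z.2 + 2 * (-q))) ?_ (nn_shift p q) (nn_shift (-p) (-q)) ?_ ?_ S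
  · rintro ⟨x, y⟩; ext <;> dsimp only <;> ring
  · rintro ⟨x, y⟩; simp only [rc, Set.mem_ofPred_eq]; constructor <;> intro h <;> omega
  · rintro ⟨x, y⟩ ⟨x', y'⟩; dsimp only; omega

theorem Hc_reflx (a b c d u v : ℤ) :
    Hc a b c d u v {z | (-z.1, z.2) ∈ S} ↔ Hm (-b) (-a) c d u v S := by
  refine ex_iff (T := fun z => (-z.1, z.2)) (T' := fun z => (-z.1, z.2)) ?_ nn_reflx nn_reflx ?_ ?_ S
  · rintro ⟨x, y⟩; ext <;> dsimp only <;> ring
  · rintro ⟨x, y⟩; simp only [rc, Set.mem_ofPred_eq]; constructor <;> intro h <;> omega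
  · rintro ⟨x, y⟩ ⟨x', y'⟩; dsimp only; omega

theorem Hc_refly (a b c d u v : ℤ) :
    Hc a b c d u v {z | (z.1, -z.2) ∈ S} ↔ Hc a b (-d) (-c) (-v) (-u) S := by
  refine ex_iff (T := fun z => (z.1, -z.2)) (T' := fun z => (z.1, -z.2)) ?_ nn_refly nn_refly ?_ ?_ S
  · rintro ⟨x, y⟩; ext <;> dsimp only <;> ring
  · rintro ⟨x, y⟩; simp only [rc, Set.mem_ofPred_eq]; constructor <;> intro h <;> omega
  · rintro ⟨x, y⟩ ⟨x', y'⟩; dsimp only; omega

theorem LRc_swap (a b c d : ℤ) : LRc a b c d {z | (z.2, z.1) ∈ S} ↔ BTc c d a b S := by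
  refine ex_iff (T := fun z => (z.2, z.1)) (T' := fun z => (z.2, z.1)) ?_ nn_swap nn_swap ?_ ?_ S
  · rintro ⟨x, y⟩; rfl
  · rintro ⟨x, y⟩; simp only [rc, Set.mem_ofPred_eq]; constructor <;> intro h <;> omega
  · rintro ⟨x, y⟩ ⟨x', y'⟩; dsimp only; omega

end sym

namespace PP

variable (P : PP)

theorem p_LRc_shift (a b c d p q : ℤ) :
    P.p (LRc (a + p) (b + p) (c + q) (d + q)) = P.p (LRc a b c d) := by
  rw [← P.shift p q _ (IL_LRc a b c d)]
  congr 1
  funext S
  exact propext (LRc_shift S a b c d p q).symm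

theorem p_BTc_shift (a b c d p q : ℤ) :
    P.p (BTc (a + p) (b + p) (c + q) (d + q)) = P.p (BTc a b c d) := by
  rw [← P.shift p q _ (IL_BTc a b c d)]
  congr 1
  funext S
  exact propext (BTc_shift S a b c d p q).symm

theorem p_Hc_shift (a b c d u v p q : ℤ) :
    P.p (Hc (a + p) (b + p) (c + q) (d + q) (u + q) (v + q)) = P.p (Hc a b c d u v) := by
  rw [← P.shift p q _ (IL_Hc a b c d u v)]
  congr 1
  funext S
  exact propext (Hc_shift S a b c d u v p q).symm

theorem p_Hm (a b c d u v : ℤ) :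
    P.p (Hm (-b) (-a) c d u v) = P.p (Hc a b c d u v) := by
  rw [← P.reflx _ (IL_Hc a b c d u v)]
  congr 1
  funext S
  exact propext (Hc_reflx S a b c d u v).symm

theorem p_Hc_refly (a b c d u v : ℤ) :
    P.p (Hc a b (-d) (-c) (-v) (-u)) = P.p (Hc a b c d u v) := by
  rw [← P.refly _ (IL_Hc a b c d u v)]
  congr 1
  funext S
  exact propext (Hc_refly S a b c d u v).symm

theorem p_BTc (a b c d : ℤ) : P.p (BTc c d a b) = P.p (LRc a b c d) := by
  rw [← P.swap _ (IL_LRc a b c d)]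
  congr 1
  funext S
  exact propext (LRc_swap S a b c d).symm

end PP

end Vale.Agent.P145.FB
end

section

/-!
# P145, block F-B: box crossings of a positively associated symmetric percolation

Tassion's argument; the independence used there is replaced by the hypothesis that the event `Arm`
has small probability.
-/

namespace Vale.Agent.P145.FB

open Relation

namespace PP

variable (P : PP)

/-! ### Elementary consequences of the FKG inequality -/

theorem fkg2 {Q R T : Set (ℤ × ℤ) → Prop} (hQ : IL Q) (hR : IL R)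
    (h : ∀ S, Q S → R S → T S) {a b : ℝ} (ha : 0 ≤ a) (hb : 0 ≤ b) (hQa : a ≤ P.p Q)
    (hRb : b ≤ P.p R) : a * b ≤ P.p T :=
  calc a * b ≤ P.p Q * P.p R := mul_le_mul hQa hRb hb (ha.trans hQa)
    _ ≤ P.p (fun S => Q S ∧ R S) := P.fkg Q R hQ hR
    _ ≤ P.p T := P.mono _ _ (fun _ hS => h _ hS.1 hS.2)

theorem fkg3 {Q R U T : Set (ℤ × ℤ) → Prop} (hQ : IL Q) (hR : IL R) (hU : IL U)
    (h : ∀ S, Q S → R S → U S → T S) {a b c : ℝ} (ha : 0 ≤ a) (hb : 0 ≤ b) (hc : 0 ≤ c)
    (hQa : a ≤ P.p Q) (hRb : b ≤ P.p R) (hUc : c ≤ P.p U) : a * b * c ≤ P.p T :=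
  P.fkg2 (hQ.and hR) hU (fun S h1 h2 => h S h1.1 h1.2 h2) (mul_nonneg ha hb) hc
    (P.fkg2 hQ hR (fun S h1 h2 => ⟨h1, h2⟩) ha hb hQa hRb) hUc

/-- The probability of a left-right crossing of a rectangle with sides `w`, `h`. -/
noncomputable def L (w h : ℤ) : ℝ := P.p (LRc 0 w 0 h)

theorem L_eq (a c w h : ℤ) : P.p (LRc a (a + w) c (c + h)) = P.L w h := by
  have := P.p_LRc_shift 0 w 0 h a c
  rw [L, ← this]
  congr 2 <;> ring

theorem L_eq' (a b c d : ℤ) : P.p (LRc a b c d) = P.L (b - a) (d - c) := by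
  rw [← P.L_eq a c]; congr 2 <;> ring

theorem B_eq' (a b c d : ℤ) : P.p (BTc a b c d) = P.L (d - c) (b - a) := by
  rw [P.p_BTc c d a b, P.L_eq']

theorem L_nonneg (w h : ℤ) : 0 ≤ P.L w h := P.nonneg _

theorem L_mono (G : Geo) {w w' h h' : ℤ} (hw : 0 ≤ w') (hww : w' ≤ w) (hhh : h ≤ h') :
    P.L w h ≤ P.L w' h' :=
  P.mono _ _ (fun S hS => G.mono 0 0 w w' 0 0 h h' S le_rfl hw hww le_rfl hhh hS)

/-- Two crossings of rectangles joined by the crossing of a square. -/
theorem L_chain (G : Geo) {c0 : ℝ} (h0 : 0 ≤ c0) {w w' h : ℤ} (hh : 0 ≤ h) (hsq : c0 ≤ P.L h h)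
    (hw : h ≤ w) (hw' : h ≤ w') {a b : ℝ} (ha : 0 ≤ a) (hb : 0 ≤ b) (hwa : a ≤ P.L w h)
    (hwb : b ≤ P.L w' h) : a * c0 * b ≤ P.L (w + w' - h) h := by
  refine P.fkg3 (IL_LRc 0 w 0 h) (IL_BTc (w - h) w 0 h) (IL_LRc (w - h) (w + w' - h) 0 h)
    (fun S h1 h2 h3 => G.chain 0 (w - h) w (w + w' - h) 0 h S (by omega) (by omega) (by omega)
      hh h1 h2 h3) ha h0 hb ?_ ?_ ?_
  · rw [P.L_eq']; simpa only [sub_zero] using hwa
  · rw [P.B_eq']; simpa using hsq
  · rw [P.L_eq']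
    have e : w + w' - h - (w - h) = w' := by ring
    rw [e]; simpa using hwb

/-- Iterated chain: rectangles of height `h` and width `h + j * k`. -/
theorem L_iter (G : Geo) {c0 : ℝ} (h0 : 0 ≤ c0) {h k : ℤ} (hh : 0 ≤ h) (hk : 0 ≤ k)
    (hsq : c0 ≤ P.L h h) {a : ℝ} (ha : 0 ≤ a) (hka : a ≤ P.L (h + k) h) (j : ℕ) :
    a * (c0 * a) ^ j ≤ P.L (h + (j + 1 : ℕ) * k) h := by
  induction j with
  | zero => simpa only [pow_zero, mul_one, zero_add, Nat.cast_one, one_mul] using hka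
  | succ j ih =>
    have h1 : 0 ≤ a * (c0 * a) ^ j := mul_nonneg ha (pow_nonneg (mul_nonneg h0 ha) _)
    have h2 : 0 ≤ ((j + 1 : ℕ) : ℤ) * k := mul_nonneg (Int.natCast_nonneg _) hk
    have := P.L_chain G h0 hh hsq (w := h + (j + 1 : ℕ) * k) (w' := h + k) (by linarith only [h2])
      (by linarith only [hk]) h1 ha ih hka
    have e : h + ((j + 1 : ℕ) : ℤ) * k + (h + k) - h = h + ((j + 1 + 1 : ℕ) : ℤ) * k := by
      push_cast; ring
    rw [e] at this
    calc a * (c0 * a) ^ (j + 1) = a * (c0 * a) ^ j * c0 * a := by ring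
      _ ≤ _ := this

/-- The annulus event from long crossings. -/
theorem Ann_ge {t : ℤ} (p q : ℤ) {a : ℝ} (ha : 0 ≤ a) (h : a ≤ P.L (4 * t) t) :
    a ^ 4 ≤ P.p (Ann p q t) := by
  have e1 : a ≤ P.p (LRc (p - 2 * t) (p + 2 * t) (q + t) (q + 2 * t)) := by
    rw [P.L_eq']
    have e : p + 2 * t - (p - 2 * t) = 4 * t := by ring
    have e' : q + 2 * t - (q + t) = t := by ring
    rw [e, e']; exact h
  have e2 : a ≤ P.p (LRc (p - 2 * t) (p + 2 * t) (q - 2 * t) (q - t)) := by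
    rw [P.L_eq']
    have e : p + 2 * t - (p - 2 * t) = 4 * t := by ring
    have e' : q - t - (q - 2 * t) = t := by ring
    rw [e, e']; exact h
  have e3 : a ≤ P.p (BTc (p - 2 * t) (p - t) (q - 2 * t) (q + 2 * t)) := by
    rw [P.B_eq']
    have e : q + 2 * t - (q - 2 * t) = 4 * t := by ring
    have e' : p - t - (p - 2 * t) = t := by ring
    rw [e, e']; exact h
  have e4 : a ≤ P.p (BTc (p + t) (p + 2 * t) (q - 2 * t) (q + 2 * t)) := by
    rw [P.B_eq']
    have e : q + 2 * t - (q - 2 * t) = 4 * t := by ring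
    have e' : p + 2 * t - (p + t) = t := by ring
    rw [e, e']; exact h
  have h34 := P.fkg2 (T := fun S => BTc (p - 2 * t) (p - t) (q - 2 * t) (q + 2 * t) S ∧
      BTc (p + t) (p + 2 * t) (q - 2 * t) (q + 2 * t) S) (IL_BTc _ _ _ _) (IL_BTc _ _ _ _)
      (fun S x y => ⟨x, y⟩) ha ha e3 e4
  have := P.fkg3 (T := Ann p q t) (IL_LRc _ _ _ _) (IL_LRc _ _ _ _)
    ((IL_BTc _ _ _ _).and (IL_BTc _ _ _ _)) (fun S x y z => ⟨x, y, z.1, z.2⟩) ha ha
    (mul_nonneg ha ha) e1 e2 h34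
  calc a ^ 4 = a * a * (a * a) := by ring
    _ ≤ _ := this

/-! ### Landing probabilities -/

/-- The probability that the box `B_n` contains a path from its left side to `{n} × [a, b]`. -/
noncomputable def H (n a b : ℤ) : ℝ := P.p (Hc (-n) n (-n) n a b)

theorem H_nonneg (n a b : ℤ) : 0 ≤ P.H n a b := P.nonneg _

theorem H_mono {n a a' b b' : ℤ} (ha : a' ≤ a) (hb : b ≤ b') : P.H n a b ≤ P.H n a' b' :=
  P.mono _ _ (fun S ⟨x, y, h, h1, h2, h3, h4⟩ => ⟨x, y, h, h1, h2, by omega, by (clear * - hb h4; omega)⟩)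

theorem H_refl (n a b : ℤ) : P.H n (-b) (-a) = P.H n a b := by
  have := P.p_Hc_refly (-n) n (-n) n a b
  rw [H, H, ← this]
  congr 2; ring

theorem H_union (n a b c : ℤ) : P.H n a c ≤ P.H n a b + P.H n b c := by
  refine le_trans (P.mono _ _ ?_) (P.or_le _ _)
  rintro S ⟨x, y, h, h1, h2, h3, h4⟩
  rcases le_total y.2 (2 * b) with h5 | h5
  · exact Or.inl ⟨x, y, h, h1, h2, h3, h5⟩
  · exact Or.inr ⟨x, y, h, h1, h2, h5, h4⟩

theorem H_full (n : ℤ) : P.L (2 * n) (2 * n) ≤ P.H n (-n) n := by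
  have e : P.L (2 * n) (2 * n) = P.p (LRc (-n) n (-n) n) := by
    rw [P.L_eq']; congr 1 <;> ring
  rw [e]
  refine P.mono _ _ ?_
  rintro S ⟨x, y, h, h1, h2⟩
  have hy : y ∈ S ∩ rc (-n) n (-n) n := by
    obtain ⟨hx, h⟩ := h
    induction h with
    | refl => exact hx
    | tail _ h _ => exact h.2
  exact ⟨x, y, h, h1, h2, by have := hy.2.2.2.1; omega, by have := hy.2.2.2.2; omega⟩

/-- Half of the crossings land in the upper half of the right side. -/
theorem H_half {c0 : ℝ} (n : ℤ) (hsq : c0 ≤ P.L (2 * n) (2 * n)) : c0 / 2 ≤ P.H n 0 n := by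
  have h1 := P.H_union n (-n) 0 n
  have h2 := P.H_refl n 0 n
  rw [neg_zero] at h2
  have h3 := P.H_full n
  linarith

open Classical in
/-- The threshold `α_n`. -/
noncomputable def al (c0 : ℝ) (n : ℕ) : ℕ :=
  Nat.findGreatest (fun a : ℕ => P.H n 0 a - P.H n a n ≤ c0 / 4) (n / 2)

theorem al_le (c0 : ℝ) (n : ℕ) : P.al c0 n ≤ n / 2 := Nat.findGreatest_le _

/-- (P1) -/
theorem H_ge {c0 : ℝ} (h0 : 0 ≤ c0) {n : ℕ} (hsq : c0 ≤ P.L (2 * n) (2 * n)) {a : ℤ}
    (ha : a ≤ P.al c0 n) : c0 / 8 ≤ P.H n a n := by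
  classical
  have h1 : P.H n 0 (P.al c0 n) - P.H n (P.al c0 n) n ≤ c0 / 4 := by
    have := Nat.findGreatest_spec (P := fun a : ℕ => P.H n 0 a - P.H n a n ≤ c0 / 4) (m := 0)
      (n := n / 2) (Nat.zero_le _) (by
        have : P.H n 0 ((0 : ℕ) : ℤ) ≤ P.H n ((0 : ℕ) : ℤ) n := P.H_mono (by simp) (by simp only [CharP.cast_eq_zero, Nat.cast_nonneg])
        show P.H n 0 ((0 : ℕ) : ℤ) - P.H n ((0 : ℕ) : ℤ) n ≤ c0 / 4
        exact (sub_nonpos.2 this).trans (by linarith only [h0]))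
    exact this
  have h2 := P.H_half n hsq
  have h3 := P.H_union n 0 (P.al c0 n) n
  have h4 : P.H n (P.al c0 n) n ≤ P.H n a n := P.H_mono ha le_rfl
  linarith only [h1, h2, h3, h4]

/-- (P2) -/
theorem H_gt {c0 : ℝ} {n : ℕ} (hn : P.al c0 n < n / 2) {a : ℤ} (ha : (P.al c0 n : ℤ) < a) :
    c0 / 4 + P.H n a n ≤ P.H n 0 a := by
  classical
  have h1 : ¬ (P.H n 0 (P.al c0 n + 1 : ℕ) - P.H n (P.al c0 n + 1 : ℕ) n ≤ c0 / 4) :=
    Nat.findGreatest_is_greatest (P := fun a : ℕ => P.H n 0 a - P.H n a n ≤ c0 / 4)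
      (n := n / 2) (Nat.lt_succ_self (P.al c0 n)) hn
  have h2 : P.H n 0 (P.al c0 n + 1 : ℕ) ≤ P.H n 0 a := P.H_mono le_rfl (by push_cast; omega)
  have h3 : P.H n a n ≤ P.H n (P.al c0 n + 1 : ℕ) n := P.H_mono (by push_cast; omega) le_rfl
  linarith only [h1, h2, h3]

/-- The probability of the cross event. -/
theorem XX_ge {c0 : ℝ} (h0 : 0 ≤ c0) {n : ℕ} (hsq : c0 ≤ P.L (2 * n) (2 * n)) (p q : ℤ) {a : ℤ}
    (ha : a ≤ P.al c0 n) : (c0 / 8) ^ 4 * c0 ≤ P.p (XX p q n a) := by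
  have key := P.H_ge h0 hsq ha
  have h8 : 0 ≤ c0 / 8 := by linarith only [h0]
  have e1 : c0 / 8 ≤ P.p (Hc (p - n) (p + n) (q - n) (q + n) (q + a) (q + n)) := by
    have := P.p_Hc_shift (-n) n (-n) n a n p q
    have e : P.p (Hc (p - n) (p + n) (q - n) (q + n) (q + a) (q + n)) = P.H n a n := by
      rw [H, ← this]; congr 2 <;> ring
    rw [e]; exact key
  have e2 : c0 / 8 ≤ P.p (Hc (p - n) (p + n) (q - n) (q + n) (q - n) (q - a)) := by
    have := P.p_Hc_shift (-n) n (-n) n (-n) (-a) p q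
    have e : P.p (Hc (p - n) (p + n) (q - n) (q + n) (q - n) (q - a)) = P.H n (-n) (-a) := by
      rw [H, ← this]; congr 2 <;> ring
    rw [e, P.H_refl]; exact key
  have e3 : c0 / 8 ≤ P.p (Hm (p - n) (p + n) (q - n) (q + n) (q + a) (q + n)) := by
    have := P.p_Hm (-p - n) (-p + n) (q - n) (q + n) (q + a) (q + n)
    have h' := P.p_Hc_shift (-n) n (-n) n a n (-p) q
    have e : P.p (Hm (p - n) (p + n) (q - n) (q + n) (q + a) (q + n)) = P.H n a n := by
      have e5 : -(-p + (n : ℤ)) = p - n := by ring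
      have e6 : -(-p - (n : ℤ)) = p + n := by ring
      rw [e5, e6] at this
      rw [this, H, ← h']; congr 2 <;> ring
    rw [e]; exact key
  have e4 : c0 / 8 ≤ P.p (Hm (p - n) (p + n) (q - n) (q + n) (q - n) (q - a)) := by
    have := P.p_Hm (-p - n) (-p + n) (q - n) (q + n) (q - n) (q - a)
    have h' := P.p_Hc_shift (-n) n (-n) n (-n) (-a) (-p) q
    have e : P.p (Hm (p - n) (p + n) (q - n) (q + n) (q - n) (q - a)) = P.H n (-n) (-a) := by
      have e5 : -(-p + (n : ℤ)) = p - n := by ring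
      have e6 : -(-p - (n : ℤ)) = p + n := by ring
      rw [e5, e6] at this
      rw [this, H, ← h']; congr 2 <;> ring
    rw [e, P.H_refl]; exact key
  have e5 : c0 ≤ P.p (BTc (p - n) (p + n) (q - n) (q + n)) := by
    rw [P.B_eq']
    have e : q + (n : ℤ) - (q - n) = 2 * n := by ring
    have e' : p + (n : ℤ) - (p - n) = 2 * n := by ring
    rw [e, e']; exact hsq
  have h12 := P.fkg2 (T := fun S => Hc (p - n) (p + n) (q - n) (q + n) (q + a) (q + n) S ∧
      Hc (p - n) (p + n) (q - n) (q + n) (q - n) (q - a) S) (IL_Hc _ _ _ _ _ _)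
      (IL_Hc _ _ _ _ _ _) (fun S x y => ⟨x, y⟩) h8 h8 e1 e2
  have h34 := P.fkg2 (T := fun S => Hm (p - n) (p + n) (q - n) (q + n) (q + a) (q + n) S ∧
      Hm (p - n) (p + n) (q - n) (q + n) (q - n) (q - a) S) (IL_Hm _ _ _ _ _ _)
      (IL_Hm _ _ _ _ _ _) (fun S x y => ⟨x, y⟩) h8 h8 e3 e4
  have := P.fkg3 (T := XX p q n a) ((IL_Hc _ _ _ _ _ _).and (IL_Hc _ _ _ _ _ _))
    ((IL_Hm _ _ _ _ _ _).and (IL_Hm _ _ _ _ _ _)) (IL_BTc _ _ _ _)
    (fun S x y z => ⟨x.1, x.2, y.1, y.2, z⟩) (mul_nonneg h8 h8) (mul_nonneg h8 h8) h0 h12 h34 e5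
  calc (c0 / 8) ^ 4 * c0 = c0 / 8 * (c0 / 8) * (c0 / 8 * (c0 / 8)) * c0 := by ring
    _ ≤ _ := this

end PP

end Vale.Agent.P145.FB
end

section

/-!
# P145, block F-B: Tassion's argument, the scale induction
-/

namespace Vale.Agent.P145.FB

open Relation

namespace PP

variable (P : PP)

/-- The bound for the cross event. -/
noncomputable def cX (c0 : ℝ) : ℝ := (c0 / 8) ^ 4 * c0

/-- The bound for the crossings at a good scale. -/
noncomputable def c1 (c0 : ℝ) : ℝ := (c0 / 4) ^ 2 * cX c0 * cX c0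

theorem cX_nonneg {c0 : ℝ} (h0 : 0 ≤ c0) : 0 ≤ cX c0 := by unfold cX; (clear * - h0; positivity)

theorem cX_pos {c0 : ℝ} (h0 : 0 < c0) : 0 < cX c0 := by unfold cX; positivity

theorem c1_pos {c0 : ℝ} (h0 : 0 < c0) : 0 < c1 c0 := by
  have := cX_pos h0
  unfold c1; positivity

theorem cX_le {c0 : ℝ} (h0 : 0 ≤ c0) (h1 : c0 ≤ 1) : cX c0 ≤ 1 := by
  unfold cX
  have h2 : (c0 / 8) ^ 4 ≤ 1 := pow_le_one₀ (by positivity) (by linarith only [h1])
  calc (c0 / 8) ^ 4 * c0 ≤ 1 * 1 := mul_le_mul h2 h1 h0 zero_le_one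
    _ = 1 := one_mul 1

/-- Good scales. -/
def Good (c0 : ℝ) (n : ℕ) : Prop := c1 c0 ≤ P.L (2 * n + 2 * (n / 3 : ℕ)) (2 * n)

/-- Squares of side at least `N` are crossed with probability at least `c0`. -/
def Sq (c0 : ℝ) (N : ℕ) : Prop := ∀ n : ℤ, (N : ℤ) ≤ n → c0 ≤ P.L n n

variable {P} {c0 : ℝ} {N : ℕ}

/-- First case of a good scale. -/
theorem good1 (G : Geo) (h0 : 0 < c0) (hc : c0 ≤ 1) (hsq : P.Sq c0 N) {n : ℕ} (hn : N ≤ n)
    (hn1 : 1 ≤ n) (ha : P.al c0 n < n / 2) (hb : P.al c0 n + 1 ≤ 2 * P.al c0 (n - n / 3)) :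
    P.Good c0 n := by
  obtain ⟨m, hm⟩ : ∃ m : ℕ, m = n - n / 3 := ⟨_, rfl⟩
  rw [← hm] at hb
  obtain ⟨v, hv⟩ : ∃ v : ℕ, v = (P.al c0 n + 1) / 2 := ⟨_, rfl⟩
  have hsm : c0 ≤ P.L (2 * m) (2 * m) := hsq _ (by (clear * - hn hm; omega))
  have e1 : c0 / 4 ≤ P.p (Hc ((m : ℤ) - 2 * n) m (-(v : ℤ) - n) (-(v : ℤ) + n) (-(P.al c0 m : ℤ))
      (P.al c0 m)) := by
    have h1 := P.H_gt ha (a := (P.al c0 n : ℤ) + 1) (by omega)
    have h2 := P.H_nonneg n ((P.al c0 n : ℤ) + 1) n
    have h3 := P.p_Hc_shift (-n) n (-n) n 0 ((P.al c0 n : ℤ) + 1) ((m : ℤ) - n) (-(v : ℤ))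
    have h4 : c0 / 4 ≤ P.H n 0 ((P.al c0 n : ℤ) + 1) := by linarith only [h1, h2]
    rw [H, ← h3] at h4
    refine h4.trans (P.mono _ _ ?_)
    rintro S ⟨x, y, h, hx, hy, h5, h6⟩
    refine ⟨x, y, h.mono_ ?_, by rw [hx]; ring, by rw [hy]; ring, by omega, by (clear * - hb hv h6; omega)⟩
    refine Set.inter_subset_inter_right _ ?_
    rintro ⟨z1, z2⟩ ⟨g1, g2, g3, g4⟩
    exact ⟨by dsimp only at *; (clear * - hm g1; omega), by dsimp only at *; omega, by dsimp only at *; omega,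
      by dsimp only at *; (clear * - hv g4; omega)⟩
  have e2 : c0 / 4 ≤ P.p (Hm (-(m : ℤ)) (2 * n - m) (-(v : ℤ) - n) (-(v : ℤ) + n)
      (-(P.al c0 m : ℤ)) (P.al c0 m)) := by
    have h3 := P.p_Hm ((m : ℤ) - 2 * n) m (-(v : ℤ) - n) (-(v : ℤ) + n) (-(P.al c0 m : ℤ))
      (P.al c0 m)
    rw [← h3] at e1
    have e : -((m : ℤ) - 2 * n) = 2 * n - m := by ring
    rw [e] at e1
    exact e1
  have e3 : cX c0 ≤ P.p (XX 0 0 m (P.al c0 m)) := P.XX_ge h0.le hsm 0 0 le_rfl
  have key := P.fkg3 (T := LRc ((m : ℤ) - 2 * n) (2 * n - m) (-(v : ℤ) - n) (-(v : ℤ) + n))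
    (IL_Hc _ _ _ _ _ _) (IL_Hm _ _ _ _ _ _) (IL_XX _ _ _ _)
    (fun S h1 h2 h3 => G.f1 n m v (P.al c0 m) S (by (clear * -; omega)) (by (clear * - hn hn1 hm; omega)) (by omega) (by (clear * - hn hn1 ha hm hv; omega))
      (by (clear * - hv; omega)) h1 h2 h3) (by positivity) (by positivity) (cX_nonneg h0.le) e1 e2 e3
  rw [P.L_eq'] at key
  have e5 : (2 * n - m : ℤ) - ((m : ℤ) - 2 * n) = 2 * n + 2 * (n / 3 : ℕ) := by (clear * - hn hm; omega)
  have e6 : (-(v : ℤ) + n) - (-(v : ℤ) - n) = 2 * n := by ring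
  rw [e5, e6] at key
  refine le_trans ?_ key
  unfold c1
  have := cX_le h0.le hc
  have h7 : 0 ≤ (c0 / 4) ^ 2 * cX c0 := mul_nonneg (by positivity) (cX_nonneg h0.le)
  calc (c0 / 4) ^ 2 * cX c0 * cX c0 ≤ (c0 / 4) ^ 2 * cX c0 * 1 :=
        mul_le_mul_of_nonneg_left this h7
    _ = c0 / 4 * (c0 / 4) * cX c0 := by ring

/-- Second case of a good scale. -/
theorem good2 (G : Geo) (h0 : 0 < c0) (hc : c0 ≤ 1) (hsq : P.Sq c0 N) {n : ℕ} (hn : N ≤ n)
    (hn1 : 1 ≤ n) (ha : P.al c0 n = n / 2) : P.Good c0 n := by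
  obtain ⟨h, hh⟩ : ∃ h : ℕ, h = n / 2 := ⟨_, rfl⟩
  have hsn : c0 ≤ P.L (2 * n) (2 * n) := hsq _ (by omega)
  have e1 : cX c0 ≤ P.p (XX 0 0 n h) := P.XX_ge h0.le hsn 0 0 (by omega)
  have e2 : cX c0 ≤ P.p (XX 0 (-(2 * h)) n h) := P.XX_ge h0.le hsn 0 _ (by omega)
  have key := P.fkg2 (T := BTc (-(n : ℤ)) n (-n - 2 * h) n) (IL_XX _ _ _ _) (IL_XX _ _ _ _)
    (fun S h1 h2 => G.zig n h S (by omega) (by omega) (by omega) h1 h2) (cX_nonneg h0.le)
    (cX_nonneg h0.le) e1 e2
  rw [P.B_eq'] at key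
  have e3 : (n : ℤ) - (-(n : ℤ)) = 2 * n := by ring
  have e4 : (n : ℤ) - (-(n : ℤ) - 2 * h) = 2 * n + 2 * h := by ring
  rw [e3, e4] at key
  have key2 := key.trans (P.L_mono G (w' := 2 * n + 2 * (n / 3 : ℕ)) (h' := 2 * n) (by (clear * - hn1; positivity))
    (by (clear * - hn hh; omega)) le_rfl)
  refine le_trans ?_ key2
  unfold c1
  have h7 : (c0 / 4) ^ 2 ≤ 1 := pow_le_one₀ (by positivity) (by linarith only [hc])
  have h8 := cX_nonneg h0.le
  calc (c0 / 4) ^ 2 * cX c0 * cX c0 = (c0 / 4) ^ 2 * (cX c0 * cX c0) := by ring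
    _ ≤ 1 * (cX c0 * cX c0) := mul_le_mul_of_nonneg_right h7 (mul_nonneg h8 h8)
    _ = cX c0 * cX c0 := one_mul _

theorem not_good (G : Geo) (h0 : 0 < c0) (hc : c0 ≤ 1) (hsq : P.Sq c0 N) {n : ℕ} (hn : N ≤ n)
    (hn1 : 1 ≤ n) (hg : ¬ P.Good c0 n) :
    P.al c0 n < n / 2 ∧ 2 * P.al c0 (n - n / 3) ≤ P.al c0 n := by
  have h1 : P.al c0 n < n / 2 := by
    rcases lt_or_eq_of_le (P.al_le c0 n) with h | h
    · exact h
    · exact absurd (good2 G h0 hc hsq hn hn1 h) hg
  refine ⟨h1, ?_⟩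
  by_contra h2
  exact hg (good1 G h0 hc hsq hn hn1 h1 (by (clear * - h2; omega)))

/-- Landing paths joined by an annulus. -/
theorem long_of_ann (G : Geo) (h0 : 0 < c0) {s t : ℕ} (hs : 0 < s) (hst : 2 * s ≤ t)
    (ha : P.al c0 t < s) {b : ℝ} (hb : 0 ≤ b) (hA : b ≤ P.p (Ann 0 0 s)) :
    (c0 / 4) * (c0 / 4) * b ≤ P.L (4 * t) (2 * t) := by
  have h1 := P.H_gt (c0 := c0) (n := t) (by omega) (a := (s : ℤ)) (by omega)
  have h2 := P.H_nonneg t (s : ℤ) t
  have h3 := P.p_Hc_shift (-t) t (-t) t 0 s (-(t : ℤ)) 0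
  have h4 : c0 / 4 ≤ P.p (Hc (-(2 * (t : ℤ))) 0 (-t) t 0 s) := by
    have : c0 / 4 ≤ P.H t 0 s := by linarith only [h1, h2]
    rw [H, ← h3] at this
    convert this using 3 <;> ring
  have h5 : c0 / 4 ≤ P.p (Hm 0 (2 * t) (-t) t 0 s) := by
    have := P.p_Hm (-(2 * (t : ℤ))) 0 (-t) t 0 s
    rw [neg_zero, neg_neg] at this
    rw [this]; exact h4
  have key := P.fkg3 (T := LRc (-(2 * (t : ℤ))) (2 * t) (-t) t) (IL_Hc _ _ _ _ _ _)
    (IL_Hm _ _ _ _ _ _) (IL_Ann _ _ _)
    (fun S h1 h2 h3 => G.f2 s t S (by omega) (by omega) h1 h2 h3) (by positivity) (by positivity)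
    hb h4 h5 hA
  rw [P.L_eq'] at key
  have e1 : 2 * (t : ℤ) - (-(2 * (t : ℤ))) = 4 * t := by ring
  have e2 : (t : ℤ) - (-(t : ℤ)) = 2 * t := by ring
  rwa [e1, e2] at key

theorem IL_edge : IL (fun S => (0, 0) ∈ S ∧ (0, 1) ∈ S ∧ (0, 2) ∈ S) := by
  constructor
  · rintro S T h ⟨h1, h2, h3⟩
    exact ⟨h h1, h h2, h h3⟩
  · refine ⟨2, ?_⟩
    rintro S T h ⟨h1, h2, h3⟩
    exact ⟨(h _ (by decide) (by decide)).1 h1, (h _ (by decide) (by decide)).1 h2,
      (h _ (by decide) (by decide)).1 h3⟩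

/-- Landing paths joined by an edge. -/
theorem long_of_edge (G : Geo) (h0 : 0 < c0) {t : ℕ} (ht : 2 ≤ t)
    (ha : P.al c0 t = 0) {b : ℝ} (hb : 0 ≤ b)
    (hA : b ≤ P.p (fun S => (0, 0) ∈ S ∧ (0, 1) ∈ S ∧ (0, 2) ∈ S)) :
    (c0 / 4) * (c0 / 4) * b ≤ P.L (4 * t) (2 * t) := by
  have h1 := P.H_gt (c0 := c0) (n := t) (by (clear * - ht ha; omega)) (a := 1) (by omega)
  have h2 := P.H_nonneg t 1 t
  have h3 := P.p_Hc_shift (-t) t (-t) t 0 1 (-(t : ℤ)) 0
  have h4 : c0 / 4 ≤ P.p (Hc (-(2 * (t : ℤ))) 0 (-t) t 0 1) := by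
    have : c0 / 4 ≤ P.H t 0 1 := by linarith only [h1, h2]
    rw [H, ← h3] at this
    convert this using 3 <;> ring
  have h5 : c0 / 4 ≤ P.p (Hm 0 (2 * t) (-t) t 0 1) := by
    have := P.p_Hm (-(2 * (t : ℤ))) 0 (-t) t 0 1
    rw [neg_zero, neg_neg] at this
    rw [this]; exact h4
  have key := P.fkg3 (T := LRc (-(2 * (t : ℤ))) (2 * t) (-t) t) (IL_Hc _ _ _ _ _ _)
    (IL_Hm _ _ _ _ _ _) IL_edge
    (fun S h1 h2 h3 => G.f2' t S (by omega) h1 h2 h3.1 h3.2.1 h3.2.2) (by positivity)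
    (by positivity) hb h4 h5 hA
  rw [P.L_eq'] at key
  have e1 : 2 * (t : ℤ) - (-(2 * (t : ℤ))) = 4 * t := by ring
  have e2 : (t : ℤ) - (-(t : ℤ)) = 2 * t := by ring
  rwa [e1, e2] at key

/-- From ratio 2 to ratio 4. -/
theorem ratio4 (G : Geo) (h0 : 0 < c0) (hsq : P.Sq c0 N) {t : ℕ} (ht : N ≤ t) {a : ℝ}
    (ha : 0 ≤ a) (h : a ≤ P.L (4 * t) (2 * t)) :
    a * c0 * a * c0 * a ≤ P.L (8 * t) (2 * t) := by
  have hs : c0 ≤ P.L (2 * t) (2 * t) := hsq _ (by (clear * - ht; omega))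
  have h1 := P.L_chain G h0.le (w := 4 * t) (w' := 4 * t) (h := 2 * t) (by omega) hs (by omega)
    (by omega) ha ha h h
  have h2 := P.L_chain G h0.le (w := 4 * t + 4 * t - 2 * t) (w' := 4 * t) (h := 2 * t) (by omega) hs
    (by omega) (by omega) (mul_nonneg (mul_nonneg ha h0.le) ha) ha h1 h
  have e : 4 * (t : ℤ) + 4 * t - 2 * t + 4 * t - 2 * t = 8 * t := by ring
  rwa [e] at h2

/-- A good scale gives an annulus event of positive probability. -/
theorem ann_of_good (G : Geo) (h0 : 0 < c0) (hsq : P.Sq c0 N) {n : ℕ} (hn : N ≤ n)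
    (hn8 : 8 ≤ n) (hg : P.Good c0 n) (j : ℕ) (w : ℤ) (hw : 0 ≤ w) (hwj : 4 * w ≤ 2 * (j + 1) * n) :
    c1 c0 * (c0 * c1 c0) ^ j ≤ P.L w (2 * n) := by
  have hs : c0 ≤ P.L (2 * n) (2 * n) := hsq _ (by omega)
  have h1 := P.L_iter G h0.le (h := 2 * n) (k := 2 * (n / 3 : ℕ)) (by omega) (by (clear * - hn; omega)) hs
    (c1_pos h0).le hg j
  refine h1.trans (P.L_mono G hw ?_ le_rfl)
  have h2 : (n : ℤ) ≤ 4 * (n / 3 : ℕ) := by (clear * - hn hn8; omega)
  have h3 : (n : ℤ) * (j + 1 : ℕ) ≤ 4 * (n / 3 : ℕ) * (j + 1 : ℕ) :=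
    mul_le_mul_of_nonneg_right h2 (by positivity)
  push_cast at h3 ⊢
  nlinarith only [hwj, h3]

end PP

end Vale.Agent.P145.FB
end

section

/-!
Interfaces on the triangular lattice: following the boundary between a set `S` and its complement.
A position on the interface is a pair `(r, b)` of adjacent vertices, `r ∈ S`, `b ∉ S`.
-/

namespace Vale.Agent.P153.Topo

open Vale.Agent.P153 Classical

/-- The common neighbour of `e.1` and `e.2` on the left of the edge from `e.1` to `e.2`. -/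
def lv (e : (ℤ × ℤ) × (ℤ × ℤ)) : ℤ × ℤ :=
  (e.1.1 - (e.2.2 - e.1.2), e.1.2 + (e.2.1 - e.1.1) + (e.2.2 - e.1.2))

/-- The common neighbour of `e.1` and `e.2` on the right of the edge from `e.1` to `e.2`. -/
def rv (e : (ℤ × ℤ) × (ℤ × ℤ)) : ℤ × ℤ :=
  (e.1.1 + (e.2.1 - e.1.1) + (e.2.2 - e.1.2), e.1.2 - (e.2.1 - e.1.1))

/-- The positions on the interface of `S`. -/
def Pos (S : Set (ℤ × ℤ)) : Set ((ℤ × ℤ) × (ℤ × ℤ)) := {e | Adj e.1 e.2 ∧ e.1 ∈ S ∧ e.2 ∉ S}

/-- The next position on the interface. -/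
noncomputable def nxt (S : Set (ℤ × ℤ)) (e : (ℤ × ℤ) × (ℤ × ℤ)) : (ℤ × ℤ) × (ℤ × ℤ) :=
  if lv e ∈ S then (lv e, e.2) else (e.1, lv e)

/-- The previous position on the interface. -/
noncomputable def prv (S : Set (ℤ × ℤ)) (e : (ℤ × ℤ) × (ℤ × ℤ)) : (ℤ × ℤ) × (ℤ × ℤ) :=
  if rv e ∈ S then (rv e, e.2) else (e.1, rv e)

theorem adj_lv_left {e : (ℤ × ℤ) × (ℤ × ℤ)} (h : Adj e.1 e.2) : Adj e.1 (lv e) := by
  rw [adj_iff] at h ⊢
  simp only [lv]
  omega

theorem adj_lv_right {e : (ℤ × ℤ) × (ℤ × ℤ)} (h : Adj e.1 e.2) : Adj (lv e) e.2 := by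
  rw [adj_iff] at h ⊢
  simp only [lv]
  omega

theorem adj_rv_left {e : (ℤ × ℤ) × (ℤ × ℤ)} (h : Adj e.1 e.2) : Adj e.1 (rv e) := by
  rw [adj_iff] at h ⊢
  simp only [rv]
  (clear * - h; omega)

theorem adj_rv_right {e : (ℤ × ℤ) × (ℤ × ℤ)} (h : Adj e.1 e.2) : Adj (rv e) e.2 := by
  rw [adj_iff] at h ⊢
  simp only [rv]
  omega

theorem rv_lv_left {e : (ℤ × ℤ) × (ℤ × ℤ)} : rv (lv e, e.2) = e.1 := by
  obtain ⟨⟨a, b⟩, ⟨c, d⟩⟩ := e
  simp only [rv, lv, Prod.mk.injEq]
  constructor <;> ring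

theorem rv_lv_right {e : (ℤ × ℤ) × (ℤ × ℤ)} : rv (e.1, lv e) = e.2 := by
  obtain ⟨⟨a, b⟩, ⟨c, d⟩⟩ := e
  simp only [rv, lv, Prod.mk.injEq]
  constructor <;> ring

theorem lv_rv_left {e : (ℤ × ℤ) × (ℤ × ℤ)} : lv (rv e, e.2) = e.1 := by
  obtain ⟨⟨a, b⟩, ⟨c, d⟩⟩ := e
  simp only [rv, lv, Prod.mk.injEq]
  constructor <;> ring

theorem lv_rv_right {e : (ℤ × ℤ) × (ℤ × ℤ)} : lv (e.1, rv e) = e.2 := by
  obtain ⟨⟨a, b⟩, ⟨c, d⟩⟩ := e
  simp only [rv, lv, Prod.mk.injEq]
  constructor <;> ring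

theorem nxt_mem {S : Set (ℤ × ℤ)} {e : (ℤ × ℤ) × (ℤ × ℤ)} (h : e ∈ Pos S) : nxt S e ∈ Pos S := by
  obtain ⟨h1, h2, h3⟩ := h
  unfold nxt
  split_ifs with hl
  · exact ⟨adj_lv_right h1, hl, h3⟩
  · exact ⟨adj_lv_left h1, h2, hl⟩

theorem prv_mem {S : Set (ℤ × ℤ)} {e : (ℤ × ℤ) × (ℤ × ℤ)} (h : e ∈ Pos S) : prv S e ∈ Pos S := by
  obtain ⟨h1, h2, h3⟩ := h
  unfold prv
  split_ifs with hl
  · exact ⟨adj_rv_right h1, hl, h3⟩
  · exact ⟨adj_rv_left h1, h2, hl⟩

theorem prv_nxt {S : Set (ℤ × ℤ)} {e : (ℤ × ℤ) × (ℤ × ℤ)} (h : e ∈ Pos S) :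
    prv S (nxt S e) = e := by
  obtain ⟨h1, h2, h3⟩ := h
  unfold nxt
  split_ifs with hl
  · unfold prv
    rw [rv_lv_left, if_pos h2]
  · unfold prv
    rw [rv_lv_right, if_neg h3]

theorem nxt_prv {S : Set (ℤ × ℤ)} {e : (ℤ × ℤ) × (ℤ × ℤ)} (h : e ∈ Pos S) :
    nxt S (prv S e) = e := by
  obtain ⟨h1, h2, h3⟩ := h
  unfold prv
  split_ifs with hl
  · unfold nxt
    rw [lv_rv_left, if_pos h2]
  · unfold nxt
    rw [lv_rv_right, if_neg h3]

/-- The position after `k` steps along the interface from `e`. -/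
noncomputable def pos (S : Set (ℤ × ℤ)) (e : (ℤ × ℤ) × (ℤ × ℤ)) (k : ℕ) : (ℤ × ℤ) × (ℤ × ℤ) :=
  (nxt S)^[k] e

theorem pos_zero (S : Set (ℤ × ℤ)) (e : (ℤ × ℤ) × (ℤ × ℤ)) : pos S e 0 = e := rfl

theorem pos_succ (S : Set (ℤ × ℤ)) (e : (ℤ × ℤ) × (ℤ × ℤ)) (k : ℕ) :
    pos S e (k + 1) = nxt S (pos S e k) := Function.iterate_succ_apply' _ _ _

theorem pos_mem {S : Set (ℤ × ℤ)} {e : (ℤ × ℤ) × (ℤ × ℤ)} (h : e ∈ Pos S) (k : ℕ) :
    pos S e k ∈ Pos S := by
  induction k with
  | zero => exact h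
  | succ k ih => rw [pos_succ]; exact nxt_mem ih

theorem pos_inj_step {S : Set (ℤ × ℤ)} {e : (ℤ × ℤ) × (ℤ × ℤ)} (h : e ∈ Pos S) (i j : ℕ)
    (hij : pos S e (i + 1) = pos S e (j + 1)) : pos S e i = pos S e j := by
  rw [pos_succ, pos_succ] at hij
  rw [← prv_nxt (pos_mem h i), hij, prv_nxt (pos_mem h j)]

theorem pos_return {S : Set (ℤ × ℤ)} {e : (ℤ × ℤ) × (ℤ × ℤ)} (h : e ∈ Pos S) (i j : ℕ)
    (hij : pos S e i = pos S e (i + j)) : pos S e 0 = pos S e j := by
  induction i with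
  | zero => simpa using hij
  | succ i ih =>
    apply ih
    apply pos_inj_step h
    rw [hij]
    congr 1
    omega

/-- **Exit lemma.** The interface which enters a finite set of positions has to leave it. -/
theorem exists_exit {S : Set (ℤ × ℤ)} {W : Set ((ℤ × ℤ) × (ℤ × ℤ))} (hW : W.Finite)
    {e : (ℤ × ℤ) × (ℤ × ℤ)} (h : e ∈ Pos S) (h0 : e ∈ W) (hp : prv S e ∉ W) :
    ∃ k, (∀ i ≤ k, pos S e i ∈ W) ∧ pos S e (k + 1) ∉ W := by
  have hex : ∃ n, pos S e n ∉ W := by
    by_contra hall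
    push Not at hall
    have hfin : Finite W := hW
    obtain ⟨i, j, hij, hE⟩ := Finite.exists_ne_map_eq_of_infinite
      (fun n : ℕ => (⟨pos S e n, hall n⟩ : W))
    simp only [Subtype.mk.injEq] at hE
    have main : ∀ i j : ℕ, i < j → pos S e i = pos S e j → False := by
      intro i j hij hE
      obtain ⟨m, rfl⟩ := Nat.exists_eq_add_of_lt hij
      have h1 := pos_return h i (m + 1) (by rw [hE]; rfl)
      rw [pos_zero, pos_succ] at h1
      apply hp
      have h2 : prv S e = pos S e m := by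
        have := prv_nxt (pos_mem h m)
        rw [← h1] at this
        exact this
      rw [h2]
      exact hall m
    rcases lt_or_gt_of_ne hij with h' | h'
    · exact main i j h' hE
    · exact main j i h' hE.symm
  have hn := Nat.find_spec hex
  have hpos : Nat.find hex ≠ 0 := by
    intro h1
    rw [h1] at hn
    exact hn h0
  obtain ⟨k, hk⟩ := Nat.exists_eq_succ_of_ne_zero hpos
  refine ⟨k, ?_, ?_⟩
  · intro i hi
    by_contra hcon
    have := Nat.find_min' hex hcon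
    omega
  · have := hn
    rw [hk] at this
    exact this

/-- The vertices of `S` met by the interface are connected. -/
theorem conn_fst {S T : Set (ℤ × ℤ)} {e : (ℤ × ℤ) × (ℤ × ℤ)} (h : e ∈ Pos S) (k : ℕ)
    (hT : ∀ i ≤ k, (pos S e i).1 ∈ T) : Conn (S ∩ T) e.1 (pos S e k).1 := by
  induction k with
  | zero => exact Conn.refl ⟨h.2.1, hT 0 le_rfl⟩
  | succ k ih =>
    have h1 := ih fun i hi => hT i (by omega)
    have h2 := hT (k + 1) le_rfl
    have h3 := pos_mem h k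
    rw [pos_succ] at h2 ⊢
    unfold nxt at h2 ⊢
    split_ifs at h2 ⊢ with hl
    · exact h1.tail (adj_lv_left h3.1) ⟨hl, h2⟩
    · exact h1

/-- The vertices off `S` met by the interface are connected. -/
theorem conn_snd {S T : Set (ℤ × ℤ)} {e : (ℤ × ℤ) × (ℤ × ℤ)} (h : e ∈ Pos S) (k : ℕ)
    (hT : ∀ i ≤ k, (pos S e i).2 ∈ T) : Conn (Sᶜ ∩ T) e.2 (pos S e k).2 := by
  induction k with
  | zero => exact Conn.refl ⟨h.2.2, hT 0 le_rfl⟩
  | succ k ih =>
    have h1 := ih fun i hi => hT i (by omega)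
    have h2 := hT (k + 1) le_rfl
    have h3 := pos_mem h k
    rw [pos_succ] at h2 ⊢
    unfold nxt at h2 ⊢
    split_ifs at h2 ⊢ with hl
    · exact h1
    · exact h1.tail (adj_symm (adj_lv_right h3.1)) ⟨hl, h2⟩

end Vale.Agent.P153.Topo
end

section

/-!
The Hex lemma in a parallelogram.
-/

namespace Vale.Agent.P153.Topo

open Vale.Agent.P153 Classical

/-- The last visit of a path outside `R`. -/
theorem Conn.last {T R : Set (ℤ × ℤ)} {x y : ℤ × ℤ} (h : Conn T x y) (hx : x ∉ R)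
    (hy : y ∈ R) : ∃ u v, Conn T x u ∧ u ∉ R ∧ Adj u v ∧ Conn (T ∩ R) v y := by
  revert hy
  refine Conn.ind (S := T) (fun y => y ∈ R →
    ∃ u v, Conn T x u ∧ u ∉ R ∧ Adj u v ∧ Conn (T ∩ R) v y) (fun hx' => absurd hx' hx) ?_ h
  intro y y' hy hyy' hy' ih hR
  by_cases hyR : y ∈ R
  · obtain ⟨u, v, h1, h2, h3, h4⟩ := ih hyR
    exact ⟨u, v, h1, h2, h3, h4.tail hyy' ⟨hy', hR⟩⟩
  · exact ⟨y, y', hy, hyR, hyy', Conn.refl ⟨hy', hR⟩⟩

/-- The parallelogram `[a, b] × [c, d]`. -/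
def Rect (a b c d : ℤ) : Set (ℤ × ℤ) := {z | a ≤ z.1 ∧ z.1 ≤ b ∧ c ≤ z.2 ∧ z.2 ≤ d}

theorem mem_rect {a b c d : ℤ} {z : ℤ × ℤ} :
    z ∈ Rect a b c d ↔ a ≤ z.1 ∧ z.1 ≤ b ∧ c ≤ z.2 ∧ z.2 ≤ d := Iff.rfl

theorem rect_finite (a b c d : ℤ) : (Rect a b c d).Finite := by
  have : Rect a b c d = (Finset.Icc a b ×ˢ Finset.Icc c d : Finset (ℤ × ℤ)) := by
    ext z
    simp only [mem_rect, Finset.coe_product, Finset.coe_Icc, Set.mem_prod, Set.mem_Icc]
    tauto
  rw [this]
  exact Finset.finite_toSet _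

/-- `S` joins the left side to the right side of the parallelogram. -/
def LR (a b c d : ℤ) (S : Set (ℤ × ℤ)) : Prop :=
  ∃ x y, Conn (S ∩ Rect a b c d) x y ∧ x.1 = a ∧ y.1 = b

/-- `S` joins the bottom to the top of the parallelogram. -/
def BT (a b c d : ℤ) (S : Set (ℤ × ℤ)) : Prop :=
  ∃ x y, Conn (S ∩ Rect a b c d) x y ∧ x.2 = c ∧ y.2 = d

/-- **Hex lemma**: in a parallelogram either `S` joins left to right or the complement of `S`
joins bottom to top. -/
theorem hex (S : Set (ℤ × ℤ)) {a b c d : ℤ} (hab : a ≤ b) (hcd : c ≤ d) :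
    LR a b c d S ∨ BT a b c d Sᶜ := by
  set S' : Set (ℤ × ℤ) := {z | z.1 < a ∨ (z ∈ S ∧ z ∈ Rect a b c d)} with hS'
  set X1 : Set (ℤ × ℤ) := Rect (a - 1) (b - 1) c d with hX1
  set X2 : Set (ℤ × ℤ) := Rect a b (c - 1) (d - 1) with hX2
  set W : Set ((ℤ × ℤ) × (ℤ × ℤ)) := X1 ×ˢ X2 with hW
  have hWf : W.Finite := (rect_finite _ _ _ _).prod (rect_finite _ _ _ _)
  set e : (ℤ × ℤ) × (ℤ × ℤ) := ((a - 1, c), (a, c - 1)) with he
  have hePos : e ∈ Pos S' := by
    refine ⟨?_, ?_, ?_⟩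
    · rw [adj_iff]
      simp only [he]
      right; right; right; right; left
      exact ⟨by ring, trivial⟩
    · left
      simp only [he]
      omega
    · rintro (h | ⟨-, h⟩)
      · simp only [he] at h
        omega
      · rw [mem_rect] at h
        simp only [he] at h
        omega
  have heW : e ∈ W := by
    simp only [hW, Set.mem_prod, hX1, hX2, mem_rect, he]
    omega
  have hprv : prv S' e ∉ W := by
    have h1 : rv e = (a - 1, c - 1) := by
      simp only [rv, he, Prod.mk.injEq]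
      constructor <;> ring
    have h2 : rv e ∈ S' := by
      rw [h1]
      left
      simp only
      omega
    unfold prv
    rw [if_pos h2, h1]
    simp only [hW, Set.mem_prod, hX1, mem_rect]
    omega
  obtain ⟨k, hk, hk'⟩ := exists_exit hWf hePos heW hprv
  have hkW := hk k le_rfl
  have hkP := pos_mem hePos k
  have hred := conn_fst (T := X1) hePos k fun i hi => (hk i hi).1
  have hblue := conn_snd (T := X2) hePos k fun i hi => (hk i hi).2
  rw [pos_succ] at hk'
  set p := pos S' e k with hp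
  obtain ⟨⟨r1, r2⟩, ⟨b1, b2⟩⟩ := p
  obtain ⟨hpA, hpr, hpb⟩ := hkP
  dsimp only at hpA hpr hpb hred hblue
  obtain ⟨hkr, hkb⟩ := hkW
  rw [hX1, mem_rect] at hkr
  rw [hX2, mem_rect] at hkb
  dsimp only at hkr hkb
  unfold nxt at hk'
  split_ifs at hk' with hL
  · -- red exit
    left
    have hL1 : lv ((r1, r2), (b1, b2)) ∈ Rect a b c d ∧ lv ((r1, r2), (b1, b2)) ∈ S ∧
        (lv ((r1, r2), (b1, b2))).1 = b := by
      have hnot : lv ((r1, r2), (b1, b2)) ∉ X1 := by
        intro h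
        exact hk' ⟨h, by rw [hX2, mem_rect]; exact hkb⟩
      rw [hX1, mem_rect] at hnot
      have hpA' := hpA
      rw [adj_iff] at hpA'
      rcases hL with hL | ⟨hL, hL'⟩
      · exfalso
        simp only [lv] at hnot hL
        dsimp only at hpA'
        omega
      · refine ⟨hL', hL, ?_⟩
        rw [mem_rect] at hL'
        simp only [lv] at hnot hL' ⊢
        omega
    obtain ⟨hLR, hLS, hLb⟩ := hL1
    have hc : Conn (S' ∩ (X1 ∪ {lv ((r1, r2), (b1, b2))})) e.1 (lv ((r1, r2), (b1, b2))) := by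
      refine (hred.mono ?_).tail (adj_lv_left (e := ((r1, r2), (b1, b2))) hpA) ?_
      · exact Set.inter_subset_inter_right _ Set.subset_union_left
      · exact ⟨Or.inr ⟨hLS, hLR⟩, Or.inr rfl⟩
    obtain ⟨u, v, h1, h2, h3, h4⟩ := Conn.last (R := Rect a b c d) hc (by
      rw [mem_rect]; simp only [he]; omega) hLR
    refine ⟨v, lv ((r1, r2), (b1, b2)), h4.mono ?_, ?_, hLb⟩
    · rintro z ⟨⟨hz, -⟩, hz'⟩
      rcases hz with hz | hz
      · rw [mem_rect] at hz'
        omega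
      · exact hz
    · have hu := h1.right_mem
      obtain ⟨hu1, hu2⟩ := hu
      have hv := h4.left_mem.2
      rw [mem_rect] at h2 hv
      rw [adj_iff] at h3
      rcases hu1 with hu1 | ⟨-, hu1⟩
      · (clear * - h3 hv hu1; omega)
      · exact absurd hu1 h2
  · -- blue exit
    right
    have hpA' := hpA
    rw [adj_iff] at hpA'
    have hL0 : ¬ ((lv ((r1, r2), (b1, b2))).1 < a) := fun h => hL (Or.inl h)
    have hnot : lv ((r1, r2), (b1, b2)) ∉ X2 := by
      intro h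
      exact hk' ⟨by rw [hX1, mem_rect]; exact hkr, h⟩
    have hLR : lv ((r1, r2), (b1, b2)) ∈ Rect a b c d ∧ (lv ((r1, r2), (b1, b2))).2 = d := by
      rw [hX2, mem_rect] at hnot
      rw [mem_rect]
      simp only [lv] at hnot hL0 ⊢
      dsimp only at hpA'
      omega
    obtain ⟨hLR, hLd⟩ := hLR
    have hc : Conn (S'ᶜ ∩ (X2 ∪ {lv ((r1, r2), (b1, b2))})) e.2 (lv ((r1, r2), (b1, b2))) := by
      refine (hblue.mono ?_).tail (adj_symm (adj_lv_right (e := ((r1, r2), (b1, b2))) hpA)) ?_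
      · exact Set.inter_subset_inter_right _ Set.subset_union_left
      · exact ⟨hL, Or.inr rfl⟩
    obtain ⟨u, v, h1, h2, h3, h4⟩ := Conn.last (R := Rect a b c d) hc (by
      rw [mem_rect]; simp only [he]; (clear * -; omega)) hLR
    refine ⟨v, lv ((r1, r2), (b1, b2)), h4.mono ?_, ?_, hLd⟩
    · rintro z ⟨⟨hz, -⟩, hz'⟩
      exact ⟨fun hzS => hz (Or.inr ⟨hzS, hz'⟩), hz'⟩
    · have hu := h1.right_mem
      obtain ⟨hu1, hu2⟩ := hu
      have hv := h4.left_mem.2
      have hu3 : ¬ (u.1 < a) := fun h => hu1 (Or.inl h)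
      rw [mem_rect] at h2 hv
      rw [adj_iff] at h3
      rcases hu2 with hu2 | hu2
      · rw [hX2, mem_rect] at hu2
        omega
      · rw [Set.mem_singleton_iff] at hu2
        rw [hu2] at h2
        rw [mem_rect] at hLR
        omega

/-- Hex lemma with the roles of the sides exchanged. -/
theorem hex' (S : Set (ℤ × ℤ)) {a b c d : ℤ} (hab : a ≤ b) (hcd : c ≤ d) :
    BT a b c d S ∨ LR a b c d Sᶜ := by
  rcases hex Sᶜ hab hcd with h | h
  · exact Or.inr h
  · left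
    rwa [compl_compl] at h

end Vale.Agent.P153.Topo
end

section

/-!
Uniform odd Lipschitz heights on Jordan polygonal domains made of lattice triangles.
A point `(i, j)` of `ℤ × ℤ` stands for the point `i + j * exp (I * pi / 3)` of the
triangular lattice.
-/

namespace Vale.Agent.P153

/-- The vertices of the upward triangle `((i, j), false)` and of the downward
triangle `((i, j), true)`. -/
def verts : (ℤ × ℤ) × Bool → Finset (ℤ × ℤ)
  | ((i, j), false) => {(i, j), (i + 1, j), (i, j + 1)}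
  | ((i, j), true) => {(i + 1, j), (i, j + 1), (i + 1, j + 1)}

/-- The three edges of a lattice triangle. -/
def edges : (ℤ × ℤ) × Bool → Finset (Sym2 (ℤ × ℤ))
  | ((i, j), false) =>
      {s((i, j), (i + 1, j)), s((i, j), (i, j + 1)), s((i + 1, j), (i, j + 1))}
  | ((i, j), true) =>
      {s((i + 1, j), (i, j + 1)), s((i + 1, j), (i + 1, j + 1)), s((i, j + 1), (i + 1, j + 1))}

theorem verts_false (i j : ℤ) :
    verts ((i, j), false) = {(i, j), (i + 1, j), (i, j + 1)} := by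
  simp only [verts]

theorem verts_true (i j : ℤ) :
    verts ((i, j), true) = {(i + 1, j), (i, j + 1), (i + 1, j + 1)} := by
  simp only [verts]

theorem edges_false (i j : ℤ) : edges ((i, j), false) =
    {s((i, j), (i + 1, j)), s((i, j), (i, j + 1)), s((i + 1, j), (i, j + 1))} := by
  simp only [edges]

theorem edges_true (i j : ℤ) : edges ((i, j), true) =
    {s((i + 1, j), (i, j + 1)), s((i + 1, j), (i + 1, j + 1)), s((i, j + 1), (i + 1, j + 1))} := by
  simp only [edges]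

/-- A marked Jordan polygonal domain made of lattice triangles: a finite set `T` of
triangles whose boundary edges (the edges lying in exactly one triangle of `T`) are exactly
the edges of a simple closed lattice polygon `c 0, c 1, ..., c n = c 0`. The marks split the
boundary vertices into the two arcs `c 0, ..., c (m - 1)` and `c m, ..., c (n - 1)`. -/
structure MarkedDomain where
  T : Finset ((ℤ × ℤ) × Bool)
  n : ℕ
  m : ℕ
  c : ℕ → ℤ × ℤ
  m_pos : 0 < m
  m_lt : m < n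
  closed : c n = c 0
  simple : ∀ k l, k < n → l < n → c k = c l → k = l
  boundary : ∀ e : Sym2 (ℤ × ℤ),
    (T.filter (fun t => e ∈ edges t)).card = 1 ↔ ∃ k < n, e = s(c k, c (k + 1))

namespace MarkedDomain

variable (D : MarkedDomain)

/-- All vertices of the domain. -/
def V : Finset (ℤ × ℤ) := D.T.biUnion verts

/-- Two points are joined by an edge of the domain. -/
def Adj (x y : ℤ × ℤ) : Prop := ∃ t ∈ D.T, s(x, y) ∈ edges t

/-- The height functions: odd integers on the vertices, `1` on the first arc, `-1` on the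
second arc, differing by at most `2` along edges, and extended by `0`. -/
def Heights : Set (ℤ × ℤ → ℤ) :=
  {h | (∀ x, x ∉ D.V → h x = 0) ∧ (∀ x ∈ D.V, Odd (h x)) ∧
    (∀ x y, D.Adj x y → |h x - h y| ≤ 2) ∧
    (∀ k, k < D.m → h (D.c k) = 1) ∧ (∀ k, D.m ≤ k → k < D.n → h (D.c k) = -1)}

/-- The edge `e` of the domain carries heights of opposite signs at its two ends, so that
the affine interpolation of `h` vanishes at its midpoint. -/
def Mixed (h : ℤ × ℤ → ℤ) (e : Sym2 (ℤ × ℤ)) : Prop :=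
  ∃ x y, e = s(x, y) ∧ D.Adj x y ∧ 0 < h x ∧ h y < 0

/-- The interface started at the marked boundary edge from `c (n - 1)` to `c 0`: all edges
crossed by the curve of zeros of the affine interpolation that starts there. Two mixed edges
follow each other on that curve when they lie in a common triangle. -/
def interface (h : ℤ × ℤ → ℤ) : Set (Sym2 (ℤ × ℤ)) :=
  {e | Relation.ReflTransGen
    (fun e e' => D.Mixed h e ∧ D.Mixed h e' ∧ ∃ t ∈ D.T, e ∈ edges t ∧ e' ∈ edges t)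
    s(D.c (D.n - 1), D.c 0) e}

/-- The vertices that can be joined to the first arc without crossing an edge of `g`. -/
def plusSide (g : Set (Sym2 (ℤ × ℤ))) : Set (ℤ × ℤ) :=
  {x | ∃ k < D.m, Relation.ReflTransGen (fun x y => D.Adj x y ∧ s(x, y) ∉ g) (D.c k) x}

/-- The vertices that can be joined to the second arc without crossing an edge of `g`. -/
def minusSide (g : Set (Sym2 (ℤ × ℤ))) : Set (ℤ × ℤ) :=
  {x | ∃ k, D.m ≤ k ∧ k < D.n ∧
    Relation.ReflTransGen (fun x y => D.Adj x y ∧ s(x, y) ∉ g) (D.c k) x}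

/-- The height functions of a side `U` of the interface `g` with constant boundary value
`v`: odd integers on `U`, `0` off `U`, differing by at most `2` along the edges of the domain
inside `U`, and equal to `v` at the boundary vertices of the domain lying in `U` and at the
ends in `U` of the edges crossed by the interface. -/
def sideHeights (g : Set (Sym2 (ℤ × ℤ))) (U : Set (ℤ × ℤ)) (v : ℤ) : Set (ℤ × ℤ → ℤ) :=
  {k | (∀ x, x ∉ U → k x = 0) ∧ (∀ x ∈ U, Odd (k x)) ∧
    (∀ x ∈ U, ∀ y ∈ U, D.Adj x y → |k x - k y| ≤ 2) ∧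
    (∀ i < D.n, D.c i ∈ U → k (D.c i) = v) ∧ (∀ x ∈ U, ∀ e ∈ g, x ∈ e → k x = v)}

end MarkedDomain

/-- The mean of `F` over the finite set `S` (uniform distribution on `S`). -/
noncomputable def mean (S : Set (ℤ × ℤ → ℤ)) (F : (ℤ × ℤ → ℤ) → ℝ) : ℝ :=
  (∑ᶠ h ∈ S, F h) / S.ncard

/-- The variance of `F` under the uniform distribution on the finite set `S`. -/
noncomputable def var (S : Set (ℤ × ℤ → ℤ)) (F : (ℤ × ℤ → ℤ) → ℝ) : ℝ :=
  mean S (fun h => (F h - mean S F) ^ 2)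

end Vale.Agent.P153
end

section

namespace Vale.Agent.P153

open Finset

/-- lattice steps -/
def Step (x y : ℤ × ℤ) : Prop :=
  (y.1 = x.1 + 1 ∧ y.2 = x.2) ∨ (y.1 = x.1 - 1 ∧ y.2 = x.2) ∨
  (y.1 = x.1 ∧ y.2 = x.2 + 1) ∨ (y.1 = x.1 ∧ y.2 = x.2 - 1) ∨
  (y.1 = x.1 + 1 ∧ y.2 = x.2 - 1) ∨ (y.1 = x.1 - 1 ∧ y.2 = x.2 + 1)

theorem step_of_mem {x y : ℤ × ℤ} {t : (ℤ × ℤ) × Bool} (h : s(x, y) ∈ edges t) : Step x y := by
  obtain ⟨⟨i, j⟩, b⟩ := t
  obtain ⟨x1, x2⟩ := x
  obtain ⟨y1, y2⟩ := y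
  cases b <;>
  · simp only [edges, mem_insert, mem_singleton, Sym2.eq_iff, Prod.mk.injEq] at h
    simp only [Step]
    omega

/-- indicator (mod 2) that the step from `x` to `y` crosses the ray going right from `t`. -/
def ray (t : (ℤ × ℤ) × Bool) (x y : ℤ × ℤ) : ZMod 2 :=
  match t with
  | ((i, j), false) =>
      (if x.2 = j ∧ y.2 = j + 1 ∧ i + 1 ≤ x.1 then 1 else 0) +
      (if y.2 = j ∧ x.2 = j + 1 ∧ i + 1 ≤ y.1 then 1 else 0)
  | ((i, j), true) =>
      (if x.2 = j + 1 ∧ y.2 = j ∧ i + 1 ≤ x.1 then 1 else 0) +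
      (if y.2 = j + 1 ∧ x.2 = j ∧ i + 1 ≤ y.1 then 1 else 0)

theorem ray_diag {x y : ℤ × ℤ} (h : Step x y) (i j : ℤ) :
    ray ((i, j), false) x y + ray ((i, j), true) x y =
      if s(x, y) = s((i + 1, j), (i, j + 1)) then 1 else 0 := by
  obtain ⟨x1, x2⟩ := x
  obtain ⟨y1, y2⟩ := y
  simp only [Step] at h
  simp only [ray, Sym2.eq_iff, Prod.mk.injEq]
  rcases h with h | h | h | h | h | h <;> obtain ⟨rfl, rfl⟩ := h <;>
    split_ifs <;> first | rfl | (exfalso; omega)

theorem ray_vert {x y : ℤ × ℤ} (h : Step x y) (i j : ℤ) :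
    ray ((i, j), true) x y + ray ((i + 1, j), false) x y =
      if s(x, y) = s((i + 1, j), (i + 1, j + 1)) then 1 else 0 := by
  obtain ⟨x1, x2⟩ := x
  obtain ⟨y1, y2⟩ := y
  simp only [Step] at h
  simp only [ray, Sym2.eq_iff, Prod.mk.injEq]
  rcases h with h | h | h | h | h | h <;> obtain ⟨rfl, rfl⟩ := h <;>
    split_ifs <;> first | rfl | (exfalso; omega)

/-- indicator of the half row -/
def half (i j : ℤ) (x : ℤ × ℤ) : ZMod 2 := if x.2 = j ∧ i + 1 ≤ x.1 then 1 else 0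

theorem ray_hor {x y : ℤ × ℤ} (h : Step x y) (i j : ℤ) :
    ray ((i, j), false) x y + ray ((i, j - 1), true) x y +
      (if s(x, y) = s((i, j), (i + 1, j)) then 1 else 0) = half i j x + half i j y := by
  obtain ⟨x1, x2⟩ := x
  obtain ⟨y1, y2⟩ := y
  simp only [Step] at h
  simp only [ray, half, Sym2.eq_iff, Prod.mk.injEq]
  rcases h with h | h | h | h | h | h <;> obtain ⟨rfl, rfl⟩ := h <;>
    split_ifs <;> first | rfl | (exfalso; omega)

theorem mem_hor {i j : ℤ} {t : (ℤ × ℤ) × Bool} :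
    s((i, j), (i + 1, j)) ∈ edges t ↔ t = ((i, j), false) ∨ t = ((i, j - 1), true) := by
  obtain ⟨⟨a, b⟩, c⟩ := t
  cases c <;>
  · simp only [edges, mem_insert, mem_singleton, Sym2.eq_iff, Prod.mk.injEq]
    simp only [and_true, and_false, or_false, false_or, Bool.false_eq_true, Bool.true_eq_false]
    omega

theorem mem_vert {i j : ℤ} {t : (ℤ × ℤ) × Bool} :
    s((i, j), (i, j + 1)) ∈ edges t ↔ t = ((i, j), false) ∨ t = ((i - 1, j), true) := by
  obtain ⟨⟨a, b⟩, c⟩ := t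
  cases c <;>
  · simp only [edges, mem_insert, mem_singleton, Sym2.eq_iff, Prod.mk.injEq]
    simp only [and_true, and_false, or_false, false_or, Bool.false_eq_true, Bool.true_eq_false]
    omega

theorem mem_diag {i j : ℤ} {t : (ℤ × ℤ) × Bool} :
    s((i + 1, j), (i, j + 1)) ∈ edges t ↔ t = ((i, j), false) ∨ t = ((i, j), true) := by
  obtain ⟨⟨a, b⟩, c⟩ := t
  cases c <;>
  · simp only [edges, mem_insert, mem_singleton, Sym2.eq_iff, Prod.mk.injEq]
    simp only [and_true, and_false, or_false, false_or, Bool.false_eq_true, Bool.true_eq_false]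
    omega

/-- every lattice edge is of one of the three kinds -/
theorem step_kinds {x y : ℤ × ℤ} (h : Step x y) :
    (∃ i j, s(x, y) = s((i, j), (i + 1, j))) ∨ (∃ i j, s(x, y) = s((i, j), (i, j + 1))) ∨
    (∃ i j, s(x, y) = s((i + 1, j), (i, j + 1))) := by
  obtain ⟨x1, x2⟩ := x
  obtain ⟨y1, y2⟩ := y
  simp only [Step] at h
  simp only [Sym2.eq_iff, Prod.mk.injEq]
  rcases h with h | h | h | h | h | h
  · exact Or.inl ⟨x1, x2, by omega⟩
  · exact Or.inl ⟨y1, x2, by omega⟩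
  · exact Or.inr (Or.inl ⟨x1, x2, by omega⟩)
  · exact Or.inr (Or.inl ⟨x1, y2, by omega⟩)
  · exact Or.inr (Or.inr ⟨x1, y2, by omega⟩)
  · exact Or.inr (Or.inr ⟨y1, x2, by omega⟩)

end Vale.Agent.P153
end

section

/-!
Paths in the triangular lattice `ℤ × ℤ` (adjacency `Step`), and the primitive of a
`ZMod 2`-valued cochain with zero sum around every triangle.
-/

namespace Vale.Agent.P153.Topo

open Relation

theorem step_symm {x y : ℤ × ℤ} (h : Step x y) : Step y x := by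
  unfold Step at h ⊢; omega

theorem step_ne {x y : ℤ × ℤ} (h : Step x y) : x ≠ y := by
  rintro rfl; unfold Step at h; omega

instance (x y : ℤ × ℤ) : Decidable (Step x y) := by unfold Step; infer_instance

/-- `x` and `y` are joined by a lattice path inside `S`. -/
def Joined (S : Set (ℤ × ℤ)) (x y : ℤ × ℤ) : Prop :=
  x ∈ S ∧ ReflTransGen (fun u v => Step u v ∧ v ∈ S) x y

variable {S T : Set (ℤ × ℤ)} {x y z : ℤ × ℤ}

theorem Joined.refl (h : x ∈ S) : Joined S x x := ⟨h, ReflTransGen.refl⟩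

theorem Joined.left (h : Joined S x y) : x ∈ S := h.1

theorem Joined.right (h : Joined S x y) : y ∈ S := by
  rcases ReflTransGen.cases_tail h.2 with rfl | ⟨c, -, hc⟩
  · exact h.1
  · exact hc.2

theorem Joined.trans (h : Joined S x y) (h' : Joined S y z) : Joined S x z :=
  ⟨h.1, h.2.trans h'.2⟩

theorem Joined.single (h : Step x y) (hx : x ∈ S) (hy : y ∈ S) : Joined S x y :=
  ⟨hx, ReflTransGen.single ⟨h, hy⟩⟩

theorem Joined.symm (h : Joined S x y) : Joined S y x := by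
  obtain ⟨h1, h2⟩ := h
  induction h2 with
  | refl => exact Joined.refl h1
  | tail hab hbc ih =>
    exact Joined.trans (Joined.single (step_symm hbc.1) hbc.2
      (Joined.right ⟨h1, hab⟩)) ih

theorem Joined.mono (h : Joined S x y) (hST : S ⊆ T) : Joined T x y :=
  ⟨hST h.1, ReflTransGen.mono (fun _ _ hab => ⟨hab.1, hST hab.2⟩) _ _ h.2⟩

theorem Joined.comm : Joined S x y ↔ Joined S y x := ⟨Joined.symm, Joined.symm⟩

/-- A joined pair as an explicit walk. -/
theorem Joined.walk (h : Joined S x y) : ∃ (m : ℕ) (w : ℕ → ℤ × ℤ), w 0 = x ∧ w m = y ∧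
    (∀ k < m, Step (w k) (w (k + 1))) ∧ ∀ k ≤ m, w k ∈ S := by
  obtain ⟨h1, h2⟩ := h
  induction h2 with
  | refl => exact ⟨0, fun _ => x, rfl, rfl, fun k hk => absurd hk (Nat.not_lt_zero _),
      fun _ _ => h1⟩
  | tail hab hbc ih =>
    rename_i b' c'
    obtain ⟨m, w, h0, hm, hw, hS⟩ := ih
    refine ⟨m + 1, fun k => if k ≤ m then w k else c', by simp [h0], by simp only [add_le_iff_nonpos_right, nonpos_iff_eq_zero, one_ne_zero, ↓reduceIte], ?_, ?_⟩
    · intro k hk
      rcases Nat.lt_or_ge k m with h | h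
      · have e1 : k ≤ m := h.le
        have e2 : k + 1 ≤ m := h
        simp only [e1, e2, if_true]
        exact hw k h
      · have e1 : k = m := by omega
        subst e1
        simp only [le_refl, if_true, show ¬ (k + 1 ≤ k) by omega, if_false, hm]
        exact hbc.1
    · intro k _
      by_cases h : k ≤ m
      · simp only [h, if_true]; exact hS k h
      · simp only [h, if_false]; exact hbc.2

/-- A walk joins its vertices. -/
theorem joined_of_walk {m : ℕ} {w : ℕ → ℤ × ℤ} (hw : ∀ k < m, Step (w k) (w (k + 1)))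
    (hS : ∀ k ≤ m, w k ∈ S) {s t : ℕ} (hst : s ≤ t) (ht : t ≤ m) : Joined S (w s) (w t) := by
  induction t, hst using Nat.le_induction with
  | base => exact Joined.refl (hS s ht)
  | succ t hst ih =>
    exact (ih (by omega)).trans (Joined.single (hw t (by omega)) (hS t (by omega)) (hS _ ht))

/-- A walk from a vertex with `f ≤ c` to a vertex with `f ≥ d` along which `f` changes by at most
one per step contains a piece with `c ≤ f ≤ d` from a vertex with `f = c` to one with `f = d`. -/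
theorem subwalk {f : ℤ × ℤ → ℤ} {c d : ℤ} (hcd : c ≤ d) {m : ℕ} {w : ℕ → ℤ × ℤ}
    (hf : ∀ k < m, f (w (k + 1)) ≤ f (w k) + 1) (h0 : f (w 0) ≤ c)
    (hm : d ≤ f (w m)) : ∃ s t, s ≤ t ∧ t ≤ m ∧ f (w s) = c ∧ f (w t) = d ∧
      ∀ k, s ≤ k → k ≤ t → c ≤ f (w k) ∧ f (w k) ≤ d := by
  classical
  have hex : ∃ k, k ≤ m ∧ d ≤ f (w k) := ⟨m, le_rfl, hm⟩
  set t := Nat.find hex with ht
  have ht1 : t ≤ m ∧ d ≤ f (w t) := Nat.find_spec hex
  have ht2 : ∀ k < t, f (w k) < d := by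
    intro k hk
    have := Nat.find_min hex hk
    by_contra hcon
    exact this ⟨by omega, by omega⟩
  have htd : f (w t) = d := by
    rcases Nat.eq_zero_or_pos t with h | h
    · rw [h] at ht1 ⊢; omega
    · have e1 := ht2 (t - 1) (by omega)
      have e2 := hf (t - 1) (by omega)
      rw [Nat.sub_add_cancel h] at e2
      omega
  set s := Nat.findGreatest (fun k => f (w k) ≤ c) t with hs
  have hs1 : f (w s) ≤ c := Nat.findGreatest_spec (P := fun k => f (w k) ≤ c) (Nat.zero_le t) h0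
  have hst : s ≤ t := Nat.findGreatest_le t
  have hs2 : ∀ k, s < k → k ≤ t → c < f (w k) := by
    intro k h1 h2
    have := Nat.findGreatest_is_greatest (P := fun k => f (w k) ≤ c) h1 h2
    omega
  have hsc : f (w s) = c := by
    rcases Nat.eq_or_lt_of_le hst with h | h
    · rw [h] at hs1 ⊢; omega
    · have e1 := hs2 (s + 1) (by omega) h
      have e2 := hf s (by omega)
      omega
  refine ⟨s, t, hst, ht1.1, hsc, htd, ?_⟩
  intro k h1 h2
  constructor
  · rcases Nat.eq_or_lt_of_le h1 with h | h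
    · rw [← h]; omega
    · exact (hs2 k h h2).le
  · rcases Nat.eq_or_lt_of_le h2 with h | h
    · rw [h]; omega
    · exact (ht2 k h).le

/-- Primitive of a function on the integers. -/
theorem exists_prim (f : ℤ → ZMod 2) : ∃ F : ℤ → ZMod 2, F 0 = 0 ∧ ∀ i, F (i + 1) = F i + f i := by
  refine ⟨fun i => ∑ k ∈ Finset.Ico 0 i, f k + ∑ k ∈ Finset.Ico i 0, f k, by simp, ?_⟩
  intro i
  have h0 : (2 : ZMod 2) = 0 := rfl
  rcases le_or_gt 0 i with h | h
  · have e1 : Finset.Ico 0 (i + 1) = insert i (Finset.Ico 0 i) := by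
      ext k; simp only [Finset.mem_Ico, Finset.mem_insert]; omega
    have e2 : Finset.Ico (i + 1) 0 = ∅ := Finset.Ico_eq_empty (by omega)
    have e3 : Finset.Ico i 0 = ∅ := Finset.Ico_eq_empty (by omega)
    simp only [e1, e2, e3, Finset.sum_empty]
    rw [Finset.sum_insert (by simp only [Finset.mem_Ico, lt_self_iff_false, and_false, not_false_eq_true])]
    ring
  · have e1 : Finset.Ico i 0 = insert i (Finset.Ico (i + 1) 0) := by
      ext k; simp only [Finset.mem_Ico, Finset.mem_insert]; omega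
    have e2 : Finset.Ico 0 (i + 1) = ∅ := Finset.Ico_eq_empty (by omega)
    have e3 : Finset.Ico 0 i = ∅ := Finset.Ico_eq_empty (by omega)
    simp only [e1, e2, e3, Finset.sum_empty]
    rw [Finset.sum_insert (by simp only [Finset.mem_Ico, add_le_iff_nonpos_right, Int.reduceLE, false_and, not_false_eq_true])]
    linear_combination - f i * h0

theorem const_of_succ {g : ℤ → ZMod 2} (h0 : g 0 = 0) (h : ∀ j, g (j + 1) = g j) (j : ℤ) :
    g j = 0 := by
  induction j using Int.induction_on with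
  | zero => exact h0
  | succ n ih => rw [h, ih]
  | pred n ih =>
    have := h (-(n : ℤ) - 1)
    rw [sub_add_cancel] at this
    rw [← this, ih]

/-- A cochain on the edges of the triangular lattice whose sum around every triangle is zero is
the coboundary of a function on the vertices. -/
theorem exists_cob (c : ℤ × ℤ → ℤ × ℤ → ZMod 2) (hs : ∀ x y, c x y = c y x)
    (h1 : ∀ i j, c (i, j) (i + 1, j) + c (i, j) (i, j + 1) + c (i + 1, j) (i, j + 1) = 0)
    (h2 : ∀ i j, c (i + 1, j) (i, j + 1) + c (i + 1, j) (i + 1, j + 1) +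
      c (i, j + 1) (i + 1, j + 1) = 0) :
    ∃ U : ℤ × ℤ → ZMod 2, ∀ x y, Step x y → c x y = U x + U y := by
  have h0 : (2 : ZMod 2) = 0 := rfl
  obtain ⟨A, hA0, hA⟩ := exists_prim (fun i => c (i, 0) (i + 1, 0))
  choose B hB0 hB using fun i => exists_prim (fun j => c (i, j) (i, j + 1))
  have hor : ∀ i j, c (i, j) (i + 1, j) = (A i + B i j) + (A (i + 1) + B (i + 1) j) := by
    intro i
    have key : ∀ j, (A i + B i j) + (A (i + 1) + B (i + 1) j) + c (i, j) (i + 1, j) = 0 := by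
      apply const_of_succ
      · rw [hB0, hB0, hA]
        linear_combination (A i + c (i, 0) (i + 1, 0)) * h0
      · intro j
        rw [hB, hB]
        linear_combination h1 i j + h2 i j - (c (i + 1, j) (i, j + 1) +
          c (i, j) (i + 1, j)) * h0
    intro j
    linear_combination key j - ((A i + B i j) + (A (i + 1) + B (i + 1) j)) * h0
  have ver : ∀ i j, c (i, j) (i, j + 1) = (A i + B i j) + (A i + B i (j + 1)) := by
    intro i j
    rw [hB]
    linear_combination - (A i + B i j) * h0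
  have dia : ∀ i j, c (i + 1, j) (i, j + 1) =
      (A (i + 1) + B (i + 1) j) + (A i + B i (j + 1)) := by
    intro i j
    have e1 := h1 i j
    have e2 := hor i j
    have e3 := ver i j
    linear_combination e1 - e2 - e3 - (A i + B i j + (A (i + 1) + B (i + 1) j) +
      (A i + B i (j + 1))) * h0
  refine ⟨fun x => A x.1 + B x.1 x.2, ?_⟩
  rintro ⟨i, j⟩ ⟨k, l⟩ h
  unfold Step at h
  dsimp only at h ⊢
  rcases h with ⟨rfl, rfl⟩ | ⟨rfl, rfl⟩ | ⟨rfl, rfl⟩ | ⟨rfl, rfl⟩ | ⟨rfl, rfl⟩ | ⟨rfl, rfl⟩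
  · exact hor i l
  · have := hor (i - 1) l
    rw [sub_add_cancel] at this
    rw [hs, this]; ring
  · exact ver k j
  · have := ver k (j - 1)
    rw [sub_add_cancel] at this
    rw [hs, this]; ring
  · have := dia i (j - 1)
    rw [sub_add_cancel] at this
    rw [hs, this]; ring
  · have := dia (i - 1) j
    rw [sub_add_cancel] at this
    rw [this]

end Vale.Agent.P153.Topo
end

section

/-!
The boundary between a connected set `K` of the triangular lattice and a connected component `W`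
of its complement is connected.
-/

namespace Vale.Agent.P153.Topo

open Relation

theorem adj_iff_step {x y : ℤ × ℤ} : Adj x y ↔ Step x y := by
  obtain ⟨a, b⟩ := x
  obtain ⟨c, d⟩ := y
  simp only [Adj, Step, Set.mem_insert_iff, Set.mem_singleton_iff, Prod.mk.injEq]
  (clear * -; omega)

/-- Two consecutive edges (oriented from `K` to `W`) of the interface: they have one end in common
and the other two ends are neighbours, so they are two edges of a lattice triangle. -/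
def Turn (K W : Set (ℤ × ℤ)) (e f : (ℤ × ℤ) × (ℤ × ℤ)) : Prop :=
  (f.1 ∈ K ∧ f.2 ∈ W ∧ Step f.1 f.2) ∧
    ((e.1 = f.1 ∧ Step e.2 f.2) ∨ (e.2 = f.2 ∧ Step e.1 f.1))

/-- `K` connected, `W` connected and closed under passing to neighbours off `K`: any two edges
between `K` and `W` are joined by a chain of such edges in which consecutive ones are edges of a
common triangle. -/
theorem interface_connected {K W : Set (ℤ × ℤ)} (hKW : Disjoint K W)
    (hK : ∀ x ∈ K, ∀ y ∈ K, Joined K x y) (hW : ∀ x ∈ W, ∀ y ∈ W, Joined W x y)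
    (hcl : ∀ x ∈ W, ∀ y, Step x y → y ∉ K → y ∈ W) {k₀ w₀ k₁ w₁ : ℤ × ℤ} (hk₀ : k₀ ∈ K)
    (hw₀ : w₀ ∈ W) (h₀ : Step k₀ w₀) (hk₁ : k₁ ∈ K) (hw₁ : w₁ ∈ W) (h₁ : Step k₁ w₁) :
    ReflTransGen (Turn K W) (k₀, w₀) (k₁, w₁) := by
  classical
  have hdis : ∀ z, z ∈ K → z ∈ W → False := fun z h1 h2 => (Set.disjoint_left.mp hKW) h1 h2
  have hz2 : (1 : ZMod 2) + 1 = 0 := rfl
  set C : Set ((ℤ × ℤ) × (ℤ × ℤ)) := {e | ReflTransGen (Turn K W) (k₀, w₀) e} with hC
  have hCm : ∀ e ∈ C, e.1 ∈ K ∧ e.2 ∈ W ∧ Step e.1 e.2 := by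
    intro e he
    rcases ReflTransGen.cases_tail he with rfl | ⟨f, -, hf⟩
    · exact ⟨hk₀, hw₀, h₀⟩
    · exact hf.1
  have hCt : ∀ e ∈ C, ∀ f, Turn K W e f → f ∈ C := fun e he f hf => he.tail hf
  set c : ℤ × ℤ → ℤ × ℤ → ZMod 2 := fun x y => if (x, y) ∈ C ∨ (y, x) ∈ C then 1 else 0 with hc
  have hcs : ∀ x y, c x y = c y x := by
    intro x y
    simp only [hc]
    congr 1
    exact propext or_comm
  have hc0 : ∀ x y, (x, y) ∉ C → (y, x) ∉ C → c x y = 0 := by
    intro x y h1 h2; simp only [hc]; rw [if_neg (by tauto)]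
  have hc1 : ∀ x y, (x, y) ∈ C → c x y = 1 := by
    intro x y h1; simp only [hc]; rw [if_pos (Or.inl h1)]
  have hc2 : ∀ x y, (y, x) ∈ C → c x y = 1 := by
    intro x y h1; simp only [hc]; rw [if_pos (Or.inr h1)]
  -- a triangle with an edge in `C`
  have tri : ∀ x y z, Step x y → Step y z → Step x z → (x, y) ∈ C →
      c x y + c x z + c y z = 0 := by
    intro x y z hxy hyz hxz hm
    obtain ⟨m1, m2, -⟩ := hCm _ hm
    dsimp only at m1 m2
    by_cases hz : z ∈ K
    · have e1 : (z, y) ∈ C := hCt _ hm _ ⟨⟨hz, m2, step_symm hyz⟩, Or.inr ⟨rfl, hxz⟩⟩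
      rw [hc1 _ _ hm, hc2 _ _ e1, hc0 x z]
      · rw [add_zero]; exact hz2
      · intro h; exact hdis _ hz (hCm _ h).2.1
      · intro h; exact hdis _ m1 (hCm _ h).2.1
    · have hzW : z ∈ W := hcl y m2 z hyz hz
      have e1 : (x, z) ∈ C := hCt _ hm _ ⟨⟨m1, hzW, hxz⟩, Or.inl ⟨rfl, hyz⟩⟩
      rw [hc1 _ _ hm, hc1 _ _ e1, hc0 y z]
      · rw [add_zero]; exact hz2
      · intro h; exact hdis _ (hCm _ h).1 m2
      · intro h; exact hdis _ (hCm _ h).1 hzW
  have tri' : ∀ x y z, Step x y → Step y z → Step x z → c x y + c x z + c y z = 0 := by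
    intro x y z hxy hyz hxz
    have t1 := tri x y z hxy hyz hxz
    have t2 := tri y x z (step_symm hxy) hxz hyz
    have t3 := tri x z y hxz (step_symm hyz) hxy
    have t4 := tri z x y (step_symm hxz) hxy (step_symm hyz)
    have t5 := tri y z x hyz (step_symm hxz) (step_symm hxy)
    have t6 := tri z y x (step_symm hyz) (step_symm hxy) (step_symm hxz)
    by_cases a1 : (x, y) ∈ C
    · exact t1 a1
    by_cases a2 : (y, x) ∈ C
    · have := t2 a2
      rw [hcs y x] at this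
      rw [← this]; ring
    by_cases a3 : (x, z) ∈ C
    · have := t3 a3
      rw [hcs z y] at this
      rw [← this]; ring
    by_cases a4 : (z, x) ∈ C
    · have := t4 a4
      rw [hcs z x, hcs z y] at this
      rw [← this]; ring
    by_cases a5 : (y, z) ∈ C
    · have := t5 a5
      rw [hcs y x, hcs z x] at this
      rw [← this]; ring
    by_cases a6 : (z, y) ∈ C
    · have := t6 a6
      rw [hcs z y, hcs z x, hcs y x] at this
      rw [← this]; ring
    rw [hc0 _ _ a1 a2, hc0 _ _ a3 a4, hc0 _ _ a5 a6]; ring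
  obtain ⟨U, hU⟩ := exists_cob c hcs
    (by
      intro i j
      apply tri' <;> (unfold Step; dsimp only; omega))
    (by
      intro i j
      have := tri' (i + 1, j) (i, j + 1) (i + 1, j + 1) (by unfold Step; dsimp only; omega)
        (by unfold Step; dsimp only; omega) (by unfold Step; dsimp only; omega)
      rw [← this])
  have constK : ∀ x y, Joined K x y → U x = U y := by
    rintro x y ⟨hx, h⟩
    induction h with
    | refl => rfl
    | tail hab hbc ih =>
      rename_i b' c'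
      rw [ih]
      have hb : b' ∈ K := Joined.right ⟨hx, hab⟩
      have h0 : c b' c' = 0 := hc0 _ _ (fun h => hdis _ hbc.2 (hCm _ h).2.1)
        (fun h => hdis _ hb (hCm _ h).2.1)
      have := hU b' c' hbc.1
      rw [h0] at this
      have h2 : (2 : ZMod 2) = 0 := rfl
      linear_combination - this - U c' * h2
  have constW : ∀ x y, Joined W x y → U x = U y := by
    rintro x y ⟨hx, h⟩
    induction h with
    | refl => rfl
    | tail hab hbc ih =>
      rename_i b' c'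
      rw [ih]
      have hb : b' ∈ W := Joined.right ⟨hx, hab⟩
      have h0 : c b' c' = 0 := hc0 _ _ (fun h => hdis _ (hCm _ h).1 hb)
        (fun h => hdis _ (hCm _ h).1 hbc.2)
      have := hU b' c' hbc.1
      rw [h0] at this
      have h2 : (2 : ZMod 2) = 0 := rfl
      linear_combination - this - U c' * h2
  have e0 : c k₀ w₀ = 1 := hc1 _ _ ReflTransGen.refl
  have e1 : c k₁ w₁ = 1 := by
    rw [hU _ _ h₁, ← constK _ _ (hK k₀ hk₀ k₁ hk₁), ← constW _ _ (hW w₀ hw₀ w₁ hw₁),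
      ← hU _ _ h₀, e0]
  by_contra hcon
  have : c k₁ w₁ = 0 := hc0 _ _ hcon (fun h => hdis _ hk₁ (hCm _ h).2.1)
  rw [this] at e1
  exact absurd e1 (by decide)

/-- The vertices of `W` adjacent to `K` (outer boundary of `K` towards `W`). -/
def outer (K W : Set (ℤ × ℤ)) : Set (ℤ × ℤ) := {w | w ∈ W ∧ ∃ k ∈ K, Step k w}

/-- The vertices of `K` adjacent to `W` (inner boundary of `K` towards `W`). -/
def inner (K W : Set (ℤ × ℤ)) : Set (ℤ × ℤ) := {k | k ∈ K ∧ ∃ w ∈ W, Step k w}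

theorem turn_joined {K W : Set (ℤ × ℤ)} {e f : (ℤ × ℤ) × (ℤ × ℤ)}
    (h : ReflTransGen (Turn K W) e f) (he : e.1 ∈ K ∧ e.2 ∈ W ∧ Step e.1 e.2) :
    Joined (outer K W) e.2 f.2 ∧ Joined (inner K W) e.1 f.1 := by
  induction h with
  | refl => exact ⟨Joined.refl ⟨he.2.1, e.1, he.1, he.2.2⟩, Joined.refl ⟨he.1, e.2, he.2.1, he.2.2⟩⟩
  | tail hab hbc ih =>
    obtain ⟨⟨h1, h2, h3⟩, h4⟩ := hbc
    rename_i b c
    have m2 : c.2 ∈ outer K W := ⟨h2, c.1, h1, h3⟩
    have m1 : c.1 ∈ inner K W := ⟨h1, c.2, h2, h3⟩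
    rcases h4 with ⟨h5, h6⟩ | ⟨h5, h6⟩
    · refine ⟨ih.1.trans (Joined.single h6 ih.1.right m2), ?_⟩
      rw [← h5]; exact ih.2
    · refine ⟨?_, ih.2.trans (Joined.single h6 ih.2.right m1)⟩
      rw [← h5]; exact ih.1

theorem outer_connected {K W : Set (ℤ × ℤ)} (hKW : Disjoint K W)
    (hK : ∀ x ∈ K, ∀ y ∈ K, Joined K x y) (hW : ∀ x ∈ W, ∀ y ∈ W, Joined W x y)
    (hcl : ∀ x ∈ W, ∀ y, Step x y → y ∉ K → y ∈ W) {v w : ℤ × ℤ} (hv : v ∈ outer K W)
    (hw : w ∈ outer K W) : Joined (outer K W) v w := by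
  obtain ⟨h1, k, h2, h3⟩ := hv
  obtain ⟨h4, l, h5, h6⟩ := hw
  exact (turn_joined (interface_connected hKW hK hW hcl h2 h1 h3 h5 h4 h6) ⟨h2, h1, h3⟩).1

theorem inner_connected {K W : Set (ℤ × ℤ)} (hKW : Disjoint K W)
    (hK : ∀ x ∈ K, ∀ y ∈ K, Joined K x y) (hW : ∀ x ∈ W, ∀ y ∈ W, Joined W x y)
    (hcl : ∀ x ∈ W, ∀ y, Step x y → y ∉ K → y ∈ W) {v w : ℤ × ℤ} (hv : v ∈ inner K W)
    (hw : w ∈ inner K W) : Joined (inner K W) v w := by
  obtain ⟨h1, k, h2, h3⟩ := hv
  obtain ⟨h4, l, h5, h6⟩ := hw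
  exact (turn_joined (interface_connected hKW hK hW hcl h1 h2 h3 h4 h5 h6) ⟨h1, h2, h3⟩).2

end Vale.Agent.P153.Topo
end

section

/-!
Circuits: the outer boundary of a finite connected set of the triangular lattice is finite,
connected, and separates the set from infinity.
-/

namespace Vale.Agent.P153.Topo

open Relation

theorem joined_iff_conn {S : Set (ℤ × ℤ)} {x y : ℤ × ℤ} : Joined S x y ↔ Conn S x y := by
  unfold Joined Conn
  simp only [adj_iff_step]

/-- The connected component of infinity of the complement of `K`: the vertices which can be joined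
in the complement of `K` to vertices arbitrarily far to the right. -/
def ext (K : Set (ℤ × ℤ)) : Set (ℤ × ℤ) := {x | ∀ N : ℤ, ∃ y : ℤ × ℤ, N ≤ y.1 ∧ Conn Kᶜ x y}

/-- The outer boundary of `K`: the vertices of `ext K` adjacent to `K`. -/
def rim (K : Set (ℤ × ℤ)) : Set (ℤ × ℤ) := {w | w ∈ ext K ∧ ∃ k ∈ K, Adj k w}

theorem rim_eq (K : Set (ℤ × ℤ)) : rim K = outer K (ext K) := by
  ext w; simp only [rim, outer, Set.mem_ofPred_eq, adj_iff_step]

theorem exists_box {K : Set (ℤ × ℤ)} (hK : K.Finite) :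
    ∃ N : ℤ, ∀ x ∈ K, |x.1| < N ∧ |x.2| < N := by
  obtain ⟨N, hN⟩ := (hK.toFinset.image (fun x : ℤ × ℤ => max |x.1| |x.2|)).bddAbove
  refine ⟨N + 1, fun x hx => ?_⟩
  have := hN (Finset.mem_coe.mpr (Finset.mem_image_of_mem _ (hK.mem_toFinset.mpr hx)))
  have h1 := le_max_left |x.1| |x.2|
  have h2 := le_max_right |x.1| |x.2|
  omega

theorem conn_row {S : Set (ℤ × ℤ)} {j s t : ℤ} (h : ∀ i, min s t ≤ i → i ≤ max s t → (i, j) ∈ S) :
    Conn S (s, j) (t, j) := by
  have key : ∀ (n : ℕ) (s : ℤ), (∀ i, s ≤ i → i ≤ s + n → (i, j) ∈ S) →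
      Conn S (s, j) (s + n, j) := by
    intro n
    induction n with
    | zero => intro s hs; simpa using Conn.refl (hs s le_rfl (by simp))
    | succ n ih =>
      intro s hs
      refine (ih s (fun i h1 h2 => hs i h1 (by push_cast; omega))).tail ?_ ?_
      · rw [adj_iff]; push_cast; omega
      · exact hs _ (by push_cast; omega) le_rfl
  rcases le_total s t with hst | hst
  · have := key (t - s).toNat s (fun i h1 h2 => h i (by omega) (by omega))
    rwa [show s + ((t - s).toNat : ℤ) = t by omega] at this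
  · have := key (s - t).toNat t (fun i h1 h2 => h i (by omega) (by omega))
    rw [show t + ((s - t).toNat : ℤ) = s by omega] at this
    exact this.symm

theorem conn_col {S : Set (ℤ × ℤ)} {i s t : ℤ} (h : ∀ j, min s t ≤ j → j ≤ max s t → (i, j) ∈ S) :
    Conn S (i, s) (i, t) := by
  have key : ∀ (n : ℕ) (s : ℤ), (∀ j, s ≤ j → j ≤ s + n → (i, j) ∈ S) →
      Conn S (i, s) (i, s + n) := by
    intro n
    induction n with
    | zero => intro s hs; simpa using Conn.refl (hs s le_rfl (by simp))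
    | succ n ih =>
      intro s hs
      refine (ih s (fun i h1 h2 => hs i h1 (by push_cast; omega))).tail ?_ ?_
      · rw [adj_iff]; push_cast; omega
      · exact hs _ (by push_cast; omega) le_rfl
  rcases le_total s t with hst | hst
  · have := key (t - s).toNat s (fun i h1 h2 => h i (by omega) (by omega))
    rwa [show s + ((t - s).toNat : ℤ) = t by omega] at this
  · have := key (s - t).toNat t (fun i h1 h2 => h i (by omega) (by omega))
    rw [show t + ((s - t).toNat : ℤ) = s by omega] at this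
    exact this.symm

/-- The complement of a box is connected. -/
theorem conn_compl_box {S : Set (ℤ × ℤ)} {N : ℤ} (hS : ∀ x : ℤ × ℤ, N ≤ |x.1| ∨ N ≤ |x.2| → x ∈ S)
    {x : ℤ × ℤ} (hx : N ≤ |x.1| ∨ N ≤ |x.2|) {t : ℤ} (ht : N ≤ t) : Conn S x (t, 0) := by
  have hright : ∀ j s, N ≤ s → Conn S (s, j) (t, 0) := by
    intro j s hs
    have e1 : Conn S (s, j) (t, j) := conn_row (fun i h1 _ => hS _ (Or.inl (by
      have : N ≤ min s t := le_min hs ht
      exact (this.trans h1).trans (le_abs_self i))))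
    exact e1.trans (conn_col (fun l _ _ => hS _ (Or.inl (ht.trans (le_abs_self t)))))
  have hrow : ∀ i j, N ≤ |j| → Conn S (i, j) (t, 0) := by
    intro i j hj
    have e1 : Conn S (i, j) (t, j) := conn_row (fun l _ _ => hS _ (Or.inr hj))
    exact e1.trans (hright j t ht)
  obtain ⟨i, j⟩ := x
  dsimp only at hx
  rcases hx with hi | hj
  · have e1 : Conn S (i, j) (i, |N|) := conn_col (fun l _ _ => hS _ (Or.inl hi))
    exact e1.trans (hrow i _ (by rw [abs_abs]; exact le_abs_self N))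
  · exact hrow i j hj

theorem mem_ext_of_far {K : Set (ℤ × ℤ)} {N : ℤ} (hN : ∀ x ∈ K, |x.1| < N ∧ |x.2| < N)
    {x : ℤ × ℤ} (hx : N ≤ |x.1| ∨ N ≤ |x.2|) : x ∈ ext K := by
  intro M
  refine ⟨(max N M, 0), le_max_right _ _, conn_compl_box (N := N) ?_ hx (le_max_left _ _)⟩
  intro y hy hyK
  have := hN y hyK
  omega

theorem ext_closed {K : Set (ℤ × ℤ)} {x y : ℤ × ℤ} (hx : x ∈ ext K) (h : Adj x y) (hy : y ∉ K) :
    y ∈ ext K := by
  intro M
  obtain ⟨z, h1, h2⟩ := hx M
  exact ⟨z, h1, (Conn.of_adj hy h2.left_mem (adj_symm h)).trans h2⟩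

theorem ext_disjoint {K : Set (ℤ × ℤ)} : Disjoint K (ext K) := by
  rw [Set.disjoint_left]
  intro x hx h
  obtain ⟨y, -, h2⟩ := h 0
  exact h2.left_mem hx

theorem ext_connected {K : Set (ℤ × ℤ)} (hK : K.Finite) {x y : ℤ × ℤ} (hx : x ∈ ext K)
    (hy : y ∈ ext K) : Conn (ext K) x y := by
  obtain ⟨N, hN⟩ := exists_box hK
  have key : ∀ x ∈ ext K, Conn (ext K) x (max N 0, 0) := by
    intro x hx
    obtain ⟨z, h1, h2⟩ := hx (max N 0)
    have e1 : Conn (Kᶜ ∩ ext K) x z := h2.of_closed hx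
      (fun u v hu _ hv huv => ext_closed hu huv hv)
    refine (e1.mono Set.inter_subset_right).trans (conn_compl_box (N := N) ?_ ?_ (le_max_left _ _))
    · intro u hu; exact mem_ext_of_far hN hu
    · left; exact (le_max_left _ _).trans (h1.trans (le_abs_self _))
  exact (key x hx).trans (key y hy).symm

/-- The outer boundary of a finite connected set is connected. -/
theorem rim_connected {K : Set (ℤ × ℤ)} (hK : K.Finite) (hc : ∀ x ∈ K, ∀ y ∈ K, Conn K x y)
    {v w : ℤ × ℤ} (hv : v ∈ rim K) (hw : w ∈ rim K) : Conn (rim K) v w := by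
  rw [rim_eq] at hv hw ⊢
  rw [← joined_iff_conn]
  refine outer_connected ext_disjoint (fun x hx y hy => joined_iff_conn.mpr (hc x hx y hy))
    (fun x hx y hy => joined_iff_conn.mpr (ext_connected hK hx hy)) ?_ hv hw
  intro x hx y hxy hy
  exact ext_closed hx (adj_iff_step.mpr hxy) hy

/-- The outer boundary of `K` separates `K` from `ext K`. -/
theorem rim_separates {K S : Set (ℤ × ℤ)} {x y : ℤ × ℤ} (hx : x ∈ K) (hy : y ∈ ext K)
    (h : Conn S x y) : (S ∩ rim K).Nonempty := by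
  by_contra hcon
  rw [Set.not_nonempty_iff_eq_empty] at hcon
  have key : y ∉ ext K := by
    refine Conn.ind (S := S) (fun z => z ∉ ext K) ?_ ?_ h
    · intro h'; exact (Set.disjoint_left.mp ext_disjoint) hx h'
    · intro u v _ huv hv hu hv'
      by_cases huK : u ∈ K
      · have : v ∈ S ∩ rim K := ⟨hv, hv', u, huK, huv⟩
        rw [hcon] at this; exact this
      · exact hu (ext_closed hv' (adj_symm huv) huK)
  exact key hy

theorem rim_finite {K : Set (ℤ × ℤ)} (hK : K.Finite) : (rim K).Finite := by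
  obtain ⟨N, hN⟩ := exists_box hK
  refine ((Set.finite_Icc (-N) N).prod (Set.finite_Icc (-N) N)).subset ?_
  rintro w ⟨-, k, hk, hkw⟩
  have := hN k hk
  rw [adj_iff] at hkw
  simp only [Set.mem_prod, Set.mem_Icc]
  have h1 := abs_lt.mp this.1
  have h2 := abs_lt.mp this.2
  omega

theorem rim_nonempty {K : Set (ℤ × ℤ)} (hK : K.Finite) (hne : K.Nonempty) : (rim K).Nonempty := by
  obtain ⟨N, hN⟩ := exists_box hK
  obtain ⟨x, hx⟩ := hne
  obtain ⟨z, hz⟩ := rim_separates (S := Set.univ) (y := (max N 0, 0)) hx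
    (mem_ext_of_far hN (Or.inl ((le_max_left _ _).trans (le_abs_self _))))
    (by
      obtain ⟨i, j⟩ := x
      exact (conn_row (j := j) (t := max N 0) (fun _ _ _ => Set.mem_univ _)).trans
        (conn_col (fun _ _ _ => Set.mem_univ _)))
  exact ⟨z, hz.2⟩

/-- **Circuits.** `B` is nonempty and connected and its cluster in `A ∪ B` is finite: then there is
a finite connected set `C` of vertices off `A ∪ B`, adjacent to the cluster, which meets every
path from `B` to infinity. -/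
theorem exists_circuit {A B : Set (ℤ × ℤ)} (hB : ∀ x ∈ B, ∀ y ∈ B, Conn B x y) (hne : B.Nonempty)
    (hfin : (comp (A ∪ B) B).Finite) :
    ∃ C : Set (ℤ × ℤ), C.Nonempty ∧ C.Finite ∧ (∀ v ∈ C, v ∉ A ∧ v ∉ B) ∧
      (∀ v ∈ C, ∃ k ∈ comp (A ∪ B) B, Adj k v) ∧
      (∀ v ∈ C, ∀ w ∈ C, Conn C v w) ∧
      ∀ x ∈ comp (A ∪ B) B, ∀ y ∈ ext (comp (A ∪ B) B), ∀ S, Conn S x y → (S ∩ C).Nonempty := by
  set K := comp (A ∪ B) B with hK
  have hcl : ∀ x ∈ K, ∀ y, Adj x y → y ∈ A ∪ B → y ∈ K := by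
    rintro x ⟨b, hb, hbx⟩ y hxy hy
    exact ⟨b, hb, hbx.tail hxy hy⟩
  have hBK : ∀ b ∈ B, b ∈ K := fun b hb => ⟨b, hb, Conn.refl (Or.inr hb)⟩
  have hc : ∀ x ∈ K, ∀ y ∈ K, Conn K x y := by
    have h0 : ∀ x ∈ K, ∃ b ∈ B, Conn K b x := by
      rintro x ⟨b, hb, hbx⟩
      exact ⟨b, hb, (hbx.of_closed (T := K) (hBK b hb)
        (fun u v hu _ hv huv => hcl u hu v huv hv)).mono Set.inter_subset_right⟩
    intro x hx y hy
    obtain ⟨b, hb, h1⟩ := h0 x hx
    obtain ⟨b', hb', h2⟩ := h0 y hy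
    exact (h1.symm.trans ((hB b hb b' hb').mono (fun z hz => hBK z hz))).trans h2
  have hKne : K.Nonempty := hne.mono (fun b hb => hBK b hb)
  refine ⟨rim K, rim_nonempty hfin hKne, rim_finite hfin, ?_, fun v hv => hv.2,
    fun v hv w hw => rim_connected hfin hc hv hw, fun x hx y hy S h => rim_separates hx hy h⟩
  rintro v ⟨hv, k, hk, hkv⟩
  have hvK : v ∉ K := fun h => (Set.disjoint_left.mp ext_disjoint) h hv
  exact ⟨fun h => hvK (hcl k hk v hkv (Or.inl h)), fun h => hvK (hBK v h)⟩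

end Vale.Agent.P153.Topo
end

section

/-!
# Nearest-neighbour connections in the plane lattice

`NC S x y`: `x` and `y` are joined by a nearest-neighbour path inside `S`. Intersection lemmas for
such paths, deduced from the crossing lemma of the triangular lattice.
-/

namespace Vale.Agent.P145.FB

open Vale.Agent.P153 Vale.Agent.P153.Topo

theorem NN.symm {x y : ℤ × ℤ} (h : NN x y) : NN y x := by
  unfold NN at h ⊢
  (clear * - h; omega)

theorem NN.adj {x y : ℤ × ℤ} (h : NN x y) : Adj x y := by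
  rw [adj_iff]
  unfold NN at h
  omega

theorem NC.left_mem {S : Set (ℤ × ℤ)} {x y : ℤ × ℤ} (h : NC S x y) : x ∈ S := h.1

theorem NC.right_mem {S : Set (ℤ × ℤ)} {x y : ℤ × ℤ} (h : NC S x y) : y ∈ S := by
  obtain ⟨hx, h⟩ := h
  induction h with
  | refl => exact hx
  | tail _ h _ => exact h.2

theorem NC.refl {S : Set (ℤ × ℤ)} {x : ℤ × ℤ} (h : x ∈ S) : NC S x x :=
  ⟨h, Relation.ReflTransGen.refl⟩

theorem NC.trans {S : Set (ℤ × ℤ)} {x y z : ℤ × ℤ} (h : NC S x y) (h' : NC S y z) :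
    NC S x z :=
  ⟨h.1, h.2.trans h'.2⟩

theorem NC.tail {S : Set (ℤ × ℤ)} {x y z : ℤ × ℤ} (h : NC S x y) (h' : NN y z)
    (hz : z ∈ S) : NC S x z :=
  ⟨h.1, h.2.tail ⟨h', hz⟩⟩

theorem NC.of_nn {S : Set (ℤ × ℤ)} {x y : ℤ × ℤ} (hx : x ∈ S) (hy : y ∈ S)
    (h' : NN x y) : NC S x y :=
  (NC.refl hx).tail h' hy

theorem NC.symm {S : Set (ℤ × ℤ)} {x y : ℤ × ℤ} (h : NC S x y) : NC S y x := by
  obtain ⟨hx, h⟩ := h
  induction h with
  | refl => exact NC.refl hx
  | @tail b c hb h ih =>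
    have hbS : b ∈ S := ih.left_mem
    exact (NC.of_nn h.2 hbS h.1.symm).trans ih

theorem NC.ind {S : Set (ℤ × ℤ)} {x : ℤ × ℤ} (P : ℤ × ℤ → Prop) (h0 : P x)
    (hs : ∀ u v, NC S x u → NN u v → v ∈ S → P u → P v) {y : ℤ × ℤ} (h : NC S x y) :
    P y := by
  obtain ⟨hx, h⟩ := h
  induction h with
  | refl => exact h0
  | tail hb h ih => exact hs _ _ ⟨hx, hb⟩ h.1 h.2 ih

theorem NC.map {S T : Set (ℤ × ℤ)} {f : ℤ × ℤ → ℤ × ℤ} (hf : ∀ u v, NN u v → NN (f u) (f v))
    (hST : ∀ z ∈ S, f z ∈ T) {x y : ℤ × ℤ} (h : NC S x y) : NC T (f x) (f y) :=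
  NC.ind (fun z => NC T (f x) (f z)) (NC.refl (hST x h.1))
    (fun u v _ huv hv ih => ih.tail (hf u v huv) (hST v hv)) h

theorem NC.mono {S T : Set (ℤ × ℤ)} (hST : S ⊆ T) {x y : ℤ × ℤ} (h : NC S x y) : NC T x y :=
  NC.map (f := fun z => z) (fun _ _ h => h) hST h

theorem NC.conn {S : Set (ℤ × ℤ)} {x y : ℤ × ℤ} (h : NC S x y) : Conn S x y :=
  NC.ind (fun z => Conn S x z) (Conn.refl h.1) (fun _ _ _ huv hv ih => ih.tail huv.adj hv) h

/-- The path stays in the cluster of its starting point. -/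
theorem NC.cluster {S : Set (ℤ × ℤ)} {x y : ℤ × ℤ} (h : NC S x y) :
    NC {z | NC S x z} x y :=
  NC.ind (fun z => NC {z | NC S x z} x z) (NC.refl (NC.refl h.1))
    (fun u v hu huv hv ih => ih.tail huv (hu.tail huv hv)) h

/-- The first visit of a high level. -/
theorem NC.first {S : Set (ℤ × ℤ)} {f : ℤ × ℤ → ℤ} (hf : ∀ u v, NN u v → f v ≤ f u + 1) {d : ℤ}
    {x y : ℤ × ℤ} (h : NC S x y) (hx : f x ≤ d) (hy : d ≤ f y) :
    ∃ z, f z = d ∧ NC (S ∩ {w | f w ≤ d}) x z := by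
  have key : (f y < d ∧ NC (S ∩ {w | f w ≤ d}) x y) ∨
      ∃ z, f z = d ∧ NC (S ∩ {w | f w ≤ d}) x z := by
    refine NC.ind (fun y => (f y < d ∧ NC (S ∩ {w | f w ≤ d}) x y) ∨
      ∃ z, f z = d ∧ NC (S ∩ {w | f w ≤ d}) x z) ?_ ?_ h
    · rcases lt_or_eq_of_le hx with h1 | h1
      · exact Or.inl ⟨h1, NC.refl ⟨h.1, hx⟩⟩
      · exact Or.inr ⟨x, h1, NC.refl ⟨h.1, hx⟩⟩
    · intro u v _ huv hv ih
      rcases ih with ⟨h1, h2⟩ | h1
      · have h3 := hf u v huv
        have h4 : NC (S ∩ {w | f w ≤ d}) x v := h2.tail huv ⟨hv, by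
          simp only [Set.mem_setOf_eq]; omega⟩
        rcases lt_or_ge (f v) d with h5 | h5
        · exact Or.inl ⟨h5, h4⟩
        · exact Or.inr ⟨v, by omega, h4⟩
      · exact Or.inr h1
  rcases key with ⟨h1, _⟩ | h1
  · omega
  · exact h1

/-- **Exit lemma.** A path from `f ≤ c` to `f ≥ d` contains a path in `c ≤ f ≤ d` from `f = c` to
`f = d`. -/
theorem NC.exit {S : Set (ℤ × ℤ)} {f : ℤ × ℤ → ℤ} (hf : ∀ u v, NN u v → f v ≤ f u + 1) {c d : ℤ}
    (hcd : c ≤ d) {x y : ℤ × ℤ} (h : NC S x y) (hx : f x ≤ c) (hy : d ≤ f y) :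
    ∃ z w, f z = c ∧ f w = d ∧ NC (S ∩ {u | c ≤ f u ∧ f u ≤ d}) z w ∧ NC S x z ∧ NC S x w := by
  obtain ⟨w, hw, h1⟩ := h.first hf (hx.trans hcd) hy
  obtain ⟨z, hz, h2⟩ := h1.symm.first (f := fun u => - f u) (d := -c)
    (fun u v huv => by have := hf v u huv.symm; omega) (by omega) (by omega)
  have h3 : NC (S ∩ {u | c ≤ f u ∧ f u ≤ d}) w z := h2.mono (by
    rintro u ⟨⟨h3, h4⟩, h5⟩
    refine ⟨h3, ?_, h4⟩
    have : - f u ≤ -c := h5
    show c ≤ f u
    omega)
  have h4 : NC S x w := h1.mono Set.inter_subset_left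
  exact ⟨z, w, by omega, hw, h3.symm, h4.trans (h3.mono Set.inter_subset_left), h4⟩

theorem nn_fst (u v : ℤ × ℤ) (h : NN u v) : v.1 ≤ u.1 + 1 := by
  unfold NN at h
  omega

theorem nn_snd (u v : ℤ × ℤ) (h : NN u v) : v.2 ≤ u.2 + 1 := by
  unfold NN at h
  omega

/-- Isometries of the lattice act on connections. -/
theorem NC.congr {e : (ℤ × ℤ) ≃ (ℤ × ℤ)} (he : ∀ u v, NN u v → NN (e u) (e v))
    (he' : ∀ u v, NN u v → NN (e.symm u) (e.symm v)) {S : Set (ℤ × ℤ)} {x y : ℤ × ℤ} :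
    NC (e ⁻¹' S) x y ↔ NC S (e x) (e y) := by
  constructor
  · exact fun h => h.map he (fun z hz => hz)
  · intro h
    have := h.map (f := e.symm) (T := e ⁻¹' S) he' (fun z hz => by
      simpa using hz)
    simpa using this

/-- Reflection in the vertical axis. -/
def flipX : (ℤ × ℤ) ≃ (ℤ × ℤ) where
  toFun z := (-z.1, z.2)
  invFun z := (-z.1, z.2)
  left_inv z := by simp
  right_inv z := by simp

/-- Reflection in the horizontal axis. -/
def flipY : (ℤ × ℤ) ≃ (ℤ × ℤ) where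
  toFun z := (z.1, -z.2)
  invFun z := (z.1, -z.2)
  left_inv z := by simp
  right_inv z := by simp

/-- Translation. -/
def shf (v : ℤ × ℤ) : (ℤ × ℤ) ≃ (ℤ × ℤ) where
  toFun z := (z.1 + v.1, z.2 + v.2)
  invFun z := (z.1 - v.1, z.2 - v.2)
  left_inv z := by simp
  right_inv z := by simp

theorem nc_flipX {S : Set (ℤ × ℤ)} {x y : ℤ × ℤ} :
    NC (flipX ⁻¹' S) x y ↔ NC S (flipX x) (flipX y) :=
  NC.congr (fun u v h => by unfold NN at h ⊢; simp only [flipX, Equiv.coe_fn_mk]; omega)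
    (fun u v h => by unfold NN at h ⊢; simp only [flipX, Equiv.symm, Equiv.coe_fn_mk]; omega)

theorem nc_flipY {S : Set (ℤ × ℤ)} {x y : ℤ × ℤ} :
    NC (flipY ⁻¹' S) x y ↔ NC S (flipY x) (flipY y) :=
  NC.congr (fun u v h => by unfold NN at h ⊢; simp only [flipY, Equiv.coe_fn_mk]; omega)
    (fun u v h => by unfold NN at h ⊢; simp only [flipY, Equiv.symm, Equiv.coe_fn_mk]; omega)

theorem nc_swap {S : Set (ℤ × ℤ)} {x y : ℤ × ℤ} :
    NC ((Equiv.prodComm ℤ ℤ) ⁻¹' S) x y ↔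
      NC S (Equiv.prodComm ℤ ℤ x) (Equiv.prodComm ℤ ℤ y) :=
  NC.congr (fun u v h => by
      unfold NN at h ⊢; simp only [Equiv.prodComm_apply, Prod.fst_swap, Prod.snd_swap]; omega)
    (fun u v h => by
      unfold NN at h ⊢
      simp only [Equiv.prodComm_symm, Equiv.prodComm_apply, Prod.fst_swap, Prod.snd_swap]; omega)

theorem nc_shf {v : ℤ × ℤ} {S : Set (ℤ × ℤ)} {x y : ℤ × ℤ} :
    NC (shf v ⁻¹' S) x y ↔ NC S (shf v x) (shf v y) :=
  NC.congr (fun u v h => by unfold NN at h ⊢; simp only [shf, Equiv.coe_fn_mk]; (clear * - h; omega))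
    (fun u v h => by unfold NN at h ⊢; simp only [shf, Equiv.symm, Equiv.coe_fn_mk]; omega)

/-- A horizontal and a vertical crossing of a rectangle meet. -/
theorem ncross {S T : Set (ℤ × ℤ)} {a b c d : ℤ} (hS : S ⊆ Rect a b c d) (hT : T ⊆ Rect a b c d)
    {x x' y y' : ℤ × ℤ} (hx : NC S x x') (hxa : x.1 = a) (hxb : x'.1 = b)
    (hy : NC T y y') (hyc : y.2 = c) (hyd : y'.2 = d) : ∃ z, NC S x z ∧ NC T y z :=
  cross (A := {z | NC S x z}) (B := {z | NC T y z}) (fun z hz => hS hz.right_mem)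
    (fun z hz => hT hz.right_mem) hx.cluster.conn hxa hxb hy.cluster.conn hyc hyd

/-- **Landing lemma (right).** -/
theorem landR {S T : Set (ℤ × ℤ)} {a b c d : ℤ} (hS : S ⊆ Rect a b c d) (hT : T ⊆ Rect a b c d)
    {x x' y y' : ℤ × ℤ} (hx : NC S x x') (hxa : x.1 = a) (hxb : x'.1 = b)
    (hy : NC T y y') (hyb : y.1 = b) (hyb' : y'.1 = b) (h1 : y.2 ≤ x'.2) (h2 : x'.2 ≤ y'.2) :
    ∃ z, NC S x z ∧ NC T y z := by
  have hxr := hS hx.left_mem
  have hxr' := hS hx.right_mem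
  have hyr := hT hy.left_mem
  have hyr' := hT hy.right_mem
  rw [mem_rect] at hxr hxr' hyr hyr'
  set A : Set (ℤ × ℤ) := insert (b + 1, x'.2) {z | NC S x z} with hA
  set B : Set (ℤ × ℤ) := {z | NC T y z} ∪
    {z | z.1 = b + 1 ∧ c ≤ z.2 ∧ z.2 ≤ d ∧ (z.2 ≤ y.2 ∨ y'.2 ≤ z.2)} with hB
  have hAc : Conn A x (b + 1, x'.2) := by
    refine (hx.cluster.conn.mono (Set.subset_insert _ _)).tail ?_ (Set.mem_insert _ _)
    rw [adj_iff]
    left
    exact ⟨by rw [hxb], rfl⟩
  have hBc : Conn B (b + 1, c) (b + 1, d) := by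
    have e1 : Conn B (b + 1, c) (b + 1, y.2) := conn_col (fun j hj1 hj2 => Or.inr ⟨rfl, by omega,
      by omega, Or.inl (by omega)⟩)
    have e2 : Conn B (b + 1, y.2) y := by
      refine Conn.of_adj (Or.inr ⟨rfl, by omega, by omega, Or.inl le_rfl⟩) (Or.inl (NC.refl hy.1)) ?_
      rw [adj_iff]
      right; left
      exact ⟨by rw [hyb]; ring, rfl⟩
    have e3 : Conn B y y' := hy.cluster.conn.mono Set.subset_union_left
    have e4 : Conn B y' (b + 1, y'.2) := by
      refine Conn.of_adj (Or.inl hy) (Or.inr ⟨rfl, by omega, by omega, Or.inr le_rfl⟩) ?_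
      rw [adj_iff]
      left
      exact ⟨by rw [hyb'], rfl⟩
    have e5 : Conn B (b + 1, y'.2) (b + 1, d) := conn_col (fun j hj1 hj2 => Or.inr ⟨rfl, by omega,
      by omega, Or.inr (by omega)⟩)
    exact (((e1.trans e2).trans e3).trans e4).trans e5
  obtain ⟨z, hzA, hzB⟩ := cross (A := A) (B := B) (a := a) (b := b + 1) (c := c) (d := d)
    (by
      rintro z (rfl | hz)
      · exact ⟨by simp only; omega, by simp only; omega, by simp only; omega, by simp only; omega⟩
      · have := hS hz.right_mem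
        rw [mem_rect] at this
        omega)
    (by
      rintro z (hz | hz)
      · have := hT hz.right_mem
        rw [mem_rect] at this
        omega
      · obtain ⟨h3, h4, h5, _⟩ := hz
        omega)
    hAc hxa rfl hBc rfl rfl
  rcases hzA with rfl | hzA
  · rcases hzB with hzB | hzB
    · have := hT hzB.right_mem
      rw [mem_rect] at this
      simp only at this
      omega
    · obtain ⟨_, _, _, h6 | h6⟩ := hzB
      · have h7 : x' = y := Prod.ext (by rw [hxb, hyb]) (le_antisymm h6 h1)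
        exact ⟨x', hx, by rw [h7]; exact NC.refl hy.1⟩
      · have h7 : x' = y' := Prod.ext (by rw [hxb, hyb']) (le_antisymm h2 h6)
        exact ⟨x', hx, by rw [h7]; exact hy⟩
  · rcases hzB with hzB | hzB
    · exact ⟨z, hzA, hzB⟩
    · have h3 := hS hzA.right_mem
      rw [mem_rect] at h3
      have := hzB.1
      omega

/-- **Landing lemma (left).** -/
theorem landL {S T : Set (ℤ × ℤ)} {a b c d : ℤ} (hS : S ⊆ Rect a b c d) (hT : T ⊆ Rect a b c d)
    {x x' y y' : ℤ × ℤ} (hx : NC S x x') (hxb : x.1 = b) (hxa : x'.1 = a)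
    (hy : NC T y y') (hya : y.1 = a) (hya' : y'.1 = a) (h1 : y.2 ≤ x'.2) (h2 : x'.2 ≤ y'.2) :
    ∃ z, NC S x z ∧ NC T y z := by
  have hx2 : NC (flipX ⁻¹' S) (flipX x) (flipX x') := by
    rw [nc_flipX]
    simpa [flipX] using hx
  have hy2 : NC (flipX ⁻¹' T) (flipX y) (flipX y') := by
    rw [nc_flipX]
    simpa [flipX] using hy
  obtain ⟨z, hz1, hz2⟩ := landR (S := flipX ⁻¹' S) (T := flipX ⁻¹' T) (a := -b) (b := -a)
    (c := c) (d := d) (fun z hz => by
      have := hS hz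
      rw [mem_rect] at this ⊢
      simp only [flipX, Equiv.coe_fn_mk] at this
      omega) (fun z hz => by
      have := hT hz
      rw [mem_rect] at this ⊢
      simp only [flipX, Equiv.coe_fn_mk] at this
      omega) hx2 (by simp [flipX, hxb]) (by simp [flipX, hxa]) hy2 (by simp [flipX, hya])
    (by simp [flipX, hya']) (by simpa only [flipX, Equiv.coe_fn_mk] using h1) (by simpa only [flipX, Equiv.coe_fn_mk] using h2)
  refine ⟨flipX z, ?_, ?_⟩
  · have := nc_flipX.mp hz1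
    simpa only [flipX, Equiv.coe_fn_mk, neg_neg, Prod.mk.eta] using this
  · have := nc_flipX.mp hz2
    simpa [flipX] using this

/-- **Interlacing lemma.** Two paths between the vertical sides of a strip, the second one below
the first one on the left and above it on the right, meet. -/
theorem interlace {S T : Set (ℤ × ℤ)} {a b c d : ℤ} (hS : S ⊆ Rect a b c d) (hT : T ⊆ Rect a b c d)
    {x x' y y' : ℤ × ℤ} (hx : NC S x x') (hxa : x.1 = a) (hxb : x'.1 = b)
    (hy : NC T y y') (hya : y.1 = a) (hyb : y'.1 = b) (h1 : y.2 ≤ x.2) (h2 : x'.2 ≤ y'.2) :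
    ∃ z, NC S x z ∧ NC T y z := by
  have hxr := hS hx.left_mem
  have hxr' := hS hx.right_mem
  have hyr := hT hy.left_mem
  have hyr' := hT hy.right_mem
  rw [mem_rect] at hxr hxr' hyr hyr'
  set A : Set (ℤ × ℤ) := {z | NC S x z} ∪ {(a - 1, x.2), (b + 1, x'.2)} with hA
  set B : Set (ℤ × ℤ) := {z | NC T y z} ∪
    ({z | z.1 = a - 1 ∧ c ≤ z.2 ∧ z.2 ≤ y.2} ∪ {z | z.1 = b + 1 ∧ y'.2 ≤ z.2 ∧ z.2 ≤ d}) with hB
  have hAc : Conn A (a - 1, x.2) (b + 1, x'.2) := by
    have e1 : Conn A (a - 1, x.2) x := by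
      refine Conn.of_adj (Or.inr (Or.inl rfl)) (Or.inl (NC.refl hx.1)) ?_
      rw [adj_iff]
      left
      exact ⟨by simp only; omega, rfl⟩
    have e2 : Conn A x x' := hx.cluster.conn.mono Set.subset_union_left
    have e3 : Conn A x' (b + 1, x'.2) := by
      refine Conn.of_adj (Or.inl hx) (Or.inr (Or.inr rfl)) ?_
      rw [adj_iff]
      left
      exact ⟨by simp only; omega, rfl⟩
    exact (e1.trans e2).trans e3
  have hBc : Conn B (a - 1, c) (b + 1, d) := by
    have e1 : Conn B (a - 1, c) (a - 1, y.2) := conn_col (fun j hj1 hj2 =>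
      Or.inr (Or.inl ⟨rfl, by omega, by omega⟩))
    have e2 : Conn B (a - 1, y.2) y := by
      refine Conn.of_adj (Or.inr (Or.inl ⟨rfl, by omega, le_rfl⟩)) (Or.inl (NC.refl hy.1)) ?_
      rw [adj_iff]
      left
      exact ⟨by simp only; omega, rfl⟩
    have e3 : Conn B y y' := hy.cluster.conn.mono Set.subset_union_left
    have e4 : Conn B y' (b + 1, y'.2) := by
      refine Conn.of_adj (Or.inl hy) (Or.inr (Or.inr ⟨rfl, le_rfl, by omega⟩)) ?_
      rw [adj_iff]
      left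
      exact ⟨by simp only; omega, rfl⟩
    have e5 : Conn B (b + 1, y'.2) (b + 1, d) := conn_col (fun j hj1 hj2 =>
      Or.inr (Or.inr ⟨rfl, by omega, by omega⟩))
    exact (((e1.trans e2).trans e3).trans e4).trans e5
  obtain ⟨z, hzA, hzB⟩ := cross (A := A) (B := B) (a := a - 1) (b := b + 1) (c := c) (d := d)
    (by
      rintro z (hz | rfl | rfl)
      · have := hS hz.right_mem
        rw [mem_rect] at this
        omega
      · exact ⟨le_rfl, by simp only; omega, by simp only; omega, by simp only; omega⟩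
      · exact ⟨by simp only; omega, le_rfl, by simp only; omega, by simp only; omega⟩)
    (by
      rintro z (hz | hz | hz)
      · have := hT hz.right_mem
        rw [mem_rect] at this
        omega
      · obtain ⟨h3, h4, h5⟩ := hz
        omega
      · obtain ⟨h3, h4, h5⟩ := hz
        omega)
    hAc rfl rfl hBc rfl rfl
  have hTz : ∀ {w : ℤ × ℤ}, NC T y w → a ≤ w.1 ∧ w.1 ≤ b := fun hw => by
    have := hT hw.right_mem
    rw [mem_rect] at this
    (clear * - hya hyb this; omega)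
  rcases hzA with hzA | rfl | rfl
  · rcases hzB with hzB | hzB | hzB
    · exact ⟨z, hzA, hzB⟩
    · have h3 := hS hzA.right_mem
      rw [mem_rect] at h3
      have := hzB.1
      omega
    · have h3 := hS hzA.right_mem
      rw [mem_rect] at h3
      have := hzB.1
      omega
  · rcases hzB with hzB | hzB | hzB
    · have := hTz hzB
      simp only at this
      omega
    · have h6 := hzB.2.2
      have h7 : x = y := Prod.ext (by rw [hxa, hya]) (le_antisymm h6 h1)
      exact ⟨x, NC.refl hx.1, by rw [h7]; exact NC.refl hy.1⟩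
    · have := hzB.1
      simp only at this
      omega
  · rcases hzB with hzB | hzB | hzB
    · have := hTz hzB
      simp only at this
      omega
    · have := hzB.1
      simp only at this
      omega
    · have h6 := hzB.2.1
      have h7 : x' = y' := Prod.ext (by rw [hxb, hyb]) (le_antisymm h2 h6)
      exact ⟨x', hx, by rw [h7]; exact hy⟩

end Vale.Agent.P145.FB
end

section

/-!
P145, block F-A (product Schwinger-Dyson identity for the six-vertex heights): definitions.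

`mu0 P` is the law of the absolute heights: `P` times counting measure on the even constants.
A direction `D : Dir` consists of a linear form `D.l`, the reflections `D.θ m` in the lines
`D.l = m` and the translation `D.s = D.θ 1 ∘ D.θ 0`; `D.l D.s = 2`.
-/

namespace Vale.Agent.P145.FA

open Finset Filter Topology MeasureTheory
open Vale.Agent.P152

/-- Absolute heights. -/
abbrev Hgt : Type := ℤ × ℤ → ℤ

/-- `P` times counting measure on the even constants. -/
noncomputable def mu0 (P : Measure (Ori (ℤ × ℤ))) : Measure Hgt :=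
  Measure.sum fun k : ℤ => P.map (fun ω q => pth ω q + 2 * k)

/-- Pull-back of a height function along a map of the faces. -/
def pb (g : ℤ × ℤ → ℤ × ℤ) (h : Hgt) : Hgt := fun q => h (g q)

/-- Directions. -/
structure Dir where
  l : ℤ × ℤ → ℤ
  θ : ℤ → ℤ × ℤ → ℤ × ℤ
  s : ℤ × ℤ

/-- Columns. -/
def dX : Dir := ⟨fun q => q.1, fun m q => (2 * m - q.1, q.2), (2, 0)⟩

/-- Rows. -/
def dY : Dir := ⟨fun q => q.2, fun m q => (q.1, 2 * m - q.2), (0, 2)⟩

/-- Diagonals. -/
def dD : Dir := ⟨fun q => q.1 - q.2, fun m q => (q.2 + m, q.1 - m), (1, -1)⟩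

/-- Antidiagonals. -/
def dA : Dir := ⟨fun q => q.1 + q.2, fun m q => (m - q.2, m - q.1), (1, 1)⟩

/-- Opposite direction. -/
def Dir.neg (D : Dir) : Dir := ⟨fun q => - D.l q, fun m q => D.θ (-m) q, - D.s⟩

/-- The functional `F` depends only on the heights of finitely many faces of `A`. -/
def Loc {R : Type} (A : Set (ℤ × ℤ)) (F : Hgt → R) : Prop :=
  ∃ Λ : Finset (ℤ × ℤ), (∀ q ∈ Λ, q ∈ A) ∧ ∀ h h' : Hgt, (∀ q ∈ Λ, h q = h' q) → F h = F h'

/-- Admissible functionals: local in `A`, bounded, integrable. -/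
structure Adm {R : Type} [NormedAddCommGroup R] (P : Measure (Ori (ℤ × ℤ))) (A : Set (ℤ × ℤ))
    (F : Hgt → R) : Prop where
  loc : Loc A F
  bdd : ∃ C : ℝ, ∀ h, ‖F h‖ ≤ C
  int : Integrable F (mu0 P)

/-- Translate of a functional by `n • D.s`. -/
def tr {R : Type} (D : Dir) (n : ℕ) (F : Hgt → R) : Hgt → R :=
  fun h => F (pb (fun q => q + n • D.s) h)

/-- The height law is invariant under the reflections and the translation of `D`. -/
def Inv (P : Measure (Ori (ℤ × ℤ))) (D : Dir) : Prop :=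
  (∀ m, (mu0 P).map (pb (D.θ m)) = mu0 P) ∧ (mu0 P).map (pb (fun q => q + D.s)) = mu0 P

/-- Reflection positivity. -/
def RP (P : Measure (Ori (ℤ × ℤ))) (D : Dir) : Prop :=
  ∀ (m : ℤ) (F : Hgt → ℝ), Adm P {q | m ≤ D.l q} F → 0 ≤ ∫ h, F h * F (pb (D.θ m) h) ∂(mu0 P)

/-- The leg inequality for real functionals. -/
def LegIneq (P : Measure (Ori (ℤ × ℤ))) (D : Dir) : Prop :=
  ∀ (m : ℤ) (F G : Hgt → ℝ), Adm P {q | m ≤ D.l q} F → Adm P {q | D.l q ≤ m} G →
    ∀ (p : Polynomial ℝ) (c : ℝ), (∀ x ∈ Set.Icc (0 : ℝ) 1, |p.eval x| ≤ c) →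
    |∑ i ∈ p.support, p.coeff i * ∫ h, G h * tr D i F h ∂(mu0 P)| ≤
      c * √(∫ h, F h ^ 2 ∂(mu0 P)) * √(∫ h, G h ^ 2 ∂(mu0 P))

/-- Extrapolation along a direction, for complex functionals: if the two groups `G n`, `F n` are
separated by a strip of width `2 N n` and the integral tends to zero when `F n` is translated by
`k * N n` steps for every large integer `k`, it tends to zero for `k = 0`. -/
def LegLim (P : Measure (Ori (ℤ × ℤ))) (D : Dir) : Prop :=
  ∀ (N : ℕ → ℕ) (m : ℕ → ℤ) (F G : ℕ → Hgt → ℂ) (C : ℝ),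
    (∀ n, Adm P {q | m n + 2 * N n ≤ D.l q} (F n)) → (∀ n, Adm P {q | D.l q ≤ m n} (G n)) →
    (∀ n, ∫ h, ‖F n h‖ ^ 2 ∂(mu0 P) ≤ C) → (∀ n, ∫ h, ‖G n h‖ ^ 2 ∂(mu0 P) ≤ C) →
    (∃ k0 : ℕ, ∀ k, k0 ≤ k →
      Tendsto (fun n => ∫ h, G n h * tr D (k * N n) (F n) h ∂(mu0 P)) atTop (𝓝 0)) →
    (∀ n, 1 ≤ N n) →
    Tendsto (fun n => ∫ h, G n h * F n h ∂(mu0 P)) atTop (𝓝 0)

/-! ### Reflection positivity of the gradients -/

/-- Arrows between faces of the half plane `m ≤ D.l`. -/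
def Half (D : Dir) (m : ℤ) : Set (Edge (ℤ × ℤ)) :=
  {e | Sum.elim (fun v : ℤ × ℤ => m ≤ D.l v ∧ m ≤ D.l (v.1, v.2 - 1))
    (fun v : ℤ × ℤ => m ≤ D.l v ∧ m ≤ D.l (v.1 - 1, v.2)) e}

/-- Reflection of the arrows in the face column `m`. -/
def RX {A : Type} [Ring A] (m : A) (ω : Ori (A × A)) : Ori (A × A) := fun e =>
  match e with
  | Sum.inl v => ω (Sum.inl (2 * m - v.1, v.2))
  | Sum.inr v => !(ω (Sum.inr (2 * m - v.1 + 1, v.2)))

/-- Reflection of the arrows in the face row `m`. -/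
def RY {A : Type} [Ring A] (m : A) (ω : Ori (A × A)) : Ori (A × A) := fun e =>
  match e with
  | Sum.inl v => !(ω (Sum.inl (v.1, 2 * m - v.2 + 1)))
  | Sum.inr v => ω (Sum.inr (v.1, 2 * m - v.2))

/-- Reflection of the arrows in the diagonal `q.1 - q.2 = m`. -/
def RD {A : Type} [Ring A] (m : A) (ω : Ori (A × A)) : Ori (A × A) := fun e =>
  match e with
  | Sum.inl v => !(ω (Sum.inr (v.2 + m, v.1 - m)))
  | Sum.inr v => !(ω (Sum.inl (v.2 + m, v.1 - m)))

/-- Reflection of the arrows in the antidiagonal `q.1 + q.2 = m`. -/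
def RA {A : Type} [Ring A] (m : A) (ω : Ori (A × A)) : Ori (A × A) := fun e =>
  match e with
  | Sum.inl v => ω (Sum.inr (m - v.2 + 1, m - v.1))
  | Sum.inr v => ω (Sum.inl (m - v.2, m - v.1 + 1))

/-- Reflection positivity of the arrows. -/
def GRP (P : Measure (Ori (ℤ × ℤ))) (D : Dir) (R : ℤ → Ori (ℤ × ℤ) → Ori (ℤ × ℤ)) : Prop :=
  ∀ (m : ℤ) (f : Ori (ℤ × ℤ) → ℝ) (Λ : Finset (Edge (ℤ × ℤ))), (∀ e ∈ Λ, e ∈ Half D m) →
    (∀ ω ω', (∀ e ∈ Λ, ω e = ω' e) → f ω = f ω') → 0 ≤ ∫ ω, f ω * f (R m ω) ∂P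

end Vale.Agent.P145.FA
end

section

/-!
P145, block F-A: statements (as `Prop`s).
-/

namespace Vale.Agent.P145.FA

open Finset Filter Topology MeasureTheory
open Vale.Agent.P152

/-- Algebraic properties of a direction. -/
structure Dir.Good (D : Dir) : Prop where
  l_add : ∀ q r, D.l (q + r) = D.l q + D.l r
  l_s : D.l D.s = 2
  l_θ : ∀ m q, D.l (D.θ m q) = 2 * m - D.l q
  θθ : ∀ m q, D.θ m (D.θ m q) = q
  θ_s : ∀ m q, D.θ m (q + D.s) = D.θ m q - D.s
  θ_succ : ∀ m q, D.θ (m + 1) q = D.θ m q + D.s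

/-- G0 -/
def S_good : Prop := (dX.Good ∧ dY.Good ∧ dD.Good ∧ dA.Good) ∧ ∀ D : Dir, D.Good → D.neg.Good

/-- G1: opposite directions. -/
def S_neg : Prop := ∀ (P : Measure (Ori (ℤ × ℤ))) [IsProbabilityMeasure P] (D : Dir), D.Good →
  (RP P D → RP P D.neg) ∧ (Inv P D → Inv P D.neg)

/-- Lg: legs (helper375). -/
def S_leg : Prop := ∀ (P : Measure (Ori (ℤ × ℤ))) [IsProbabilityMeasure P] (D : Dir), D.Good →
  Inv P D → RP P D → LegIneq P D ∧ LegLim P D

/-! ### The plane measure -/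

/-- Torus averages. -/
noncomputable def torA (c : ℝ) (M L : ℕ) [NeZero M] [NeZero L] (f : Ori (ℤ × ℤ) → ℝ) : ℝ :=
  (∑ ω : Ori (ZMod M × ZMod L), wt c ω * f (unroll ω)) / ∑ ω : Ori (ZMod M × ZMod L), wt c ω

/-- What is used of the plane measure. -/
structure Pl (c : ℝ) (P : Measure (Ori (ℤ × ℤ))) : Prop where
  prob : IsProbabilityMeasure P
  ice : ∀ᵐ ω ∂P, ∀ x y, Ice ω x y
  shift : ∀ a : ℤ × ℤ, P.map (fun ω e => ω (Sum.map (· + a) (· + a) e)) = P
  tr : P.map (fun ω => Sum.elim (fun v => ω (Sum.inr v.swap)) (fun v => ω (Sum.inl v.swap))) = P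
  rev : P.map (fun ω e => !(ω e)) = P
  refl : P.map (fun ω => Sum.elim (fun v => ω (Sum.inl (-v.1 - 1, v.2)))
        (fun v => !(ω (Sum.inr (-v.1, v.2))))) = P

/-- M1: the law of the heights, in terms of an arbitrary base face. -/
def S_base : Prop := ∀ (c : ℝ) (P : Measure (Ori (ℤ × ℤ))), Pl c P → ∀ (b : ℤ × ℤ) (R : Type)
  [NormedAddCommGroup R] [NormedSpace ℝ R] (F : Hgt → R), Integrable F (mu0 P) →
    HasSum (fun k : ℤ => ∫ ω, F (fun q => pth ω q - pth ω b + (2 * k + b.1 + b.2)) ∂P)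
      (∫ h, F h ∂(mu0 P))

/-- M2: `mu0 P` is carried by height functions. -/
def S_lip : Prop := ∀ (c : ℝ) (P : Measure (Ori (ℤ × ℤ))), Pl c P → ∀ᵐ h ∂(mu0 P), ∀ q : ℤ × ℤ,
  (2 : ℤ) ∣ h q - (q.1 + q.2) ∧ |h (q + (1, 0)) - h q| = 1 ∧ |h (q + (0, 1)) - h q| = 1

/-- M3: invariance. -/
def S_inv : Prop := ∀ (c : ℝ) (P : Measure (Ori (ℤ × ℤ))), Pl c P →
  (∀ a : ℤ × ℤ, (2 : ℤ) ∣ a.1 + a.2 → (mu0 P).map (pb (fun q => q + a)) = mu0 P) ∧
  Inv P dX ∧ Inv P dY ∧ Inv P dD ∧ Inv P dA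

/-- R0: folding. `θ` acts on the variables, `A` is the closed half; the variables of `A ∩ θ A` are
fixed. -/
def S_fold : Prop := ∀ (E : Type) [Fintype E] [DecidableEq E] (θ : E → E) (s : E → Bool)
  (A : Finset E), (∀ e, θ (θ e) = e) → (∀ e, s (θ e) = s e) → (∀ e, e ∈ A ∨ θ e ∈ A) →
  (∀ e ∈ A, θ e ∈ A → θ e = e ∧ s e = false) →
  ∀ F : (E → Bool) → ℝ, (∀ ω ω', (∀ e ∈ A, ω e = ω' e) → F ω = F ω') →
    0 ≤ ∑ ω : E → Bool, F ω * F (fun e => xor (s e) (ω (θ e)))

/-- R1: reflection positivity of the tori, columns. `f` depends on the arrows between the faces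
of the columns `0, ..., K` of the torus with `2 K` columns. -/
def S_torX : Prop := ∀ (c : ℝ), 0 < c → ∀ (K L : ℕ) [NeZero (2 * K)] [NeZero L]
  (f : Ori (ZMod (2 * K) × ZMod L) → ℝ),
  (∀ ω ω', (∀ (i : ℕ) (y : ZMod L), i ≤ K → ω (Sum.inl ((i : ZMod (2 * K)), y)) =
      ω' (Sum.inl ((i : ZMod (2 * K)), y))) →
    (∀ (i : ℕ) (y : ZMod L), 1 ≤ i → i ≤ K → ω (Sum.inr ((i : ZMod (2 * K)), y)) =
      ω' (Sum.inr ((i : ZMod (2 * K)), y))) → f ω = f ω') →
  0 ≤ ∑ ω : Ori (ZMod (2 * K) × ZMod L), wt c ω * (f ω * f (Rx 0 ω))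

/-- R2: reflection positivity of the square tori, diagonals. `f` depends on the arrows between
faces `q` with `0 ≤ q.1 - q.2 ≤ K` modulo `2 K`. -/
def S_torD : Prop := ∀ (c : ℝ), 1 ≤ c → ∀ (K : ℕ) [NeZero (2 * K)]
  (f : Ori (ZMod (2 * K) × ZMod (2 * K)) → ℝ),
  (∀ ω ω', (∀ (i : ℕ) (y : ZMod (2 * K)), i < K → ω (Sum.inl (y + i, y)) =
      ω' (Sum.inl (y + i, y))) →
    (∀ (i : ℕ) (y : ZMod (2 * K)), 1 ≤ i → i ≤ K → ω (Sum.inr (y + i, y)) =
      ω' (Sum.inr (y + i, y))) → f ω = f ω') →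
  0 ≤ ∑ ω : Ori (ZMod (2 * K) × ZMod (2 * K)), wt c ω * (f ω * f (RD 0 ω))

/-- R3: reflection positivity of the arrows in the plane. -/
def S_grp : Prop := ∀ (c : ℝ), 1 ≤ c → ∀ P : Measure (Ori (ℤ × ℤ)), Pl c P →
  GRP P dX RX ∧ GRP P dY RY ∧ GRP P dD RD ∧ GRP P dA RA

/-- R4: reflection positivity of the heights. -/
def S_rp : Prop := ∀ (c : ℝ) (P : Measure (Ori (ℤ × ℤ))), Pl c P →
  (GRP P dX RX → RP P dX) ∧ (GRP P dY RY → RP P dY) ∧ (GRP P dD RD → RP P dD) ∧
  (GRP P dA RA → RP P dA)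

/-! ### The half-plane statement -/

/-- Linear functionals of the heights. -/
noncomputable def ev (w : (ℤ × ℤ) →₀ ℝ) (h : Hgt) : ℝ := w.sum fun q a => a * (h q : ℝ)

/-- Total mass. -/
noncomputable def mass (w : (ℤ × ℤ) →₀ ℝ) : ℝ := w.sum fun _ a => a

/-- Reflection in the row `0`. -/
noncomputable def rf (w : (ℤ × ℤ) →₀ ℝ) : (ℤ × ℤ) →₀ ℝ := w.mapDomain fun q => (q.1, - q.2)

/-- The null functional. -/
noncomputable def Yf (w u : (ℤ × ℤ) →₀ ℝ) (α : ℝ) (h : Hgt) : ℂ :=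
  Complex.exp (Complex.I * (ev w h : ℂ)) * (Complex.exp (Complex.I * (ev u h : ℂ)) - (α : ℂ))

/-- Macroscopic input: Gaussian limits of the neutral functionals built from `w n`, `u n`, `φ n`
and their reflections. -/
structure SDseq (P : Measure (Ori (ℤ × ℤ))) (w u φ : ℕ → (ℤ × ℤ) →₀ ℝ) (α : ℝ) : Prop where
  mu : ∀ n, mass (u n) = 0
  mφ : ∀ n, mass (φ n) = 1
  lim : ∃ L : ℝ → ℝ → ℝ → ℂ,
    (∀ s t z : ℝ, (s = 0 ∨ s = 1) → (t = 0 ∨ t = 1) →
      Tendsto (fun n => ∫ ω, Complex.exp (Complex.I * ((ev (w n - rf (w n) + s • u n - t • rf (u n)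
        + z • (rf (φ n) - φ n)) (pth ω) : ℝ) : ℂ)) ∂P) atTop (𝓝 (L s t z))) ∧
    (∀ t z : ℝ, (t = 0 ∨ t = 1) → L 1 t z = α * L 0 t z) ∧
    (∀ s z : ℝ, (s = 0 ∨ s = 1) → L s 1 z = α * L s 0 z)

/-- Tightness of `ev (φ n)` relative to `G n`. -/
def Tight (P : Measure (Ori (ℤ × ℤ))) (φ : ℕ → (ℤ × ℤ) →₀ ℝ) (G : ℕ → Hgt → ℂ) : Prop :=
  ∀ ε > 0, ∃ K0 : ℝ, ∀ K ≥ K0, ∀ᶠ n in atTop,
    ∫ h, ‖G n h‖ * (1 - Real.exp (-((ev (φ n) h) ^ 2 / (2 * K ^ 2)))) ∂(mu0 P) ≤ ε

/-- H0: Gaussian sums over the even integers. -/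
def S_gauss : Prop := ∃ e : ℝ → ℝ, Tendsto e atTop (𝓝 0) ∧ ∀ K ≥ 1, ∀ t : ℝ,
  Summable (fun k : ℤ => Real.exp (-((t + 2 * k) ^ 2 / K ^ 2))) ∧
  |∑' k : ℤ, Real.exp (-((t + 2 * k) ^ 2 / K ^ 2)) - K * √Real.pi / 2| ≤ e K

/-- H1: half-plane statement. -/
def S_hp : Prop := ∀ (P : Measure (Ori (ℤ × ℤ))) [IsProbabilityMeasure P], RP P dY →
  ∀ (w u φ : ℕ → (ℤ × ℤ) →₀ ℝ) (α : ℝ), SDseq P w u φ α →
  (∀ n, ∀ q, q ∈ (w n).support ∨ q ∈ (u n).support ∨ q ∈ (φ n).support → 0 ≤ q.2) →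
  ∀ (G : ℕ → Hgt → ℂ) (C : ℝ), (∀ n, Adm P {q | q.2 ≤ 0} (G n)) → (∀ n h, ‖G n h‖ ≤ 1) →
  (∀ n, ∫ h, ‖G n h‖ ∂(mu0 P) ≤ C) → Tight P φ G →
  Tendsto (fun n => ∫ h, Yf (w n) (u n) α h * G n h ∂(mu0 P)) atTop (𝓝 0)

/-- H2: product form (pinwheel). Lines: columns `xl n`, `xr n`, rows `0`, `yt n`; width of the
corridors `2 * N n`; everything happens in the box of radius `ρ * N n`. -/
def S_fa : Prop := ∀ (P : Measure (Ori (ℤ × ℤ))) [IsProbabilityMeasure P],
  (∀ a : ℤ × ℤ, (2 : ℤ) ∣ a.1 + a.2 → (mu0 P).map (pb (fun q => q + a)) = mu0 P) →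
  (∀ D ∈ [dX, dY, dD, dA, dX.neg, dY.neg, dD.neg, dA.neg], LegLim P D) → RP P dY →
  ∀ (w u φ : ℕ → (ℤ × ℤ) →₀ ℝ) (α : ℝ), SDseq P w u φ α →
  ∀ (ρ : ℕ) (N : ℕ → ℕ) (xl xr yt : ℕ → ℤ), (∀ n, 1 ≤ N n) →
  (∀ n, |xl n| ≤ ρ * N n ∧ |xr n| ≤ ρ * N n ∧ |yt n| ≤ ρ * N n) →
  (∀ n, ∀ q, q ∈ (w n).support ∨ q ∈ (u n).support ∨ q ∈ (φ n).support →
    0 ≤ q.2 ∧ q.2 ≤ yt n ∧ xl n ≤ q.1 ∧ q.1 ≤ xr n ∧ |q.1| ≤ ρ * N n ∧ |q.2| ≤ ρ * N n) →
  ∀ (G1 G2 G3 G4 : ℕ → Hgt → ℂ) (C : ℝ),
  (∀ n, Adm P {q | q.1 ≤ xl n - 2 * N n ∧ |q.1| ≤ ρ * N n ∧ |q.2| ≤ ρ * N n} (G1 n)) →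
  (∀ n, Loc {q | yt n + 2 * N n ≤ q.2 ∧ xl n ≤ q.1 ∧ |q.1| ≤ ρ * N n ∧ |q.2| ≤ ρ * N n} (G2 n)) →
  (∀ n, Loc {q | xr n + 2 * N n ≤ q.1 ∧ q.2 ≤ yt n ∧ |q.1| ≤ ρ * N n ∧ |q.2| ≤ ρ * N n}
    (G3 n)) →
  (∀ n, Adm P {q | q.2 ≤ 0 ∧ q.2 ≤ yt n ∧ xl n ≤ q.1 ∧ q.1 ≤ xr n ∧ |q.1| ≤ ρ * N n ∧
    |q.2| ≤ ρ * N n} (G4 n)) →
  (∀ n h, ‖G1 n h‖ ≤ 1) → (∀ n h, ‖G2 n h‖ ≤ 1) → (∀ n h, ‖G3 n h‖ ≤ 1) →
  (∀ n h, ‖G4 n h‖ ≤ 1) →
  (∀ n, ∫ h, ‖G1 n h‖ ∂(mu0 P) ≤ C) → (∀ n, ∫ h, ‖G4 n h‖ ∂(mu0 P) ≤ C) → Tight P φ G4 →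
  Tendsto (fun n => ∫ h, Yf (w n) (u n) α h * G1 n h * G2 n h * G3 n h * G4 n h ∂(mu0 P))
    atTop (𝓝 0)

end Vale.Agent.P145.FA
end

section

/-!
P145, block F-B (percolation input): the probability space.

Faces and vertices of the six-vertex lattice are indexed by `ℤ × ℤ`; the faces at the vertex `w` are
`w`, `w - (1,0)`, `w - (0,1)`, `w - (1,1)`. The even faces are the vertices of the Ashkin-Teller
lattice, the odd ones its faces, and the six-vertex vertices are its edges: the edge `w` joins the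
even faces `e1 w`, `e2 w` and separates the odd faces `o1 w`, `o2 w`.

The bond `w` is open if the odd heights differ, closed if the even heights differ; if both pairs
agree it is open with probability `t = 1 / c`. So a configuration of bonds is `o : Mk`, with
`o w = true` for open.

`JO t P` is the joint law of (arrows, bonds), `J t P` the joint law of (heights, bonds), the height
of the face `0` being `0` or `2` with probability `1 / 2`.
-/

namespace Vale.Agent.P145.FB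

open Finset Filter Topology MeasureTheory
open Vale.Agent.P152 Vale.Agent.P145.FA

abbrev Pt : Type := ℤ × ℤ

/-- Marks or bonds, indexed by the vertices of the six-vertex lattice. -/
abbrev Mk : Type := ℤ × ℤ → Bool

/-! ### The faces at a vertex -/

def e1 (w : Pt) : Pt := if Even (w.1 + w.2) then w else (w.1 - 1, w.2)
def e2 (w : Pt) : Pt := if Even (w.1 + w.2) then (w.1 - 1, w.2 - 1) else (w.1, w.2 - 1)
def o1 (w : Pt) : Pt := if Even (w.1 + w.2) then (w.1 - 1, w.2) else w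
def o2 (w : Pt) : Pt := if Even (w.1 + w.2) then (w.1, w.2 - 1) else (w.1 - 1, w.2 - 1)

/-! ### Bonds -/

/-- The bonds as a function of the heights and the marks. -/
def om (h : Hgt) (ξ : Mk) (w : Pt) : Bool :=
  !(decide (h (o1 w) = h (o2 w))) || (decide (h (e1 w) = h (e2 w)) && ξ w)

/-- The faces `w` and `w - (1,1)` have the same height. -/
def dg (a : Ori (ℤ × ℤ)) (w : Pt) : Bool := a (Sum.inl w) == a (Sum.inr (w.1, w.2 - 1))

/-- The faces `w - (1,0)` and `w - (0,1)` have the same height. -/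
def ag (a : Ori (ℤ × ℤ)) (w : Pt) : Bool := a (Sum.inl w) != a (Sum.inr w)

/-- The even faces at `w` have the same height. -/
def ev (a : Ori (ℤ × ℤ)) (w : Pt) : Bool := if Even (w.1 + w.2) then dg a w else ag a w

/-- The odd faces at `w` have the same height. -/
def od (a : Ori (ℤ × ℤ)) (w : Pt) : Bool := if Even (w.1 + w.2) then ag a w else dg a w

/-- The bonds as a function of the arrows and the marks. -/
def oma (a : Ori (ℤ × ℤ)) (ξ : Mk) (w : Pt) : Bool := !(od a w) || (ev a w && ξ w)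

lemma dg_iff {a : Ori (ℤ × ℤ)} {h : Hgt} (hh : IsHeight a h) (w : Pt) :
    dg a w = decide (h w = h (w.1 - 1, w.2 - 1)) := by
  obtain ⟨x, y⟩ := w
  have h1 := (hh x y).1
  have h2 := (hh x (y - 1)).2
  simp only [dg] at *
  cases h3 : a (Sum.inl (x, y)) <;> cases h4 : a (Sum.inr (x, y - 1)) <;>
    simp only [h3, h4, Bool.false_eq_true, if_false, if_true] at h1 h2 ⊢ <;> symm <;>
    simp <;> omega

lemma ag_iff {a : Ori (ℤ × ℤ)} {h : Hgt} (hh : IsHeight a h) (w : Pt) :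
    ag a w = decide (h (w.1 - 1, w.2) = h (w.1, w.2 - 1)) := by
  obtain ⟨x, y⟩ := w
  have h1 := (hh x y).1
  have h2 := (hh x y).2
  simp only [ag] at *
  cases h3 : a (Sum.inl (x, y)) <;> cases h4 : a (Sum.inr (x, y)) <;>
    simp only [h3, h4, Bool.false_eq_true, if_false, if_true] at h1 h2 ⊢ <;> symm <;>
    simp <;> omega

lemma ev_iff {a : Ori (ℤ × ℤ)} {h : Hgt} (hh : IsHeight a h) (w : Pt) :
    ev a w = decide (h (e1 w) = h (e2 w)) := by
  unfold ev e1 e2
  split_ifs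
  · exact dg_iff hh w
  · exact ag_iff hh w

lemma od_iff {a : Ori (ℤ × ℤ)} {h : Hgt} (hh : IsHeight a h) (w : Pt) :
    od a w = decide (h (o1 w) = h (o2 w)) := by
  unfold od o1 o2
  split_ifs
  · exact ag_iff hh w
  · exact dg_iff hh w

lemma oma_eq_om {a : Ori (ℤ × ℤ)} {h : Hgt} (hh : IsHeight a h) (ξ : Mk) :
    oma a ξ = om h ξ := by
  funext w
  unfold oma om
  rw [ev_iff hh, od_iff hh]

/-! ### The measures -/

/-- `t` truncated to `[0, 1]`. -/
noncomputable def cl (t : ℝ) : ℝ := max 0 (min t 1)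

lemma cl_eq {t : ℝ} (h0 : 0 ≤ t) (h1 : t ≤ 1) : cl t = t := by
  unfold cl; rw [min_eq_left h1, max_eq_right h0]

lemma cl_nonneg (t : ℝ) : 0 ≤ cl t := le_max_left _ _

lemma cl_le (t : ℝ) : cl t ≤ 1 := max_le zero_le_one (min_le_right _ _)

/-- Bernoulli measure. -/
noncomputable def bern (t : ℝ) : Measure Bool :=
  ENNReal.ofReal (cl t) • Measure.dirac true + ENNReal.ofReal (1 - cl t) • Measure.dirac false

instance (t : ℝ) : IsProbabilityMeasure (bern t) := by
  constructor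
  simp only [bern, Measure.coe_add, Measure.coe_smul, Pi.add_apply, Pi.smul_apply, smul_eq_mul,
    measure_univ, mul_one]
  rw [← ENNReal.ofReal_add (cl_nonneg t) (by linarith [cl_le t])]
  simp

lemma bern_real (t : ℝ) (T : Set Bool) [Decidable (true ∈ T)] [Decidable (false ∈ T)] :
    (bern t).real T = (if true ∈ T then cl t else 0) + (if false ∈ T then 1 - cl t else 0) := by
  have hT : MeasurableSet T := by measurability
  have h1 : bern t T = ENNReal.ofReal (cl t) * Measure.dirac true T +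
      ENNReal.ofReal (1 - cl t) * Measure.dirac false T := by
    simp only [bern, Measure.coe_add, Measure.coe_smul, Pi.add_apply, Pi.smul_apply, MeasurableSpace.measurableSet_top, Measure.dirac_apply', smul_eq_mul]
  rw [Measure.real, h1, Measure.dirac_apply' _ hT, Measure.dirac_apply' _ hT]
  by_cases ht : true ∈ T <;> by_cases hf : false ∈ T <;>
    simp [ht, hf, cl_nonneg, cl_le, ENNReal.toReal_add]

/-- The law of the marks. -/
noncomputable def mkm (t : ℝ) : Measure Mk := Measure.infinitePi fun _ : ℤ × ℤ => bern t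

instance (t : ℝ) : IsProbabilityMeasure (mkm t) := by unfold mkm; infer_instance

/-- Joint law of the arrows and the bonds. -/
noncomputable def JO (t : ℝ) (P : Measure (Ori (ℤ × ℤ))) : Measure (Ori (ℤ × ℤ) × Mk) :=
  (P.prod (mkm t)).map fun x => (x.1, oma x.1 x.2)

/-- Heights with base value `2 k` at the face `0`. -/
noncomputable def hk (k : ℤ) (x : Ori (ℤ × ℤ) × Mk) : Hgt × Mk := (fun q => pth x.1 q + 2 * k, x.2)

/-- Joint law of the heights and the bonds. -/
noncomputable def J (t : ℝ) (P : Measure (Ori (ℤ × ℤ))) : Measure (Hgt × Mk) :=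
  (2 : ENNReal)⁻¹ • (JO t P).map (hk 0) + (2 : ENNReal)⁻¹ • (JO t P).map (hk 1)

/-! ### The fine lattice

The points with two even coordinates are the vertices of the Ashkin-Teller lattice, the points with
two odd coordinates its faces and the other points its edges. -/

/-- The face of the six-vertex lattice at the point `p`, `p.1 + p.2` even. -/
def fc (p : Pt) : Pt := ((p.1 + p.2) / 2, (p.1 - p.2) / 2)

/-- The vertex of the six-vertex lattice at the point `p`, `p.1 + p.2` odd. -/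
def vx (p : Pt) : Pt := ((p.1 + p.2 + 1) / 2, (p.1 - p.2 + 1) / 2)

/-- The open bonds with spin plus, as a subset of the fine lattice. -/
def SP (x : Hgt × Mk) : Set Pt :=
  {p | (Even p.1 ∧ Even p.2 ∧ x.1 (fc p) % 4 = 0) ∨
    (Odd (p.1 + p.2) ∧ x.2 (vx p) = true ∧ x.1 (e1 (vx p)) % 4 = 0)}

/-! ### Measurability -/

lemma measurable_oma_apply (w : Pt) :
    Measurable fun x : Ori (ℤ × ℤ) × Mk => oma x.1 x.2 w := by
  have h1 : Measurable fun x : Ori (ℤ × ℤ) × Mk =>
      (x.1 (Sum.inl w), x.1 (Sum.inr w), x.1 (Sum.inr (w.1, w.2 - 1)), x.2 w) := by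
    refine ((measurable_pi_apply _).comp measurable_fst).prodMk
      (((measurable_pi_apply _).comp measurable_fst).prodMk
        (((measurable_pi_apply _).comp measurable_fst).prodMk
          ((measurable_pi_apply _).comp measurable_snd)))
  by_cases hw : Even (w.1 + w.2)
  · have h2 : (fun x : Ori (ℤ × ℤ) × Mk => oma x.1 x.2 w) =
        (fun y : Bool × Bool × Bool × Bool => !(y.1 != y.2.1) || ((y.1 == y.2.2.1) && y.2.2.2)) ∘
        fun x => (x.1 (Sum.inl w), x.1 (Sum.inr w), x.1 (Sum.inr (w.1, w.2 - 1)), x.2 w) := by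
      funext x
      simp only [oma, od, hw, ↓reduceIte, ag, ev, dg, Function.comp_apply]
    rw [h2]
    exact (measurable_of_finite _).comp h1
  · have h2 : (fun x : Ori (ℤ × ℤ) × Mk => oma x.1 x.2 w) =
        (fun y : Bool × Bool × Bool × Bool => !(y.1 == y.2.2.1) || ((y.1 != y.2.1) && y.2.2.2)) ∘
        fun x => (x.1 (Sum.inl w), x.1 (Sum.inr w), x.1 (Sum.inr (w.1, w.2 - 1)), x.2 w) := by
      funext x
      simp only [oma, od, hw, ↓reduceIte, dg, ev, ag, Function.comp_apply]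
    rw [h2]
    exact (measurable_of_finite _).comp h1

lemma measurable_oma :
    Measurable fun x : Ori (ℤ × ℤ) × Mk => (x.1, oma x.1 x.2) :=
  measurable_fst.prodMk (measurable_pi_lambda _ fun w => measurable_oma_apply w)

lemma measurable_pth_apply (q : ℤ × ℤ) : Measurable fun a : Ori (ℤ × ℤ) => pth a q := by
  have h1 : ∀ e : Edge (ℤ × ℤ), Measurable fun a : Ori (ℤ × ℤ) => sgb (a e) := fun e =>
    (measurable_of_finite sgb).comp (measurable_pi_apply e)
  unfold pth anti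
  exact ((Finset.measurable_sum _ fun i _ => h1 _).sub (Finset.measurable_sum _ fun i _ => h1 _)).sub
    ((Finset.measurable_sum _ fun i _ => h1 _).sub (Finset.measurable_sum _ fun i _ => h1 _))

lemma measurable_hk (k : ℤ) : Measurable (hk k) :=
  (measurable_pi_lambda _ fun q =>
    ((measurable_pth_apply q).comp measurable_fst).add measurable_const).prodMk measurable_snd

instance JO_prob (t : ℝ) (P : Measure (Ori (ℤ × ℤ))) [IsProbabilityMeasure P] :
    IsProbabilityMeasure (JO t P) :=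
  Measure.isProbabilityMeasure_map measurable_oma.aemeasurable

instance J_prob (t : ℝ) (P : Measure (Ori (ℤ × ℤ))) [IsProbabilityMeasure P] :
    IsProbabilityMeasure (J t P) := by
  have h0 : IsProbabilityMeasure ((JO t P).map (hk 0)) :=
    Measure.isProbabilityMeasure_map (measurable_hk 0).aemeasurable
  have h1 : IsProbabilityMeasure ((JO t P).map (hk 1)) :=
    Measure.isProbabilityMeasure_map (measurable_hk 1).aemeasurable
  constructor
  simp only [J, Measure.coe_add, Measure.coe_smul, Pi.add_apply, Pi.smul_apply, smul_eq_mul,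
    measure_univ, mul_one]
  exact ENNReal.inv_two_add_inv_two

/-! ### Cylinder probabilities -/

/-- Conditional probability, given the arrows, that the bond `w` is in the state `b`. -/
noncomputable def kap (t : ℝ) (a : Ori (ℤ × ℤ)) (w : Pt) (b : Bool) : ℝ :=
  if od a w = true then
    if ev a w = true then (if b = true then t else 1 - t) else (if b = true then 0 else 1)
  else (if b = true then 1 else 0)

/-- Cylinders of arrows and bonds. -/
def cylO (E : Finset (Edge (ℤ × ℤ))) (W : Finset Pt) (a : Ori (ℤ × ℤ)) (o : Mk) :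
    Set (Ori (ℤ × ℤ) × Mk) :=
  {x | (∀ e ∈ E, x.1 e = a e) ∧ ∀ w ∈ W, x.2 w = o w}

lemma evod_congr {a a' : Ori (ℤ × ℤ)} {w : Pt} (h : ∀ e ∈ FP.star w, a e = a' e) :
    ev a w = ev a' w ∧ od a w = od a' w := by
  have h1 := h (Sum.inl w) (by simp only [FP.star, mem_insert, Sum.inl.injEq, reduceCtorEq, mem_singleton, or_self, or_false, or_true])
  have h2 := h (Sum.inr w) (by simp only [FP.star, mem_insert, reduceCtorEq, Sum.inr.injEq, mem_singleton, or_true])
  have h3 := h (Sum.inr (w.1, w.2 - 1)) (by simp only [FP.star, mem_insert, reduceCtorEq, mem_singleton, Sum.inr.injEq, true_or, or_true])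
  simp only [ev, dg, h1, h3, ag, h2, od, and_self]

lemma kap_congr {t : ℝ} {a a' : Ori (ℤ × ℤ)} {w : Pt} (h : ∀ e ∈ FP.star w, a e = a' e) (b : Bool) :
    kap t a w b = kap t a' w b := by
  unfold kap
  rw [(evod_congr h).1, (evod_congr h).2]

theorem JO_cyl {t : ℝ} (ht0 : 0 ≤ t) (ht1 : t ≤ 1) (P : Measure (Ori (ℤ × ℤ)))
    [IsProbabilityMeasure P] {E : Finset (Edge (ℤ × ℤ))} {W : Finset Pt}
    (hE : ∀ w ∈ W, FP.star w ⊆ E) (a : Ori (ℤ × ℤ)) (o : Mk) :
    (JO t P).real (cylO E W a o) = P.real (cyl E a) * ∏ w ∈ W, kap t a w (o w) := by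
  classical
  have hmc : MeasurableSet (cylO E W a o) := by
    have h1 : cylO E W a o = (⋂ e ∈ E, (fun x : Ori (ℤ × ℤ) × Mk => x.1 e) ⁻¹' {a e}) ∩
        ⋂ w ∈ W, (fun x : Ori (ℤ × ℤ) × Mk => x.2 w) ⁻¹' {o w} := by
      ext x; simp only [cylO, Sum.forall, Prod.forall, Set.mem_ofPred_eq, Set.mem_inter_iff, Set.mem_iInter, Set.mem_preimage, Set.mem_singleton_iff]
    rw [h1]
    refine MeasurableSet.inter (Finset.measurableSet_biInter _ fun e _ => ?_)
      (Finset.measurableSet_biInter _ fun w _ => ?_)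
    · exact ((measurable_pi_apply e).comp measurable_fst) (measurableSet_singleton _)
    · exact ((measurable_pi_apply w).comp measurable_snd) (measurableSet_singleton _)
  have h1 : (fun x : Ori (ℤ × ℤ) × Mk => (x.1, oma x.1 x.2)) ⁻¹' (cylO E W a o) =
      (cyl E a) ×ˢ (Set.pi (W : Set Pt) fun w => {b | (!(od a w) || (ev a w && b)) = o w}) := by
    ext x
    simp only [cylO, Set.mem_preimage, Set.mem_ofPred_eq, Set.mem_prod, cyl, Set.mem_pi,
      Finset.mem_coe]
    refine and_congr_right fun hx => forall₂_congr fun w hw => ?_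
    have h2 := evod_congr (a := x.1) (a' := a) (w := w) fun e he => hx e (hE w hw he)
    rw [oma, h2.1, h2.2]
  rw [JO, Measure.real, Measure.map_apply measurable_oma hmc, h1, Measure.prod_prod,
    ENNReal.toReal_mul]
  congr 1
  rw [mkm, Measure.infinitePi_pi _ (fun w _ => by measurability), ENNReal.toReal_prod]
  refine Finset.prod_congr rfl fun w _ => ?_
  have h3 := bern_real t {b | (!(od a w) || (ev a w && b)) = o w}
  rw [Measure.real] at h3
  rw [h3, cl_eq ht0 ht1]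
  unfold kap
  cases h4 : od a w <;> cases h5 : ev a w <;> cases h6 : o w <;> simp

end Vale.Agent.P145.FB
end

section

/-!
# P145, block F-B: the measure on absolute heights and bonds

`MU t P` is the law of (heights, bonds) for the infinite measure `mu0 P` on the absolute heights; it
is the sum over the even constants `2 k` of the laws of `hk k` under `JO t P`.
-/

namespace Vale.Agent.P145.FB

open Finset Filter Topology MeasureTheory
open Vale.Agent.P152 (Edge Ori Ice sgb pth IsHeight)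
open Vale.Agent.P145.FA (Hgt mu0)

/-- Law of the absolute heights and of the bonds. -/
noncomputable def MU (t : ℝ) (P : Measure (Ori (ℤ × ℤ))) : Measure (Hgt × Mk) :=
  ((mu0 P).prod (mkm t)).map fun x => (x.1, om x.1 x.2)

theorem measurable_om : Measurable fun x : Hgt × Mk => (x.1, om x.1 x.2) := by
  refine measurable_fst.prodMk (measurable_pi_lambda _ fun w => ?_)
  have h0 : ∀ q : Pt, Measurable fun x : Hgt × Mk => x.1 q := fun q =>
    (measurable_pi_apply q).comp measurable_fst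
  have h1 : Measurable fun x : Hgt × Mk =>
      (x.1 (o1 w), x.1 (o2 w), x.1 (e1 w), x.1 (e2 w), x.2 w) :=
    (h0 _).prodMk ((h0 _).prodMk ((h0 _).prodMk ((h0 _).prodMk
      ((measurable_pi_apply w).comp measurable_snd))))
  have h2 : (fun x : Hgt × Mk => om x.1 x.2 w) =
      (fun y : ℤ × ℤ × ℤ × ℤ × Bool =>
        !(decide (y.1 = y.2.1)) || (decide (y.2.2.1 = y.2.2.2.1) && y.2.2.2.2)) ∘
      fun x => (x.1 (o1 w), x.1 (o2 w), x.1 (e1 w), x.1 (e2 w), x.2 w) := rfl
  rw [h2]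
  exact (measurable_of_countable _).comp h1

theorem measurable_pthk (k : ℤ) : Measurable fun (a : Ori (ℤ × ℤ)) q => pth a q + 2 * k :=
  measurable_pi_lambda _ fun q => (measurable_pth_apply q).add measurable_const

/-- The bonds do not depend on the constant. -/
theorem om_add (h : Hgt) (c : ℤ) (ξ : Mk) : om (fun q => h q + c) ξ = om h ξ := by
  funext w
  simp only [om, add_left_inj]

theorem MU_eq {t : ℝ} {P : Measure (Ori (ℤ × ℤ))} [IsProbabilityMeasure P]
    (hice : ∀ᵐ a ∂P, ∀ x y, Ice a x y) :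
    MU t P = Measure.sum fun k : ℤ => (JO t P).map (hk k) := by
  have hpr : ∀ k : ℤ, IsProbabilityMeasure (P.map fun ω q => pth ω q + 2 * k) := fun k =>
    Measure.isProbabilityMeasure_map (measurable_pthk k).aemeasurable
  rw [MU, mu0, Measure.prod_sum_left, Measure.map_sum measurable_om.aemeasurable]
  congr 1
  funext k
  have e1 : (P.map fun (ω : Ori (ℤ × ℤ)) q => pth ω q + 2 * k).prod (mkm t) =
      (P.prod (mkm t)).map (Prod.map (fun (ω : Ori (ℤ × ℤ)) q => pth ω q + 2 * k) id) := by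
    rw [← Measure.map_prod_map _ _ (measurable_pthk k) measurable_id, Measure.map_id]
  rw [e1, Measure.map_map measurable_om ((measurable_pthk k).prodMap measurable_id), JO,
    Measure.map_map (measurable_hk k) measurable_oma]
  refine Measure.map_congr ?_
  have hice2 : ∀ᵐ x ∂(P.prod (mkm t)), ∀ i j, Ice x.1 i j :=
    Measure.quasiMeasurePreserving_fst.ae hice
  filter_upwards [hice2] with x hx
  show ((fun q => pth x.1 q + 2 * k, om (fun q => pth x.1 q + 2 * k) x.2) : Hgt × Mk) =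
    (fun q => pth x.1 q + 2 * k, oma x.1 x.2)
  rw [om_add, oma_eq_om (FP.isHeight_pth hx)]

theorem MU_apply {t : ℝ} {P : Measure (Ori (ℤ × ℤ))} [IsProbabilityMeasure P]
    (hice : ∀ᵐ a ∂P, ∀ x y, Ice a x y) {A : Set (Hgt × Mk)} (hA : MeasurableSet A) :
    MU t P A = ∑' k : ℤ, JO t P (hk k ⁻¹' A) := by
  rw [MU_eq hice, Measure.sum_apply _ hA]
  refine tsum_congr fun k => ?_
  rw [Measure.map_apply (measurable_hk k) hA]

end Vale.Agent.P145.FB
end

section

/-!
P145, X-level: the law of the absolute heights and the bonds. The measure of an event at level 0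
is twice the probability that the event occurs at some level divisible by four. Gap estimate: given
the circuits of the chains, the gaps are closed at level 0 up to a small proportion.
-/

namespace Vale.Agent.P145.X

open Finset Filter Topology MeasureTheory
open Vale.Agent.P152 (Ori)
open Vale.Agent.P145.FA (Hgt)
open Vale.Agent.P145.FB

/-- `P` times the counting measure on the even constants, with the bonds. -/
noncomputable def Jmu (t : ℝ) (P : Measure (Ori (ℤ × ℤ))) : Measure (Hgt × Mk) :=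
  Measure.sum fun k : ℤ => (JO t P).map (hk k)

theorem real_le_of_ae {Ω : Type*} [MeasurableSpace Ω] {μ : Measure Ω} [IsFiniteMeasure μ]
    {S T : Set Ω} (h : ∀ᵐ x ∂μ, x ∈ S → x ∈ T) : μ.real S ≤ μ.real T :=
  ENNReal.toReal_mono (measure_ne_top _ _) (measure_mono_ae h)

/-- Shift of the heights by `2 * j`. -/
def sh (j : ℤ) (x : Hgt × Mk) : Hgt × Mk := (fun q => x.1 q + 2 * j, x.2)

theorem sh_hk (j k : ℤ) (x : Ori (ℤ × ℤ) × Mk) : sh j (hk k x) = hk (k + j) x := by
  unfold sh hk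
  refine Prod.ext ?_ rfl
  funext q
  simp only
  ring

theorem MU_eq_Jmu {t : ℝ} {P : Measure (Ori (ℤ × ℤ))} [IsProbabilityMeasure P]
    (hice : ∀ᵐ ω ∂P, ∀ x y, P152.Ice ω x y) : MU t P = Jmu t P := MU_eq hice

/-- A family of events indexed by the levels, shift covariant. -/
structure LevFam (E : ℤ → Set (Hgt × Mk)) : Prop where
  meas : ∀ l, MeasurableSet (E l)
  cov : ∀ l j x, sh j x ∈ E (l + 2 * j) ↔ x ∈ E l

/-- The event occurs at some level divisible by four. -/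
def some4 (E : ℤ → Set (Hgt × Mk)) : Set (Hgt × Mk) := {x | ∃ l, 4 ∣ l ∧ x ∈ E l}

theorem some4_eq (E : ℤ → Set (Hgt × Mk)) : some4 E = ⋃ j : ℤ, E (-(4 * j)) := by
  ext x
  simp only [some4, Set.mem_ofPred_eq, Set.mem_iUnion]
  constructor
  · rintro ⟨l, ⟨m, rfl⟩, h⟩
    refine ⟨-m, ?_⟩
    have e : -(4 * -m) = 4 * m := by ring
    rw [e]; exact h
  · rintro ⟨j, h⟩
    exact ⟨_, ⟨-j, by ring⟩, h⟩

theorem LevFam.meas_some4 {E : ℤ → Set (Hgt × Mk)} (hE : LevFam E) : MeasurableSet (some4 E) := by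
  rw [some4_eq]
  exact MeasurableSet.iUnion fun j => hE.meas _

theorem LevFam.inter {E F : ℤ → Set (Hgt × Mk)} (hE : LevFam E) (hF : LevFam F) :
    LevFam fun l => E l ∩ F l :=
  ⟨fun l => (hE.meas l).inter (hF.meas l),
    fun l j x => and_congr (hE.cov l j x) (hF.cov l j x)⟩

theorem LevFam.diff {E F : ℤ → Set (Hgt × Mk)} (hE : LevFam E) (hF : LevFam F) :
    LevFam fun l => E l \ F l :=
  ⟨fun l => (hE.meas l).diff (hF.meas l),
    fun l j x => and_congr (hE.cov l j x) (not_congr (hF.cov l j x))⟩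

section
variable {t : ℝ} {P : Measure (Ori (ℤ × ℤ))}

theorem Jmu_eq {E : ℤ → Set (Hgt × Mk)} (hE : LevFam E) :
    Jmu t P (E 0) = (∑' j : ℤ, (JO t P).map (hk 0) (E (-(4 * j)))) +
      ∑' j : ℤ, (JO t P).map (hk 1) (E (-(4 * j))) := by
  have h1 : ∀ (j i : ℤ), (JO t P).map (hk (j * 2 + i)) (E 0) =
      (JO t P).map (hk i) (E (-(4 * j))) := by
    intro j i
    rw [Measure.map_apply (measurable_hk _) (hE.meas _),
      Measure.map_apply (measurable_hk _) (hE.meas _)]
    congr 1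
    ext a
    simp only [Set.mem_preimage]
    have e1 : j * 2 + i = i + 2 * j := by ring
    rw [e1, ← sh_hk]
    have := hE.cov (-(4 * j)) (2 * j) (hk i a)
    have e : -(4 * j) + 2 * (2 * j) = 0 := by ring
    rw [e] at this
    exact this
  rw [Jmu, Measure.sum_apply _ (hE.meas 0),
    ← (Int.divModEquiv 2).symm.tsum_eq (fun k : ℤ => (JO t P).map (hk k) (E 0)),
    ← ENNReal.tsum_add]
  rw [ENNReal.tsum_prod' (f := fun c : ℤ × Fin 2 =>
    (JO t P).map (hk ((Int.divModEquiv 2).symm c)) (E 0))]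
  refine tsum_congr fun j => ?_
  rw [tsum_fintype, Fin.sum_univ_two, ← h1 j 0, ← h1 j 1]
  rfl

theorem J_some4 (E : ℤ → Set (Hgt × Mk)) :
    2 * J t P (some4 E) = (JO t P).map (hk 0) (some4 E) + (JO t P).map (hk 1) (some4 E) := by
  rw [J, Measure.add_apply, Measure.smul_apply, Measure.smul_apply, smul_eq_mul, smul_eq_mul,
    mul_add, ← mul_assoc, ← mul_assoc, ENNReal.mul_inv_cancel (by norm_num) (by norm_num), one_mul,
    one_mul]

/-- Twice the probability of the event at some level is at most the measure of the event at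
level 0. -/
theorem two_mul_J_le {E : ℤ → Set (Hgt × Mk)} (hE : LevFam E) :
    2 * J t P (some4 E) ≤ Jmu t P (E 0) := by
  rw [J_some4 E, Jmu_eq hE, some4_eq]
  exact add_le_add (measure_iUnion_le _) (measure_iUnion_le _)

/-- There is equality if the event occurs at one level at most. -/
theorem Jmu_eq_two_mul {E : ℤ → Set (Hgt × Mk)} (hE : LevFam E)
    (hu : ∀ x l l', x ∈ E l → x ∈ E l' → l = l') : Jmu t P (E 0) = 2 * J t P (some4 E) := by
  have hd : Pairwise (Function.onFun Disjoint fun j : ℤ => E (-(4 * j))) := by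
    intro i j hij
    rw [Function.onFun, Set.disjoint_left]
    intro x h1 h2
    have := hu x _ _ h1 h2
    omega
  rw [J_some4 E, Jmu_eq hE, some4_eq, measure_iUnion hd fun j => hE.meas _,
    measure_iUnion hd fun j => hE.meas _]

/-- **Gap estimate.** `X` is the event of the chains of circuits, `Z` the event that everything is
closed; `A` is the increasing event (circuits of spin plus), `B i` are the separations at the gaps. -/
theorem gap_bound [IsProbabilityMeasure P] {X Z : ℤ → Set (Hgt × Mk)} (hX : LevFam X)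
    (hZ : LevFam Z) (hu : ∀ x l l', x ∈ X l → x ∈ X l' → l = l') {A : Set (Hgt × Mk)} {m : ℕ}
    {B : Fin m → Set (Hgt × Mk)} (hB : ∀ i, MeasurableSet (B i))
    (hXA : ∀ᵐ x ∂(J t P), ∀ l, 4 ∣ l → x ∈ X l → x ∈ A)
    (hAZ : ∀ᵐ x ∂(J t P), x ∈ A → (∀ i, x ∈ B i) → ∃ l, 4 ∣ l ∧ x ∈ X l ∧ x ∈ Z l)
    (hfkg : ∀ i, (J t P).real A * (J t P).real (B i) ≤ (J t P).real (A ∩ B i)) :
    Jmu t P (X 0) < ⊤ ∧
    2 * (J t P).real A * (1 - ∑ i, (1 - (J t P).real (B i))) ≤ (Jmu t P).real (X 0) ∧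
    (Jmu t P).real (X 0 \ Z 0) ≤ 2 * (J t P).real A * ∑ i, (1 - (J t P).real (B i)) := by
  have hXe := Jmu_eq_two_mul (t := t) (P := P) hX hu
  have hDe := Jmu_eq_two_mul (t := t) (P := P) (hX.diff hZ)
    fun x l l' h h' => hu x l l' h.1 h'.1
  have hr1 : (Jmu t P).real (X 0) = 2 * (J t P).real (some4 X) := by
    rw [Measure.real, hXe, ENNReal.toReal_mul, Measure.real]; rfl
  have hr2 : (Jmu t P).real (X 0 \ Z 0) = 2 * (J t P).real (some4 fun l => X l \ Z l) := by
    rw [Measure.real, hDe, ENNReal.toReal_mul, Measure.real]; rfl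
  have hbad : (J t P).real (A ∩ ⋃ i, (B i)ᶜ) ≤
      (J t P).real A * ∑ i, (1 - (J t P).real (B i)) := by
    rw [Set.inter_iUnion]
    refine (measureReal_iUnion_fintype_le _).trans ?_
    rw [Finset.mul_sum]
    refine Finset.sum_le_sum fun i _ => ?_
    have h1 : (J t P).real (A ∩ B i) + (J t P).real (A ∩ (B i)ᶜ) = (J t P).real A := by
      rw [← Set.sdiff_eq, measureReal_inter_add_sdiff (hB i)]
    have := hfkg i
    nlinarith only [h1, this]
  refine ⟨?_, ?_, ?_⟩
  · rw [hXe]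
    exact ENNReal.mul_lt_top (by norm_num) (measure_lt_top _ _)
  · rw [hr1, mul_assoc]
    refine mul_le_mul_of_nonneg_left ?_ (by norm_num)
    have h1 : (J t P).real A ≤ (J t P).real (some4 X) + (J t P).real (A ∩ ⋃ i, (B i)ᶜ) := by
      refine (real_le_of_ae ?_).trans (measureReal_union_le (some4 X) (A ∩ ⋃ i, (B i)ᶜ))
      filter_upwards [hAZ] with x hx hxA
      by_cases hB' : ∀ i, x ∈ B i
      · obtain ⟨l, hl, h2, _⟩ := hx hxA hB'
        exact Or.inl ⟨l, hl, h2⟩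
      · push Not at hB'
        obtain ⟨i, hi⟩ := hB'
        exact Or.inr ⟨hxA, Set.mem_iUnion.2 ⟨i, hi⟩⟩
    rw [mul_sub, mul_one]
    linarith only [hbad, h1]
  · rw [hr2, mul_assoc]
    refine mul_le_mul_of_nonneg_left (le_trans ?_ hbad) (by norm_num)
    refine real_le_of_ae ?_
    filter_upwards [hXA, hAZ] with x hx1 hx2 hx
    obtain ⟨l, hl, h1, h2⟩ := hx
    refine ⟨hx1 l hl h1, ?_⟩
    by_contra hc
    rw [Set.mem_iUnion] at hc
    push Not at hc
    obtain ⟨l', hl', h3, h4⟩ := hx2 (hx1 l hl h1) fun i => by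
      by_contra hi
      exact hc i hi
    rw [hu x l l' h1 h3] at h2
    exact h2 h4

end

end Vale.Agent.P145.X
end

section

/-!
P145, block F-A: directions, opposite directions.
-/

namespace Vale.Agent.P145.FA

open Finset Filter Topology MeasureTheory
open Vale.Agent.P152

/-- G0 -/
theorem s_good : S_good := by
  refine ⟨⟨⟨?_, ?_, ?_, ?_, ?_, ?_⟩, ⟨?_, ?_, ?_, ?_, ?_, ?_⟩, ⟨?_, ?_, ?_, ?_, ?_, ?_⟩,
    ⟨?_, ?_, ?_, ?_, ?_, ?_⟩⟩, ?_⟩
  · intro q r; simp only [dX, Prod.fst_add]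
  · simp [dX]
  · intro m q; simp [dX]
  · intro m q; ext <;> simp [dX]
  · intro m q; ext <;> simp only [dX, Prod.fst_add, Prod.snd_add, add_zero, Prod.mk_sub_mk, sub_zero]; ring
  · intro m q; ext <;> simp only [dX, Prod.mk_add_mk, add_zero]; ring
  · intro q r; simp only [dY, Prod.snd_add]
  · simp [dY]
  · intro m q; simp [dY]
  · intro m q; ext <;> simp [dY]
  · intro m q; ext <;> simp only [dY, Prod.fst_add, add_zero, Prod.snd_add, Prod.mk_sub_mk, sub_zero]; ring
  · intro m q; ext <;> simp only [dY, Prod.mk_add_mk, add_zero]; ring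
  · intro q r; simp only [dD, Int.reduceNeg, Prod.fst_add, Prod.snd_add]; ring
  · simp [dD]
  · intro m q; simp only [dD, Int.reduceNeg]; ring
  · intro m q; ext <;> simp [dD]
  · intro m q; ext <;> simp only [dD, Int.reduceNeg, Prod.snd_add, Prod.fst_add, Prod.mk_sub_mk, sub_neg_eq_add] <;> ring
  · intro m q; ext <;> simp [dD] <;> ring
  · intro q r; simp only [dA, Prod.fst_add, Prod.snd_add]; ring
  · simp [dA]
  · intro m q; simp only [dA]; ring
  · intro m q; ext <;> simp [dA]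
  · intro m q; ext <;> simp only [dA, Prod.snd_add, Prod.fst_add, Prod.mk_sub_mk] <;> ring
  · intro m q; ext <;> simp only [dA, Prod.mk_add_mk] <;> ring
  · intro D hD
    have hneg : ∀ q, D.l (-q) = - D.l q := by
      intro q
      have h0 : D.l 0 = 0 := by
        have := hD.l_add 0 0
        rw [add_zero] at this
        omega
      have := hD.l_add q (-q)
      rw [add_neg_cancel, h0] at this
      omega
    refine ⟨?_, ?_, ?_, ?_, ?_, ?_⟩
    · intro q r
      show - D.l (q + r) = - D.l q + - D.l r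
      rw [hD.l_add]; ring
    · show - D.l (- D.s) = 2
      rw [hneg, hD.l_s]; norm_num
    · intro m q
      show - D.l (D.θ (-m) q) = 2 * m - - D.l q
      rw [hD.l_θ]; ring
    · intro m q
      show D.θ (-m) (D.θ (-m) q) = q
      exact hD.θθ _ _
    · intro m q
      show D.θ (-m) (q + - D.s) = D.θ (-m) q - - D.s
      have := hD.θ_s (-m) (q + - D.s)
      rw [neg_add_cancel_right] at this
      rw [this, sub_neg_eq_add, sub_add_cancel]
    · intro m q
      show D.θ (-(m + 1)) q = D.θ (-m) q + - D.s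
      have := hD.θ_succ (-(m + 1)) q
      rw [show -(m + 1) + 1 = -m by ring] at this
      rw [this, add_neg_cancel_right]

/-! ### Local functionals -/

theorem measurable_pb (g : ℤ × ℤ → ℤ × ℤ) : Measurable (pb g) :=
  measurable_pi_lambda _ fun q => measurable_pi_apply (g q)

theorem Loc.measurable {R : Type} [MeasurableSpace R] {A : Set (ℤ × ℤ)} {F : Hgt → R}
    (h : Loc A F) : Measurable F := by
  obtain ⟨Λ, -, hΛ⟩ := h
  classical
  let e : (Λ → ℤ) → Hgt := fun x q => if hq : q ∈ Λ then x ⟨q, hq⟩ else 0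
  let r : Hgt → (Λ → ℤ) := fun h q => h q
  have h1 : F = (F ∘ e) ∘ r := by
    funext h
    refine hΛ _ _ (fun q hq => ?_)
    simp only [e, r, hq, dif_pos]
  rw [h1]
  refine (measurable_of_countable _).comp ?_
  exact measurable_pi_lambda _ fun q => measurable_pi_apply _

theorem Loc.comp_pb {R : Type} {A B : Set (ℤ × ℤ)} {F : Hgt → R} (h : Loc A F)
    (g : ℤ × ℤ → ℤ × ℤ) (hg : ∀ q ∈ A, g q ∈ B) : Loc B (fun h => F (pb g h)) := by
  classical
  obtain ⟨Λ, h1, h2⟩ := h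
  refine ⟨Λ.image g, ?_, ?_⟩
  · intro q hq
    obtain ⟨q', hq', rfl⟩ := Finset.mem_image.1 hq
    exact hg _ (h1 _ hq')
  · intro h h' hh
    exact h2 _ _ (fun q hq => hh _ (Finset.mem_image_of_mem g hq))

theorem Loc.mono {R : Type} {A B : Set (ℤ × ℤ)} {F : Hgt → R} (h : Loc A F) (hAB : A ⊆ B) :
    Loc B F := by
  obtain ⟨Λ, h1, h2⟩ := h
  exact ⟨Λ, fun q hq => hAB (h1 q hq), h2⟩

theorem Loc.mul {R : Type} [Mul R] {A B : Set (ℤ × ℤ)} {F G : Hgt → R} (h : Loc A F)
    (h' : Loc B G) : Loc (A ∪ B) (fun h => F h * G h) := by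
  classical
  obtain ⟨Λ, h1, h2⟩ := h
  obtain ⟨Λ', h1', h2'⟩ := h'
  refine ⟨Λ ∪ Λ', ?_, ?_⟩
  · intro q hq
    rcases Finset.mem_union.1 hq with hq | hq
    · exact Or.inl (h1 q hq)
    · exact Or.inr (h1' q hq)
  · intro h h' hh
    show F h * G h = F h' * G h'
    rw [h2 h h' fun q hq => hh q (Finset.mem_union_left _ hq),
      h2' h h' fun q hq => hh q (Finset.mem_union_right _ hq)]

theorem measurable_pth (q : ℤ × ℤ) : Measurable fun ω : Ori (ℤ × ℤ) => pth ω q := by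
  unfold pth
  unfold anti
  (clear * -; fun_prop)

theorem measurable_hgt (k : ℤ) :
    Measurable (fun ω : Ori (ℤ × ℤ) => fun q : ℤ × ℤ => pth ω q + 2 * k) :=
  measurable_pi_lambda _ fun q => (measurable_pth q).add_const _

theorem lintegral_mu0 (P : Measure (Ori (ℤ × ℤ))) {f : Hgt → ENNReal} (hf : Measurable f) :
    ∫⁻ h, f h ∂(mu0 P) = ∫⁻ ω, ∑' k : ℤ, f (fun q => pth ω q + 2 * k) ∂P := by
  unfold mu0
  rw [lintegral_sum_measure, lintegral_tsum]
  · refine tsum_congr fun k => ?_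
    rw [lintegral_map hf (measurable_hgt k)]
  · intro k
    exact (hf.comp (measurable_hgt k)).aemeasurable

/-- The height of a face in a window has finite mass. -/
theorem integrable_window (P : Measure (Ori (ℤ × ℤ))) [IsProbabilityMeasure P] (q : ℤ × ℤ)
    (K : ℕ) : Integrable (fun h : Hgt => if |h q| ≤ (K : ℤ) then (1 : ℝ) else 0) (mu0 P) := by
  classical
  have hmeas : Measurable (fun h : Hgt => if |h q| ≤ (K : ℤ) then (1 : ℝ) else 0) :=
    (measurable_of_countable (fun n : ℤ => if |n| ≤ (K : ℤ) then (1 : ℝ) else 0)).comp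
      (measurable_pi_apply q)
  refine ⟨hmeas.aestronglyMeasurable, ?_⟩
  unfold HasFiniteIntegral
  rw [lintegral_mu0 P hmeas.enorm]
  have hb : ∀ ω : Ori (ℤ × ℤ), ∑' k : ℤ, ‖(if |pth ω q + 2 * k| ≤ (K : ℤ) then (1 : ℝ) else 0)‖ₑ
      ≤ (2 * K + 1 : ℕ) := by
    intro ω
    set a := pth ω q with ha
    set S : Finset ℤ := (Finset.Icc (-(K + |a|)) (K + |a|)).filter fun k => |a + 2 * k| ≤ (K : ℤ)
      with hS
    rw [tsum_eq_sum (s := S)]
    · have h1 : ∀ k ∈ S, ‖(if |a + 2 * k| ≤ (K : ℤ) then (1 : ℝ) else 0)‖ₑ = 1 := by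
        intro k hk
        rw [if_pos (Finset.mem_filter.1 hk).2]
        simp only [enorm_one]
      rw [Finset.sum_congr rfl h1, Finset.sum_const, nsmul_eq_mul, mul_one]
      have h2 : S.card ≤ (Finset.Icc (-(K : ℤ)) K).card := by
        refine Finset.card_le_card_of_injOn (fun k => a + 2 * k) ?_ ?_
        · intro k hk
          have := (Finset.mem_filter.1 hk).2
          rw [abs_le] at this
          exact Finset.mem_coe.2 (Finset.mem_Icc.2 this)
        · intro k _ k' _ h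
          have h' : a + 2 * k = a + 2 * k' := h
          omega
      have h3 : (Finset.Icc (-(K : ℤ)) K).card = 2 * K + 1 := by
        rw [Int.card_Icc]; omega
      rw [h3] at h2
      exact_mod_cast h2
    · intro k hk
      have : ¬ |a + 2 * k| ≤ (K : ℤ) := by
        intro h
        apply hk
        refine Finset.mem_filter.2 ⟨Finset.mem_Icc.2 ?_, h⟩
        rw [abs_le] at h
        have h1 := le_abs_self a
        have h2 := neg_abs_le a
        have h3 := abs_nonneg a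
        constructor <;> omega
      rw [if_neg this]
      simp
  refine lt_of_le_of_lt (lintegral_mono hb) ?_
  rw [lintegral_const, measure_univ, mul_one]
  exact ENNReal.natCast_lt_top _

/-- Adm functionals: `F` times a window. -/
theorem integrable_mul_bdd {P : Measure (Ori (ℤ × ℤ))} {F G : Hgt → ℝ} {A : Set (ℤ × ℤ)}
    (hF : Integrable F (mu0 P)) (hG : Loc A G) {C : ℝ} (hC : ∀ h, ‖G h‖ ≤ C) :
    Integrable (fun h => F h * G h) (mu0 P) :=
  hF.mul_bdd hG.measurable.aestronglyMeasurable (Eventually.of_forall hC)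

/-- G1: opposite directions. -/
theorem s_neg : S_neg := by
  intro P _ D hD
  have hneg : ∀ q, D.l (-q) = - D.l q := by
    intro q
    have h0 : D.l 0 = 0 := by
      have := hD.l_add 0 0
      rw [add_zero] at this
      omega
    have := hD.l_add q (-q)
    rw [add_neg_cancel, h0] at this
    omega
  refine ⟨fun hRP m F hF => ?_, fun hInv => ⟨fun m => hInv.1 (-m), ?_⟩⟩
  · -- the functional `F ∘ θ` lives in the half plane of `D`
    show 0 ≤ ∫ h, F h * F (pb (D.θ (-m)) h) ∂(mu0 P)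
    obtain ⟨C, hC⟩ := hF.bdd
    have hC0 : 0 ≤ C := (norm_nonneg _).trans (hC 0)
    have hθθ : ∀ h : Hgt, pb (D.θ (-m)) (pb (D.θ (-m)) h) = h := by
      intro h; funext q
      show h (D.θ (-m) (D.θ (-m) q)) = h q
      rw [hD.θθ]
    -- a face of the half plane
    obtain ⟨q0, hq0⟩ : ∃ q0 : ℤ × ℤ, -m ≤ D.l q0 := by
      by_cases h : 0 ≤ m
      · refine ⟨0, ?_⟩
        have := hneg 0
        rw [neg_zero] at this
        omega
      · have h2 : ∀ n : ℕ, D.l (n • D.s) = 2 * n := by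
          intro n
          induction n with
          | zero =>
            have := hneg 0
            rw [neg_zero] at this
            rw [zero_nsmul]; push_cast; omega
          | succ n ih => rw [succ_nsmul, hD.l_add, ih, hD.l_s]; push_cast; ring
        refine ⟨(-m).toNat • D.s, ?_⟩
        rw [h2]; omega
    let w : ℕ → Hgt → ℝ := fun K h => if |h q0| ≤ (K : ℤ) then (1 : ℝ) else 0
    have hwloc : ∀ K, Loc {q | -m ≤ D.l q} (w K) := fun K =>
      ⟨{q0}, by simpa only [mem_singleton, Set.mem_ofPred_eq, forall_eq] using hq0, fun h h' hh => by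
        simp only [w, hh q0 (Finset.mem_singleton_self q0)]⟩
    have hwle : ∀ K h, ‖w K h‖ ≤ 1 := by
      intro K h
      simp only [w]
      split_ifs <;> simp
    have hFloc : Loc {q | -m ≤ D.l q} (fun h => F (pb (D.θ (-m)) h)) := by
      refine hF.loc.comp_pb _ (fun q hq => ?_)
      show -m ≤ D.l (D.θ (-m) q)
      have : m ≤ - D.l q := hq
      rw [hD.l_θ]; (clear * - this; omega)
    have hAdm : ∀ K, Adm P {q | -m ≤ D.l q} (fun h => F (pb (D.θ (-m)) h) * w K h) := by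
      intro K
      refine ⟨?_, ⟨C, fun h => ?_⟩, ?_⟩
      · exact (hFloc.mul (hwloc K)).mono (by simp only [Set.union_self, Std.le_refl])
      · rw [norm_mul]
        exact (mul_le_mul (hC _) (hwle K h) (norm_nonneg _) hC0).trans (by rw [mul_one])
      · have := integrable_mul_bdd (integrable_window P q0 K) hFloc (C := C) (fun h => hC _)
        refine this.congr (Eventually.of_forall fun h => ?_)
        show w K h * _ = _
        rw [mul_comm]
    have hpos : ∀ K, 0 ≤ ∫ h, F h * F (pb (D.θ (-m)) h) * (w K h * w K (pb (D.θ (-m)) h))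
        ∂(mu0 P) := by
      intro K
      have := hRP (-m) _ (hAdm K)
      refine this.trans (le_of_eq (integral_congr_ae (Eventually.of_forall fun h => ?_)))
      simp only [hθθ]
      ring
    refine ge_of_tendsto' (tendsto_integral_of_dominated_convergence (fun h => ‖F h‖ * C)
      (F := fun K h => F h * F (pb (D.θ (-m)) h) * (w K h * w K (pb (D.θ (-m)) h)))
      (f := fun h => F h * F (pb (D.θ (-m)) h)) ?_ ?_ ?_ ?_) hpos
    · intro K
      have h1 := (hwloc K).measurable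
      exact ((hF.loc.measurable.mul hFloc.measurable).mul
        (h1.mul (h1.comp (measurable_pb _)))).aestronglyMeasurable
    · exact hF.int.norm.mul_const C
    · intro K
      refine Eventually.of_forall fun h => ?_
      rw [norm_mul, norm_mul, norm_mul]
      have h1 := hwle K h
      have h2 := hwle K (pb (D.θ (-m)) h)
      have h3 : ‖w K h‖ * ‖w K (pb (D.θ (-m)) h)‖ ≤ 1 :=
        mul_le_one₀ h1 (norm_nonneg _) h2
      calc ‖F h‖ * ‖F (pb (D.θ (-m)) h)‖ * (‖w K h‖ * ‖w K (pb (D.θ (-m)) h)‖)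
          ≤ ‖F h‖ * C * 1 := by
            refine mul_le_mul ?_ h3 (by (clear * -; positivity)) (by (clear * - hC0; positivity))
            exact mul_le_mul_of_nonneg_left (hC _) (norm_nonneg _)
        _ = ‖F h‖ * C := mul_one _
    · refine Eventually.of_forall fun h => ?_
      refine tendsto_const_nhds.congr' ?_
      filter_upwards [eventually_ge_atTop ((|h q0| + |pb (D.θ (-m)) h q0|).toNat)] with K hK
      have h1 := abs_nonneg (h q0)
      have h2 := abs_nonneg (pb (D.θ (-m)) h q0)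
      have e1 : w K h = 1 := if_pos (by omega)
      have e2 : w K (pb (D.θ (-m)) h) = 1 := if_pos (by omega)
      rw [e1, e2]; ring
  · show (mu0 P).map (pb (fun q => q + - D.s)) = mu0 P
    conv_lhs => rw [← hInv.2]
    rw [Measure.map_map (measurable_pb _) (measurable_pb _)]
    have : (pb (fun q => q + - D.s) ∘ pb (fun q => q + D.s)) = id := by
      funext h q
      show h (q + - D.s + D.s) = h q
      rw [neg_add_cancel_right]
    rw [this, Measure.map_id]

end Vale.Agent.P145.FA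
end

section

/-!
P145, block F-A: reflection positivity of the heights from reflection positivity of the arrows.
-/

namespace Vale.Agent.P145.FA

open Finset Filter Topology MeasureTheory
open Vale.Agent.P152

theorem sum_Ioc_tel {G g : ℤ → ℤ} (h : ∀ i, G i - G (i - 1) = g i) {m n : ℤ} (hmn : m ≤ n) :
    ∑ i ∈ Finset.Ioc m n, g i = G n - G m := by
  induction n, hmn using Int.leInduction with
  | base => simp
  | succ n hn ih =>
    have e1 : Finset.Ioc m (n + 1) = insert (n + 1) (Finset.Ioc m n) := by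
      ext i; simp only [Finset.mem_Ioc, Finset.mem_insert]; omega
    rw [e1, Finset.sum_insert (by simp only [mem_Ioc, Order.lt_add_one_iff, add_le_iff_nonpos_right, Int.reduceLE, and_false, not_false_eq_true]), ih, ← h (n + 1), add_sub_cancel_right]
    ring

/-- Heights along paths that stay in a half plane. -/
structure Lift (D : Dir) (R : ℤ → Ori (ℤ × ℤ) → Ori (ℤ × ℤ)) (m : ℤ) where
  b : ℤ × ℤ
  hb : D.θ m b = b
  H : Ori (ℤ × ℤ) → Hgt
  loc : ∀ q, m ≤ D.l q → ∃ Λ : Finset (Edge (ℤ × ℤ)), (∀ e ∈ Λ, e ∈ Half D m) ∧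
    ∀ ω ω', (∀ e ∈ Λ, ω e = ω' e) → H ω q = H ω' q
  hH : ∀ ω h, IsHeight ω h → ∀ q, m ≤ D.l q → H ω q = h q - h b
  hR : ∀ ω h, IsHeight ω h → IsHeight (R m ω) (fun q => h (D.θ m q))

theorem rp_of_grp (hbase : S_base) {c : ℝ} {P : Measure (Ori (ℤ × ℤ))} (hP : Pl c P) (D : Dir)
    (R : ℤ → Ori (ℤ × ℤ) → Ori (ℤ × ℤ)) (L : ∀ m, Lift D R m) (h : GRP P D R) : RP P D := by
  classical
  intro m F hF
  have := hP.prob
  obtain ⟨C, hC⟩ := hF.bdd
  have hint : Integrable (fun h => F h * F (pb (D.θ m) h)) (mu0 P) :=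
    hF.int.mul_bdd (hF.loc.measurable.comp (measurable_pb _)).aestronglyMeasurable
      (Eventually.of_forall fun h => hC _)
  have hs := hbase c P hP (L m).b ℝ _ hint
  rw [← hs.tsum_eq]
  refine tsum_nonneg fun k => ?_
  set b := (L m).b with hb
  set v : ℤ := 2 * k + b.1 + b.2 with hv
  let f : Ori (ℤ × ℤ) → ℝ := fun ω => F (fun q => (L m).H ω q + v)
  obtain ⟨Λ, h1, h2⟩ := hF.loc
  choose! Λ' h3 h4 using (L m).loc
  have hf := h m f (Λ.biUnion Λ') (by
      intro e he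
      obtain ⟨q, hq, he⟩ := Finset.mem_biUnion.1 he
      exact h3 q (h1 q hq) e he) (by
      intro ω ω' hω
      refine h2 _ _ (fun q hq => ?_)
      show (L m).H ω q + v = (L m).H ω' q + v
      rw [h4 q (h1 q hq) ω ω' fun e he => hω e (Finset.mem_biUnion.2 ⟨q, hq, he⟩)])
  refine hf.trans (le_of_eq (integral_congr_ae ?_))
  filter_upwards [hP.ice] with ω hω
  have hh := pth_isHeight hω
  have e1 : f ω = F (fun q => pth ω q - pth ω b + v) := by
    refine h2 _ _ (fun q hq => ?_)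
    show (L m).H ω q + v = _
    rw [(L m).hH ω _ hh q (h1 q hq)]
  have e2 : f (R m ω) = F (pb (D.θ m) (fun q => pth ω q - pth ω b + v)) := by
    refine h2 _ _ (fun q hq => ?_)
    show (L m).H (R m ω) q + v = pth ω (D.θ m q) - pth ω b + v
    rw [(L m).hH _ _ ((L m).hR ω _ hh) q (h1 q hq), (L m).hb]
  show f ω * f (R m ω) = _
  rw [e1, e2]

theorem sgb_not (x : Bool) : sgb (!x) = - sgb x := by cases x <;> rfl

theorem isHeight_iff {ω : Ori (ℤ × ℤ)} {h : Hgt} : IsHeight ω h ↔ ∀ x y : ℤ,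
    h (x, y) - h (x, y - 1) = sgb (ω (Sum.inl (x, y))) ∧
    h (x - 1, y) - h (x, y) = sgb (ω (Sum.inr (x, y))) := Iff.rfl

noncomputable def liftX (m : ℤ) : Lift dX RX m where
  b := (m, 0)
  hb := by simp [dX]; ring
  H := fun ω q => anti (fun j => sgb (ω (Sum.inl (m, j)))) q.2 -
    ∑ i ∈ Finset.Ioc m q.1, sgb (ω (Sum.inr (i, q.2)))
  loc := by
    classical
    intro q hq
    refine ⟨(Finset.Icc (-|q.2|) |q.2|).image (fun j => Sum.inl (m, j)) ∪
      (Finset.Ioc m q.1).image (fun i => Sum.inr (i, q.2)), ?_, ?_⟩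
    · intro e he
      rcases Finset.mem_union.1 he with he | he
      · obtain ⟨j, hj, rfl⟩ := Finset.mem_image.1 he
        exact ⟨le_rfl, le_rfl⟩
      · obtain ⟨i, hi, rfl⟩ := Finset.mem_image.1 he
        rw [Finset.mem_Ioc] at hi
        refine ⟨?_, ?_⟩
        · show m ≤ i; omega
        · show m ≤ i - 1; omega
    · intro ω ω' h
      congr 1
      · refine anti_congr (fun i hi => ?_)
        rw [h _ (Finset.mem_union_left _ (Finset.mem_image_of_mem _
          (Finset.mem_Icc.2 (abs_le.1 hi))))]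
      · refine Finset.sum_congr rfl (fun i hi => ?_)
        rw [h _ (Finset.mem_union_right _ (Finset.mem_image_of_mem _ hi))]
  hH := by
    intro ω h hh q hq
    obtain ⟨x, y⟩ := q
    have e1 : h (m, y) - h (m, 0) = anti (fun j => sgb (ω (Sum.inl (m, j)))) y :=
      anti_unique (F := fun y => h (m, y)) (fun n => (hh m n).1) y
    have e2 : ∑ i ∈ Finset.Ioc m x, sgb (ω (Sum.inr (i, y))) = - h (x, y) - - h (m, y) :=
      sum_Ioc_tel (G := fun x => - h (x, y)) (fun i => by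
        have := (isHeight_iff.1 hh i y).2
        linarith) hq
    show anti _ y - ∑ i ∈ Finset.Ioc m x, sgb (ω (Sum.inr (i, y))) = h (x, y) - h (m, 0)
    rw [← e1, e2]; ring
  hR := by
    intro ω h hh
    rw [isHeight_iff] at hh ⊢
    intro x y
    refine ⟨?_, ?_⟩
    · exact (hh (2 * m - x) y).1
    · show h (2 * m - (x - 1), y) - h (2 * m - x, y) = sgb (!(ω (Sum.inr (2 * m - x + 1, y))))
      rw [sgb_not, ← (hh (2 * m - x + 1) y).2,
        show 2 * m - (x - 1) = 2 * m - x + 1 by ring, add_sub_cancel_right]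
      ring

noncomputable def liftY (m : ℤ) : Lift dY RY m where
  b := (0, m)
  hb := by simp [dY]; ring
  H := fun ω q => - anti (fun i => sgb (ω (Sum.inr (i, m)))) q.1 +
    ∑ j ∈ Finset.Ioc m q.2, sgb (ω (Sum.inl (q.1, j)))
  loc := by
    classical
    intro q hq
    refine ⟨(Finset.Icc (-|q.1|) |q.1|).image (fun j => Sum.inr (j, m)) ∪
      (Finset.Ioc m q.2).image (fun i => Sum.inl (q.1, i)), ?_, ?_⟩
    · intro e he
      rcases Finset.mem_union.1 he with he | he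
      · obtain ⟨j, hj, rfl⟩ := Finset.mem_image.1 he
        exact ⟨le_rfl, le_rfl⟩
      · obtain ⟨i, hi, rfl⟩ := Finset.mem_image.1 he
        rw [Finset.mem_Ioc] at hi
        refine ⟨?_, ?_⟩
        · show m ≤ i; omega
        · show m ≤ i - 1; omega
    · intro ω ω' h
      congr 1
      · congr 1
        refine anti_congr (fun i hi => ?_)
        rw [h _ (Finset.mem_union_left _ (Finset.mem_image_of_mem _
          (Finset.mem_Icc.2 (abs_le.1 hi))))]
      · refine Finset.sum_congr rfl (fun i hi => ?_)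
        rw [h _ (Finset.mem_union_right _ (Finset.mem_image_of_mem _ hi))]
  hH := by
    intro ω h hh q hq
    obtain ⟨x, y⟩ := q
    have e1 : - h (x, m) - - h (0, m) = anti (fun j => sgb (ω (Sum.inr (j, m)))) x :=
      anti_unique (F := fun x => - h (x, m)) (fun n => by
        have := (isHeight_iff.1 hh n m).2
        linarith) x
    have e2 : ∑ i ∈ Finset.Ioc m y, sgb (ω (Sum.inl (x, i))) = h (x, y) - h (x, m) :=
      sum_Ioc_tel (G := fun y => h (x, y)) (fun i => (isHeight_iff.1 hh x i).1) hq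
    show - anti _ x + ∑ i ∈ Finset.Ioc m y, sgb (ω (Sum.inl (x, i))) = h (x, y) - h (0, m)
    rw [← e1, e2]; ring
  hR := by
    intro ω h hh
    rw [isHeight_iff] at hh ⊢
    intro x y
    refine ⟨?_, ?_⟩
    · show h (x, 2 * m - y) - h (x, 2 * m - (y - 1)) = sgb (!(ω (Sum.inl (x, 2 * m - y + 1))))
      rw [sgb_not, ← (hh x (2 * m - y + 1)).1,
        show 2 * m - (y - 1) = 2 * m - y + 1 by ring, add_sub_cancel_right]
      ring
    · exact (hh x (2 * m - y)).2

noncomputable def liftD (m : ℤ) : Lift dD RD m where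
  b := (m, 0)
  hb := by simp [dD]
  H := fun ω q => anti (fun j => sgb (ω (Sum.inl (m + j, j))) -
      sgb (ω (Sum.inr (m + j, j - 1)))) q.2 -
    ∑ i ∈ Finset.Ioc (m + q.2) q.1, sgb (ω (Sum.inr (i, q.2)))
  loc := by
    classical
    intro q hq
    refine ⟨(Finset.Icc (-|q.2|) |q.2|).image (fun j => Sum.inl (m + j, j)) ∪
      (Finset.Icc (-|q.2|) |q.2|).image (fun j => Sum.inr (m + j, j - 1)) ∪
      (Finset.Ioc (m + q.2) q.1).image (fun i => Sum.inr (i, q.2)), ?_, ?_⟩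
    · intro e he
      rcases Finset.mem_union.1 he with he | he
      · rcases Finset.mem_union.1 he with he | he
        · obtain ⟨j, hj, rfl⟩ := Finset.mem_image.1 he
          refine ⟨?_, ?_⟩
          · show m ≤ m + j - j; omega
          · show m ≤ m + j - (j - 1); omega
        · obtain ⟨j, hj, rfl⟩ := Finset.mem_image.1 he
          refine ⟨?_, ?_⟩
          · show m ≤ m + j - (j - 1); omega
          · show m ≤ m + j - 1 - (j - 1); omega
      · obtain ⟨i, hi, rfl⟩ := Finset.mem_image.1 he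
        rw [Finset.mem_Ioc] at hi
        refine ⟨?_, ?_⟩
        · show m ≤ i - q.2; omega
        · show m ≤ i - 1 - q.2; omega
    · intro ω ω' h
      congr 1
      · refine anti_congr (fun i hi => ?_)
        rw [h (Sum.inl (m + i, i)) (Finset.mem_union_left _ (Finset.mem_union_left _
            (Finset.mem_image_of_mem (fun j => (Sum.inl (m + j, j) : Edge (ℤ × ℤ)))
              (Finset.mem_Icc.2 (abs_le.1 hi))))),
          h (Sum.inr (m + i, i - 1)) (Finset.mem_union_left _ (Finset.mem_union_right _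
            (Finset.mem_image_of_mem (fun j => (Sum.inr (m + j, j - 1) : Edge (ℤ × ℤ)))
              (Finset.mem_Icc.2 (abs_le.1 hi)))))]
      · refine Finset.sum_congr rfl (fun i hi => ?_)
        rw [h _ (Finset.mem_union_right _ (Finset.mem_image_of_mem _ hi))]
  hH := by
    intro ω h hh q hq
    obtain ⟨x, y⟩ := q
    have hq' : m ≤ x - y := hq
    have e1 : h (m + y, y) - h (m + 0, 0) = anti (fun j => sgb (ω (Sum.inl (m + j, j))) -
        sgb (ω (Sum.inr (m + j, j - 1)))) y :=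
      anti_unique (F := fun y => h (m + y, y)) (fun n => by
        have h1 := (isHeight_iff.1 hh (m + n) n).1
        have h2 := (isHeight_iff.1 hh (m + n) (n - 1)).2
        show h (m + n, n) - h (m + (n - 1), n - 1) = _
        rw [show m + (n - 1) = m + n - 1 by ring]
        linarith) y
    rw [add_zero] at e1
    have e2 : ∑ i ∈ Finset.Ioc (m + y) x, sgb (ω (Sum.inr (i, y))) = - h (x, y) - - h (m + y, y) :=
      sum_Ioc_tel (G := fun x => - h (x, y)) (fun i => by
        have := (isHeight_iff.1 hh i y).2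
        linarith) (by omega)
    show anti _ y - ∑ i ∈ Finset.Ioc (m + y) x, sgb (ω (Sum.inr (i, y))) = h (x, y) - h (m, 0)
    rw [← e1, e2]; ring
  hR := by
    intro ω h hh
    rw [isHeight_iff] at hh ⊢
    intro x y
    refine ⟨?_, ?_⟩
    · show h (y + m, x - m) - h (y - 1 + m, x - m) = sgb (!(ω (Sum.inr (y + m, x - m))))
      rw [sgb_not, ← (hh (y + m) (x - m)).2, show y - 1 + m = y + m - 1 by ring]
      ring
    · show h (y + m, x - 1 - m) - h (y + m, x - m) = sgb (!(ω (Sum.inl (y + m, x - m))))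
      rw [sgb_not, ← (hh (y + m) (x - m)).1, show x - 1 - m = x - m - 1 by ring]
      ring

noncomputable def liftA (m : ℤ) : Lift dA RA m where
  b := (m, 0)
  hb := by simp [dA]
  H := fun ω q => anti (fun j => sgb (ω (Sum.inl (m - j + 1, j))) +
      sgb (ω (Sum.inr (m - j + 1, j)))) q.2 -
    ∑ i ∈ Finset.Ioc (m - q.2) q.1, sgb (ω (Sum.inr (i, q.2)))
  loc := by
    classical
    intro q hq
    refine ⟨(Finset.Icc (-|q.2|) |q.2|).image (fun j => Sum.inl (m - j + 1, j)) ∪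
      (Finset.Icc (-|q.2|) |q.2|).image (fun j => Sum.inr (m - j + 1, j)) ∪
      (Finset.Ioc (m - q.2) q.1).image (fun i => Sum.inr (i, q.2)), ?_, ?_⟩
    · intro e he
      rcases Finset.mem_union.1 he with he | he
      · rcases Finset.mem_union.1 he with he | he
        · obtain ⟨j, hj, rfl⟩ := Finset.mem_image.1 he
          refine ⟨?_, ?_⟩
          · show m ≤ m - j + 1 + j; omega
          · show m ≤ m - j + 1 + (j - 1); omega
        · obtain ⟨j, hj, rfl⟩ := Finset.mem_image.1 he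
          refine ⟨?_, ?_⟩
          · show m ≤ m - j + 1 + j; omega
          · show m ≤ m - j + 1 - 1 + j; omega
      · obtain ⟨i, hi, rfl⟩ := Finset.mem_image.1 he
        rw [Finset.mem_Ioc] at hi
        refine ⟨?_, ?_⟩
        · show m ≤ i + q.2; omega
        · show m ≤ i - 1 + q.2; omega
    · intro ω ω' h
      congr 1
      · refine anti_congr (fun i hi => ?_)
        rw [h (Sum.inl (m - i + 1, i)) (Finset.mem_union_left _ (Finset.mem_union_left _
            (Finset.mem_image_of_mem (fun j => (Sum.inl (m - j + 1, j) : Edge (ℤ × ℤ)))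
              (Finset.mem_Icc.2 (abs_le.1 hi))))),
          h (Sum.inr (m - i + 1, i)) (Finset.mem_union_left _ (Finset.mem_union_right _
            (Finset.mem_image_of_mem (fun j => (Sum.inr (m - j + 1, j) : Edge (ℤ × ℤ)))
              (Finset.mem_Icc.2 (abs_le.1 hi)))))]
      · refine Finset.sum_congr rfl (fun i hi => ?_)
        rw [h _ (Finset.mem_union_right _ (Finset.mem_image_of_mem _ hi))]
  hH := by
    intro ω h hh q hq
    obtain ⟨x, y⟩ := q
    have hq' : m ≤ x + y := hq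
    have e1 : h (m - y, y) - h (m - 0, 0) = anti (fun j => sgb (ω (Sum.inl (m - j + 1, j))) +
        sgb (ω (Sum.inr (m - j + 1, j)))) y :=
      anti_unique (F := fun y => h (m - y, y)) (fun n => by
        have h1 := (isHeight_iff.1 hh (m - n + 1) n).1
        have h2 := (isHeight_iff.1 hh (m - n + 1) n).2
        rw [add_sub_cancel_right] at h2
        show h (m - n, n) - h (m - (n - 1), n - 1) = _
        rw [show m - (n - 1) = m - n + 1 by ring]
        linarith) y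
    rw [sub_zero] at e1
    have e2 : ∑ i ∈ Finset.Ioc (m - y) x, sgb (ω (Sum.inr (i, y))) = - h (x, y) - - h (m - y, y) :=
      sum_Ioc_tel (G := fun x => - h (x, y)) (fun i => by
        have := (isHeight_iff.1 hh i y).2
        linarith) (by omega)
    show anti _ y - ∑ i ∈ Finset.Ioc (m - y) x, sgb (ω (Sum.inr (i, y))) = h (x, y) - h (m, 0)
    rw [← e1, e2]; ring
  hR := by
    intro ω h hh
    rw [isHeight_iff] at hh ⊢
    intro x y
    refine ⟨?_, ?_⟩
    · show h (m - y, m - x) - h (m - (y - 1), m - x) = sgb (ω (Sum.inr (m - y + 1, m - x)))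
      rw [← (hh (m - y + 1) (m - x)).2, show m - (y - 1) = m - y + 1 by ring,
        add_sub_cancel_right]
    · show h (m - y, m - (x - 1)) - h (m - y, m - x) = sgb (ω (Sum.inl (m - y, m - x + 1)))
      rw [← (hh (m - y) (m - x + 1)).1, show m - (x - 1) = m - x + 1 by ring,
        add_sub_cancel_right]

/-- R4, from M1. -/
theorem s_rp_of (hbase : S_base) : S_rp := fun _ _ hP =>
  ⟨rp_of_grp hbase hP dX RX liftX, rp_of_grp hbase hP dY RY liftY,
    rp_of_grp hbase hP dD RD liftD, rp_of_grp hbase hP dA RA liftA⟩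

end Vale.Agent.P145.FA
end

section

/-!
P145, block F-A: the law of the absolute heights: change of the base face, height property,
invariance under the even translations and the reflections.
-/

namespace Vale.Agent.P145.FA

open Finset Filter Topology MeasureTheory
open Vale.Agent.P152

/-! ### parity -/

theorem anti_parity (g : ℤ → ℤ) (hg : ∀ n, (2 : ℤ) ∣ g n - 1) (n : ℤ) : (2 : ℤ) ∣ anti g n - n := by
  induction n using Int.induction_on with
  | zero => rw [anti_zero]; norm_num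
  | succ i ih =>
    have h1 := anti_step g (i + 1)
    rw [add_sub_cancel_right] at h1
    have h2 := hg (i + 1)
    omega
  | pred i ih =>
    have h1 := anti_step g (-i)
    have h2 := hg (-i)
    omega

theorem sgb_parity (x : Bool) : (2 : ℤ) ∣ sgb x - 1 := by cases x <;> decide

theorem pth_parity (ω : Ori (ℤ × ℤ)) (q : ℤ × ℤ) : (2 : ℤ) ∣ pth ω q - (q.1 + q.2) := by
  have h1 := anti_parity (fun j => sgb (ω (Sum.inl (0, j)))) (fun n => sgb_parity _) q.2
  have h2 := anti_parity (fun i => sgb (ω (Sum.inr (i, q.2)))) (fun n => sgb_parity _) q.1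
  unfold pth
  omega

/-! ### sums over the constants -/

theorem sum_shift {Ω : Type*} [MeasurableSpace Ω] (P : Measure Ω) {Φ : Ω → Hgt}
    (hΦ : Measurable Φ) {j : Ω → ℤ} (hj : Measurable j) :
    Measure.sum (fun k : ℤ => P.map (fun ω q => Φ ω q + 2 * (k + j ω))) =
      Measure.sum (fun k : ℤ => P.map (fun ω q => Φ ω q + 2 * k)) := by
  have hq : ∀ q, Measurable fun ω => Φ ω q := fun q => (measurable_pi_apply q).comp hΦ
  have m1 : ∀ k : ℤ, Measurable (fun ω => (fun q => Φ ω q + 2 * (k + j ω) : Hgt)) := fun k =>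
    measurable_pi_lambda _ fun q => (hq q).add ((hj.const_add k).const_mul 2)
  have m2 : ∀ k : ℤ, Measurable (fun ω => (fun q => Φ ω q + 2 * k : Hgt)) := fun k =>
    measurable_pi_lambda _ fun q => (hq q).add_const _
  refine Measure.ext_of_lintegral _ fun f hf => ?_
  rw [lintegral_sum_measure, lintegral_sum_measure]
  have e1 : ∀ k : ℤ, ∫⁻ h, f h ∂(P.map (fun ω q => Φ ω q + 2 * (k + j ω))) =
      ∫⁻ ω, f (fun q => Φ ω q + 2 * (k + j ω)) ∂P := fun k => lintegral_map hf (m1 k)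
  have e2 : ∀ k : ℤ, ∫⁻ h, f h ∂(P.map (fun ω q => Φ ω q + 2 * k)) =
      ∫⁻ ω, f (fun q => Φ ω q + 2 * k) ∂P := fun k => lintegral_map hf (m2 k)
  have n1 : ∀ k : ℤ, AEMeasurable (fun ω => f (fun q => Φ ω q + 2 * (k + j ω))) P := fun k =>
    (hf.comp (m1 k)).aemeasurable
  have n2 : ∀ k : ℤ, AEMeasurable (fun ω => f (fun q => Φ ω q + 2 * k)) P := fun k =>
    (hf.comp (m2 k)).aemeasurable
  rw [tsum_congr e1, tsum_congr e2, ← lintegral_tsum n1, ← lintegral_tsum n2]
  refine lintegral_congr fun ω => ?_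
  exact (Equiv.addRight (j ω)).tsum_eq (fun k => f (fun q => Φ ω q + 2 * k))

theorem measurable_pthf : Measurable (fun ω : Ori (ℤ × ℤ) => (pth ω : Hgt)) :=
  measurable_pi_lambda _ fun q => measurable_pth q

/-- M1 -/
theorem s_base : S_base := by
  intro c P _ b R _ _ F hF
  set j : Ori (ℤ × ℤ) → ℤ := fun ω => (b.1 + b.2 - pth ω b) / 2 with hj
  have hjm : Measurable j := (measurable_from_top (f := fun z : ℤ => z / 2)).comp
    ((measurable_pth b).const_sub _)
  have e1 : ∀ (k : ℤ) (ω : Ori (ℤ × ℤ)) (q : ℤ × ℤ),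
      pth ω q - pth ω b + (2 * k + b.1 + b.2) = pth ω q + 2 * (k + j ω) := by
    intro k ω q
    have h1 := pth_parity ω b
    simp only [hj]
    (clear * - h1; omega)
  have e2 : mu0 P = Measure.sum (fun k : ℤ => P.map (fun ω q => pth ω q + 2 * (k + j ω))) :=
    (sum_shift P measurable_pthf hjm).symm
  rw [e2] at hF ⊢
  have h1 := hasSum_integral_measure hF
  have m1 : ∀ k : ℤ, Measurable (fun ω => (fun q => pth ω q + 2 * (k + j ω) : Hgt)) := fun k =>
    measurable_pi_lambda _ fun q => (measurable_pth q).add ((hjm.const_add k).const_mul 2)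
  have e3 : ∀ k : ℤ, ∫ h, F h ∂(P.map (fun ω q => pth ω q + 2 * (k + j ω))) =
      ∫ ω, F (fun q => pth ω q - pth ω b + (2 * k + b.1 + b.2)) ∂P := by
    intro k
    rw [integral_map (m1 k).aemeasurable (hF.1.mono_measure (Measure.le_sum _ k))]
    simp only [e1]
  simpa only [e3] using h1

/-- M2 -/
theorem s_lip : S_lip := by
  intro c P hP
  unfold mu0
  rw [Measure.ae_sum_iff]
  intro k
  have hs : MeasurableSet {h : Hgt | ∀ q : ℤ × ℤ,
      (2 : ℤ) ∣ h q - (q.1 + q.2) ∧ |h (q + (1, 0)) - h q| = 1 ∧ |h (q + (0, 1)) - h q| = 1} := by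
    rw [Set.ofPred_forall]
    refine MeasurableSet.iInter fun q => ?_
    have h1 : Measurable fun h : Hgt => (h q, h (q + (1, 0)), h (q + (0, 1))) :=
      (measurable_pi_apply q).prodMk ((measurable_pi_apply _).prodMk (measurable_pi_apply _))
    exact h1 (MeasurableSet.of_discrete (s := {z : ℤ × ℤ × ℤ |
      (2 : ℤ) ∣ z.1 - (q.1 + q.2) ∧ |z.2.1 - z.1| = 1 ∧ |z.2.2 - z.1| = 1}))
  rw [ae_map_iff (measurable_hgt k).aemeasurable hs]
  filter_upwards [hP.ice] with ω hω q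
  have hh := isHeight_iff.1 (pth_isHeight hω)
  obtain ⟨x, y⟩ := q
  have hsg : ∀ z : Bool, sgb z = 1 ∨ sgb z = -1 := by intro z; cases z <;> decide
  refine ⟨?_, ?_, ?_⟩
  · have := pth_parity ω (x, y)
    omega
  · have h1 := (hh (x + 1) y).2
    rw [add_sub_cancel_right] at h1
    have e1 : ((x, y) + (1, 0) : ℤ × ℤ) = (x + 1, y) := by ext <;> simp
    rw [e1]
    rcases hsg (ω (Sum.inr (x + 1, y))) with h2 | h2 <;> rw [h2] at h1
    · rw [show pth ω (x + 1, y) + 2 * k - (pth ω (x, y) + 2 * k) = -1 by (clear * - h1; omega)]; norm_num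
    · rw [show pth ω (x + 1, y) + 2 * k - (pth ω (x, y) + 2 * k) = 1 by omega]; norm_num
  · have h1 := (hh x (y + 1)).1
    rw [add_sub_cancel_right] at h1
    have e1 : ((x, y) + (0, 1) : ℤ × ℤ) = (x, y + 1) := by ext <;> simp
    rw [e1]
    rcases hsg (ω (Sum.inl (x, y + 1))) with h2 | h2 <;> rw [h2] at h1
    · rw [show pth ω (x, y + 1) + 2 * k - (pth ω (x, y) + 2 * k) = 1 by omega]; norm_num
    · rw [show pth ω (x, y + 1) + 2 * k - (pth ω (x, y) + 2 * k) = -1 by (clear * - h1; omega)]; norm_num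

/-! ### invariance -/

theorem inv_of {P : Measure (Ori (ℤ × ℤ))} {R : Ori (ℤ × ℤ) → Ori (ℤ × ℤ)} (hR : Measurable R)
    (hPR : P.map R = P) (hice : ∀ᵐ ω ∂P, ∀ x y, Ice ω x y) {g : ℤ × ℤ → ℤ × ℤ}
    (hg : (2 : ℤ) ∣ (g 0).1 + (g 0).2)
    (h : ∀ ω h, IsHeight ω h → IsHeight (R ω) (fun q => h (g q))) :
    (mu0 P).map (pb g) = mu0 P := by
  set j : Ori (ℤ × ℤ) → ℤ := fun ω => pth ω (g 0) / 2 with hj
  have hjm : Measurable j := (measurable_from_top (f := fun z : ℤ => z / 2)).comp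
    (measurable_pth (g 0))
  have e1 : (mu0 P).map (pb g) = Measure.sum (fun k : ℤ =>
      P.map (fun ω q => pth (R ω) q + 2 * (k + j ω))) := by
    unfold mu0
    rw [Measure.map_sum (measurable_pb g).aemeasurable]
    congr 1
    funext k
    rw [Measure.map_map (measurable_pb g) (measurable_hgt k)]
    refine Measure.map_congr ?_
    filter_upwards [hice] with ω hω
    funext q
    show pth ω (g q) + 2 * k = pth (R ω) q + 2 * (k + j ω)
    rw [← height_eq_pth (h ω _ (pth_isHeight hω)) q]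
    have h2 := pth_parity ω (g 0)
    simp only [hj]
    (clear * - hg h2; omega)
  have m1 : Measurable fun ω => (pth (R ω) : Hgt) := measurable_pthf.comp hR
  rw [e1, sum_shift P m1 hjm]
  unfold mu0
  congr 1
  funext k
  conv_rhs => rw [← hPR]
  rw [Measure.map_map (measurable_hgt k) hR]
  rfl

theorem map_comp {P : Measure (Ori (ℤ × ℤ))} {R S : Ori (ℤ × ℤ) → Ori (ℤ × ℤ)}
    (hR : Measurable R) (hS : Measurable S) (h1 : P.map R = P) (h2 : P.map S = P) :
    P.map (fun ω => R (S ω)) = P := by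
  have := Measure.map_map (μ := P) hR hS
  rw [h2, h1] at this
  exact this.symm

/-- shifts of the arrows -/
def shA (a : ℤ × ℤ) (ω : Ori (ℤ × ℤ)) : Ori (ℤ × ℤ) := fun e => ω (Sum.map (· + a) (· + a) e)

/-- transposition of the arrows -/
def trA (ω : Ori (ℤ × ℤ)) : Ori (ℤ × ℤ) :=
  Sum.elim (fun v => ω (Sum.inr v.swap)) (fun v => ω (Sum.inl v.swap))

/-- reversal of the arrows -/
def revA (ω : Ori (ℤ × ℤ)) : Ori (ℤ × ℤ) := fun e => !(ω e)

/-- reflection of the arrows -/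
def refA (ω : Ori (ℤ × ℤ)) : Ori (ℤ × ℤ) :=
  Sum.elim (fun v => ω (Sum.inl (-v.1 - 1, v.2))) (fun v => !(ω (Sum.inr (-v.1, v.2))))

theorem measurable_not' {e : Edge (ℤ × ℤ)} : Measurable fun ω : Ori (ℤ × ℤ) => !(ω e) :=
  (measurable_from_top (f := fun z : Bool => !z)).comp (measurable_pi_apply e)

theorem meas_shA (a : ℤ × ℤ) : Measurable (shA a) :=
  measurable_pi_lambda _ fun _ => measurable_pi_apply _

theorem meas_trA : Measurable trA := by
  refine measurable_pi_lambda _ fun e => ?_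
  rcases e with v | v
  · exact measurable_pi_apply _
  · exact measurable_pi_apply _

theorem meas_revA : Measurable revA := measurable_pi_lambda _ fun _ => measurable_not'

theorem meas_refA : Measurable refA := by
  refine measurable_pi_lambda _ fun e => ?_
  rcases e with v | v
  · exact measurable_pi_apply _
  · exact measurable_not'

theorem measA_RX (m : ℤ) : Measurable (RX m : Ori (ℤ × ℤ) → Ori (ℤ × ℤ)) := by
  refine measurable_pi_lambda _ fun e => ?_
  rcases e with v | v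
  · exact measurable_pi_apply _
  · exact measurable_not'

theorem RX_eq (m : ℤ) (ω : Ori (ℤ × ℤ)) : RX m ω = refA (shA (2 * m + 1, 0) ω) := by
  funext e
  rcases e with ⟨x, y⟩ | ⟨x, y⟩
  · show ω (Sum.inl (2 * m - x, y)) = ω (Sum.inl ((-x - 1, y) + (2 * m + 1, 0)))
    congr 2
    ext <;> simp; ring
  · show (!(ω (Sum.inr (2 * m - x + 1, y)))) = !(ω (Sum.inr ((-x, y) + (2 * m + 1, 0))))
    congr 3
    ext <;> simp; ring

theorem RY_eq (m : ℤ) (ω : Ori (ℤ × ℤ)) : RY m ω = trA (RX m (trA ω)) := by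
  funext e
  rcases e with ⟨x, y⟩ | ⟨x, y⟩ <;> rfl

theorem RD_eq (m : ℤ) (ω : Ori (ℤ × ℤ)) : RD m ω = revA (trA (shA (m, -m) ω)) := by
  funext e
  rcases e with ⟨x, y⟩ | ⟨x, y⟩
  · show (!(ω (Sum.inr (y + m, x - m)))) = !(ω (Sum.inr ((y, x) + (m, -m))))
    congr 3
  · show (!(ω (Sum.inl (y + m, x - m)))) = !(ω (Sum.inl ((y, x) + (m, -m))))
    congr 3

theorem RA_eq (m : ℤ) (ω : Ori (ℤ × ℤ)) :
    RA m ω = revA (RX 0 (trA (RX 0 (shA (m, m) ω)))) := by
  funext e
  rcases e with ⟨x, y⟩ | ⟨x, y⟩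
  · show ω (Sum.inr (m - y + 1, m - x)) = !!(ω (Sum.inr ((2 * 0 - y + 1, 2 * 0 - x) + (m, m))))
    rw [Bool.not_not]
    congr 2
    ext <;> simp only [mul_zero, zero_sub, Prod.mk_add_mk] <;> ring
  · show ω (Sum.inl (m - y, m - x + 1)) = !!(ω (Sum.inl ((2 * 0 - y, 2 * 0 - x + 1) + (m, m))))
    rw [Bool.not_not]
    congr 2
    ext <;> simp <;> ring

theorem isHeight_shA {ω : Ori (ℤ × ℤ)} {h : Hgt} (a : ℤ × ℤ) (hh : IsHeight ω h) :
    IsHeight (shA a ω) (fun q => h (q + a)) := by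
  rw [isHeight_iff] at hh ⊢
  intro x y
  refine ⟨?_, ?_⟩
  · show h ((x, y) + a) - h ((x, y - 1) + a) = sgb (ω (Sum.inl ((x, y) + a)))
    have h1 := (hh (x + a.1) (y + a.2)).1
    have e1 : ((x, y) + a : ℤ × ℤ) = (x + a.1, y + a.2) := rfl
    have e2 : ((x, y - 1) + a : ℤ × ℤ) = (x + a.1, y + a.2 - 1) := by
      ext <;> simp; ring
    rw [e1, e2, h1]
  · show h ((x - 1, y) + a) - h ((x, y) + a) = sgb (ω (Sum.inr ((x, y) + a)))
    have h1 := (hh (x + a.1) (y + a.2)).2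
    have e1 : ((x, y) + a : ℤ × ℤ) = (x + a.1, y + a.2) := rfl
    have e2 : ((x - 1, y) + a : ℤ × ℤ) = (x + a.1 - 1, y + a.2) := by
      ext <;> simp; ring
    rw [e1, e2, h1]

/-- M3 -/
theorem s_inv : S_inv := by
  intro c P hP
  have hsh : ∀ a, P.map (shA a) = P := fun a => hP.shift a
  have htr : P.map trA = P := hP.tr
  have hrev : P.map revA = P := hP.rev
  have href : P.map refA = P := hP.refl
  have hX : ∀ m : ℤ, P.map (RX m) = P := fun m => by
    rw [show (RX m : Ori (ℤ × ℤ) → Ori (ℤ × ℤ)) = fun ω => refA (shA (2 * m + 1, 0) ω) from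
      funext (RX_eq m)]
    exact map_comp meas_refA (meas_shA _) href (hsh _)
  have hYm : ∀ m : ℤ, Measurable (RY m : Ori (ℤ × ℤ) → Ori (ℤ × ℤ)) := fun m => by
    rw [show (RY m : Ori (ℤ × ℤ) → Ori (ℤ × ℤ)) = fun ω => trA (RX m (trA ω)) from
      funext (RY_eq m)]
    exact meas_trA.comp ((measA_RX m).comp meas_trA)
  have hY : ∀ m : ℤ, P.map (RY m) = P := fun m => by
    rw [show (RY m : Ori (ℤ × ℤ) → Ori (ℤ × ℤ)) = fun ω => trA (RX m (trA ω)) from
      funext (RY_eq m)]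
    exact map_comp meas_trA ((measA_RX m).comp meas_trA) htr
      (map_comp (measA_RX m) meas_trA (hX m) htr)
  have hDm : ∀ m : ℤ, Measurable (RD m : Ori (ℤ × ℤ) → Ori (ℤ × ℤ)) := fun m => by
    rw [show (RD m : Ori (ℤ × ℤ) → Ori (ℤ × ℤ)) = fun ω => revA (trA (shA (m, -m) ω)) from
      funext (RD_eq m)]
    exact meas_revA.comp (meas_trA.comp (meas_shA _))
  have hD : ∀ m : ℤ, P.map (RD m) = P := fun m => by
    rw [show (RD m : Ori (ℤ × ℤ) → Ori (ℤ × ℤ)) = fun ω => revA (trA (shA (m, -m) ω)) from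
      funext (RD_eq m)]
    exact map_comp meas_revA (meas_trA.comp (meas_shA _)) hrev
      (map_comp meas_trA (meas_shA _) htr (hsh _))
  have hAm : ∀ m : ℤ, Measurable (RA m : Ori (ℤ × ℤ) → Ori (ℤ × ℤ)) := fun m => by
    rw [show (RA m : Ori (ℤ × ℤ) → Ori (ℤ × ℤ)) =
      fun ω => revA (RX 0 (trA (RX 0 (shA (m, m) ω)))) from funext (RA_eq m)]
    exact meas_revA.comp ((measA_RX 0).comp (meas_trA.comp ((measA_RX 0).comp (meas_shA _))))
  have hA : ∀ m : ℤ, P.map (RA m) = P := fun m => by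
    rw [show (RA m : Ori (ℤ × ℤ) → Ori (ℤ × ℤ)) =
      fun ω => revA (RX 0 (trA (RX 0 (shA (m, m) ω)))) from funext (RA_eq m)]
    exact map_comp meas_revA ((measA_RX 0).comp (meas_trA.comp ((measA_RX 0).comp (meas_shA _))))
      hrev (map_comp (measA_RX 0) (meas_trA.comp ((measA_RX 0).comp (meas_shA _))) (hX 0)
      (map_comp meas_trA ((measA_RX 0).comp (meas_shA _)) htr
      (map_comp (measA_RX 0) (meas_shA _) (hX 0) (hsh _))))
  have hshift : ∀ a : ℤ × ℤ, (2 : ℤ) ∣ a.1 + a.2 → (mu0 P).map (pb (fun q => q + a)) = mu0 P := by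
    intro a ha
    refine inv_of (meas_shA a) (hsh a) hP.ice (by simpa only [zero_add] using ha) fun ω h hh => isHeight_shA a hh
  refine ⟨hshift, ⟨fun m => ?_, hshift _ ?_⟩, ⟨fun m => ?_, hshift _ ?_⟩, ⟨fun m => ?_, hshift _ ?_⟩,
    ⟨fun m => ?_, hshift _ ?_⟩⟩
  · refine inv_of (measA_RX m) (hX m) hP.ice ?_ (liftX m).hR
    simp only [dX, Prod.fst_zero, sub_zero, Prod.snd_zero, add_zero, dvd_mul_right]
  · simp [dX]
  · refine inv_of (hYm m) (hY m) hP.ice ?_ (liftY m).hR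
    simp only [dY, Prod.fst_zero, Prod.snd_zero, sub_zero, zero_add, dvd_mul_right]
  · simp [dY]
  · refine inv_of (hDm m) (hD m) hP.ice ?_ (liftD m).hR
    simp only [dD, Int.reduceNeg, Prod.snd_zero, zero_add, Prod.fst_zero, zero_sub, add_neg_cancel, dvd_zero]
  · simp [dD]
  · refine inv_of (hAm m) (hA m) hP.ice ?_ (liftA m).hR
    simp only [dA, Prod.fst_zero, Prod.snd_zero]
    omega
  · simp [dA]

/-- R4 -/
theorem s_rp : S_rp := s_rp_of s_base

end Vale.Agent.P145.FA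
end

section

/-! P145, block F-A: Gaussian sums over the even integers. -/

namespace Vale.Agent.P145.FA

open Filter Topology

lemma summable_exp_sq : Summable (fun n : ℤ => Real.exp (-((n : ℝ) ^ 2))) := by
  have h1 : Summable (fun n : ℕ => Real.exp (-((n : ℝ)))) := Real.summable_exp_neg_nat
  refine Summable.of_nat_of_neg ?_ ?_
  · refine Summable.of_nonneg_of_le (fun n => (Real.exp_pos _).le) (fun n => ?_) h1
    refine Real.exp_le_exp.2 ?_
    push_cast
    have : (n : ℝ) ≤ (n : ℝ) ^ 2 := by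
      have h : n ≤ n ^ 2 := Nat.le_self_pow (by norm_num) n
      exact_mod_cast h
    linarith only [this]
  · refine Summable.of_nonneg_of_le (fun n => (Real.exp_pos _).le) (fun n => ?_) h1
    refine Real.exp_le_exp.2 ?_
    push_cast
    have : (n : ℝ) ≤ (n : ℝ) ^ 2 := by
      have h : n ≤ n ^ 2 := Nat.le_self_pow (by norm_num) n
      exact_mod_cast h
    rw [neg_sq]
    linarith

/-- Gaussian sums over the even integers. -/
theorem gauss_sum : ∃ C : ℝ, 0 ≤ C ∧ ∀ K : ℝ, 1 ≤ K → ∀ t : ℝ,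
    Summable (fun k : ℤ => Real.exp (-((t + 2 * k) ^ 2 / K ^ 2))) ∧
    |∑' k : ℤ, Real.exp (-((t + 2 * k) ^ 2 / K ^ 2)) - K * √Real.pi / 2| ≤
      C * (K * Real.exp (-K ^ 2)) := by
  set T : ℝ := ∑' n : ℤ, Real.exp (-((n : ℝ) ^ 2)) with hT
  have hT0 : 0 ≤ T := tsum_nonneg fun n => (Real.exp_pos _).le
  refine ⟨√Real.pi / 2 * T, by positivity, fun K hK t => ?_⟩
  have hK0 : 0 < K := by linarith only [hK]
  have hpi := Real.pi_pos
  set a : ℝ := 4 / (Real.pi * K ^ 2) with ha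
  have ha0 : 0 < a := by positivity
  set b : ℝ := -(2 * t) / (Real.pi * K ^ 2) with hb
  have haC : 0 < (a : ℂ).re := by rw [Complex.ofReal_re]; exact ha0
  have key := Complex.tsum_exp_neg_quadratic haC (b : ℂ)
  have hterm : ∀ n : ℤ, Complex.exp (-(Real.pi : ℂ) * (a : ℂ) * (n : ℂ) ^ 2
      + 2 * (Real.pi : ℂ) * (b : ℂ) * (n : ℂ)) =
      ((Real.exp (t ^ 2 / K ^ 2) * Real.exp (-((t + 2 * n) ^ 2 / K ^ 2)) : ℝ) : ℂ) := by
    intro n
    rw [← Real.exp_add, Complex.ofReal_exp]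
    congr 1
    rw [ha, hb]
    push_cast
    field_simp
    ring
  have hterm2 : ∀ n : ℤ, ‖Complex.exp (-(Real.pi : ℂ) / (a : ℂ) * ((n : ℂ) +
      Complex.I * (b : ℂ)) ^ 2)‖ = Real.exp (t ^ 2 / K ^ 2) *
        Real.exp (-(Real.pi ^ 2 * K ^ 2 / 4 * n ^ 2)) := by
    intro n
    rw [Complex.norm_exp, ← Real.exp_add]
    congr 1
    have e : -(Real.pi : ℂ) / (a : ℂ) * ((n : ℂ) + Complex.I * (b : ℂ)) ^ 2 =
        (((-Real.pi / a) * ((n : ℝ) ^ 2 - b ^ 2) : ℝ) : ℂ) +
          (((-Real.pi / a) * (2 * n * b) : ℝ) : ℂ) * Complex.I := by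
      push_cast
      have := Complex.I_sq
      linear_combination (-(Real.pi : ℂ) / (a : ℂ) * (b : ℂ) ^ 2) * this
    rw [e]
    simp only [Complex.add_re, Complex.ofReal_re, Complex.mul_re, Complex.ofReal_im,
      Complex.I_re, Complex.I_im, mul_zero, zero_mul, sub_zero, mul_one]
    rw [ha, hb]
    field_simp
    ring
  have hK2 : (1 : ℝ) ≤ K ^ 2 := one_le_pow₀ hK
  have hpi2 : (2 : ℝ) ≤ Real.pi ^ 2 / 4 := by nlinarith only [Real.pi_gt_three]
  have hexp : ∀ n : ℤ, n ≠ 0 → Real.exp (-(Real.pi ^ 2 * K ^ 2 / 4 * n ^ 2)) ≤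
      Real.exp (-K ^ 2) * Real.exp (-((n : ℝ) ^ 2)) := by
    intro n hn
    rw [← Real.exp_add]
    refine Real.exp_le_exp.2 ?_
    have h1 : (1 : ℝ) ≤ (n : ℝ) ^ 2 := by
      have : (1 : ℤ) ≤ n ^ 2 := by
        have := sq_pos_of_ne_zero hn
        omega
      exact_mod_cast this
    have h2 : 2 * (K ^ 2 * (n : ℝ) ^ 2) ≤ Real.pi ^ 2 / 4 * (K ^ 2 * (n : ℝ) ^ 2) :=
      mul_le_mul_of_nonneg_right hpi2 (by (clear * - hK hn; positivity))
    nlinarith only [hK2, h1, h2]
  have hsumT := summable_exp_sq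
  have hsumN : Summable (fun n : ℤ => Real.exp (-(Real.pi ^ 2 * K ^ 2 / 4 * n ^ 2))) := by
    refine Summable.of_nonneg_of_le (fun n => (Real.exp_pos _).le) (fun n => ?_) hsumT
    by_cases hn : n = 0
    · subst hn; simp only [Int.cast_zero, ne_eq, OfNat.ofNat_ne_zero, not_false_eq_true, zero_pow, mul_zero, neg_zero, Real.exp_zero, Std.le_refl]
    · refine (hexp n hn).trans ?_
      have : Real.exp (-K ^ 2) ≤ 1 := Real.exp_le_one_iff.2 (by nlinarith only [])
      exact mul_le_of_le_one_left (Real.exp_pos _).le this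
  -- summability of the left side
  have hsumL : Summable (fun k : ℤ => Real.exp (-((t + 2 * k) ^ 2 / K ^ 2))) := by
    have h0 : Summable (fun n : ℤ => Complex.exp (-(Real.pi : ℂ) * (a : ℂ) * (n : ℂ) ^ 2
      + 2 * (Real.pi : ℂ) * (b : ℂ) * (n : ℂ))) := by
      have h1 := (summable_jacobiTheta₂_term_iff ((b : ℂ) / Complex.I)
        (Complex.I * (a : ℂ))).2 (by
          rw [Complex.mul_im, Complex.I_re, Complex.I_im, Complex.ofReal_re]
          simpa using ha0)
      refine h1.congr fun n => ?_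
      unfold jacobiTheta₂_term
      congr 1
      have hI : Complex.I ≠ 0 := Complex.I_ne_zero
      field_simp
      have := Complex.I_sq
      linear_combination ((n : ℂ) ^ 2 * (a : ℂ)) * this
    have h2 : Summable (fun n : ℤ => ((Real.exp (t ^ 2 / K ^ 2) *
        Real.exp (-((t + 2 * n) ^ 2 / K ^ 2)) : ℝ) : ℂ)) := by
      simpa only [hterm] using h0
    have h3 := (Complex.summable_ofReal.1 h2).mul_left (Real.exp (t ^ 2 / K ^ 2))⁻¹
    refine h3.congr fun n => ?_
    rw [← mul_assoc, inv_mul_cancel₀ (Real.exp_pos _).ne', one_mul]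
  refine ⟨hsumL, ?_⟩
  have hsqa : (1 : ℂ) / (a : ℂ) ^ (1 / 2 : ℂ) = ((K * √Real.pi / 2 : ℝ) : ℂ) := by
    have e1 : (a : ℂ) ^ (1 / 2 : ℂ) = ((a ^ (1 / 2 : ℝ) : ℝ) : ℂ) := by
      rw [Complex.ofReal_cpow ha0.le]
      push_cast
      rfl
    have e2 : a ^ (1 / 2 : ℝ) = 2 / (K * √Real.pi) := by
      rw [← Real.sqrt_eq_rpow, ha, Real.sqrt_div (by norm_num), Real.sqrt_mul hpi.le,
        Real.sqrt_sq hK0.le, show (4 : ℝ) = 2 ^ 2 by norm_num, Real.sqrt_sq (by norm_num),
        mul_comm]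
    rw [e1, e2]
    push_cast
    have : (√Real.pi : ℂ) ≠ 0 := by
      exact_mod_cast (Real.sqrt_pos.2 hpi).ne'
    have hK' : (K : ℂ) ≠ 0 := by exact_mod_cast hK0.ne'
    field_simp
  set z : ℤ → ℂ := fun n => Complex.exp (-(Real.pi : ℂ) / (a : ℂ) * ((n : ℂ) +
      Complex.I * (b : ℂ)) ^ 2) with hz
  have hz0 : z 0 = ((Real.exp (t ^ 2 / K ^ 2) : ℝ) : ℂ) := by
    rw [hz]
    simp only
    rw [Complex.ofReal_exp]
    congr 1
    have := Complex.I_sq
    rw [ha, hb]
    push_cast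
    have hK' : (K : ℂ) ≠ 0 := by exact_mod_cast hK0.ne'
    have hp' : (Real.pi : ℂ) ≠ 0 := by exact_mod_cast hpi.ne'
    field_simp
    ring_nf
    simp only [Complex.I_sq]
    ring
  have hzn : ∀ n, ‖z n‖ = Real.exp (t ^ 2 / K ^ 2) *
        Real.exp (-(Real.pi ^ 2 * K ^ 2 / 4 * n ^ 2)) := hterm2
  have hzs : Summable z := by
    refine Summable.of_norm ?_
    simp only [hzn]
    exact hsumN.mul_left _
  have hL : ((Real.exp (t ^ 2 / K ^ 2) * ∑' k : ℤ, Real.exp (-((t + 2 * k) ^ 2 / K ^ 2)) : ℝ) : ℂ)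
      = ((K * √Real.pi / 2 : ℝ) : ℂ) * ∑' n, z n := by
    rw [← hsqa, ← key, ← tsum_mul_left, Complex.ofReal_tsum]
    exact tsum_congr fun n => (hterm n).symm
  have hdiff : ((Real.exp (t ^ 2 / K ^ 2) * (∑' k : ℤ, Real.exp (-((t + 2 * k) ^ 2 / K ^ 2))
      - K * √Real.pi / 2) : ℝ) : ℂ) = ((K * √Real.pi / 2 : ℝ) : ℂ) *
        (∑' n, z n - z 0) := by
    rw [mul_sub ((K * √Real.pi / 2 : ℝ) : ℂ), ← hL, hz0]
    push_cast
    ring
  have hrest : ∑' n, z n - z 0 = ∑' n : ℤ, (if n = 0 then 0 else z n) := by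
    rw [hzs.tsum_eq_add_tsum_ite 0]
    ring
  have hnorm : ‖∑' n : ℤ, (if n = 0 then (0 : ℂ) else z n)‖ ≤
      Real.exp (t ^ 2 / K ^ 2) * (Real.exp (-K ^ 2) * T) := by
    rw [hT, ← tsum_mul_left, ← tsum_mul_left]
    refine tsum_of_norm_bounded ((hsumT.mul_left _).mul_left _).hasSum fun n => ?_
    split_ifs with h
    · rw [norm_zero]; positivity
    · rw [hzn]
      exact mul_le_mul_of_nonneg_left (hexp n h) (Real.exp_pos _).le
  have hcpos : 0 < K * √Real.pi / 2 := by positivity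
  have hfin : Real.exp (t ^ 2 / K ^ 2) * |∑' k : ℤ, Real.exp (-((t + 2 * k) ^ 2 / K ^ 2))
      - K * √Real.pi / 2| = K * √Real.pi / 2 *
        ‖∑' n : ℤ, (if n = 0 then (0 : ℂ) else z n)‖ := by
    have h := congrArg norm hdiff
    rw [hrest, norm_mul ((K * √Real.pi / 2 : ℝ) : ℂ), Complex.norm_real, Complex.norm_real,
      Real.norm_eq_abs, Real.norm_eq_abs, abs_mul, abs_of_pos (Real.exp_pos _),
      abs_of_pos hcpos] at h
    exact h
  have h5 : Real.exp (t ^ 2 / K ^ 2) * |∑' k : ℤ, Real.exp (-((t + 2 * k) ^ 2 / K ^ 2))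
      - K * √Real.pi / 2| ≤ Real.exp (t ^ 2 / K ^ 2) * (√Real.pi / 2 * T *
        (K * Real.exp (-K ^ 2))) := by
    rw [hfin]
    calc K * √Real.pi / 2 * ‖∑' n : ℤ, (if n = 0 then (0 : ℂ) else z n)‖
        ≤ K * √Real.pi / 2 * (Real.exp (t ^ 2 / K ^ 2) * (Real.exp (-K ^ 2) * T)) :=
          mul_le_mul_of_nonneg_left hnorm (by positivity)
      _ = _ := by ring
  exact le_of_mul_le_mul_left h5 (Real.exp_pos _)

end Vale.Agent.P145.FA
end

section

/-! P145, block F-A, half-plane statement: linear functionals, integrals against `mu0`, and the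
Cauchy-Schwarz inequality of the reflection positive form. -/

namespace Vale.Agent.P145.FA

open Finset Filter Topology MeasureTheory
open Vale.Agent.P152

/-! ### linear functionals -/

lemma ev_add (w u : (ℤ × ℤ) →₀ ℝ) (h : Hgt) : ev (w + u) h = ev w h + ev u h := by
  unfold ev
  exact Finsupp.sum_add_index' (fun q => by simp) (fun q a b => by ring)

lemma ev_smul (c : ℝ) (w : (ℤ × ℤ) →₀ ℝ) (h : Hgt) : ev (c • w) h = c * ev w h := by
  unfold ev
  rw [Finsupp.sum_smul_index' (fun q => by simp), Finsupp.mul_sum]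
  exact Finsupp.sum_congr fun q _ => by rw [smul_eq_mul, mul_assoc]

lemma ev_sub (w u : (ℤ × ℤ) →₀ ℝ) (h : Hgt) : ev (w - u) h = ev w h - ev u h := by
  have e : w - u = w + (-1 : ℝ) • u := by
    ext q
    simp only [sub_eq_add_neg, Finsupp.coe_add, Finsupp.coe_neg, Pi.add_apply, Pi.neg_apply, neg_smul, one_smul]
  rw [e, ev_add, ev_smul]
  ring

lemma ev_shift (w : (ℤ × ℤ) →₀ ℝ) (h : Hgt) (c : ℤ) :
    ev w (fun q => h q + c) = ev w h + mass w * c := by
  unfold ev mass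
  rw [Finsupp.sum_mul, ← Finsupp.sum_add]
  exact Finsupp.sum_congr fun q _ => by push_cast; ring

lemma ev_rf (w : (ℤ × ℤ) →₀ ℝ) (h : Hgt) : ev (rf w) h = ev w (pb (dY.θ 0) h) := by
  unfold ev rf
  rw [Finsupp.sum_mapDomain_index (fun q => by simp) (fun q a b => by ring)]
  refine Finsupp.sum_congr fun q _ => ?_
  simp only [pb, dY, mul_zero, zero_sub]

lemma mass_rf (w : (ℤ × ℤ) →₀ ℝ) : mass (rf w) = mass w := by
  unfold mass rf
  rw [Finsupp.sum_mapDomain_index (fun q => by simp) (fun q a b => by ring)]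

lemma measurable_ev (w : (ℤ × ℤ) →₀ ℝ) : Measurable (ev w) := by
  unfold ev Finsupp.sum
  refine Finset.measurable_sum _ fun q _ => ?_
  refine Measurable.const_mul ?_ _
  exact measurable_from_top.comp (measurable_pi_apply q)

lemma measurable_pbH (g : ℤ × ℤ → ℤ × ℤ) : Measurable (pb g) :=
  measurable_pi_iff.2 fun q => measurable_pi_apply (g q)

/-! ### the measure -/

lemma measurable_anti {α : Type*} [MeasurableSpace α] (g : α → ℤ → ℤ)
    (hg : ∀ i, Measurable fun a => g a i) (n : ℤ) : Measurable fun a => anti (g a) n := by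
  unfold anti
  exact (Finset.measurable_sum _ fun i _ => hg i).sub (Finset.measurable_sum _ fun i _ => hg i)

lemma measurable_pthq (q : ℤ × ℤ) : Measurable fun ω : Ori (ℤ × ℤ) => pth ω q := by
  unfold pth
  refine Measurable.sub ?_ ?_
  · exact measurable_anti _ (fun i => (measurable_from_top (f := sgb)).comp
      (measurable_pi_apply _)) _
  · exact measurable_anti _ (fun i => (measurable_from_top (f := sgb)).comp
      (measurable_pi_apply _)) _

lemma measurable_hk (k : ℤ) : Measurable fun (ω : Ori (ℤ × ℤ)) (q : ℤ × ℤ) => pth ω q + 2 * k :=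
  measurable_pi_iff.2 fun q => (measurable_pthq q).add_const _

variable {P : Measure (Ori (ℤ × ℤ))}

lemma map_le_mu0 (k : ℤ) : P.map (fun (ω : Ori (ℤ × ℤ)) (q : ℤ × ℤ) => pth ω q + 2 * k) ≤ mu0 P :=
  Measure.le_sum (fun k : ℤ => P.map (fun (ω : Ori (ℤ × ℤ)) (q : ℤ × ℤ) => pth ω q + 2 * k)) k

/-- integral against `mu0` -/
lemma hasSum_mu0 {R : Type*} [NormedAddCommGroup R] [NormedSpace ℝ R] {F : Hgt → R}
    (hF : Integrable F (mu0 P)) :
    HasSum (fun k : ℤ => ∫ ω, F (fun q => pth ω q + 2 * k) ∂P) (∫ h, F h ∂(mu0 P)) := by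
  have h := hasSum_integral_measure (show Integrable F (Measure.sum fun k : ℤ =>
    P.map (fun (ω : Ori (ℤ × ℤ)) (q : ℤ × ℤ) => pth ω q + 2 * k)) from hF)
  have e : ∀ k : ℤ, ∫ h, F h ∂(P.map (fun (ω : Ori (ℤ × ℤ)) (q : ℤ × ℤ) => pth ω q + 2 * k)) =
      ∫ ω, F (fun q => pth ω q + 2 * k) ∂P := fun k =>
    integral_map (measurable_hk k).aemeasurable (hF.1.mono_measure (map_le_mu0 k))
  simp only [e] at h
  exact h

/-- nonnegative integrals against `mu0` -/
lemma lintegral_mu0H {F : Hgt → ENNReal} (hF : Measurable F) :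
    ∫⁻ h, F h ∂(mu0 P) = ∫⁻ ω, ∑' k : ℤ, F (fun q => pth ω q + 2 * k) ∂P := by
  have h := lintegral_tsum (μ := P) (f := fun (k : ℤ) (ω : Ori (ℤ × ℤ)) =>
    F (fun q => pth ω q + 2 * k)) (fun k => (hF.comp (measurable_hk k)).aemeasurable)
  unfold mu0
  rw [lintegral_sum_measure, h]
  exact tsum_congr fun k => lintegral_map hF (measurable_hk k)

/-- functions dominated by a Gaussian of a charged functional are integrable -/
lemma integrable_gauss [IsProbabilityMeasure P] {φ : (ℤ × ℤ) →₀ ℝ} (hφ : mass φ = 1) {K : ℝ}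
    (hK : 1 ≤ K) : Integrable (fun h => Real.exp (-((ev φ h) ^ 2 / K ^ 2))) (mu0 P) := by
  obtain ⟨C, hC, hg⟩ := gauss_sum
  have hm : Measurable fun h => Real.exp (-((ev φ h) ^ 2 / K ^ 2)) :=
    Real.measurable_exp.comp (((measurable_ev φ).pow_const 2).div_const _).neg
  refine ⟨hm.aestronglyMeasurable, ?_⟩
  rw [hasFiniteIntegral_iff_ofReal (Eventually.of_forall fun h => (Real.exp_pos _).le)]
  have h0 := lintegral_mu0H (P := P) (F := fun h => ENNReal.ofReal
    (Real.exp (-((ev φ h) ^ 2 / K ^ 2)))) (ENNReal.measurable_ofReal.comp hm)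
  rw [h0]
  have h1 : ∀ ω : Ori (ℤ × ℤ), ∑' k : ℤ, ENNReal.ofReal
      (Real.exp (-((ev φ (fun q => pth ω q + 2 * k)) ^ 2 / K ^ 2))) ≤
      ENNReal.ofReal (K * √Real.pi / 2 + C * (K * Real.exp (-K ^ 2))) := by
    intro ω
    have e : ∀ k : ℤ, ev φ (fun q => pth ω q + 2 * k) = ev φ (pth ω) + 2 * k := by
      intro k
      rw [ev_shift, hφ]
      push_cast
      ring
    simp only [e]
    obtain ⟨hs, hb⟩ := hg K hK (ev φ (pth ω))
    rw [← ENNReal.ofReal_tsum_of_nonneg (fun k => (Real.exp_pos _).le) hs]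
    refine ENNReal.ofReal_le_ofReal ?_
    have := (abs_le.1 hb).2
    linarith only [this]
  refine (lintegral_mono h1).trans_lt ?_
  rw [lintegral_const, measure_univ, mul_one]
  exact ENNReal.ofReal_lt_top

/-- integral of a product of a gradient functional and a Gaussian in the level -/
lemma integral_gauss [IsProbabilityMeasure P] {F : Hgt → ℂ} {Z : Ori (ℤ × ℤ) → ℂ}
    {T : Ori (ℤ × ℤ) → ℝ} {K B : ℝ} (hK : 1 ≤ K) (hFi : Integrable F (mu0 P))
    (hZ : ∀ ω, ‖Z ω‖ ≤ B) (hT : Measurable T) (hZm : Measurable Z)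
    (hF : ∀ (ω : Ori (ℤ × ℤ)) (k : ℤ), F (fun q => pth ω q + 2 * k) =
      Z ω * ((Real.exp (-((T ω + 2 * k) ^ 2 / K ^ 2)) : ℝ) : ℂ)) :
    ∫ h, F h ∂(mu0 P) = ∫ ω, Z ω *
      ((∑' k : ℤ, Real.exp (-((T ω + 2 * k) ^ 2 / K ^ 2)) : ℝ) : ℂ) ∂P := by
  obtain ⟨C, hC, hg⟩ := gauss_sum
  have h1 := hasSum_mu0 hFi
  simp only [hF] at h1
  have hB : 0 ≤ B := (norm_nonneg _).trans (hZ (fun _ => true))
  have hmk : ∀ k : ℤ, Measurable fun ω => Z ω *
      ((Real.exp (-((T ω + 2 * k) ^ 2 / K ^ 2)) : ℝ) : ℂ) := fun k =>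
    hZm.mul (Complex.measurable_ofReal.comp (Real.measurable_exp.comp
      ((((hT.add_const _).pow_const 2).div_const _).neg)))
  have h2 : ∫ ω, ∑' k : ℤ, Z ω * ((Real.exp (-((T ω + 2 * k) ^ 2 / K ^ 2)) : ℝ) : ℂ) ∂P =
      ∑' k : ℤ, ∫ ω, Z ω * ((Real.exp (-((T ω + 2 * k) ^ 2 / K ^ 2)) : ℝ) : ℂ) ∂P := by
    refine integral_tsum (fun k => (hmk k).aestronglyMeasurable) ?_
    have hme : ∀ k : ℤ, Measurable fun ω => ENNReal.ofReal
        (Real.exp (-((T ω + 2 * k) ^ 2 / K ^ 2))) := fun k =>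
      ENNReal.measurable_ofReal.comp (Real.measurable_exp.comp
        ((((hT.add_const _).pow_const 2).div_const _).neg))
    have hle : ∑' k : ℤ, ∫⁻ ω, ‖Z ω * ((Real.exp (-((T ω + 2 * k) ^ 2 / K ^ 2)) : ℝ) : ℂ)‖ₑ ∂P ≤
        ENNReal.ofReal B * ENNReal.ofReal (K * √Real.pi / 2 + C * (K * Real.exp (-K ^ 2))) := by
      calc ∑' k : ℤ, ∫⁻ ω, ‖Z ω * ((Real.exp (-((T ω + 2 * k) ^ 2 / K ^ 2)) : ℝ) : ℂ)‖ₑ ∂P
          ≤ ∑' k : ℤ, ENNReal.ofReal B * ∫⁻ ω, ENNReal.ofReal
              (Real.exp (-((T ω + 2 * k) ^ 2 / K ^ 2))) ∂P := by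
            refine ENNReal.tsum_le_tsum fun k => ?_
            rw [← lintegral_const_mul _ (hme k)]
            refine lintegral_mono fun ω => ?_
            rw [enorm_mul, ← ofReal_norm, ← ofReal_norm, Complex.norm_real, Real.norm_eq_abs,
              abs_of_pos (Real.exp_pos _)]
            exact mul_le_mul' (ENNReal.ofReal_le_ofReal (hZ ω)) le_rfl
        _ = ENNReal.ofReal B * ∫⁻ ω, ∑' k : ℤ, ENNReal.ofReal
              (Real.exp (-((T ω + 2 * k) ^ 2 / K ^ 2))) ∂P := by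
            rw [ENNReal.tsum_mul_left, lintegral_tsum (fun k => (hme k).aemeasurable)]
        _ ≤ ENNReal.ofReal B * ∫⁻ _ω, ENNReal.ofReal
              (K * √Real.pi / 2 + C * (K * Real.exp (-K ^ 2))) ∂P := by
            refine mul_le_mul' le_rfl (lintegral_mono fun ω => ?_)
            obtain ⟨hs, hb⟩ := hg K hK (T ω)
            rw [← ENNReal.ofReal_tsum_of_nonneg (fun k => (Real.exp_pos _).le) hs]
            refine ENNReal.ofReal_le_ofReal ?_
            have := (abs_le.1 hb).2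
            linarith only [this]
        _ = _ := by rw [lintegral_const, measure_univ, mul_one]
    exact (hle.trans_lt (ENNReal.mul_lt_top ENNReal.ofReal_lt_top ENNReal.ofReal_lt_top)).ne
  rw [← h1.tsum_eq, ← h2]
  refine integral_congr_ae (Eventually.of_forall fun ω => ?_)
  simp only
  rw [tsum_mul_left, Complex.ofReal_tsum]

/-! ### reflections -/

lemma mp_refl (hI : Inv P dY) : MeasurePreserving (pb (dY.θ 0)) (mu0 P) (mu0 P) :=
  ⟨measurable_pbH _, hI.1 0⟩

lemma pb_pb (h : Hgt) : pb (dY.θ 0) (pb (dY.θ 0) h) = h := by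
  funext q
  simp only [pb, dY, mul_zero, zero_sub, neg_neg, Prod.mk.eta]

/-- reflected functionals -/
lemma Adm.refl {R : Type} [NormedAddCommGroup R] (hI : Inv P dY) {F : Hgt → R}
    {A B : Set (ℤ × ℤ)} (hF : Adm P A F) (hAB : ∀ q ∈ A, dY.θ 0 q ∈ B) :
    Adm P B (fun h => F (pb (dY.θ 0) h)) := by
  obtain ⟨Λ, hΛ, hloc⟩ := hF.loc
  obtain ⟨C, hC⟩ := hF.bdd
  refine ⟨⟨Λ.image (dY.θ 0), ?_, ?_⟩, ⟨C, fun h => hC _⟩, ?_⟩
  · intro q hq
    obtain ⟨r, hr, rfl⟩ := Finset.mem_image.1 hq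
    exact hAB r (hΛ r hr)
  · intro h h' hh
    refine hloc _ _ fun q hq => ?_
    exact hh _ (Finset.mem_image_of_mem _ hq)
  · exact (mp_refl hI).integrable_comp_of_integrable hF.int

lemma Loc.mulH {A : Set (ℤ × ℤ)} {F G : Hgt → ℝ} (hF : Loc A F) (hG : Loc A G) :
    Loc A (fun h => F h * G h) := by
  classical
  obtain ⟨Λ, h1, h2⟩ := hF
  obtain ⟨Λ', h1', h2'⟩ := hG
  refine ⟨Λ ∪ Λ', fun q hq => ?_, fun h h' hh => ?_⟩
  · rcases Finset.mem_union.1 hq with hq | hq
    · exact h1 q hq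
    · exact h1' q hq
  · simp only
    rw [h2 h h' fun q hq => hh q (Finset.mem_union_left _ hq),
      h2' h h' fun q hq => hh q (Finset.mem_union_right _ hq)]

lemma Adm.lin {A : Set (ℤ × ℤ)} {F G : Hgt → ℝ} (hF : Adm P A F) (hG : Adm P A G) (t : ℝ) :
    Adm P A (fun h => F h + t * G h) := by
  classical
  obtain ⟨Λ, h1, h2⟩ := hF.loc
  obtain ⟨Λ', h1', h2'⟩ := hG.loc
  obtain ⟨C, hC⟩ := hF.bdd
  obtain ⟨C', hC'⟩ := hG.bdd
  refine ⟨⟨Λ ∪ Λ', fun q hq => ?_, fun h h' hh => ?_⟩, ⟨C + |t| * C', fun h => ?_⟩,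
    hF.int.add (hG.int.const_mul t)⟩
  · rcases Finset.mem_union.1 hq with hq | hq
    · exact h1 q hq
    · exact h1' q hq
  · simp only
    rw [h2 h h' fun q hq => hh q (Finset.mem_union_left _ hq),
      h2' h h' fun q hq => hh q (Finset.mem_union_right _ hq)]
  · refine (norm_add_le _ _).trans (add_le_add (hC h) ?_)
    rw [norm_mul, Real.norm_eq_abs]
    exact mul_le_mul_of_nonneg_left (hC' h) (abs_nonneg _)

/-- products of admissible functionals are integrable -/
lemma Adm.int_mul {A B : Set (ℤ × ℤ)} {F G : Hgt → ℝ} (hF : Adm P A F) (hG : Adm P B G) :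
    Integrable (fun h => F h * G h) (mu0 P) := by
  obtain ⟨C, hC⟩ := hF.bdd
  exact hG.int.bdd_mul hF.int.1 (Eventually.of_forall hC)

/-- Cauchy-Schwarz inequality of the reflection form. -/
lemma rp_cs (hI : Inv P dY) (hR : RP P dY) {F G : Hgt → ℝ} (hF : Adm P {q | 0 ≤ q.2} F)
    (hG : Adm P {q | 0 ≤ q.2} G) :
    (∫ h, F h * G (pb (dY.θ 0) h) ∂(mu0 P)) ^ 2 ≤ (∫ h, F h * F (pb (dY.θ 0) h) ∂(mu0 P)) *
      ∫ h, G h * G (pb (dY.θ 0) h) ∂(mu0 P) := by
  have hU : ∀ q ∈ {q : ℤ × ℤ | 0 ≤ q.2}, dY.θ 0 q ∈ {q : ℤ × ℤ | q.2 ≤ 0} := by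
    intro q hq
    simp only [Set.mem_ofPred_eq, dY] at hq ⊢
    omega
  have hF' := hF.refl hI hU
  have hG' := hG.refl hI hU
  have iFF := hF.int_mul hF'
  have iFG := hF.int_mul hG'
  have iGF := hG.int_mul hF'
  have iGG := hG.int_mul hG'
  have hsym : ∫ h, G h * F (pb (dY.θ 0) h) ∂(mu0 P) = ∫ h, F h * G (pb (dY.θ 0) h) ∂(mu0 P) := by
    have h1 := integral_map (μ := mu0 P) (φ := pb (dY.θ 0)) (measurable_pbH _).aemeasurable
      (f := fun h => F h * G (pb (dY.θ 0) h)) (by rw [hI.1 0]; exact iFG.1)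
    rw [hI.1 0] at h1
    rw [h1]
    refine integral_congr_ae (Eventually.of_forall fun h => ?_)
    simp only [pb_pb]
    ring
  have key : ∀ t : ℝ, 0 ≤ (∫ h, G h * G (pb (dY.θ 0) h) ∂(mu0 P)) * t ^ 2 +
      2 * (∫ h, F h * G (pb (dY.θ 0) h) ∂(mu0 P)) * t +
        ∫ h, F h * F (pb (dY.θ 0) h) ∂(mu0 P) := by
    intro t
    have h0 := hR 0 _ ((show Adm P {q | (0 : ℤ) ≤ dY.l q} F from hF).lin
      (show Adm P {q | (0 : ℤ) ≤ dY.l q} G from hG) t)
    have e : ∫ h, (F h + t * G h) * (F (pb (dY.θ 0) h) + t * G (pb (dY.θ 0) h)) ∂(mu0 P) =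
        (∫ h, G h * G (pb (dY.θ 0) h) ∂(mu0 P)) * t ^ 2 +
      2 * (∫ h, F h * G (pb (dY.θ 0) h) ∂(mu0 P)) * t +
        ∫ h, F h * F (pb (dY.θ 0) h) ∂(mu0 P) := by
      have e1 : ∀ h : Hgt, (F h + t * G h) * (F (pb (dY.θ 0) h) + t * G (pb (dY.θ 0) h)) =
          F h * F (pb (dY.θ 0) h) + (t * (F h * G (pb (dY.θ 0) h)) +
            (t * (G h * F (pb (dY.θ 0) h)) + t ^ 2 * (G h * G (pb (dY.θ 0) h)))) := by
        intro h; ring
      simp only [e1]
      have i3 : Integrable (fun h => t * (G h * F (pb (dY.θ 0) h)) +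
          t ^ 2 * (G h * G (pb (dY.θ 0) h))) (mu0 P) := (iGF.const_mul t).add (iGG.const_mul _)
      have i2 : Integrable (fun h => t * (F h * G (pb (dY.θ 0) h)) +
          (t * (G h * F (pb (dY.θ 0) h)) + t ^ 2 * (G h * G (pb (dY.θ 0) h)))) (mu0 P) :=
        (iFG.const_mul t).add i3
      rw [integral_add iFF i2, integral_add (iFG.const_mul t) i3,
        integral_add (iGF.const_mul t) (iGG.const_mul _), integral_const_mul,
        integral_const_mul, integral_const_mul, hsym]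
      ring
    rw [← e]
    exact h0
  have := discrim_le_zero (a := ∫ h, G h * G (pb (dY.θ 0) h) ∂(mu0 P))
    (b := 2 * ∫ h, F h * G (pb (dY.θ 0) h) ∂(mu0 P))
    (c := ∫ h, F h * F (pb (dY.θ 0) h) ∂(mu0 P)) (fun t => by
    have := key t
    rwa [pow_two] at this)
  unfold discrim at this
  linarith

end Vale.Agent.P145.FA
end

section

/-!
P145, block F-A: the localised null functional and the final form of the product statement
(no condition on the functionals `G1, ..., G4` except locality and the bound `1`).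
-/

namespace Vale.Agent.P145.FA

open Finset Filter Topology MeasureTheory
open Vale.Agent.P152

/-- Localised null functional. -/
noncomputable def Wf (w u φ : (ℤ × ℤ) →₀ ℝ) (α K : ℝ) (h : Hgt) : ℂ :=
  Yf w u α h * ((Real.exp (-((ev φ h) ^ 2 / (2 * K ^ 2))) : ℝ) : ℂ)

/-- H1': half-plane statement, uniform in `G`. -/
def S_hp2 : Prop := ∀ (P : Measure (Ori (ℤ × ℤ))) [IsProbabilityMeasure P], Inv P dY → RP P dY →
  ∀ (w u φ : ℕ → (ℤ × ℤ) →₀ ℝ) (α : ℝ), SDseq P w u φ α →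
  (∀ n, ∀ q, q ∈ (w n).support ∨ q ∈ (u n).support ∨ q ∈ (φ n).support → 0 ≤ q.2) →
  ∃ e : ℝ → ℝ, Tendsto (fun K => K ^ 2 * e K) atTop (𝓝 0) ∧ ∀ K ≥ 1,
    (∀ n, Adm P {q | 0 ≤ q.2} (Wf (w n) (u n) (φ n) α K)) ∧
    ∀ ε > 0, ∀ᶠ n in atTop, ∀ G : Hgt → ℂ, Adm P {q | q.2 ≤ 0} G →
    ‖∫ h, Wf (w n) (u n) (φ n) α K h * G h ∂(mu0 P)‖ ^ 2 ≤
      (e K + ε) * ∫ h, ‖G h‖ ^ 2 ∂(mu0 P)

/-- T: truncation with a second bump of charge one. -/
def S_trunc : Prop := ∃ C : ℝ, 0 ≤ C ∧ ∀ (P : Measure (Ori (ℤ × ℤ))) [IsProbabilityMeasure P]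
  (φ φ' : (ℤ × ℤ) →₀ ℝ) (K V : ℝ), mass φ = 1 → mass φ' = 1 → 1 ≤ K →
  ∫ ω, (ev φ' (pth ω) - ev φ (pth ω)) ^ 2 ∂P ≤ V →
  Integrable (fun h => Real.exp (-((ev φ h) ^ 2 / (2 * K ^ 2)))) (mu0 P) ∧
  Integrable (fun h => if |ev φ' h| ≤ K ^ 2 then (1 : ℝ) else 0) (mu0 P) ∧
  ∫ h, (if |ev φ' h| ≤ K ^ 2 then (1 : ℝ) else 0) ∂(mu0 P) ≤ C * K ^ 2 ∧
  ∫ h, Real.exp (-((ev φ h) ^ 2 / (2 * K ^ 2))) *
    (1 - if |ev φ' h| ≤ K ^ 2 then (1 : ℝ) else 0) ∂(mu0 P) ≤
      C * (K * Real.exp (-(K ^ 2 / 16)) + V / K ^ 3)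

/-- H2': product form (pinwheel), final version. -/
def S_fa2 : Prop := ∀ (P : Measure (Ori (ℤ × ℤ))) [IsProbabilityMeasure P],
  (∀ a : ℤ × ℤ, (2 : ℤ) ∣ a.1 + a.2 → (mu0 P).map (pb (fun q => q + a)) = mu0 P) →
  (∀ D ∈ [dX, dY, dD, dA, dX.neg, dY.neg, dD.neg, dA.neg], LegLim P D) → Inv P dY → RP P dY →
  ∀ (w u φ φ' : ℕ → (ℤ × ℤ) →₀ ℝ) (α V : ℝ), SDseq P w u φ α → (∀ n, mass (φ' n) = 1) →
  (∀ n, ∫ ω, (ev (φ' n) (pth ω) - ev (φ n) (pth ω)) ^ 2 ∂P ≤ V) →
  ∀ (ρ : ℕ) (N : ℕ → ℕ) (xl xr yt : ℕ → ℤ), (∀ n, 1 ≤ N n) →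
  (∀ n, |xl n| ≤ ρ * N n ∧ |xr n| ≤ ρ * N n ∧ |yt n| ≤ ρ * N n) →
  (∀ n, ∀ q, q ∈ (w n).support ∨ q ∈ (u n).support ∨ q ∈ (φ n).support →
    0 ≤ q.2 ∧ q.2 ≤ yt n ∧ xl n ≤ q.1 ∧ q.1 ≤ xr n ∧ |q.1| ≤ ρ * N n ∧ |q.2| ≤ ρ * N n) →
  (∀ n, ∀ q ∈ (φ' n).support, q.1 ≤ xl n - 2 * N n ∧ |q.1| ≤ ρ * N n ∧ |q.2| ≤ ρ * N n) →
  ∀ ε > 0, ∃ K0 : ℝ, ∀ K ≥ K0, ∀ (G1 G2 G3 G4 : ℕ → Hgt → ℂ),
  (∀ n, Loc {q | q.1 ≤ xl n - 2 * N n ∧ |q.1| ≤ ρ * N n ∧ |q.2| ≤ ρ * N n} (G1 n)) →
  (∀ n, Loc {q | yt n + 2 * N n ≤ q.2 ∧ xl n ≤ q.1 ∧ |q.1| ≤ ρ * N n ∧ |q.2| ≤ ρ * N n} (G2 n)) →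
  (∀ n, Loc {q | xr n + 2 * N n ≤ q.1 ∧ q.2 ≤ yt n ∧ xl n ≤ q.1 ∧ |q.1| ≤ ρ * N n ∧
    |q.2| ≤ ρ * N n} (G3 n)) →
  (∀ n, Loc {q | q.2 ≤ 0 ∧ q.2 ≤ yt n ∧ xl n ≤ q.1 ∧ q.1 ≤ xr n ∧ |q.1| ≤ ρ * N n ∧
    |q.2| ≤ ρ * N n} (G4 n)) →
  (∀ n h, ‖G1 n h‖ ≤ 1) → (∀ n h, ‖G2 n h‖ ≤ 1) → (∀ n h, ‖G3 n h‖ ≤ 1) →
  (∀ n h, ‖G4 n h‖ ≤ 1) →
  ∀ᶠ n in atTop, ‖∫ h, Wf (w n) (u n) (φ n) α K h * G1 n h * G2 n h * G3 n h * G4 n h
    ∂(mu0 P)‖ ≤ ε

end Vale.Agent.P145.FA
end

section

/-!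
P145, block F-B: the swap property (Gibbs property) of the plane measure on the arrows, from the
iterated limit of the tori.
-/

namespace Vale.Agent.P145.FB

open Finset Filter Topology MeasureTheory
open Vale.Agent.P152 Vale.Agent.P145.FA

/-- Swap property (Gibbs property) of the arrows. -/
def Swap (c : ℝ) (P : Measure (Ori (ℤ × ℤ))) : Prop :=
  ∀ (E : Finset (Edge (ℤ × ℤ))) (V : Finset (ℤ × ℤ)) (ξ ξ' : Ori (ℤ × ℤ)),
    (∀ v ∈ V, FP.star v ⊆ E) → (∀ e ∈ E, ξ e ≠ ξ' e → FP.Ends V e) →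
    P.real (cyl E ξ) * ∏ v ∈ V, FP.vwt c ξ' v = P.real (cyl E ξ') * ∏ v ∈ V, FP.vwt c ξ v

/-- `P` is the iterated limit of the tori. -/
def TorL (c : ℝ) (P : Measure (Ori (ℤ × ℤ))) : Prop :=
  ∀ (Λ : Finset (Edge (ℤ × ℤ))) (f : Ori (ℤ × ℤ) → ℝ),
    (∀ ω ω', (∀ e ∈ Λ, ω e = ω' e) → f ω = f ω') → ∀ ε > 0, ∃ q0 : ℕ, ∀ l : ℕ, q0 ≤ l →
    ∀ᶠ M : ℕ in atTop, |torA c (M + 1) (2 * (l + 1)) f - ∫ ω, f ω ∂P| ≤ ε

lemma measurableSet_cylE (Λ : Finset (Edge (ℤ × ℤ))) (ξ : Ori (ℤ × ℤ)) :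
    MeasurableSet (cyl Λ ξ) := by
  have h1 : cyl Λ ξ = ⋂ e ∈ Λ, (fun x : Ori (ℤ × ℤ) => x e) ⁻¹' {ξ e} := by
    ext x; simp only [cyl, Sum.forall, Prod.forall, Set.mem_ofPred_eq, Set.mem_iInter, Set.mem_preimage, Set.mem_singleton_iff]
  rw [h1]
  exact Finset.measurableSet_biInter _ fun e _ =>
    (measurable_pi_apply e) (measurableSet_singleton _)

theorem swap_of_torL {c : ℝ} {P : Measure (Ori (ℤ × ℤ))} (hT : TorL c P) : Swap c P := by
  intro E V ξ ξ' hin hout
  -- the cylinder probabilities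
  have hC : ∀ Λ ξ, ∀ ε > 0, ∃ q0 : ℕ, ∀ l : ℕ, q0 ≤ l → ∀ᶠ M : ℕ in atTop,
      |torA c (M + 1) (2 * (l + 1)) ((cyl Λ ξ).indicator (fun _ => (1 : ℝ))) -
        P.real (cyl Λ ξ)| ≤ ε := by
    intro Λ ξ ε hε
    have h1 := hT Λ ((cyl Λ ξ).indicator (fun _ => (1 : ℝ))) (by
      intro ω ω' hω
      have : (ω ∈ cyl Λ ξ) ↔ (ω' ∈ cyl Λ ξ) := by
        constructor
        · intro h e he; rw [← hω e he]; exact h e he
        · intro h e he; rw [hω e he]; exact h e he
      by_cases h2 : ω ∈ cyl Λ ξ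
      · rw [Set.indicator_of_mem h2, Set.indicator_of_mem (this.1 h2)]
      · rw [Set.indicator_of_notMem h2, Set.indicator_of_notMem (fun h3 => h2 (this.2 h3))]) ε hε
    have h2 : ∫ ω, (cyl Λ ξ).indicator (fun _ => (1 : ℝ)) ω ∂P = P.real (cyl Λ ξ) :=
      integral_indicator_one (measurableSet_cylE Λ ξ)
    rw [h2] at h1
    exact h1
  set K : ℤ := (∑ v ∈ V, (|v.1| + |v.2|)) +
    ∑ e ∈ E, (Sum.elim (fun v : ℤ × ℤ => |v.1| + |v.2|) (fun v => |v.1| + |v.2|) e) with hK
  have hnn : ∀ e : Edge (ℤ × ℤ),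
      0 ≤ Sum.elim (fun v : ℤ × ℤ => |v.1| + |v.2|) (fun v => |v.1| + |v.2|) e := by
    rintro (v | v) <;> simp only [Sum.elim_inl, Sum.elim_inr] <;> (clear * -; positivity)
  have hnv : ∀ v : ℤ × ℤ, 0 ≤ |v.1| + |v.2| := fun v => by (clear * -; positivity)
  have hE : ∀ v, (Sum.inl v ∈ E ∨ Sum.inr v ∈ E) → |v.1| ≤ K ∧ |v.2| ≤ K := by
    intro v hv
    have h0 : 0 ≤ ∑ v ∈ V, (|v.1| + |v.2|) := Finset.sum_nonneg fun v _ => hnv v
    rcases hv with hv | hv
    · have := Finset.single_le_sum (fun e _ => hnn e) hv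
      simp only [Sum.elim_inl] at this
      have h1 := abs_nonneg v.1
      have h2 := abs_nonneg v.2
      constructor <;> omega
    · have := Finset.single_le_sum (fun e _ => hnn e) hv
      simp only [Sum.elim_inr] at this
      have h1 := abs_nonneg v.1
      have h2 := abs_nonneg v.2
      constructor <;> omega
  have hV : ∀ v ∈ V, |v.1| ≤ K ∧ |v.2| ≤ K := by
    intro v hv
    have h0 : 0 ≤ ∑ e ∈ E, (Sum.elim (fun v : ℤ × ℤ => |v.1| + |v.2|)
        (fun v => |v.1| + |v.2|) e) := Finset.sum_nonneg fun e _ => hnn e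
    have := Finset.single_le_sum (fun v _ => hnv v) hv
    have h1 := abs_nonneg v.1
    have h2 := abs_nonneg v.2
    constructor <;> omega
  set a := ∏ v ∈ V, FP.vwt c ξ' v with ha
  set b := ∏ v ∈ V, FP.vwt c ξ v with hb
  -- the identity up to an arbitrary error
  have key : ∀ ε > 0, |P.real (cyl E ξ) * a - P.real (cyl E ξ') * b| ≤ ε * (|a| + |b|) := by
    intro ε hε
    obtain ⟨q1, h1⟩ := hC E ξ ε hε
    obtain ⟨q2, h2⟩ := hC E ξ' ε hε
    set l := max (max q1 q2) (2 * K).toNat with hl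
    have e1 := h1 l (le_trans (le_max_left _ _) (le_max_left _ _))
    have e2 := h2 l (le_trans (le_max_right _ _) (le_max_left _ _))
    have hlK : (2 * K).toNat ≤ l := le_max_right _ _
    obtain ⟨M, ⟨hM1, hM2⟩, hM3⟩ := ((e1.and e2).and
      (eventually_ge_atTop (2 * K).toNat)).exists
    have a1 : 2 * K < ((M + 1 : ℕ) : ℤ) := by (clear * - hM3; omega)
    have a2 : 2 * K < ((2 * (l + 1) : ℕ) : ℤ) := by omega
    have e3 := FP.torus_swap (M := M + 1) (L := 2 * (l + 1)) c (FP.pr_inj a1 a2 hE)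
      (FP.prV_inj a1 a2 hV) hin hout
    have e4 : torA c (M + 1) (2 * (l + 1)) ((cyl E ξ).indicator (fun _ => (1 : ℝ))) * a =
        torA c (M + 1) (2 * (l + 1)) ((cyl E ξ').indicator (fun _ => (1 : ℝ))) * b := by
      unfold torA
      rw [div_mul_eq_mul_div, div_mul_eq_mul_div, e3]
    set x := torA c (M + 1) (2 * (l + 1)) ((cyl E ξ).indicator (fun _ => (1 : ℝ)))
    set y := torA c (M + 1) (2 * (l + 1)) ((cyl E ξ').indicator (fun _ => (1 : ℝ)))
    have e5 : P.real (cyl E ξ) * a - P.real (cyl E ξ') * b =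
        -((x - P.real (cyl E ξ)) * a) + (y - P.real (cyl E ξ')) * b := by linarith only [e4]
    rw [e5]
    calc |-((x - P.real (cyl E ξ)) * a) + (y - P.real (cyl E ξ')) * b|
        ≤ |-((x - P.real (cyl E ξ)) * a)| + |(y - P.real (cyl E ξ')) * b| := abs_add_le _ _
      _ = |x - P.real (cyl E ξ)| * |a| + |y - P.real (cyl E ξ')| * |b| := by
          rw [abs_neg, abs_mul, abs_mul]
      _ ≤ ε * |a| + ε * |b| := add_le_add (mul_le_mul_of_nonneg_right hM1 (abs_nonneg _))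
          (mul_le_mul_of_nonneg_right hM2 (abs_nonneg _))
      _ = _ := by ring
  have h0 : |P.real (cyl E ξ) * a - P.real (cyl E ξ') * b| ≤ 0 := by
    refine le_of_forall_pos_le_add fun δ hδ => ?_
    have hs : 0 < |a| + |b| + 1 := by (clear * -; positivity)
    have h1 := key (δ / (|a| + |b| + 1)) (div_pos hδ hs)
    have h2 : δ / (|a| + |b| + 1) * (|a| + |b|) ≤ δ := by
      rw [div_mul_eq_mul_div, div_le_iff₀ hs]
      nlinarith only [hδ]
    linarith only [h1, h2]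
  have := abs_nonpos_iff.1 h0
  linarith only [this]

end Vale.Agent.P145.FB
end

section

/-!
P145, block F-B: the flip.

`U D o` is the set of the faces of `D` which are not connected to the complement of `D` by closed
bonds. Reversing all arrows around the odd faces of `U D o` preserves the joint law of the arrows
and the bonds.
-/

namespace Vale.Agent.P145.FB

open Finset Filter Topology MeasureTheory
open Vale.Agent.P152 Vale.Agent.P145.FA

/-! ### A measure on arrows and bonds is determined by its cylinders -/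

lemma ext_bool {I : Type} [DecidableEq I] {μ ν : Measure (I → Bool)} [IsFiniteMeasure μ]
    [IsFiniteMeasure ν] (F : Finset I → Prop) (hF : ∀ s, ∃ s', s ⊆ s' ∧ F s')
    (h : ∀ s, F s → ∀ a : I → Bool, μ {x | ∀ i ∈ s, x i = a i} = ν {x | ∀ i ∈ s, x i = a i}) :
    μ = ν := by
  have hm : ∀ s : Finset I, Measurable (s.restrict (π := fun _ : I => Bool)) := fun s =>
    Finset.measurable_restrict s
  have key : ∀ s, F s → μ.map s.restrict = ν.map s.restrict := by
    intro s hs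
    rw [Measure.ext_iff_singleton]
    intro η
    rw [Measure.map_apply (hm s) (measurableSet_singleton _),
      Measure.map_apply (hm s) (measurableSet_singleton _)]
    have e : (s.restrict (π := fun _ : I => Bool)) ⁻¹' {η} =
        {x | ∀ i ∈ s, x i = (fun j => if hj : j ∈ s then η ⟨j, hj⟩ else true) i} := by
      ext x
      simp only [Set.mem_preimage, Set.mem_singleton_iff]
      constructor
      · intro h i hi
        rw [← h]
        simp [hi]
      · intro h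
        funext i
        have := h i.1 i.2
        simp only [i.2, dif_pos] at this
        exact this
    rw [e]
    exact h s hs _
  have key2 : ∀ s : Finset I, μ.map s.restrict = ν.map s.restrict := by
    intro s
    obtain ⟨s', hss, hs'⟩ := hF s
    have e : (s.restrict (π := fun _ : I => Bool)) =
        Finset.restrict₂ (π := fun _ : I => Bool) hss ∘ s'.restrict := rfl
    have hm2 : Measurable (Finset.restrict₂ (π := fun _ : I => Bool) hss) :=
      Finset.measurable_restrict₂ hss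
    rw [e, ← Measure.map_map hm2 (hm s'), key s' hs', Measure.map_map hm2 (hm s')]
  exact IsProjectiveLimit.unique (P := fun s : Finset I => μ.map s.restrict) (fun s => rfl)
    (fun s => (key2 s).symm)

lemma ext_cylO {μ ν : Measure (Ori (ℤ × ℤ) × Mk)} [IsFiniteMeasure μ] [IsFiniteMeasure ν]
    (F : Finset (Edge (ℤ × ℤ)) → Finset Pt → Prop)
    (hF : ∀ E W, ∃ E' W', E ⊆ E' ∧ W ⊆ W' ∧ F E' W')
    (h : ∀ E W, F E W → ∀ a o, μ (cylO E W a o) = ν (cylO E W a o)) : μ = ν := by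
  classical
  set Φ := MeasurableEquiv.sumPiEquivProdPi (fun _ : Edge (ℤ × ℤ) ⊕ Pt => Bool) with hΦ
  have key : μ.map Φ.symm = ν.map Φ.symm := by
    have : IsFiniteMeasure (μ.map Φ.symm) := Measure.isFiniteMeasure_map _ _
    have : IsFiniteMeasure (ν.map Φ.symm) := Measure.isFiniteMeasure_map _ _
    refine ext_bool (fun s => ∃ E W, F E W ∧ s = E.disjSum W) (fun s => ?_) ?_
    · obtain ⟨E', W', h1, h2, h3⟩ := hF s.toLeft s.toRight
      refine ⟨E'.disjSum W', ?_, E', W', h3, rfl⟩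
      intro i hi
      rcases i with i | i
      · exact Finset.inl_mem_disjSum.2 (h1 (Finset.mem_toLeft.2 hi))
      · exact Finset.inr_mem_disjSum.2 (h2 (Finset.mem_toRight.2 hi))
    · rintro s ⟨E, W, hEW, rfl⟩ a
      rw [MeasurableEquiv.map_apply, MeasurableEquiv.map_apply]
      have e : (Φ.symm ⁻¹' {x | ∀ i ∈ E.disjSum W, x i = a i}) =
          cylO E W (fun e => a (Sum.inl e)) (fun w => a (Sum.inr w)) := by
        ext x
        simp only [Set.mem_preimage, cylO]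
        constructor
        · intro hx
          exact ⟨fun e he => hx (Sum.inl e) (Finset.inl_mem_disjSum.2 he),
            fun w hw => hx (Sum.inr w) (Finset.inr_mem_disjSum.2 hw)⟩
        · rintro ⟨hx1, hx2⟩ (i | i) hi
          · exact hx1 i (Finset.inl_mem_disjSum.1 hi)
          · exact hx2 i (Finset.inr_mem_disjSum.1 hi)
      rw [e]
      exact h E W hEW _ _
  have e1 : (μ.map Φ.symm).map Φ = μ := by
    rw [MeasurableEquiv.map_map_symm]
  have e2 : (ν.map Φ.symm).map Φ = ν := by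
    rw [MeasurableEquiv.map_map_symm]
  rw [← e1, ← e2, key]

/-! ### The swap property of the plane measure -/

lemma measurableSet_cyl' (Λ : Finset (Edge (ℤ × ℤ))) (ξ : Ori (ℤ × ℤ)) :
    MeasurableSet (cyl Λ ξ) := by
  have h1 : cyl Λ ξ = ⋂ e ∈ Λ, (fun x : Ori (ℤ × ℤ) => x e) ⁻¹' {ξ e} := by
    ext x; simp only [cyl, Sum.forall, Prod.forall, Set.mem_ofPred_eq, Set.mem_iInter, Set.mem_preimage, Set.mem_singleton_iff]
  rw [h1]
  exact Finset.measurableSet_biInter _ fun e _ =>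
    (measurable_pi_apply e) (measurableSet_singleton _)

/-! ### The flip -/

/-- The odd face at an edge of the six-vertex lattice. -/
def fo (e : Edge (ℤ × ℤ)) : Pt :=
  match e with
  | Sum.inl v => if Even (v.1 + v.2) then (v.1, v.2 - 1) else v
  | Sum.inr v => if Even (v.1 + v.2) then (v.1 - 1, v.2) else v

/-- The odd faces `f` and `g` are joined by a closed bond. -/
def Rb (o : Mk) (f g : Pt) : Prop :=
  ∃ w, o w = false ∧ ((f = o1 w ∧ g = o2 w) ∨ (f = o2 w ∧ g = o1 w))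

lemma Rb.symm {o : Mk} {f g : Pt} (h : Rb o f g) : Rb o g f := by
  obtain ⟨w, hw, h⟩ := h
  exact ⟨w, hw, h.symm.imp (fun h => ⟨h.2, h.1⟩) (fun h => ⟨h.2, h.1⟩)⟩

/-- The faces which are not connected to the complement of `D` by closed bonds. -/
def U (D : Set Pt) (o : Mk) : Set Pt := {f | ∀ g, Relation.ReflTransGen (Rb o) f g → g ∈ D}

lemma U_sub {D : Set Pt} {o : Mk} {f : Pt} (h : f ∈ U D o) : f ∈ D :=
  h f Relation.ReflTransGen.refl

lemma U_step {D : Set Pt} {o : Mk} {f g : Pt} (h : f ∈ U D o) (hr : Rb o f g) : g ∈ U D o :=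
  fun k hk => h k (Relation.ReflTransGen.head hr hk)

lemma U_iff {D : Set Pt} {o : Mk} {f g : Pt} (hr : Rb o f g) : f ∈ U D o ↔ g ∈ U D o :=
  ⟨fun h => U_step h hr, fun h => U_step h hr.symm⟩

/-- The vertices at the faces of `D`. -/
def VD (D : Finset Pt) : Finset Pt :=
  D.biUnion fun f => {f, (f.1 + 1, f.2), (f.1, f.2 + 1), (f.1 + 1, f.2 + 1)}

lemma mem_VD_o1 {D : Finset Pt} {w : Pt} (h : o1 w ∈ D) : w ∈ VD D := by
  rw [VD, Finset.mem_biUnion]
  refine ⟨_, h, ?_⟩
  unfold o1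
  split_ifs <;> simp

lemma mem_VD_o2 {D : Finset Pt} {w : Pt} (h : o2 w ∈ D) : w ∈ VD D := by
  rw [VD, Finset.mem_biUnion]
  refine ⟨_, h, ?_⟩
  unfold o2
  split_ifs <;> simp

lemma U_local {D : Finset Pt} {o o' : Mk} (h : ∀ w ∈ VD D, o w = o' w) :
    U (D : Set Pt) o = U (D : Set Pt) o' := by
  have key : ∀ o o' : Mk, (∀ w ∈ VD D, o w = o' w) → U (D : Set Pt) o ⊆ U (D : Set Pt) o' := by
    intro o o' h f hf g hg
    have : Relation.ReflTransGen (Rb o) f g := by
      induction hg with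
      | refl => exact Relation.ReflTransGen.refl
      | tail h1 h2 ih =>
        refine ih.tail ?_
        obtain ⟨w, hw, h3⟩ := h2
        refine ⟨w, ?_, h3⟩
        rw [h w, hw]
        have hD := hf _ ih
        rcases h3 with h3 | h3
        · exact mem_VD_o1 (by rw [← h3.1]; exact hD)
        · exact mem_VD_o2 (by rw [← h3.1]; exact hD)
    exact hf g this
  exact Set.Subset.antisymm (key o o' h) (key o' o fun w hw => (h w hw).symm)

open Classical in
/-- Reverse the arrows at the odd faces of `S`. -/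
noncomputable def flA (S : Set Pt) (a : Ori (ℤ × ℤ)) : Ori (ℤ × ℤ) :=
  fun e => xor (a e) (decide (fo e ∈ S))

lemma flA_flA (S : Set Pt) (a : Ori (ℤ × ℤ)) : flA S (flA S a) = a := by
  funext e; simp [flA]

/-- The flip. -/
noncomputable def fl (D : Finset Pt) (x : Ori (ℤ × ℤ) × Mk) : Ori (ℤ × ℤ) × Mk :=
  (flA (U (D : Set Pt) x.2) x.1, x.2)

lemma fl_fl (D : Finset Pt) (x : Ori (ℤ × ℤ) × Mk) : fl D (fl D x) = x := by
  simp [fl, flA_flA]

/-- Boolean form of `kap`. -/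
noncomputable def kb (t : ℝ) (od ev b : Bool) : ℝ :=
  if od = true then
    if ev = true then (if b = true then t else 1 - t) else (if b = true then 0 else 1)
  else (if b = true then 1 else 0)

lemma kap_eq (t : ℝ) (a : Ori (ℤ × ℤ)) (w : Pt) (b : Bool) : kap t a w b = kb t (od a w) (ev a w) b :=
  rfl

lemma core1 {c t : ℝ} (hct : c * t = 1) (l r b a p q s : Bool) (h : p = q ∨ s = true) :
    vw c (xor l p) (xor r q) (xor b q) (xor a p) *
      kb t ((xor r q) != (xor a p)) ((xor r q) == (xor b q)) s =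
    vw c l r b a * kb t (r != a) (r == b) s := by
  have hct' : c * (1 - t) = c - 1 := by linear_combination -hct
  cases l <;> cases r <;> cases b <;> cases a <;> cases p <;> cases q <;> cases s <;>
    simp_all [vw, kb]

lemma core2 {c t : ℝ} (hct : c * t = 1) (l r b a p q s : Bool) (h : p = q ∨ s = true) :
    vw c (xor l q) (xor r p) (xor b q) (xor a p) *
      kb t ((xor r p) == (xor b q)) ((xor r p) != (xor a p)) s =
    vw c l r b a * kb t (r == b) (r != a) s := by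
  have hct' : c * (1 - t) = c - 1 := by linear_combination -hct
  cases l <;> cases r <;> cases b <;> cases a <;> cases p <;> cases q <;> cases s <;>
    simp_all [vw, kb]

lemma wgt_flip {c t : ℝ} (hct : c * t = 1) (S : Set Pt) (a : Ori (ℤ × ℤ)) (w : Pt) (b : Bool)
    (h : (o1 w ∈ S ↔ o2 w ∈ S) ∨ b = true) :
    FP.vwt c (flA S a) w * kap t (flA S a) w b = FP.vwt c a w * kap t a w b := by
  classical
  rw [kap_eq, kap_eq]
  by_cases hw : Even (w.1 + w.2)
  · have n1 : ¬ Even (w.1 - 1 + w.2) := by rw [Int.even_iff] at hw ⊢; (clear * - hw; omega)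
    have n2 : ¬ Even (w.1 + (w.2 - 1)) := by rw [Int.even_iff] at hw ⊢; omega
    have f1 : fo (Sum.inl (w.1 - 1, w.2)) = o1 w := by simp only [fo, n1, ↓reduceIte, o1, hw]
    have f2 : fo (Sum.inl w) = o2 w := by simp only [fo, hw, ↓reduceIte, o2]
    have f3 : fo (Sum.inr (w.1, w.2 - 1)) = o2 w := by simp only [fo, n2, ↓reduceIte, o2, hw]
    have f4 : fo (Sum.inr w) = o1 w := by simp [fo, o1, hw]
    have := core1 hct (a (Sum.inl (w.1 - 1, w.2))) (a (Sum.inl w)) (a (Sum.inr (w.1, w.2 - 1)))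
      (a (Sum.inr w)) (decide (o1 w ∈ S)) (decide (o2 w ∈ S)) b (by
        rcases h with h | h
        · left; simp [h]
        · right; exact h)
    simp only [FP.vwt, od, ev, dg, ag, hw, if_true, flA, f1, f2, f3, f4]
    exact this
  · have n1 : Even (w.1 - 1 + w.2) := by rw [Int.even_iff] at hw ⊢; omega
    have n2 : Even (w.1 + (w.2 - 1)) := by rw [Int.even_iff] at hw ⊢; (clear * - hw; omega)
    have f1 : fo (Sum.inl (w.1 - 1, w.2)) = o2 w := by simp only [fo, n1, ↓reduceIte, o2, hw]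
    have f2 : fo (Sum.inl w) = o1 w := by simp [fo, o1, hw]
    have f3 : fo (Sum.inr (w.1, w.2 - 1)) = o2 w := by simp [fo, o2, hw, n2]
    have f4 : fo (Sum.inr w) = o1 w := by simp [fo, o1, hw]
    have := core2 hct (a (Sum.inl (w.1 - 1, w.2))) (a (Sum.inl w)) (a (Sum.inr (w.1, w.2 - 1)))
      (a (Sum.inr w)) (decide (o1 w ∈ S)) (decide (o2 w ∈ S)) b (by
        rcases h with h | h
        · left; simp [h]
        · right; exact h)
    simp only [FP.vwt, od, ev, dg, ag, hw, if_false, flA, f1, f2, f3, f4]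
    exact this

/-! ### Measurability of the flip -/

lemma measurableSet_U (D : Finset Pt) (f : Pt) : MeasurableSet {o : Mk | f ∈ U (D : Set Pt) o} := by
  classical
  have h1 : {o : Mk | f ∈ U (D : Set Pt) o} = (VD D).restrict (π := fun _ : Pt => Bool) ⁻¹'
      {η | f ∈ U (D : Set Pt) (fun w => if h : w ∈ VD D then η ⟨w, h⟩ else true)} := by
    ext o
    simp only [Set.mem_preimage, Set.mem_ofPred_eq]
    rw [U_local (D := D) (o := o) (o' := fun w => if h : w ∈ VD D then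
      (VD D).restrict (π := fun _ : Pt => Bool) o ⟨w, h⟩ else true)]
    intro w hw
    simp [hw]
  rw [h1]
  exact (Finset.measurable_restrict (VD D)) (Set.toFinite _).measurableSet

lemma measurable_fl (D : Finset Pt) : Measurable (fl D) := by
  classical
  refine Measurable.prodMk (measurable_pi_lambda _ fun e => ?_) measurable_snd
  have h1 : MeasurableSet {x : Ori (ℤ × ℤ) × Mk | fo e ∈ U (D : Set Pt) x.2} :=
    measurable_snd (measurableSet_U D (fo e))
  have h2 : Measurable fun x : Ori (ℤ × ℤ) × Mk => decide (fo e ∈ U (D : Set Pt) x.2) := by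
    refine measurable_to_bool ?_
    convert h1 using 1
    ext x
    simp
  have h3 : Measurable fun x : Ori (ℤ × ℤ) × Mk => x.1 e :=
    (measurable_pi_apply e).comp measurable_fst
  exact (measurable_of_finite (fun p : Bool × Bool => xor p.1 p.2)).comp (h3.prodMk h2)

/-! ### Invariance of the joint law -/

lemma cyl_zero {c : ℝ} (hc : 0 < c) {P : Measure (Ori (ℤ × ℤ))} [IsProbabilityMeasure P]
    (hice : ∀ᵐ a ∂P, ∀ x y, Ice a x y) {E : Finset (Edge (ℤ × ℤ))} {v : Pt}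
    (hE : FP.star v ⊆ E) {a : Ori (ℤ × ℤ)} (h0 : FP.vwt c a v = 0) : P.real (cyl E a) = 0 := by
  have h1 : ¬ Ice a v.1 v.2 := by
    intro h
    unfold Ice at h
    unfold FP.vwt vw at h0
    rw [if_pos (by simpa only [Prod.mk.eta] using h)] at h0
    split_ifs at h0 with h2
    · exact one_ne_zero h0
    · exact hc.ne' h0
  have h2 : P (cyl E a) = 0 := by
    refine measure_mono_null ?_ (ae_iff.1 hice)
    intro ω hω
    simp only [Set.mem_ofPred_eq]
    intro h3
    have h4 := h3 v.1 v.2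
    apply h1
    have e : ∀ e ∈ FP.star v, ω e = a e := fun e he => hω e (hE he)
    unfold Ice at h4 ⊢
    rw [← e _ (by simp [FP.star]), ← e _ (by simp [FP.star]), ← e _ (by simp [FP.star]),
      ← e _ (by simp [FP.star])]
    exact h4
  rw [Measure.real, h2, ENNReal.toReal_zero]

lemma fo_star {w : Pt} {e : Edge (ℤ × ℤ)} (he : e ∈ FP.star w) : fo e = o1 w ∨ fo e = o2 w := by
  simp only [FP.star, Finset.mem_insert, Finset.mem_singleton] at he
  by_cases hw : Even (w.1 + w.2)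
  · have n1 : ¬ Even (w.1 - 1 + w.2) := by rw [Int.even_iff] at hw ⊢; omega
    have n2 : ¬ Even (w.1 + (w.2 - 1)) := by rw [Int.even_iff] at hw ⊢; omega
    rcases he with rfl | rfl | rfl | rfl <;> simp [fo, o1, o2, hw, n1, n2]
  · have n1 : Even (w.1 - 1 + w.2) := by rw [Int.even_iff] at hw ⊢; omega
    have n2 : Even (w.1 + (w.2 - 1)) := by rw [Int.even_iff] at hw ⊢; omega
    rcases he with rfl | rfl | rfl | rfl <;> simp [fo, o1, o2, hw, n1, n2]

lemma ends_of_fo {D : Finset Pt} {e : Edge (ℤ × ℤ)} (he : fo e ∈ D) : FP.Ends (VD D) e := by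
  rcases e with v | v
  · unfold fo at he
    simp only at he
    split_ifs at he with hv
    · refine ⟨?_, ?_⟩ <;> rw [VD, Finset.mem_biUnion] <;> refine ⟨_, he, ?_⟩ <;> simp
    · refine ⟨?_, ?_⟩ <;> rw [VD, Finset.mem_biUnion] <;> refine ⟨_, he, ?_⟩ <;> simp
  · unfold fo at he
    simp only at he
    split_ifs at he with hv
    · refine ⟨?_, ?_⟩ <;> rw [VD, Finset.mem_biUnion] <;> refine ⟨_, he, ?_⟩ <;> simp
    · refine ⟨?_, ?_⟩ <;> rw [VD, Finset.mem_biUnion] <;> refine ⟨_, he, ?_⟩ <;> simp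

theorem fl_mp {c t : ℝ} (hc : 0 < c) (hct : c * t = 1) (ht1 : t ≤ 1)
    {P : Measure (Ori (ℤ × ℤ))} [IsProbabilityMeasure P] (hice : ∀ᵐ a ∂P, ∀ x y, Ice a x y)
    (hsw : Swap c P) (D : Finset Pt) : (JO t P).map (fl D) = JO t P := by
  classical
  have ht0 : 0 ≤ t := by
    by_contra h
    push Not at h
    nlinarith only [hct, hc, h]
  have hfin : IsProbabilityMeasure ((JO t P).map (fl D)) :=
    Measure.isProbabilityMeasure_map (measurable_fl D).aemeasurable
  refine ext_cylO (fun E W => VD D ⊆ W ∧ ∀ w ∈ W, FP.star w ⊆ E) (fun E W => ?_) ?_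
  · refine ⟨E ∪ (W ∪ VD D).biUnion FP.star, W ∪ VD D, Finset.subset_union_left,
      Finset.subset_union_left, Finset.subset_union_right, fun w hw => ?_⟩
    exact (Finset.subset_biUnion_of_mem FP.star hw).trans Finset.subset_union_right
  · rintro E W ⟨hDW, hE⟩ a o
    have hmc : MeasurableSet (cylO E W a o) := by
      have h1 : cylO E W a o = (⋂ e ∈ E, (fun x : Ori (ℤ × ℤ) × Mk => x.1 e) ⁻¹' {a e}) ∩
          ⋂ w ∈ W, (fun x : Ori (ℤ × ℤ) × Mk => x.2 w) ⁻¹' {o w} := by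
        ext x; simp only [cylO, Sum.forall, Prod.forall, Set.mem_ofPred_eq, Set.mem_inter_iff, Set.mem_iInter, Set.mem_preimage, Set.mem_singleton_iff]
      rw [h1]
      refine MeasurableSet.inter (Finset.measurableSet_biInter _ fun e _ => ?_)
        (Finset.measurableSet_biInter _ fun w _ => ?_)
      · exact ((measurable_pi_apply e).comp measurable_fst) (measurableSet_singleton _)
      · exact ((measurable_pi_apply w).comp measurable_snd) (measurableSet_singleton _)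
    set S : Set Pt := U (D : Set Pt) o with hS
    have hpre : fl D ⁻¹' (cylO E W a o) = cylO E W (flA S a) o := by
      ext x
      simp only [Set.mem_preimage, cylO, fl, Set.mem_ofPred_eq]
      constructor
      · rintro ⟨h1, h2⟩
        refine ⟨fun e he => ?_, h2⟩
        have hU : U (D : Set Pt) x.2 = S := U_local fun w hw => h2 w (hDW hw)
        rw [hU] at h1
        have := h1 e he
        rw [flA] at this ⊢
        rw [← this]
        simp
      · rintro ⟨h1, h2⟩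
        refine ⟨fun e he => ?_, h2⟩
        have hU : U (D : Set Pt) x.2 = S := U_local fun w hw => h2 w (hDW hw)
        rw [hU]
        have := h1 e he
        rw [flA] at this ⊢
        rw [this]
        simp
    rw [Measure.map_apply (measurable_fl D) hmc, hpre]
    have hSD : ∀ f, f ∈ S → f ∈ D := fun f hf => U_sub hf
    -- reals
    have main : (JO t P).real (cylO E W (flA S a) o) = (JO t P).real (cylO E W a o) := by
      rw [JO_cyl ht0 ht1 P hE, JO_cyl ht0 ht1 P hE, ← Finset.prod_sdiff hDW,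
        ← Finset.prod_sdiff (s₁ := VD D) (s₂ := W) (f := fun w => kap t a w (o w)) hDW]
      have hrest : ∏ w ∈ W \ VD D, kap t (flA S a) w (o w) =
          ∏ w ∈ W \ VD D, kap t a w (o w) := by
        refine Finset.prod_congr rfl fun w hw => kap_congr (fun e he => ?_) _
        rw [Finset.mem_sdiff] at hw
        have : fo e ∉ S := by
          intro h
          rcases fo_star he with h1 | h1
          · exact hw.2 (mem_VD_o1 (by rw [← h1]; exact hSD _ h))
          · exact hw.2 (mem_VD_o2 (by rw [← h1]; exact hSD _ h))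
        simp [flA, this]
      have hin : ∀ v ∈ VD D, FP.star v ⊆ E := fun v hv => hE v (hDW hv)
      have hswap := hsw E (VD D) a (flA S a) hin (fun e _ hne => by
        apply ends_of_fo
        apply hSD
        by_contra h
        apply hne
        simp [flA, h])
      have hwk : (∏ v ∈ VD D, FP.vwt c (flA S a) v) * ∏ v ∈ VD D, kap t (flA S a) v (o v) =
          (∏ v ∈ VD D, FP.vwt c a v) * ∏ v ∈ VD D, kap t a v (o v) := by
        rw [← Finset.prod_mul_distrib, ← Finset.prod_mul_distrib]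
        refine Finset.prod_congr rfl fun v _ => wgt_flip hct S a v (o v) ?_
        by_cases ho : o v = true
        · exact Or.inr ho
        · left
          exact U_iff ⟨v, by simpa using ho, Or.inl ⟨rfl, rfl⟩⟩
      rw [hrest]
      set A := P.real (cyl E a)
      set A' := P.real (cyl E (flA S a))
      set w0 := ∏ v ∈ VD D, FP.vwt c a v with hw0
      set w1 := ∏ v ∈ VD D, FP.vwt c (flA S a) v with hw1
      set k0 := ∏ v ∈ VD D, kap t a v (o v)
      set k1 := ∏ v ∈ VD D, kap t (flA S a) v (o v)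
      have goal : A' * k1 = A * k0 := by
        by_cases hz : w0 = 0
        · have hA : A = 0 := by
            obtain ⟨v, hv, hv0⟩ := Finset.prod_eq_zero_iff.1 hz
            exact cyl_zero hc hice (hin v hv) hv0
          rw [hz, zero_mul] at hwk
          rw [hA, zero_mul]
          rcases mul_eq_zero.1 hwk with h | h
          · have hA' : A' = 0 := by
              obtain ⟨v, hv, hv0⟩ := Finset.prod_eq_zero_iff.1 h
              exact cyl_zero hc hice (hin v hv) hv0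
            rw [hA', zero_mul]
          · rw [h, mul_zero]
        · have : (A' * k1) * w0 = (A * k0) * w0 := by
            calc (A' * k1) * w0 = (A' * w0) * k1 := by ring
              _ = (A * w1) * k1 := by rw [hswap]
              _ = A * (w1 * k1) := by ring
              _ = A * (w0 * k0) := by rw [hwk]
              _ = (A * k0) * w0 := by ring
          exact mul_right_cancel₀ hz this
      calc A' * ((∏ w ∈ W \ VD D, kap t a w (o w)) * k1) =
          (∏ w ∈ W \ VD D, kap t a w (o w)) * (A' * k1) := by ring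
        _ = (∏ w ∈ W \ VD D, kap t a w (o w)) * (A * k0) := by rw [goal]
        _ = A * ((∏ w ∈ W \ VD D, kap t a w (o w)) * k0) := by ring
    rw [Measure.real, Measure.real] at main
    exact (ENNReal.toReal_eq_toReal_iff' (measure_ne_top _ _) (measure_ne_top _ _)).1 main

/-- The flip preserves the joint law of the arrows and the bonds. -/
theorem fl_mp_pl {c t : ℝ} (hc : 0 < c) (hct : c * t = 1) (ht1 : t ≤ 1)
    {P : Measure (Ori (ℤ × ℤ))} (hP : Pl c P) (hS : Swap c P) (D : Finset Pt) :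
    MeasurePreserving (fl D) (JO t P) (JO t P) := by
  have := hP.prob
  exact ⟨measurable_fl D, fl_mp hc hct ht1 hP.ice hS D⟩

end Vale.Agent.P145.FB
end

section

/-!
# P145, block F-B: the flip, definitions

`U` is a finite set of odd faces and `b` an even face. On the event `FlipQ U b` all bonds between
`U` and its complement are open and at the height of `b`; `flipR U b` reflects the heights of `U`
(and of the even faces next to `U`) at the height of `b`.
-/

namespace Vale.Agent.P145.FB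

open MeasureTheory
open Vale.Agent.P152 Vale.Agent.P145.FA

/-- Faces of `U` and even faces next to a face of `U`. -/
def nb (U : Finset Pt) (q : Pt) : Prop :=
  q ∈ U ∨ (Even (q.1 + q.2) ∧
    (q + (1, 0) ∈ U ∨ q - (1, 0) ∈ U ∨ q + (0, 1) ∈ U ∨ q - (0, 1) ∈ U))

/-- All bonds between `U` and its complement are open and at the height of `b`. -/
def FlipQ (U : Finset Pt) (b : Pt) : Set (Hgt × Mk) :=
  {x | ∀ w : Pt, ((o1 w ∈ U ∧ o2 w ∉ U) ∨ (o2 w ∈ U ∧ o1 w ∉ U)) →
    x.2 w = true ∧ x.1 (e1 w) = x.1 b ∧ x.1 (e2 w) = x.1 b}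

open Classical in
/-- The heights of the faces of `nb U` reflected at the height of `b`. -/
noncomputable def refl0 (U : Finset Pt) (b : Pt) (h : Hgt) : Hgt :=
  fun q => if nb U q then 2 * h b - h q else h q

/-- The reflection, normalised such that the height of the face `0` does not change. -/
noncomputable def flipR (U : Finset Pt) (b : Pt) (x : Hgt × Mk) : Hgt × Mk :=
  (fun q => refl0 U b x.1 q - refl0 U b x.1 0 + x.1 0, x.2)

/-- The flip law. -/
def FlipLaw (t : ℝ) (P : Measure (Ori (ℤ × ℤ))) : Prop :=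
  ∀ U : Finset Pt, (∀ f ∈ U, Odd (f.1 + f.2)) → ∀ b : Pt, Even (b.1 + b.2) →
    ((J t P).restrict (FlipQ U b)).map (flipR U b) = (J t P).restrict (FlipQ U b)

end Vale.Agent.P145.FB
end

section

/-!
P145, block F-B: the flip law for the heights.
-/

namespace Vale.Agent.P145.FB

open Finset Filter Topology MeasureTheory
open Vale.Agent.P152 Vale.Agent.P145.FA

/-! ### General flips of the arrows -/

/-- The flip at a set depending on the bonds. -/
noncomputable def flS (S : Mk → Set Pt) (x : Ori (ℤ × ℤ) × Mk) : Ori (ℤ × ℤ) × Mk :=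
  (flA (S x.2) x.1, x.2)

lemma flS_flS (S : Mk → Set Pt) (x : Ori (ℤ × ℤ) × Mk) : flS S (flS S x) = x := by
  simp [flS, flA_flA]

lemma measurable_flS {S : Mk → Set Pt} (D : Finset Pt)
    (hloc : ∀ o o' : Mk, (∀ w ∈ VD D, o w = o' w) → S o = S o') : Measurable (flS S) := by
  classical
  refine Measurable.prodMk (measurable_pi_lambda _ fun e => ?_) measurable_snd
  have h0 : MeasurableSet {o : Mk | fo e ∈ S o} := by
    have h1 : {o : Mk | fo e ∈ S o} = (VD D).restrict (π := fun _ : Pt => Bool) ⁻¹'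
        {η | fo e ∈ S (fun w => if h : w ∈ VD D then η ⟨w, h⟩ else true)} := by
      ext o
      simp only [Set.mem_preimage, Set.mem_ofPred_eq]
      rw [hloc o (fun w => if h : w ∈ VD D then
        (VD D).restrict (π := fun _ : Pt => Bool) o ⟨w, h⟩ else true)]
      intro w hw
      simp [hw]
    rw [h1]
    exact (Finset.measurable_restrict (VD D)) (Set.toFinite _).measurableSet
  have h1 : MeasurableSet {x : Ori (ℤ × ℤ) × Mk | fo e ∈ S x.2} := measurable_snd h0
  have h2 : Measurable fun x : Ori (ℤ × ℤ) × Mk => decide (fo e ∈ S x.2) := by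
    refine measurable_to_bool ?_
    convert h1 using 1
    ext x
    simp
  have h3 : Measurable fun x : Ori (ℤ × ℤ) × Mk => x.1 e :=
    (measurable_pi_apply e).comp measurable_fst
  exact (measurable_of_finite (fun p : Bool × Bool => xor p.1 p.2)).comp (h3.prodMk h2)

theorem flS_mp {c t : ℝ} (hc : 0 < c) (hct : c * t = 1) (ht1 : t ≤ 1)
    {P : Measure (Ori (ℤ × ℤ))} [IsProbabilityMeasure P] (hice : ∀ᵐ a ∂P, ∀ x y, Ice a x y)
    (hsw : Swap c P) (D : Finset Pt) (S : Mk → Set Pt) (hSD0 : ∀ o, S o ⊆ (D : Set Pt))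
    (hloc : ∀ o o' : Mk, (∀ w ∈ VD D, o w = o' w) → S o = S o')
    (hcl : ∀ (o : Mk) (w : Pt), o w = false → (o1 w ∈ S o ↔ o2 w ∈ S o)) :
    (JO t P).map (flS S) = JO t P := by
  classical
  have ht0 : 0 ≤ t := by
    by_contra h
    push Not at h
    nlinarith only [hct, hc, h]
  have hmf := measurable_flS D hloc
  have hfin : IsProbabilityMeasure ((JO t P).map (flS S)) :=
    Measure.isProbabilityMeasure_map hmf.aemeasurable
  refine ext_cylO (fun E W => VD D ⊆ W ∧ ∀ w ∈ W, FP.star w ⊆ E) (fun E W => ?_) ?_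
  · refine ⟨E ∪ (W ∪ VD D).biUnion FP.star, W ∪ VD D, Finset.subset_union_left,
      Finset.subset_union_left, Finset.subset_union_right, fun w hw => ?_⟩
    exact (Finset.subset_biUnion_of_mem FP.star hw).trans Finset.subset_union_right
  · rintro E W ⟨hDW, hE⟩ a o
    have hmc : MeasurableSet (cylO E W a o) := by
      have h1 : cylO E W a o = (⋂ e ∈ E, (fun x : Ori (ℤ × ℤ) × Mk => x.1 e) ⁻¹' {a e}) ∩
          ⋂ w ∈ W, (fun x : Ori (ℤ × ℤ) × Mk => x.2 w) ⁻¹' {o w} := by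
        ext x; simp only [cylO, Sum.forall, Prod.forall, Set.mem_ofPred_eq, Set.mem_inter_iff, Set.mem_iInter, Set.mem_preimage, Set.mem_singleton_iff]
      rw [h1]
      refine MeasurableSet.inter (Finset.measurableSet_biInter _ fun e _ => ?_)
        (Finset.measurableSet_biInter _ fun w _ => ?_)
      · exact ((measurable_pi_apply e).comp measurable_fst) (measurableSet_singleton _)
      · exact ((measurable_pi_apply w).comp measurable_snd) (measurableSet_singleton _)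
    have hpre : flS S ⁻¹' (cylO E W a o) = cylO E W (flA (S o) a) o := by
      ext x
      simp only [Set.mem_preimage, cylO, flS, Set.mem_ofPred_eq]
      constructor
      · rintro ⟨h1, h2⟩
        refine ⟨fun e he => ?_, h2⟩
        have hU : S x.2 = S o := hloc _ _ fun w hw => h2 w (hDW hw)
        rw [hU] at h1
        have := h1 e he
        rw [flA] at this ⊢
        rw [← this]
        simp
      · rintro ⟨h1, h2⟩
        refine ⟨fun e he => ?_, h2⟩
        have hU : S x.2 = S o := hloc _ _ fun w hw => h2 w (hDW hw)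
        rw [hU]
        have := h1 e he
        rw [flA] at this ⊢
        rw [this]
        simp
    rw [Measure.map_apply hmf hmc, hpre]
    have hSD : ∀ f, f ∈ S o → f ∈ D := fun f hf => hSD0 o hf
    have main : (JO t P).real (cylO E W (flA (S o) a) o) = (JO t P).real (cylO E W a o) := by
      rw [JO_cyl ht0 ht1 P hE, JO_cyl ht0 ht1 P hE, ← Finset.prod_sdiff hDW,
        ← Finset.prod_sdiff (s₁ := VD D) (s₂ := W) (f := fun w => kap t a w (o w)) hDW]
      have hrest : ∏ w ∈ W \ VD D, kap t (flA (S o) a) w (o w) =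
          ∏ w ∈ W \ VD D, kap t a w (o w) := by
        refine Finset.prod_congr rfl fun w hw => kap_congr (fun e he => ?_) _
        rw [Finset.mem_sdiff] at hw
        have : fo e ∉ S o := by
          intro h
          rcases fo_star he with h1 | h1
          · exact hw.2 (mem_VD_o1 (by rw [← h1]; exact hSD _ h))
          · exact hw.2 (mem_VD_o2 (by rw [← h1]; exact hSD _ h))
        simp [flA, this]
      have hin : ∀ v ∈ VD D, FP.star v ⊆ E := fun v hv => hE v (hDW hv)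
      have hswap := hsw E (VD D) a (flA (S o) a) hin (fun e _ hne => by
        apply ends_of_fo
        apply hSD
        by_contra h
        apply hne
        simp [flA, h])
      have hwk : (∏ v ∈ VD D, FP.vwt c (flA (S o) a) v) * ∏ v ∈ VD D, kap t (flA (S o) a) v (o v) =
          (∏ v ∈ VD D, FP.vwt c a v) * ∏ v ∈ VD D, kap t a v (o v) := by
        rw [← Finset.prod_mul_distrib, ← Finset.prod_mul_distrib]
        refine Finset.prod_congr rfl fun v _ => wgt_flip hct (S o) a v (o v) ?_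
        by_cases ho : o v = true
        · exact Or.inr ho
        · left
          exact hcl o v (by simpa using ho)
      rw [hrest]
      set A := P.real (cyl E a)
      set A' := P.real (cyl E (flA (S o) a))
      set w0 := ∏ v ∈ VD D, FP.vwt c a v with hw0
      set w1 := ∏ v ∈ VD D, FP.vwt c (flA (S o) a) v with hw1
      set k0 := ∏ v ∈ VD D, kap t a v (o v)
      set k1 := ∏ v ∈ VD D, kap t (flA (S o) a) v (o v)
      have goal : A' * k1 = A * k0 := by
        by_cases hz : w0 = 0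
        · have hA : A = 0 := by
            obtain ⟨v, hv, hv0⟩ := Finset.prod_eq_zero_iff.1 hz
            exact cyl_zero hc hice (hin v hv) hv0
          rw [hz, zero_mul] at hwk
          rw [hA, zero_mul]
          rcases mul_eq_zero.1 hwk with h | h
          · have hA' : A' = 0 := by
              obtain ⟨v, hv, hv0⟩ := Finset.prod_eq_zero_iff.1 h
              exact cyl_zero hc hice (hin v hv) hv0
            rw [hA', zero_mul]
          · rw [h, mul_zero]
        · have : (A' * k1) * w0 = (A * k0) * w0 := by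
            calc (A' * k1) * w0 = (A' * w0) * k1 := by ring
              _ = (A * w1) * k1 := by rw [hswap]
              _ = A * (w1 * k1) := by ring
              _ = A * (w0 * k0) := by rw [hwk]
              _ = (A * k0) * w0 := by ring
          exact mul_right_cancel₀ hz this
      calc A' * ((∏ w ∈ W \ VD D, kap t a w (o w)) * k1) =
          (∏ w ∈ W \ VD D, kap t a w (o w)) * (A' * k1) := by ring
        _ = (∏ w ∈ W \ VD D, kap t a w (o w)) * (A * k0) := by rw [goal]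
        _ = A * ((∏ w ∈ W \ VD D, kap t a w (o w)) * k0) := by ring
    rw [Measure.real, Measure.real] at main
    exact (ENNReal.toReal_eq_toReal_iff' (measure_ne_top _ _) (measure_ne_top _ _)).1 main

/-! ### The height function of the flipped arrows -/

lemma iff_of_not {A B : Prop} (h : (A ∧ ¬ B) ∨ (B ∧ ¬ A) → False) : A ↔ B :=
  ⟨fun ha => by_contra fun hb => h (Or.inl ⟨ha, hb⟩),
    fun hb => by_contra fun ha => h (Or.inr ⟨hb, ha⟩)⟩

lemma bd_height {U : Finset Pt} {b : Pt} {h : Hgt}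
    (hbd : ∀ w, ((o1 w ∈ U ∧ o2 w ∉ U) ∨ (o2 w ∈ U ∧ o1 w ∉ U)) → h (e1 w) = h b ∧ h (e2 w) = h b)
    {x y : ℤ} (hq : Even (x + y)) (hne : h (x, y) ≠ h b) :
    ((x - 1, y) ∈ U ↔ (x, y - 1) ∈ U) ∧ ((x + 1, y) ∈ U ↔ (x, y - 1) ∈ U) ∧
      ((x, y + 1) ∈ U ↔ (x - 1, y) ∈ U) ∧ ((x, y + 1) ∈ U ↔ (x + 1, y) ∈ U) := by
  have n2 : ¬ Even (x + 1 + y) := by rw [Int.even_iff] at hq ⊢; omega
  have n3 : ¬ Even (x + (y + 1)) := by rw [Int.even_iff] at hq ⊢; omega
  have n4 : Even (x + 1 + (y + 1)) := by rw [Int.even_iff] at hq ⊢; omega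
  have k1 := hbd (x, y)
  have k2 := hbd (x + 1, y)
  have k3 := hbd (x, y + 1)
  have k4 := hbd (x + 1, y + 1)
  simp only [o1, o2, e1, e2, hq, n2, n3, n4, if_true, if_false, add_sub_cancel_right] at k1 k2 k3 k4
  exact ⟨iff_of_not fun h1 => hne (k1 h1).1, iff_of_not fun h1 => hne (k2 h1).1,
    iff_of_not fun h1 => hne (k3 h1).2, iff_of_not fun h1 => hne (k4 h1).2⟩

theorem isHeight_flip {a : Ori (ℤ × ℤ)} {h : Hgt} (hh : IsHeight a h) {U : Finset Pt}
    (hU : ∀ f ∈ U, Odd (f.1 + f.2)) {b : Pt}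
    (hbd : ∀ w, ((o1 w ∈ U ∧ o2 w ∉ U) ∨ (o2 w ∈ U ∧ o1 w ∉ U)) → h (e1 w) = h b ∧ h (e2 w) = h b)
    (h' : Hgt) (h'1 : ∀ q, nb U q → h' q = 2 * h b - h q) (h'2 : ∀ q, ¬ nb U q → h' q = h q) :
    IsHeight (flA (U : Set Pt) a) h' := by
  have hodd : ∀ q : Pt, ¬ Even (q.1 + q.2) → (nb U q ↔ q ∈ U) := by
    intro q hq
    unfold nb
    (clear * - hq; tauto)
  have heq : ∀ q : Pt, h q = h b → h' q = h q := by
    intro q hq
    by_cases hn : nb U q
    · rw [h'1 q hn]; omega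
    · exact h'2 q hn
  intro x y
  have H := hh x y
  refine ⟨?_, ?_⟩
  · have H1 := H.1
    by_cases hq : Even (x + y)
    · have nr : ¬ Even (x + (y - 1)) := by rw [Int.even_iff] at hq ⊢; omega
      have hfo : fo (Sum.inl (x, y)) = (x, y - 1) := by simp only [fo, hq, ↓reduceIte]
      by_cases hr : (x, y - 1) ∈ U
      · have nq : nb U (x, y) := Or.inr ⟨hq, Or.inr (Or.inr (Or.inr (by simpa using hr)))⟩
        rw [h'1 _ nq, h'1 _ ((hodd _ nr).2 hr)]
        have : flA (U : Set Pt) a (Sum.inl (x, y)) = !(a (Sum.inl (x, y))) := by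
          simp [flA, hfo, hr]
        rw [this]
        cases h3 : a (Sum.inl (x, y)) <;> simp only [h3, Bool.not_true, Bool.not_false,
          Bool.false_eq_true, if_false, if_true] at H1 ⊢ <;> omega
      · have : flA (U : Set Pt) a (Sum.inl (x, y)) = a (Sum.inl (x, y)) := by
          simp [flA, hfo, hr]
        rw [this, ← H1, h'2 _ (fun hn => hr ((hodd _ nr).1 hn))]
        have : h' (x, y) = h (x, y) := by
          by_cases hb : h (x, y) = h b
          · exact heq _ hb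
          · have k := bd_height hbd hq hb
            refine h'2 _ ?_
            intro hn
            rcases hn with hn | ⟨_, hn⟩
            · have := hU _ hn
              exact (Int.not_even_iff_odd.2 this) hq
            · simp only [Prod.mk_add_mk, Prod.mk_sub_mk, add_zero, sub_zero] at hn
              (clear * - H k hn hr; tauto)
        rw [this]
    · have nr : Even (x + (y - 1)) := by rw [Int.even_iff] at hq ⊢; omega
      have hfo : fo (Sum.inl (x, y)) = (x, y) := by simp only [fo, hq, ↓reduceIte]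
      by_cases hr : (x, y) ∈ U
      · have nq : nb U (x, y - 1) := Or.inr ⟨nr, Or.inr (Or.inr (Or.inl (by simpa using hr)))⟩
        rw [h'1 _ nq, h'1 _ ((hodd _ hq).2 hr)]
        have : flA (U : Set Pt) a (Sum.inl (x, y)) = !(a (Sum.inl (x, y))) := by
          simp [flA, hfo, hr]
        rw [this]
        cases h3 : a (Sum.inl (x, y)) <;> simp only [h3, Bool.not_true, Bool.not_false,
          Bool.false_eq_true, if_false, if_true] at H1 ⊢ <;> omega
      · have : flA (U : Set Pt) a (Sum.inl (x, y)) = a (Sum.inl (x, y)) := by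
          simp [flA, hfo, hr]
        rw [this, ← H1, h'2 _ (fun hn => hr ((hodd _ hq).1 hn))]
        have : h' (x, y - 1) = h (x, y - 1) := by
          by_cases hb : h (x, y - 1) = h b
          · exact heq _ hb
          · have k := bd_height hbd nr hb
            simp only [sub_add_cancel] at k
            refine h'2 _ ?_
            intro hn
            rcases hn with hn | ⟨_, hn⟩
            · have := hU _ hn
              exact (Int.not_even_iff_odd.2 this) nr
            · simp only [Prod.mk_add_mk, Prod.mk_sub_mk, add_zero, sub_zero, sub_add_cancel] at hn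
              (clear * - H k hn hr; tauto)
        rw [this]
  · have H1 := H.2
    by_cases hq : Even (x + y)
    · have nr : ¬ Even (x - 1 + y) := by rw [Int.even_iff] at hq ⊢; omega
      have hfo : fo (Sum.inr (x, y)) = (x - 1, y) := by simp only [fo, hq, ↓reduceIte]
      by_cases hr : (x - 1, y) ∈ U
      · have nq : nb U (x, y) := Or.inr ⟨hq, Or.inr (Or.inl (by simpa using hr))⟩
        rw [h'1 _ nq, h'1 _ ((hodd _ nr).2 hr)]
        have : flA (U : Set Pt) a (Sum.inr (x, y)) = !(a (Sum.inr (x, y))) := by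
          simp [flA, hfo, hr]
        rw [this]
        cases h3 : a (Sum.inr (x, y)) <;> simp only [h3, Bool.not_true, Bool.not_false,
          Bool.false_eq_true, if_false, if_true] at H1 ⊢ <;> omega
      · have : flA (U : Set Pt) a (Sum.inr (x, y)) = a (Sum.inr (x, y)) := by
          simp [flA, hfo, hr]
        rw [this, ← H1, h'2 _ (fun hn => hr ((hodd _ nr).1 hn))]
        have : h' (x, y) = h (x, y) := by
          by_cases hb : h (x, y) = h b
          · exact heq _ hb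
          · have k := bd_height hbd hq hb
            refine h'2 _ ?_
            intro hn
            rcases hn with hn | ⟨_, hn⟩
            · have := hU _ hn
              exact (Int.not_even_iff_odd.2 this) hq
            · simp only [Prod.mk_add_mk, Prod.mk_sub_mk, add_zero, sub_zero] at hn
              (clear * - H k hn hr; tauto)
        rw [this]
    · have nr : Even (x - 1 + y) := by rw [Int.even_iff] at hq ⊢; omega
      have hfo : fo (Sum.inr (x, y)) = (x, y) := by simp only [fo, hq, ↓reduceIte]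
      by_cases hr : (x, y) ∈ U
      · have nq : nb U (x - 1, y) := Or.inr ⟨nr, Or.inl (by simpa using hr)⟩
        rw [h'1 _ nq, h'1 _ ((hodd _ hq).2 hr)]
        have : flA (U : Set Pt) a (Sum.inr (x, y)) = !(a (Sum.inr (x, y))) := by
          simp [flA, hfo, hr]
        rw [this]
        cases h3 : a (Sum.inr (x, y)) <;> simp only [h3, Bool.not_true, Bool.not_false,
          Bool.false_eq_true, if_false, if_true] at H1 ⊢ <;> omega
      · have : flA (U : Set Pt) a (Sum.inr (x, y)) = a (Sum.inr (x, y)) := by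
          simp [flA, hfo, hr]
        rw [this, ← H1, h'2 _ (fun hn => hr ((hodd _ hq).1 hn))]
        have : h' (x - 1, y) = h (x - 1, y) := by
          by_cases hb : h (x - 1, y) = h b
          · exact heq _ hb
          · have k := bd_height hbd nr hb
            simp only [sub_add_cancel] at k
            refine h'2 _ ?_
            intro hn
            rcases hn with hn | ⟨_, hn⟩
            · have := hU _ hn
              exact (Int.not_even_iff_odd.2 this) nr
            · simp only [Prod.mk_add_mk, Prod.mk_sub_mk, add_zero, sub_zero, sub_add_cancel] at hn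
              (clear * - H k hn hr; tauto)
        rw [this]

/-! ### Almost sure properties -/

lemma measurable_evod (w : Pt) :
    Measurable (fun x : Ori (ℤ × ℤ) × Mk => (x.2 w, ev x.1 w, od x.1 w)) := by
  have h1 : Measurable fun x : Ori (ℤ × ℤ) × Mk =>
      (x.1 (Sum.inl w), x.1 (Sum.inr w), x.1 (Sum.inr (w.1, w.2 - 1)), x.2 w) := by
    refine ((measurable_pi_apply _).comp measurable_fst).prodMk
      (((measurable_pi_apply _).comp measurable_fst).prodMk
        (((measurable_pi_apply _).comp measurable_fst).prodMk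
          ((measurable_pi_apply _).comp measurable_snd)))
  by_cases hw : Even (w.1 + w.2)
  · have h2 : (fun x : Ori (ℤ × ℤ) × Mk => (x.2 w, ev x.1 w, od x.1 w)) =
        (fun y : Bool × Bool × Bool × Bool => (y.2.2.2, y.1 == y.2.2.1, y.1 != y.2.1)) ∘
        fun x => (x.1 (Sum.inl w), x.1 (Sum.inr w), x.1 (Sum.inr (w.1, w.2 - 1)), x.2 w) := by
      funext x
      simp only [ev, hw, ↓reduceIte, dg, od, ag, Function.comp_apply]
    rw [h2]
    exact (measurable_of_finite _).comp h1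
  · have h2 : (fun x : Ori (ℤ × ℤ) × Mk => (x.2 w, ev x.1 w, od x.1 w)) =
        (fun y : Bool × Bool × Bool × Bool => (y.2.2.2, y.1 != y.2.1, y.1 == y.2.2.1)) ∘
        fun x => (x.1 (Sum.inl w), x.1 (Sum.inr w), x.1 (Sum.inr (w.1, w.2 - 1)), x.2 w) := by
      funext x
      simp only [ev, hw, ↓reduceIte, ag, od, dg, Function.comp_apply]
    rw [h2]
    exact (measurable_of_finite _).comp h1

/-- The bonds fit to the arrows. -/
def GdJ (x : Ori (ℤ × ℤ) × Mk) : Prop :=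
  (∀ i j, Ice x.1 i j) ∧ ∀ w, (x.2 w = true → ev x.1 w = true ∨ od x.1 w = false) ∧
    (x.2 w = false → od x.1 w = true)

lemma measurableSet_Good : MeasurableSet {x | GdJ x} := by
  have h0 : {x | GdJ x} = (⋂ i : ℤ, ⋂ j : ℤ, {x | Ice x.1 i j}) ∩
      ⋂ w : Pt, (fun x : Ori (ℤ × ℤ) × Mk => (x.2 w, ev x.1 w, od x.1 w)) ⁻¹'
        {y | (y.1 = true → y.2.1 = true ∨ y.2.2 = false) ∧ (y.1 = false → y.2.2 = true)} := by
    ext x
    simp only [GdJ, Prod.forall, Set.mem_ofPred_eq, Set.preimage_ofPred_eq, Set.mem_inter_iff, Set.mem_iInter]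
  rw [h0]
  refine MeasurableSet.inter (MeasurableSet.iInter fun i => MeasurableSet.iInter fun j => ?_)
    (MeasurableSet.iInter fun w => measurable_evod w (Set.toFinite _).measurableSet)
  have h1 : ∀ e : Edge (ℤ × ℤ), Measurable fun x : Ori (ℤ × ℤ) × Mk => (x.1 e).toNat := fun e =>
    (measurable_of_finite Bool.toNat).comp ((measurable_pi_apply e).comp measurable_fst)
  exact measurableSet_eq_fun ((h1 _).add (h1 _)) ((h1 _).add (h1 _))

lemma JO_good {t : ℝ} {P : Measure (Ori (ℤ × ℤ))} [IsProbabilityMeasure P]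
    (hice : ∀ᵐ a ∂P, ∀ x y, Ice a x y) : ∀ᵐ x ∂(JO t P), GdJ x := by
  unfold JO
  rw [ae_map_iff measurable_oma.aemeasurable measurableSet_Good]
  have h1 : ∀ᵐ x ∂(P.prod (mkm t)), ∀ i j, Ice x.1 i j :=
    Measure.quasiMeasurePreserving_fst.ae hice
  filter_upwards [h1] with x hx
  refine ⟨hx, fun w => ⟨?_, ?_⟩⟩
  · intro h
    simp only [oma] at h
    cases h2 : od x.1 w
    · exact Or.inr rfl
    · left
      rw [h2] at h
      simp only [Bool.not_true, Bool.false_or, Bool.and_eq_true] at h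
      exact h.1
  · intro h
    simp only [oma] at h
    cases h2 : od x.1 w
    · rw [h2] at h; simp at h
    · rfl

/-- Height functions with bonds that fit. -/
structure GoodH (x : Hgt × Mk) : Prop where
  par : ∀ q : Pt, (2 : ℤ) ∣ x.1 q - (q.1 + q.2)
  stepx : ∀ q : Pt, |x.1 (q + (1, 0)) - x.1 q| = 1
  stepy : ∀ q : Pt, |x.1 (q + (0, 1)) - x.1 q| = 1
  opn : ∀ w : Pt, x.2 w = true → x.1 (e1 w) = x.1 (e2 w)
  cls : ∀ w : Pt, x.2 w = false → x.1 (o1 w) = x.1 (o2 w)

lemma ev_or_od {a : Ori (ℤ × ℤ)} (h : ∀ x y, Ice a x y) (w : Pt) :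
    ev a w = true ∨ od a w = true := by
  have h1 := h w.1 w.2
  unfold Ice at h1
  unfold ev od dg ag
  rw [Prod.mk.eta] at h1
  split_ifs <;> cases h2 : a (Sum.inl (w.1 - 1, w.2)) <;> cases h3 : a (Sum.inl w) <;>
    cases h4 : a (Sum.inr (w.1, w.2 - 1)) <;> cases h5 : a (Sum.inr w) <;>
    simp_all

lemma par_of_step {h : Hgt} (h0 : (2 : ℤ) ∣ h (0, 0))
    (hx : ∀ q : Pt, |h (q + (1, 0)) - h q| = 1) (hy : ∀ q : Pt, |h (q + (0, 1)) - h q| = 1)
    (q : Pt) : (2 : ℤ) ∣ h q - (q.1 + q.2) := by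
  have hx' : ∀ x y : ℤ, h (x + 1, y) - h (x, y) = 1 ∨ h (x + 1, y) - h (x, y) = -1 := by
    intro x y
    have := hx (x, y)
    simp only [Prod.mk_add_mk, add_zero] at this
    exact (abs_eq zero_le_one).1 this
  have hy' : ∀ x y : ℤ, h (x, y + 1) - h (x, y) = 1 ∨ h (x, y + 1) - h (x, y) = -1 := by
    intro x y
    have := hy (x, y)
    simp only [Prod.mk_add_mk, add_zero] at this
    exact (abs_eq zero_le_one).1 this
  have hcol : ∀ y : ℤ, (2 : ℤ) ∣ h (0, y) - y := by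
    intro y
    induction y using Int.induction_on with
    | zero => simpa only [sub_zero] using h0
    | succ i ih => have := hy' 0 i; omega
    | pred i ih =>
      have := hy' 0 (-i - 1)
      rw [sub_add_cancel] at this
      (clear * - ih this; omega)
  obtain ⟨x, y⟩ := q
  show (2 : ℤ) ∣ h (x, y) - (x + y)
  induction x using Int.induction_on with
  | zero => simpa only [zero_add] using hcol y
  | succ i ih => have := hx' i y; (clear * - ih this; omega)
  | pred i ih =>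
    have := hx' (-i - 1) y
    rw [sub_add_cancel] at this
    (clear * - ih this; omega)

lemma goodH_hk {x : Ori (ℤ × ℤ) × Mk} (hx : GdJ x) (k : ℤ) : GoodH (hk k x) := by
  have hh := pth_isHeight hx.1
  have sx : ∀ q : Pt, |(hk k x).1 (q + (1, 0)) - (hk k x).1 q| = 1 := by
    rintro ⟨i, j⟩
    have := (hh (i + 1) j).2
    rw [add_sub_cancel_right] at this
    simp only [hk, Prod.mk_add_mk, add_zero]
    split_ifs at this <;> [skip; skip] <;> rw [abs_eq zero_le_one] <;> omega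
  have sy : ∀ q : Pt, |(hk k x).1 (q + (0, 1)) - (hk k x).1 q| = 1 := by
    rintro ⟨i, j⟩
    have := (hh i (j + 1)).1
    rw [add_sub_cancel_right] at this
    simp only [hk, Prod.mk_add_mk, add_zero]
    split_ifs at this <;> [skip; skip] <;> rw [abs_eq zero_le_one] <;> omega
  have h0 : (hk k x).1 (0, 0) = 2 * k := by
    have := pth_zero x.1
    have e : ((0 : ℤ), (0 : ℤ)) = 0 := rfl
    simp only [hk, e, this, zero_add]
  refine ⟨par_of_step (by rw [h0]; exact dvd_mul_right _ _) sx sy, sx, sy, fun w hw => ?_,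
    fun w hw => ?_⟩
  · have h1 : ev x.1 w = true := by
      rcases (hx.2 w).1 hw with h1 | h1
      · exact h1
      · rcases ev_or_od hx.1 w with h2 | h2
        · exact h2
        · rw [h1] at h2; exact absurd h2 (by simp)
    rw [ev_iff hh, decide_eq_true_iff] at h1
    simp only [hk, h1]
  · have h1 := (hx.2 w).2 hw
    rw [od_iff hh, decide_eq_true_iff] at h1
    simp only [hk, h1]

lemma J_apply {t : ℝ} {P : Measure (Ori (ℤ × ℤ))} {A : Set (Hgt × Mk)} (hA : MeasurableSet A) :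
    J t P A = (2 : ENNReal)⁻¹ * JO t P (hk 0 ⁻¹' A) + (2 : ENNReal)⁻¹ * JO t P (hk 1 ⁻¹' A) := by
  simp only [J, Measure.coe_add, Measure.coe_smul, Pi.add_apply, Pi.smul_apply, smul_eq_mul]
  rw [Measure.map_apply (measurable_hk 0) hA, Measure.map_apply (measurable_hk 1) hA]

lemma J_ae {t : ℝ} {P : Measure (Ori (ℤ × ℤ))} {p : Hgt × Mk → Prop} (hp : MeasurableSet {x | p x})
    (h : ∀ k, ∀ᵐ x ∂(JO t P), p (hk k x)) : ∀ᵐ x ∂(J t P), p x := by
  rw [ae_iff]
  have h1 : {x | ¬ p x} = {x | p x}ᶜ := rfl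
  rw [h1, J_apply hp.compl]
  have h2 : ∀ k, JO t P (hk k ⁻¹' {x | p x}ᶜ) = 0 := fun k => ae_iff.1 (h k)
  rw [h2, h2]
  simp

lemma measurableSet_GoodH : MeasurableSet {x : Hgt × Mk | GoodH x} := by
  have hc : ∀ q : Pt, Measurable fun x : Hgt × Mk => x.1 q := fun q =>
    (measurable_pi_apply q).comp measurable_fst
  have hb : ∀ w : Pt, Measurable fun x : Hgt × Mk => x.2 w := fun q =>
    (measurable_pi_apply q).comp measurable_snd
  have h0 : {x : Hgt × Mk | GoodH x} =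
      (⋂ q : Pt, (fun x : Hgt × Mk => x.1 q) ⁻¹' {z | (2 : ℤ) ∣ z - (q.1 + q.2)}) ∩
      ((⋂ q : Pt, {x | x.1 (q + (1, 0)) - x.1 q ∈ ({1, -1} : Set ℤ)}) ∩
      ((⋂ q : Pt, {x | x.1 (q + (0, 1)) - x.1 q ∈ ({1, -1} : Set ℤ)}) ∩
      ((⋂ w : Pt, ({x | x.2 w = false} ∪ {x | x.1 (e1 w) = x.1 (e2 w)})) ∩
      (⋂ w : Pt, ({x | x.2 w = true} ∪ {x | x.1 (o1 w) = x.1 (o2 w)}))))) := by
    ext x
    simp only [Set.mem_ofPred_eq, Set.mem_insert_iff, Set.mem_singleton_iff, Set.mem_inter_iff, Set.mem_iInter, Set.mem_preimage, Set.mem_union]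
    constructor
    · rintro ⟨h1, h2, h3, h4, h5⟩
      refine ⟨h1, fun q => (abs_eq zero_le_one).1 (h2 q), fun q => (abs_eq zero_le_one).1 (h3 q),
        fun w => ?_, fun w => ?_⟩
      · cases h6 : x.2 w
        · exact Or.inl rfl
        · exact Or.inr (h4 w h6)
      · cases h6 : x.2 w
        · exact Or.inr (h5 w h6)
        · exact Or.inl rfl
    · rintro ⟨h1, h2, h3, h4, h5⟩
      refine ⟨h1, fun q => (abs_eq zero_le_one).2 (h2 q), fun q => (abs_eq zero_le_one).2 (h3 q),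
        fun w hw => ?_, fun w hw => ?_⟩
      · rcases h4 w with h6 | h6
        · rw [hw] at h6; exact absurd h6 (by simp)
        · exact h6
      · rcases h5 w with h6 | h6
        · rw [hw] at h6; exact absurd h6 (by simp)
        · exact h6
  rw [h0]
  refine (MeasurableSet.iInter fun q => hc q (MeasurableSet.of_discrete)).inter
    ((MeasurableSet.iInter fun q => ((hc _).sub (hc _)) (MeasurableSet.of_discrete)).inter
    ((MeasurableSet.iInter fun q => ((hc _).sub (hc _)) (MeasurableSet.of_discrete)).inter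
    ((MeasurableSet.iInter fun w => ?_).inter (MeasurableSet.iInter fun w => ?_))))
  · exact ((hb w) (measurableSet_singleton false)).union (measurableSet_eq_fun (hc _) (hc _))
  · exact ((hb w) (measurableSet_singleton true)).union (measurableSet_eq_fun (hc _) (hc _))

/-- Almost surely the heights form a height function and the bonds fit. -/
theorem J_goodH {t : ℝ} {P : Measure (Ori (ℤ × ℤ))} [IsProbabilityMeasure P]
    (hice : ∀ᵐ a ∂P, ∀ x y, Ice a x y) : ∀ᵐ x ∂(J t P), GoodH x :=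
  J_ae measurableSet_GoodH fun k => by
    filter_upwards [JO_good (t := t) hice] with x hx using goodH_hk hx k

/-! ### The flip law for the heights -/

lemma measurableSet_FlipQ (U : Finset Pt) (b : Pt) : MeasurableSet (FlipQ U b) := by
  have hc : ∀ q : Pt, Measurable fun x : Hgt × Mk => x.1 q := fun q =>
    (measurable_pi_apply q).comp measurable_fst
  have hb : ∀ w : Pt, Measurable fun x : Hgt × Mk => x.2 w := fun q =>
    (measurable_pi_apply q).comp measurable_snd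
  have h0 : FlipQ U b = ⋂ w : Pt, ⋂ _ : ((o1 w ∈ U ∧ o2 w ∉ U) ∨ (o2 w ∈ U ∧ o1 w ∉ U)),
      ({x : Hgt × Mk | x.2 w = true} ∩ ({x | x.1 (e1 w) = x.1 b} ∩ {x | x.1 (e2 w) = x.1 b})) := by
    ext x
    simp only [FlipQ, Prod.forall, Set.mem_ofPred_eq, Set.mem_iInter, Set.mem_inter_iff]
  rw [h0]
  exact MeasurableSet.iInter fun w => MeasurableSet.iInter fun _ =>
    ((hb w) (measurableSet_singleton true)).inter
      ((measurableSet_eq_fun (hc _) (hc _)).inter (measurableSet_eq_fun (hc _) (hc _)))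

lemma measurable_flipR (U : Finset Pt) (b : Pt) : Measurable (flipR U b) := by
  classical
  have hc : ∀ q : Pt, Measurable fun x : Hgt × Mk => x.1 q := fun q =>
    (measurable_pi_apply q).comp measurable_fst
  have h1 : ∀ q : Pt, Measurable fun x : Hgt × Mk =>
      (if nb U q then 2 * x.1 b - x.1 q else x.1 q) := by
    intro q
    by_cases h : nb U q
    · simp only [h, if_true]
      exact ((hc b).const_mul 2).sub (hc q)
    · simp only [h, if_false]
      exact hc q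
  unfold flipR refl0
  exact Measurable.prodMk (measurable_pi_lambda _ fun q => ((h1 q).sub (h1 0)).add (hc 0))
    measurable_snd

/-- All boundary bonds of `U` are open. -/
def QO (U : Finset Pt) (o : Mk) : Prop :=
  ∀ w, ((o1 w ∈ U ∧ o2 w ∉ U) ∨ (o2 w ∈ U ∧ o1 w ∉ U)) → o w = true

open Classical in
/-- `U` if its boundary bonds are open. -/
noncomputable def SU (U : Finset Pt) (o : Mk) : Set Pt := if QO U o then (U : Set Pt) else ∅

lemma SU_sub (U : Finset Pt) (o : Mk) : SU U o ⊆ (U : Set Pt) := by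
  unfold SU
  split_ifs
  · exact subset_rfl
  · exact Set.empty_subset _

lemma SU_loc (U : Finset Pt) (o o' : Mk) (h : ∀ w ∈ VD U, o w = o' w) : SU U o = SU U o' := by
  have key : ∀ o o' : Mk, (∀ w ∈ VD U, o w = o' w) → QO U o → QO U o' := by
    intro o o' h hq w hw
    rw [← h w]
    · exact hq w hw
    · rcases hw with hw | hw
      · exact mem_VD_o1 hw.1
      · exact mem_VD_o2 hw.1
  have h2 : QO U o ↔ QO U o' := ⟨key o o' h, key o' o fun w hw => (h w hw).symm⟩
  unfold SU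
  by_cases h3 : QO U o
  · rw [if_pos h3, if_pos (h2.1 h3)]
  · rw [if_neg h3, if_neg (fun h4 => h3 (h2.2 h4))]

lemma SU_cl (U : Finset Pt) (o : Mk) (w : Pt) (hw : o w = false) :
    o1 w ∈ SU U o ↔ o2 w ∈ SU U o := by
  unfold SU
  split_ifs with h
  · refine iff_of_not fun h1 => ?_
    have := h w (h1.imp (fun h => ⟨by simpa using h.1, by simpa using h.2⟩)
      (fun h => ⟨by simpa using h.1, by simpa using h.2⟩))
    rw [hw] at this
    exact absurd this (by simp)
  · simp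

lemma flip_pt {U : Finset Pt} (hU : ∀ f ∈ U, Odd (f.1 + f.2)) (b : Pt)
    {x : Ori (ℤ × ℤ) × Mk} (hx : ∀ i j, Ice x.1 i j) (k : ℤ) (hq : hk k x ∈ FlipQ U b) :
    hk k (flS (SU U) x) = flipR U b (hk k x) ∧ hk k (flS (SU U) x) ∈ FlipQ U b := by
  classical
  have hQ : QO U x.2 := fun w hw => (hq w hw).1
  have hS : SU U x.2 = (U : Set Pt) := by unfold SU; rw [if_pos hQ]
  have hh := pth_isHeight hx
  set h : Hgt := (hk k x).1 with hh0
  have hhk : IsHeight x.1 h := by
    intro i j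
    have := hh i j
    simp only [hh0, hk]
    refine ⟨?_, ?_⟩
    · rw [← this.1]; ring
    · rw [← this.2]; ring
  have hbd : ∀ w, ((o1 w ∈ U ∧ o2 w ∉ U) ∨ (o2 w ∈ U ∧ o1 w ∉ U)) →
      h (e1 w) = h b ∧ h (e2 w) = h b := fun w hw => (hq w hw).2
  set h' : Hgt := fun q => if nb U q then 2 * h b - h q else h q with hh'
  have hH : IsHeight (flA (U : Set Pt) x.1) h' :=
    isHeight_flip hhk hU hbd h' (fun q hn => by simp [hh', hn]) (fun q hn => by simp [hh', hn])
  have h0 : h 0 = 2 * k := by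
    simp only [hh0, hk, pth_zero, zero_add]
  have e1' : hk k (flS (SU U) x) = flipR U b (hk k x) := by
    have : (hk k (flS (SU U) x)).1 = fun q => h' q - h' 0 + h 0 := by
      funext q
      simp only [hk, flS, hS]
      rw [height_eq_pth hH, h0]
    exact Prod.ext this rfl
  refine ⟨e1', ?_⟩
  rw [e1']
  intro w hw
  have hb' : h' b = h b := by simp only [hh']; split_ifs <;> omega
  have key : ∀ q, h q = h b → h' q = h b := by
    intro q hq
    simp only [hh']; split_ifs <;> omega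
  refine ⟨(hq w hw).1, ?_, ?_⟩
  · show h' (e1 w) - h' 0 + h 0 = h' b - h' 0 + h 0
    rw [hb', key _ (hbd w hw).1]
  · show h' (e2 w) - h' 0 + h 0 = h' b - h' 0 + h 0
    rw [hb', key _ (hbd w hw).2]

/-- THE FLIP LAW: reflecting the heights inside `U` at the height of the boundary preserves the
joint law of the heights and the bonds. -/
theorem flip_law0 {c t : ℝ} (hc : 0 < c) (hct : c * t = 1) (ht1 : t ≤ 1)
    {P : Measure (Ori (ℤ × ℤ))} [IsProbabilityMeasure P]
    (hice : ∀ᵐ a ∂P, ∀ x y, Ice a x y) (hS : Swap c P) {U : Finset Pt}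
    (hU : ∀ f ∈ U, Odd (f.1 + f.2))
    (b : Pt) : ((J t P).restrict (FlipQ U b)).map (flipR U b) = (J t P).restrict (FlipQ U b) := by
  have hmf := measurable_flS (S := SU U) U (SU_loc U)
  have hmp := flS_mp hc hct ht1 hice hS U (SU U) (SU_sub U) (SU_loc U) (SU_cl U)
  have hg : ∀ᵐ x ∂(JO t P), GdJ x := JO_good hice
  have hg2 : ∀ᵐ x ∂(JO t P), GdJ (flS (SU U) x) := by
    have h1 : ∀ᵐ x ∂((JO t P).map (flS (SU U))), GdJ x := by rw [hmp]; exact hg
    exact ae_of_ae_map hmf.aemeasurable h1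
  ext A hA
  rw [Measure.map_apply (measurable_flipR U b) hA,
    Measure.restrict_apply ((measurable_flipR U b) hA), Measure.restrict_apply hA,
    J_apply (((measurable_flipR U b) hA).inter (measurableSet_FlipQ U b)),
    J_apply (hA.inter (measurableSet_FlipQ U b))]
  have key : ∀ k, JO t P (hk k ⁻¹' (flipR U b ⁻¹' A ∩ FlipQ U b)) =
      JO t P (hk k ⁻¹' (A ∩ FlipQ U b)) := by
    intro k
    have hC : MeasurableSet (hk k ⁻¹' (A ∩ FlipQ U b)) :=
      (measurable_hk k) (hA.inter (measurableSet_FlipQ U b))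
    conv_rhs => rw [← hmp, Measure.map_apply hmf hC]
    refine measure_congr ?_
    filter_upwards [hg, hg2] with x hx hx2
    apply propext
    show (hk k x ∈ flipR U b ⁻¹' A ∩ FlipQ U b) ↔ (hk k (flS (SU U) x) ∈ A ∩ FlipQ U b)
    constructor
    · rintro ⟨h1, h2⟩
      have h3 := flip_pt hU b hx.1 k h2
      refine ⟨?_, h3.2⟩
      rw [h3.1]; exact h1
    · rintro ⟨h1, h2⟩
      have h3 := flip_pt hU b hx2.1 k h2
      rw [flS_flS] at h3
      have h4 := flip_pt hU b hx.1 k h3.2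
      refine ⟨?_, h3.2⟩
      show flipR U b (hk k x) ∈ A
      rw [← h4.1]; exact h1
  rw [key, key]

theorem flip_law {c t : ℝ} (hc : 0 < c) (hct : c * t = 1) (ht1 : t ≤ 1)
    {P : Measure (Ori (ℤ × ℤ))} (hP : Pl c P) (hS : Swap c P) {U : Finset Pt}
    (hU : ∀ f ∈ U, Odd (f.1 + f.2)) (b : Pt) :
    ((J t P).restrict (FlipQ U b)).map (flipR U b) = (J t P).restrict (FlipQ U b) := by
  have := hP.prob
  exact flip_law0 hc hct ht1 hP.ice hS hU b

/-- The flip law from the ice rule and the swap property only. -/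
theorem flipLaw_of_swap {c t : ℝ} (hc : 0 < c) (hct : c * t = 1) (ht1 : t ≤ 1)
    {P : Measure (Ori (ℤ × ℤ))} [IsProbabilityMeasure P] (hice : ∀ᵐ a ∂P, ∀ x y, Ice a x y)
    (hS : Swap c P) : FlipLaw t P :=
  fun _ hU b _ => flip_law0 hc hct ht1 hice hS hU b

/-- The flip law, in the form of `FlipDef`. -/
theorem flipLaw_of_pl {c t : ℝ} (hc : 0 < c) (hct : c * t = 1) (ht1 : t ≤ 1)
    {P : Measure (Ori (ℤ × ℤ))} (hP : Pl c P) (hS : Swap c P) : FlipLaw t P :=
  fun _ hU b _ => flip_law hc hct ht1 hP hS hU b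

end Vale.Agent.P145.FB
end

section

/-!
# P145, block F-B: measurability of local events
-/

namespace Vale.Agent.P145.FB

open Finset Filter Topology MeasureTheory
open Vale.Agent.P152 Vale.Agent.P145.FA

/-- Local events of a measurable random set are measurable. -/
theorem meas_of_loc {X : Type*} [MeasurableSpace X] {F : X → Set Pt}
    (hF : ∀ z, MeasurableSet {x | z ∈ F x}) {Q : Set Pt → Prop} (hQ : Loc Q) :
    MeasurableSet {x | Q (F x)} := by
  classical
  obtain ⟨N, hN⟩ := hQ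
  set B : Finset Pt := Icc (-N) N ×ˢ Icc (-N) N with hB
  have hmB : ∀ z : Pt, z ∈ B ↔ |z.1| ≤ N ∧ |z.2| ≤ N := by
    intro z
    rw [hB, Finset.mem_product, Finset.mem_Icc, Finset.mem_Icc, abs_le, abs_le]
  have e : {x | Q (F x)} = ⋃ A ∈ B.powerset.filter (fun A : Finset Pt => Q (A : Set Pt)),
      ⋂ z ∈ B, {x | z ∈ F x ↔ z ∈ A} := by
    ext x
    simp only [mem_filter, mem_powerset, Set.mem_iUnion, Set.mem_iInter]
    constructor
    · intro hx
      refine ⟨B.filter (fun z => z ∈ F x), ⟨Finset.filter_subset _ _, ?_⟩, ?_⟩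
      · refine hN (F x) _ (fun z h1 h2 => ?_) hx
        have : z ∈ B := (hmB z).2 ⟨h1, h2⟩
        simp [this]
      · intro z hz
        show z ∈ F x ↔ z ∈ B.filter (fun z => z ∈ F x)
        simp [hz]
    · rintro ⟨A, ⟨-, hA⟩, hx⟩
      refine hN _ (F x) (fun z h1 h2 => ?_) hA
      exact (hx z ((hmB z).2 ⟨h1, h2⟩)).symm
  rw [e]
  refine Finset.measurableSet_biUnion _ (fun A _ => Finset.measurableSet_biInter _ (fun z _ => ?_))
  by_cases hz : z ∈ A
  · simp only [hz, iff_true]; exact hF z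
  · simp only [hz, iff_false]; exact (hF z).compl

theorem meas_val (q : Pt) (w : Pt) (A : Set (ℤ × Bool)) :
    MeasurableSet {x : Hgt × Mk | (x.1 q, x.2 w) ∈ A} := by
  have h1 : Measurable (fun x : Hgt × Mk => (x.1 q, x.2 w)) :=
    ((measurable_pi_apply q).comp measurable_fst).prodMk
      ((measurable_pi_apply w).comp measurable_snd)
  exact h1 (MeasurableSet.of_discrete)

theorem meas_SP (z : Pt) : MeasurableSet {x : Hgt × Mk | z ∈ SP x} := by
  have h1 := meas_val (fc z) (vx z) {y | y.1 % 4 = 0}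
  have h2 := meas_val (e1 (vx z)) (vx z) {y | y.2 = true ∧ y.1 % 4 = 0}
  by_cases ha : Even z.1 ∧ Even z.2
  · by_cases hb : Odd (z.1 + z.2)
    · exfalso
      rw [← Int.not_even_iff_odd] at hb
      exact hb (ha.1.add ha.2)
    · have e : {x : Hgt × Mk | z ∈ SP x} = {x | (x.1 (fc z), x.2 (vx z)) ∈
          {y : ℤ × Bool | y.1 % 4 = 0}} := by
        ext x
        simp only [SP, EuclideanDomain.mod_eq_zero, Set.mem_ofPred_eq, ha.1, ha.2, true_and, hb, false_and, or_false]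
      rw [e]; exact h1
  · by_cases hb : Odd (z.1 + z.2)
    · have e : {x : Hgt × Mk | z ∈ SP x} = {x | (x.1 (e1 (vx z)), x.2 (vx z)) ∈
          {y : ℤ × Bool | y.2 = true ∧ y.1 % 4 = 0}} := by
        ext x
        simp only [SP, Set.mem_ofPred_eq]
        constructor
        · rintro (h | h)
          · exact absurd ⟨h.1, h.2.1⟩ ha
          · exact h.2
        · intro h
          exact Or.inr ⟨hb, h⟩
      rw [e]; exact h2
    · have e : {x : Hgt × Mk | z ∈ SP x} = ∅ := by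
        ext x
        simp only [SP, Set.mem_ofPred_eq, Set.mem_empty_iff_false, iff_false]
        rintro (h | h)
        · exact ha ⟨h.1, h.2.1⟩
        · exact hb h.1
      rw [e]; exact MeasurableSet.empty

/-- Local events of `SP` are measurable. -/
theorem meas_ev {Q : Set Pt → Prop} (hQ : Loc Q) : MeasurableSet {x : Hgt × Mk | Q (SP x)} :=
  meas_of_loc meas_SP hQ

end Vale.Agent.P145.FB
end

section

/-!
# P145, block F-B: symmetries of the law of `SP`
-/

namespace Vale.Agent.P145.FB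

open Finset Filter Topology MeasureTheory
open Vale.Agent.P152 Vale.Agent.P145.FA
open Vale.Agent.P152.GFF.B3 (shO trO reO)

/-! ### Heights and bonds -/

/-- The heights with base value `2 k` and the bonds. -/
noncomputable def G (k : ℤ) (x : Ori (ℤ × ℤ) × Mk) : Hgt × Mk := hk k (x.1, oma x.1 x.2)

theorem G_meas (k : ℤ) : Measurable (G k) := (measurable_hk k).comp measurable_oma

theorem J_lint (t : ℝ) (P : Measure (Ori (ℤ × ℤ))) {A : Set (Hgt × Mk)} (hA : MeasurableSet A) :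
    J t P A = 2⁻¹ * ∫⁻ x, (A.indicator 1 (G 0 x) + A.indicator 1 (G 1 x)) ∂(P.prod (mkm t)) := by
  have h0 : ∀ k, (JO t P).map (hk k) A = ∫⁻ x, A.indicator 1 (G k x) ∂(P.prod (mkm t)) := by
    intro k
    rw [Measure.map_apply (measurable_hk k) hA, JO,
      Measure.map_apply measurable_oma (measurable_hk k hA)]
    have e : (fun x : Ori (ℤ × ℤ) × Mk => A.indicator (1 : Hgt × Mk → ENNReal) (G k x)) =
        (G k ⁻¹' A).indicator 1 := by
      funext x; rfl
    rw [e, lintegral_indicator_one (G_meas k hA)]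
    rfl
  rw [J, Measure.coe_add, Measure.coe_smul, Measure.coe_smul, Pi.add_apply, Pi.smul_apply,
    Pi.smul_apply, smul_eq_mul, smul_eq_mul, h0, h0, ← mul_add]
  congr 1
  exact (lintegral_add_left ((measurable_one.indicator hA).comp (G_meas 0)) _).symm

/-- An open bond joins faces of the same height. -/
theorem open_eqS {a : Ori (ℤ × ℤ)} {h : Hgt} (hh : IsHeight a h) {ξ : Mk} {w : Pt}
    (ho : oma a ξ w = true) : h (e1 w) = h (e2 w) := by
  rw [oma_eq_om hh] at ho
  unfold om at ho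
  obtain ⟨x, y⟩ := w
  have h1 := (hh x y).1
  have h2 := (hh x y).2
  have h3 := (hh x (y - 1)).2
  have h4 := (hh (x - 1) y).1
  unfold e1 e2 o1 o2 at *
  simp only at *
  split_ifs at ho ⊢ <;>
  · simp only [Bool.or_eq_true, Bool.not_eq_true', decide_eq_false_iff_not, Bool.and_eq_true,
      decide_eq_true_eq] at ho
    rcases ho with ho | ho
    · split_ifs at h1 h2 h3 h4 <;> omega
    · exact ho.1

/-- `SP` depends on the heights mod `4`. -/
theorem SP_congr {h h' : Hgt} {o : Mk} (hh : ∀ q, (h q - h' q) % 4 = 0) : SP (h, o) = SP (h', o) := by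
  ext p
  have h1 := hh (fc p)
  have h2 := hh (e1 (vx p))
  have e1' : h (fc p) % 4 = 0 ↔ h' (fc p) % 4 = 0 := by (clear * - h1; omega)
  have e2' : h (e1 (vx p)) % 4 = 0 ↔ h' (e1 (vx p)) % 4 = 0 := by omega
  simp only [SP, Set.mem_ofPred_eq, e1', e2']

/-- The data of a symmetry: arrows, faces, vertices, fine lattice. -/
structure Sy (P : Measure (Ori (ℤ × ℤ))) (T : Ori (ℤ × ℤ) → Ori (ℤ × ℤ)) (φ : Pt → Pt)
    (ψ : Pt ≃ Pt) (ρ : Pt → Pt) : Prop where
  meas : Measurable T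
  inv : P.map T = P
  ht : ∀ ω, (∀ x y, Ice ω x y) → IsHeight (T ω) (fun q => P152.pth ω (φ q))
  par : Even ((φ 0).1 + (φ 0).2)
  ev : ∀ w, (φ (e1 w) = e1 (ψ w) ∧ φ (e2 w) = e2 (ψ w)) ∨ (φ (e1 w) = e2 (ψ w) ∧ φ (e2 w) = e1 (ψ w))
  od : ∀ w, (φ (o1 w) = o1 (ψ w) ∧ φ (o2 w) = o2 (ψ w)) ∨ (φ (o1 w) = o2 (ψ w) ∧ φ (o2 w) = o1 (ψ w))
  rv : ∀ p : Pt, Even p.1 → Even p.2 → fc (ρ p) = φ (fc p)
  re : ∀ p : Pt, Odd (p.1 + p.2) → vx (ρ p) = ψ (vx p)
  p1 : ∀ p : Pt, (Even (ρ p).1 ∧ Even (ρ p).2) ↔ (Even p.1 ∧ Even p.2)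
  p2 : ∀ p : Pt, Odd ((ρ p).1 + (ρ p).2) ↔ Odd (p.1 + p.2)

section

variable {P : Measure (Ori (ℤ × ℤ))} {T : Ori (ℤ × ℤ) → Ori (ℤ × ℤ)} {φ : Pt → Pt}
  {ψ : Pt ≃ Pt} {ρ : Pt → Pt}

theorem Sy.oma (S : Sy P T φ ψ ρ) {ω : Ori (ℤ × ℤ)} (h : ∀ x y, Ice ω x y) (ξ : Mk) (w : Pt) :
    FB.oma (T ω) (fun w => ξ (ψ w)) w = FB.oma ω ξ (ψ w) := by
  rw [oma_eq_om (S.ht ω h), oma_eq_om (pth_isHeight h)]
  unfold om
  rcases S.ev w with ⟨h1, h2⟩ | ⟨h1, h2⟩ <;> rcases S.od w with ⟨h3, h4⟩ | ⟨h3, h4⟩ <;>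
    simp only [h3, h4, h1, h2]
  · rw [show (decide (P152.pth ω (o2 (ψ w)) = P152.pth ω (o1 (ψ w)))) =
      decide (P152.pth ω (o1 (ψ w)) = P152.pth ω (o2 (ψ w))) from by
        rw [decide_eq_decide]; exact eq_comm]
  · rw [show (decide (P152.pth ω (e2 (ψ w)) = P152.pth ω (e1 (ψ w)))) =
      decide (P152.pth ω (e1 (ψ w)) = P152.pth ω (e2 (ψ w))) from by
        rw [decide_eq_decide]; exact eq_comm]
  · rw [show (decide (P152.pth ω (o2 (ψ w)) = P152.pth ω (o1 (ψ w)))) =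
      decide (P152.pth ω (o1 (ψ w)) = P152.pth ω (o2 (ψ w))) from by
        rw [decide_eq_decide]; exact eq_comm,
      show (decide (P152.pth ω (e2 (ψ w)) = P152.pth ω (e1 (ψ w)))) =
      decide (P152.pth ω (e1 (ψ w)) = P152.pth ω (e2 (ψ w))) from by
        rw [decide_eq_decide]; exact eq_comm]

/-- Covariance of `SP`. -/
theorem Sy.SP (S : Sy P T φ ψ ρ) {h : Hgt} {o : Mk}
    (ho : ∀ w, o w = true → h (e1 w) = h (e2 w)) :
    FB.SP (fun q => h (φ q), fun w => o (ψ w)) = {z | ρ z ∈ FB.SP (h, o)} := by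
  ext p
  simp only [FB.SP, Set.mem_ofPred_eq]
  by_cases h1 : Even p.1 ∧ Even p.2
  · have h2 := (S.p1 p).2 h1
    have h3 : ¬ Odd (p.1 + p.2) := by
      rw [Int.not_odd_iff_even]; exact h1.1.add h1.2
    have h4 : ¬ Odd ((ρ p).1 + (ρ p).2) := fun h => h3 ((S.p2 p).1 h)
    simp only [h1, h2, h3, h4, true_and, false_and, or_false, S.rv p h1.1 h1.2]
  · have h2 : ¬ (Even (ρ p).1 ∧ Even (ρ p).2) := fun h => h1 ((S.p1 p).1 h)
    by_cases h3 : Odd (p.1 + p.2)
    · have h4 := (S.p2 p).2 h3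
      have e1' : (Even p.1 ∧ Even p.2 ∧ h (φ (fc p)) % 4 = 0) ↔ False :=
        ⟨fun h => h1 ⟨h.1, h.2.1⟩, False.elim⟩
      have e2' : (Even (ρ p).1 ∧ Even (ρ p).2 ∧ h (fc (ρ p)) % 4 = 0) ↔ False :=
        ⟨fun h => h2 ⟨h.1, h.2.1⟩, False.elim⟩
      rw [e1', e2']
      simp only [h3, true_and, false_or, h4, S.re p h3]
      refine and_congr_right (fun h5 => ?_)
      rcases S.ev (vx p) with ⟨h6, -⟩ | ⟨h6, -⟩
      · rw [h6]
      · rw [h6, ho _ h5]
    · have h4 : ¬ Odd ((ρ p).1 + (ρ p).2) := fun h => h3 ((S.p2 p).1 h)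
      constructor
      · rintro (h | h)
        · exact absurd ⟨h.1, h.2.1⟩ h1
        · exact absurd h.1 h3
      · rintro (h | h)
        · exact absurd ⟨h.1, h.2.1⟩ h2
        · exact absurd h.1 h4

theorem G_eq (k : ℤ) (x : Ori (ℤ × ℤ) × Mk) :
    G k x = (fun q => P152.pth x.1 q + 2 * k, FB.oma x.1 x.2) := rfl

theorem Sy.pth (S : Sy P T φ ψ ρ) (ω : Ori (ℤ × ℤ)) (h : ∀ x y, Ice ω x y) (q : Pt) :
    P152.pth (T ω) q = P152.pth ω (φ q) - P152.pth ω (φ 0) :=
  (height_eq_pth (S.ht ω h) q).symm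

/-- The two heights of the image configuration. -/
theorem Sy.G (S : Sy P T φ ψ ρ) {ω : Ori (ℤ × ℤ)} (h : ∀ x y, Ice ω x y) (ξ : Mk) :
    (FB.SP (G 0 (T ω, fun w => ξ (ψ w))) = {z | ρ z ∈ FB.SP (G 0 (ω, ξ))} ∧
      FB.SP (G 1 (T ω, fun w => ξ (ψ w))) = {z | ρ z ∈ FB.SP (G 1 (ω, ξ))}) ∨
    (FB.SP (G 0 (T ω, fun w => ξ (ψ w))) = {z | ρ z ∈ FB.SP (G 1 (ω, ξ))} ∧
      FB.SP (G 1 (T ω, fun w => ξ (ψ w))) = {z | ρ z ∈ FB.SP (G 0 (ω, ξ))}) := by
  have hpar := FP.pth_parity h (φ 0)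
  have hp2 : (φ 0).1 + (φ 0).2 = 2 * (((φ 0).1 + (φ 0).2) / 2) := by
    obtain ⟨r, hr⟩ := S.par
    (clear * - hr; omega)
  have hop : ∀ k : ℤ, ∀ w, FB.oma ω ξ w = true →
      (fun q => P152.pth ω q + 2 * k) (e1 w) = (fun q => P152.pth ω q + 2 * k) (e2 w) := by
    intro k w hw
    have := open_eqS (pth_isHeight h) hw
    simp only [this]
  have hb : FB.oma (T ω) (fun w => ξ (ψ w)) = fun w => FB.oma ω ξ (ψ w) :=
    funext (fun w => S.oma h ξ w)
  have key : ∀ k k' : ℤ, (- P152.pth ω (φ 0) + 2 * k - 2 * k') % 4 = 0 →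
      FB.SP (FB.G k (T ω, fun w => ξ (ψ w))) = {z | ρ z ∈ FB.SP (FB.G k' (ω, ξ))} := by
    intro k k' hk
    rw [G_eq, G_eq, ← S.SP (hop k'), hb]
    refine SP_congr (fun q => ?_)
    have h1 := S.pth ω h q
    simp only [h1]
    omega
  by_cases hc : P152.pth ω (φ 0) % 4 = 0
  · left
    exact ⟨key 0 0 (by omega), key 1 1 (by omega)⟩
  · right
    exact ⟨key 0 1 (by (clear * - hpar hp2 hc; omega)), key 1 0 (by omega)⟩

theorem map_marks (t : ℝ) (ψ : Pt ≃ Pt) : (mkm t).map (fun ξ w => ξ (ψ w)) = mkm t := by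
  have h := Measure.infinitePi_map_piCongrLeft (X := fun _ : Pt => Bool) (μ := fun _ : Pt => bern t)
    ψ.symm
  have e : (MeasurableEquiv.piCongrLeft (fun _ : Pt => Bool) ψ.symm : Mk → Mk) =
      fun ξ w => ξ (ψ w) := by
    funext ξ w
    have := Equiv.piCongrLeft_apply_apply (P := fun _ : Pt => Bool) ψ.symm ξ (ψ w)
    rw [Equiv.symm_apply_apply] at this
    exact this
  rw [e] at h
  exact h

theorem Sy.map (S : Sy P T φ ψ ρ) [SFinite P] (t : ℝ) :
    (P.prod (mkm t)).map (fun x => (T x.1, fun w => x.2 (ψ w))) = P.prod (mkm t) := by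
  have h := Measure.map_prod_map P (mkm t) S.meas
    (measurable_pi_lambda (fun (ξ : Mk) w => ξ (ψ w)) (fun w => measurable_pi_apply (ψ w)))
  rw [S.inv, map_marks] at h
  exact h.symm

/-- Invariance of the probabilities of local events of `SP`. -/
theorem Sy.main (S : Sy P T φ ψ ρ) [IsProbabilityMeasure P] (hice : ∀ᵐ ω ∂P, ∀ x y, Ice ω x y)
    (t : ℝ) {Q : Set Pt → Prop} (hQ : Loc Q) :
    (J t P).real {x | Q {z | ρ z ∈ FB.SP x}} = (J t P).real {x | Q (FB.SP x)} := by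
  have m1 : MeasurableSet {x : Hgt × Mk | Q {z | ρ z ∈ FB.SP x}} :=
    meas_of_loc (F := fun x : Hgt × Mk => {z | ρ z ∈ FB.SP x}) (fun z => meas_SP (ρ z)) hQ
  have m2 : MeasurableSet {x : Hgt × Mk | Q (FB.SP x)} := meas_ev hQ
  unfold Measure.real
  congr 1
  rw [J_lint t P m1, J_lint t P m2]
  congr 1
  have mU : Measurable (fun x : Ori (ℤ × ℤ) × Mk => (T x.1, fun w => x.2 (ψ w))) :=
    (S.meas.comp measurable_fst).prodMk
      (measurable_pi_lambda _ (fun w => (measurable_pi_apply (ψ w)).comp measurable_snd))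
  have mm : Measurable (fun x => {x : Hgt × Mk | Q (FB.SP x)}.indicator (1 : Hgt × Mk → ENNReal)
      (FB.G 0 x) + {x : Hgt × Mk | Q (FB.SP x)}.indicator (1 : Hgt × Mk → ENNReal) (FB.G 1 x)) :=
    ((measurable_one.indicator m2).comp (G_meas 0)).add
      ((measurable_one.indicator m2).comp (G_meas 1))
  conv_rhs => rw [← S.map t]
  rw [lintegral_map mm mU]
  have hice' : ∀ᵐ x ∂(P.prod (mkm t)), ∀ a b, Ice x.1 a b :=
    Measure.quasiMeasurePreserving_fst.ae hice
  refine lintegral_congr_ae ?_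
  filter_upwards [hice'] with x hx
  have e : ∀ (A : Set (Hgt × Mk)) y, A.indicator (1 : Hgt × Mk → ENNReal) y =
      {y | y ∈ A}.indicator 1 y := fun A y => rfl
  have e1 : ∀ (k k' : ℤ), FB.SP (FB.G k (T x.1, fun w => x.2 (ψ w))) =
      {z | ρ z ∈ FB.SP (FB.G k' x)} →
      {x : Hgt × Mk | Q (FB.SP x)}.indicator (1 : Hgt × Mk → ENNReal)
        (FB.G k (T x.1, fun w => x.2 (ψ w))) =
      {x : Hgt × Mk | Q {z | ρ z ∈ FB.SP x}}.indicator 1 (FB.G k' x) := by
    intro k k' h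
    by_cases hq : Q {z | ρ z ∈ FB.SP (FB.G k' x)}
    · rw [Set.indicator_of_mem (show FB.G k' x ∈ {x : Hgt × Mk | Q {z | ρ z ∈ FB.SP x}} from hq),
        Set.indicator_of_mem]
      · rfl
      · show Q _
        rw [h]; exact hq
    · rw [Set.indicator_of_notMem (show FB.G k' x ∉ {x : Hgt × Mk | Q {z | ρ z ∈ FB.SP x}} from hq),
        Set.indicator_of_notMem]
      show ¬ Q _
      rw [h]; exact hq
  obtain ⟨ω, ξ⟩ := x
  rcases S.G hx ξ with ⟨h1, h2⟩ | ⟨h1, h2⟩
  · rw [e1 0 0 h1, e1 1 1 h2]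
  · rw [e1 0 1 h1, e1 1 0 h2, add_comm]

end

end Vale.Agent.P145.FB
end

section

/-!
# P145, block F-B: properties of the joint law of the heights and the bonds
-/

namespace Vale.Agent.P145.FB

open MeasureTheory Filter Topology Finset
open Vale.Agent.P152 Vale.Agent.P145.FA

theorem ae_J {t : ℝ} {P : Measure (Ori (ℤ × ℤ))} [IsProbabilityMeasure P]
    {p : Hgt × Mk → Prop} (hp : MeasurableSet {x | p x})
    (h : ∀ k : ℤ, (k = 0 ∨ k = 1) → ∀ᵐ y ∂(JO t P), p (hk k y)) : ∀ᵐ x ∂(J t P), p x := by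
  have h1 : ∀ k : ℤ, (k = 0 ∨ k = 1) → ∀ᵐ x ∂((JO t P).map (hk k)), p x := fun k hk' => by
    rw [ae_map_iff (measurable_hk k).aemeasurable hp]
    exact h k hk'
  rw [J, ae_add_measure_iff]
  exact ⟨Measure.ae_smul_measure (h1 0 (Or.inl rfl)) _, Measure.ae_smul_measure (h1 1 (Or.inr rfl)) _⟩

theorem JO_fst (t : ℝ) (P : Measure (Ori (ℤ × ℤ))) [IsProbabilityMeasure P] :
    (JO t P).map Prod.fst = P := by
  rw [JO, Measure.map_map measurable_fst measurable_oma]
  have : (Prod.fst ∘ fun x : Ori (ℤ × ℤ) × Mk => (x.1, oma x.1 x.2)) = Prod.fst := rfl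
  rw [this]
  exact Measure.map_fst_prod.trans (by simp only [measure_univ, one_smul])

/-- The law of a quantity which does not depend on the additive constant and on the bonds. -/
theorem J_map {t : ℝ} {P : Measure (Ori (ℤ × ℤ))} [IsProbabilityMeasure P] {α : Type*}
    [MeasurableSpace α] {G : Hgt × Mk → α} (hG : Measurable G) {F : Ori (ℤ × ℤ) → α}
    (hF : Measurable F) (h : ∀ k y, G (hk k y) = F y.1) : (J t P).map G = P.map F := by
  have h1 : ∀ k, ((JO t P).map (hk k)).map G = P.map F := by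
    intro k
    rw [Measure.map_map hG (measurable_hk k)]
    have : G ∘ hk k = F ∘ Prod.fst := by funext y; exact h k y
    rw [this, ← Measure.map_map hF measurable_fst, JO_fst]
  rw [J, Measure.map_add _ _ hG, Measure.map_smul, Measure.map_smul, h1, h1, ← add_smul,
    ENNReal.inv_two_add_inv_two, one_smul]

theorem J_integral {t : ℝ} {P : Measure (Ori (ℤ × ℤ))} [IsProbabilityMeasure P]
    {G : Hgt × Mk → ℝ} (hG : Measurable G) {F : Ori (ℤ × ℤ) → ℝ} (hF : Measurable F)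
    (h : ∀ k y, G (hk k y) = F y.1) : ∫ x, G x ∂(J t P) = ∫ ω, F ω ∂P := by
  have h1 : ∫ x, G x ∂(J t P) = ∫ y, y ∂((J t P).map G) :=
    (integral_map hG.aemeasurable (f := fun y : ℝ => y) measurable_id.aestronglyMeasurable).symm
  have h2 : ∫ ω, F ω ∂P = ∫ y, y ∂(P.map F) :=
    (integral_map hF.aemeasurable (f := fun y : ℝ => y) measurable_id.aestronglyMeasurable).symm
  rw [h1, h2, J_map hG hF h]

theorem J_real {t : ℝ} {P : Measure (Ori (ℤ × ℤ))} [IsProbabilityMeasure P]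
    {G : Hgt × Mk → ℝ} (hG : Measurable G) {F : Ori (ℤ × ℤ) → ℝ} (hF : Measurable F)
    (h : ∀ k y, G (hk k y) = F y.1) {s : Set ℝ} (hs : MeasurableSet s) :
    (J t P).real {x | G x ∈ s} = P.real {ω | F ω ∈ s} := by
  have h1 : (J t P) (G ⁻¹' s) = P (F ⁻¹' s) := by
    rw [← Measure.map_apply hG hs, ← Measure.map_apply hF hs, J_map hG hF h]
  exact congrArg ENNReal.toReal h1

theorem abs_sgb (b : Bool) : |sgb b| = 1 := by cases b <;> simp only [sgb, Bool.false_eq_true, ↓reduceIte, Int.reduceNeg, abs_neg, abs_one]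

theorem abs_anti_sgb (f : ℤ → Bool) (n : ℤ) : |anti (fun i => sgb (f i)) n| ≤ |n| := by
  induction n using Int.induction_on with
  | zero => rw [anti_zero]
  | succ i ih =>
    have h1 := anti_step (fun i => sgb (f i)) ((i : ℤ) + 1)
    rw [add_sub_cancel_right] at h1
    have h2 : anti (fun i => sgb (f i)) ((i : ℤ) + 1) =
        anti (fun i => sgb (f i)) (i : ℤ) + sgb (f ((i : ℤ) + 1)) := by linarith only [h1]
    rw [h2]
    refine (abs_add_le _ _).trans ?_
    rw [abs_sgb, abs_of_nonneg (by omega : (0 : ℤ) ≤ (i : ℤ) + 1)]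
    rw [abs_of_nonneg (by (clear * -; omega) : (0 : ℤ) ≤ (i : ℤ))] at ih
    linarith only [ih]
  | pred i ih =>
    have h1 := anti_step (fun i => sgb (f i)) (-(i : ℤ))
    have h2 : anti (fun i => sgb (f i)) (-(i : ℤ) - 1) =
        anti (fun i => sgb (f i)) (-(i : ℤ)) - sgb (f (-(i : ℤ))) := by linarith
    rw [h2]
    refine (abs_sub _ _).trans ?_
    rw [abs_sgb, abs_of_nonpos (by omega : -(i : ℤ) - 1 ≤ 0)]
    rw [abs_of_nonpos (by omega : -(i : ℤ) ≤ 0)] at ih
    linarith only [ih]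

theorem abs_pth_le (ω : Ori (ℤ × ℤ)) (q : ℤ × ℤ) : |pth ω q| ≤ |q.1| + |q.2| := by
  unfold pth
  refine (abs_sub _ _).trans ?_
  have h1 := abs_anti_sgb (fun j => ω (Sum.inl (0, j))) q.2
  have h2 := abs_anti_sgb (fun i => ω (Sum.inr (i, q.2))) q.1
  linarith only [h1, h2]

theorem measurable_hap (q : ℤ × ℤ) : Measurable fun x : Hgt × Mk => x.1 q :=
  (measurable_pi_apply q).comp measurable_fst

theorem bdd_J (t : ℝ) (P : Measure (Ori (ℤ × ℤ))) [IsProbabilityMeasure P] :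
    ∀ᵐ x ∂(J t P), ∀ q : ℤ × ℤ, |x.1 q| ≤ |q.1| + |q.2| + 2 := by
  refine ae_J ?_ ?_
  · rw [Set.ofPred_forall]
    refine MeasurableSet.iInter fun q => ?_
    exact (measurable_hap q) (MeasurableSet.of_discrete (s := {n : ℤ | |n| ≤ |q.1| + |q.2| + 2}))
  · intro k hk'
    refine Filter.Eventually.of_forall fun y q => ?_
    have h1 := abs_pth_le y.1 q
    have h2 : (hk k y).1 q = pth y.1 q + 2 * k := rfl
    rw [h2]
    refine (abs_add_le _ _).trans ?_
    rcases hk' with rfl | rfl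
    · simp only [mul_zero, abs_zero, add_zero]; linarith only [h1]
    · simp only [mul_one, Nat.abs_ofNat, add_le_add_iff_right]; linarith only [h1]

theorem measurable_ev (r : (ℤ × ℤ) →₀ ℝ) : Measurable fun x : Hgt × Mk => FA.ev r x.1 := by
  unfold FA.ev Finsupp.sum
  refine Finset.measurable_sum _ fun q _ => ?_
  exact measurable_const.mul ((measurable_of_countable (fun n : ℤ => (n : ℝ))).comp (measurable_hap q))

theorem measurable_ev' (r : (ℤ × ℤ) →₀ ℝ) :
    Measurable fun ω : Ori (ℤ × ℤ) => FA.ev r (pth ω) := by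
  unfold FA.ev Finsupp.sum
  refine Finset.measurable_sum _ fun q _ => ?_
  exact measurable_const.mul
    ((measurable_of_countable (fun n : ℤ => (n : ℝ))).comp (measurable_pth_apply q))

theorem ev_hk (r : (ℤ × ℤ) →₀ ℝ) (hr : (r.sum fun _ a => a) = 1) (k : ℤ)
    (y : Ori (ℤ × ℤ) × Mk) : FA.ev r (hk k y).1 = FA.ev r (pth y.1) + 2 * k := by
  unfold FA.ev Finsupp.sum at *
  have h1 : ∀ q, r q * (((hk k y).1 q : ℤ) : ℝ) = r q * (pth y.1 q : ℝ) + r q * (2 * k) := by
    intro q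
    have : (hk k y).1 q = pth y.1 q + 2 * k := rfl
    rw [this]; push_cast; ring
  simp only [h1]
  rw [Finset.sum_add_distrib, ← Finset.sum_mul, hr, one_mul]

end Vale.Agent.P145.FB
end
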