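import Mathlib
import Vale.Agent.P145.FP.Defs
import Vale.Agent.P145.JG.Defs
import Vale.Agent.P152.Bd3.B7
import Vale.Agent.P152.Bd3.B10
import Vale.Agent.P152.Bd3.B8
import Vale.Agent.P152.Bd3.B9

set_option linter.all false

section

/-!
Potential theory for the Dirichlet Gaussian free field in a bounded open set `D` of the plane.
`V D φ` is the quadratic form `⟨φ, (-Δ_D)⁻¹ φ⟩` of the inverse of the Dirichlet Laplacian, in its
variational form.
-/

namespace Vale.Agent.P145.PT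

open MeasureTheory Set Filter Topology

/-- Smooth functions with compact support contained in `D`. -/
def TestOn (D : Set (ℝ × ℝ)) (φ : ℝ × ℝ → ℝ) : Prop :=
  ContDiff ℝ ((⊤ : ℕ∞) : WithTop ℕ∞) φ ∧ HasCompactSupport φ ∧ tsupport φ ⊆ D

/-- Partial derivative in the first coordinate. -/
noncomputable def dx (ψ : ℝ × ℝ → ℝ) (z : ℝ × ℝ) : ℝ := fderiv ℝ ψ z (1, 0)

/-- Partial derivative in the second coordinate. -/
noncomputable def dy (ψ : ℝ × ℝ → ℝ) (z : ℝ × ℝ) : ℝ := fderiv ℝ ψ z (0, 1)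

/-- The Laplacian. -/
noncomputable def lap (ψ : ℝ × ℝ → ℝ) (z : ℝ × ℝ) : ℝ := dx (dx ψ) z + dy (dy ψ) z

/-- The Dirichlet energy `∫ |∇ψ|²`. -/
noncomputable def energy (ψ : ℝ × ℝ → ℝ) : ℝ := ∫ z, (dx ψ z ^ 2 + dy ψ z ^ 2)

/-- `⟨φ, (-Δ_D)⁻¹ φ⟩ = sup_ψ (2 ∫ φ ψ - ∫ |∇ψ|²)`, `ψ` smooth with compact support in `D`. -/
noncomputable def V (D : Set (ℝ × ℝ)) (φ : ℝ × ℝ → ℝ) : ℝ :=
  ⨆ ψ : {ψ : ℝ × ℝ → ℝ // TestOn D ψ}, (2 * ∫ z, φ z * ψ.1 z) - energy ψ.1

end Vale.Agent.P145.PT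
end

section

/-!
Definitions for the scaling limit of the critical Ashkin-Teller height function in bounded Jordan
domains: lattice polygons, the height representation in the domain enclosed by a polygon, and
its rescaled height function.
-/

namespace Vale.Agent.P145.Dom

open Finset Filter Topology MeasureTheory ProbabilityTheory Vale.Agent.P145.FP
  Vale.Agent.P145.PT

/-- A bounded Jordan domain: the image of the open unit disc under a homeomorphism of the plane
(by the theorem of Schoenflies these are exactly the interiors of Jordan curves). -/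
def JordanDomain (D : Set (ℝ × ℝ)) : Prop :=
  ∃ Φ : (ℝ × ℝ) ≃ₜ (ℝ × ℝ), D = Φ '' {z | z.1 ^ 2 + z.2 ^ 2 < 1}

/-- A simple closed lattice polygon: a closed path `p 0, p 1, …, p (n - 1), p 0` of `ℤ²` with steps
of length one and without repeated vertices. -/
def IsPolygon {n : ℕ} (p : ZMod n → ℤ × ℤ) : Prop :=
  3 < n ∧ Function.Injective p ∧
    ∀ i, p (i + 1) - p i = (1, 0) ∨ p (i + 1) - p i = (-1, 0) ∨
      p (i + 1) - p i = (0, 1) ∨ p (i + 1) - p i = (0, -1)

/-- The edge between the lattice points `a` and `b` is an edge of the polygon `p`. -/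
def IsEdge {n : ℕ} (p : ZMod n → ℤ × ℤ) (a b : ℤ × ℤ) : Prop :=
  ∃ i, (p i = a ∧ p (i + 1) = b) ∨ (p i = b ∧ p (i + 1) = a)

/-- The finite set `F` of faces (unit squares, given by their bottom-left corners) is the set of
the faces enclosed by the polygon `p`: the edges of `p` are exactly the edges of the lattice with
exactly one of their two sides in `F`. The horizontal edge from `e` to `e + (1, 0)` separates the
faces `e` and `e - (0, 1)`; the vertical edge from `e` to `e + (0, 1)` separates the faces `e` and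
`e - (1, 0)`. -/
def Encloses {n : ℕ} (p : ZMod n → ℤ × ℤ) (F : Finset (ℤ × ℤ)) : Prop :=
  (∀ e : ℤ × ℤ, IsEdge p e (e + (1, 0)) ↔ ¬ (e ∈ F ↔ e - (0, 1) ∈ F)) ∧
  (∀ e : ℤ × ℤ, IsEdge p e (e + (0, 1)) ↔ ¬ (e ∈ F ↔ e - (1, 0) ∈ F))

/-- The vertices of the graph of the polygon: the corners of the enclosed faces. -/
def verts (F : Finset (ℤ × ℤ)) : Finset (ℤ × ℤ) :=
  F ∪ F.image (· + (1, 0)) ∪ F.image (· + (0, 1)) ∪ F.image (· + (1, 1))

/-- The free sites: the vertices that are not on the polygon `p`, and the enclosed faces. -/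
noncomputable def free {n : ℕ} (p : ZMod n → ℤ × ℤ) (F : Finset (ℤ × ℤ)) : Finset Site :=
  by classical exact ((verts F).filter (fun v => ∀ i, p i ≠ v)).disjSum F

/-- The spin configuration with the spin `-1` exactly at the sites of `S`. -/
noncomputable def conf (S : Finset Site) : Conf := fun x => by classical exact decide (x ∉ S)

/-- The weight of a spin configuration: the product, over all interior edges (both sides enclosed),
of the weights `FP.ew`; it is zero if the constraint is violated, and otherwise it is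
`t ^ (N(τ) + N(τ†))`. -/
noncomputable def wt (t : ℝ) (F : Finset (ℤ × ℤ)) (σ : Conf) : ℝ :=
  (∏ e ∈ F with e - (0, 1) ∈ F, hw t σ e) * ∏ e ∈ F with e - (1, 0) ∈ F, vw t σ e

/-- The height representation in the domain enclosed by `p`: the probability measure on the spin
configurations `(τ, τ†)` with `τ = 1` on `p` (and all spins equal to `1` outside) with
probabilities proportional to the weights. -/
noncomputable def law (t : ℝ) {n : ℕ} (p : ZMod n → ℤ × ℤ) (F : Finset (ℤ × ℤ)) : Measure Conf :=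
  ∑ S ∈ (free p F).powerset, ENNReal.ofReal
    (wt t F (conf S) / ∑ S' ∈ (free p F).powerset, wt t F (conf S')) • Measure.dirac (conf S)

/-- `H` is the height function of `(τ, τ†)`: it is `0` on the polygon, and
`H(f) - H(v) = τ(v) τ†(f) / 2` whenever the vertex `v` is a corner of the enclosed face `f`. -/
def IsHt {n : ℕ} (p : ZMod n → ℤ × ℤ) (F : Finset (ℤ × ℤ)) (σ : Conf) (H : Site → ℝ) : Prop :=
  (∀ i, H (Sum.inl (p i)) = 0) ∧
  ∀ f ∈ F, ∀ a b : ℤ, (a = 0 ∨ a = 1) → (b = 0 ∨ b = 1) →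
    H (Sum.inr f) - H (Sum.inl (f.1 + a, f.2 + b)) =
      1 / 2 * sp (σ (Sum.inl (f.1 + a, f.2 + b))) * sp (σ (Sum.inr f))

/-- `H_δ(φ) = δ² ∑_v H(v) φ(δ v)`, the sum being over the vertices of the graph. -/
noncomputable def fldD (F : Finset (ℤ × ℤ)) (H : Site → ℝ) (δ : ℝ) (φ : ℝ × ℝ → ℝ) : ℝ :=
  δ ^ 2 * ∑ v ∈ verts F, H (Sum.inl v) * φ (δ * v.1, δ * v.2)

/-- `⟨φ, (-Δ_D)⁻¹ ψ⟩`, by polarisation of the quadratic form `PT.V`. -/
noncomputable def dirCov (D : Set (ℝ × ℝ)) (φ ψ : ℝ × ℝ → ℝ) : ℝ :=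
  (V D (fun z => φ z + ψ z) - V D (fun z => φ z - ψ z)) / 4

/-- Lattice polygons `p n` of mesh `δ n → 0` approximating the domain `D`: the vertices of the
polygons are eventually within any given distance of `D`, and every compact subset of `D` is
eventually enclosed. (The first condition follows from the uniform convergence of the boundary
curves.) -/
structure Approx (D : Set (ℝ × ℝ)) (δ : ℕ → ℝ) (N : ℕ → ℕ) (p : ∀ n, ZMod (N n) → ℤ × ℤ)
    (F : ℕ → Finset (ℤ × ℤ)) : Prop where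
  pos : ∀ n, 0 < δ n
  lim : Tendsto δ atTop (𝓝 0)
  poly : ∀ n, IsPolygon (p n)
  encl : ∀ n, Encloses (p n) (F n)
  near : ∀ ε > 0, ∀ᶠ n in atTop, ∀ i, ∃ z ∈ D, dist (δ n * (p n i).1, δ n * (p n i).2) z < ε
  cpt : ∀ K ⊆ D, IsCompact K → ∀ᶠ n in atTop, ∀ z ∈ K, (⌊z.1 / δ n⌋, ⌊z.2 / δ n⌋) ∈ F n

/-- The conclusion: convergence in law of the height function, tested against finitely many test
functions, to the centred Gaussian vector whose covariance is `s²` times that of the Gaussian free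
field with covariance `2π (-Δ_D)⁻¹`. -/
def Conv (t s : ℝ) (D : Set (ℝ × ℝ)) : Prop :=
  ∀ (δ : ℕ → ℝ) (N : ℕ → ℕ) (p : ∀ n, ZMod (N n) → ℤ × ℤ) (F : ℕ → Finset (ℤ × ℤ)),
    Approx D δ N p F →
    ∃ _ : ∀ n, IsProbabilityMeasure (law t (p n) (F n)),
      (∀ n, ∀ᵐ σ ∂law t (p n) (F n), ∃ H, IsHt (p n) (F n) σ H) ∧
      ∀ H : ∀ _ : ℕ, Conf → Site → ℝ, (∀ n, ∀ᵐ σ ∂law t (p n) (F n), IsHt (p n) (F n) σ (H n σ)) →
      ∀ (k : ℕ) (φ : Fin k → ℝ × ℝ → ℝ), (∀ j, TestOn D (φ j)) →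
        (Matrix.of (fun i j => s ^ 2 * (2 * Real.pi * dirCov D (φ i) (φ j)))).PosSemidef ∧
        TendstoInDistribution (fun (n : ℕ) (σ : Conf) =>
          (WithLp.toLp 2 (fun j => fldD (F n) (H n σ) (δ n) (φ j)) : EuclideanSpace ℝ (Fin k)))
          atTop (id : EuclideanSpace ℝ (Fin k) → EuclideanSpace ℝ (Fin k))
          (fun n => law t (p n) (F n))
          (multivariateGaussian 0
            (Matrix.of (fun i j => s ^ 2 * (2 * Real.pi * dirCov D (φ i) (φ j)))))

/-- The statement for `U < 0`: for every point `(J, U)` of the self-dual line with `U < 0`,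
and every Jordan domain, `H_δ → h / (π √g)`. -/
def Main : Prop :=
  ∀ J U : ℝ, 0 < J → U < 0 → Real.sinh (2 * J) = Real.exp (-2 * U) →
    ∀ t g : ℝ, t = (1 + Real.exp (4 * U)) ^ (-(1 / 2) : ℝ) →
      g = 8 / Real.pi * Real.arcsin (√(1 + Real.exp (4 * U)) / 2) →
      ∀ D : Set (ℝ × ℝ), JordanDomain D → Conv t (1 / (Real.pi * √g)) D

end Vale.Agent.P145.Dom
end

section

/-!
The definitions of `JG` agree with those of `Dom`, `FP` and `PT`.
-/

namespace Vale.Agent.P145.JG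

lemma jordan_iff (D : Set (ℝ × ℝ)) : JordanDomain D ↔ Dom.JordanDomain D := Iff.rfl

lemma approx_dom {D : Set (ℝ × ℝ)} {δ : ℕ → ℝ} {N : ℕ → ℕ} {p : ∀ n, ZMod (N n) → ℤ × ℤ}
    {F : ℕ → Finset (ℤ × ℤ)} (h : Approx D δ N p F) : Dom.Approx D δ N p F :=
  ⟨h.pos, h.lim, h.poly, h.encl, h.near, h.cpt⟩

lemma law_eq (t : ℝ) {n : ℕ} (p : ZMod n → ℤ × ℤ) (F : Finset (ℤ × ℤ)) :
    law t p F = Dom.law t p F := rfl

lemma isHt_iff {n : ℕ} (p : ZMod n → ℤ × ℤ) (F : Finset (ℤ × ℤ)) (σ : Conf) (H : Site → ℝ) :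
    IsHt p F σ H ↔ Dom.IsHt p F σ H := Iff.rfl

lemma fldD_eq (F : Finset (ℤ × ℤ)) (H : Site → ℝ) (δ : ℝ) (φ : ℝ × ℝ → ℝ) :
    fldD F H δ φ = Dom.fldD F H δ φ := rfl

lemma testOn_iff (D : Set (ℝ × ℝ)) (φ : ℝ × ℝ → ℝ) : TestOn D φ ↔ PT.TestOn D φ := Iff.rfl

lemma dirCov_eq (D : Set (ℝ × ℝ)) (φ ψ : ℝ × ℝ → ℝ) : dirCov D φ ψ = Dom.dirCov D φ ψ := rfl

theorem conv_of_dom {t s : ℝ} {D : Set (ℝ × ℝ)} (h : Dom.Conv t s D) : Conv t s D := by
  intro δ N p F hA
  exact h δ N p F (approx_dom hA)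

/-- From the convergence for all Jordan domains with `κ = s² 2π`. -/
theorem conv_of_kappa {t κ : ℝ} (hκ : 0 < κ)
    (h : ∀ s : ℝ, κ = s ^ 2 * (2 * Real.pi) → ∀ D : Set (ℝ × ℝ), Dom.JordanDomain D →
      Dom.Conv t s D) :
    ∃ s : ℝ, 0 < s ∧ ∀ D : Set (ℝ × ℝ), JordanDomain D → Conv t s D := by
  have h2 : (0 : ℝ) < 2 * Real.pi := by positivity
  refine ⟨√(κ / (2 * Real.pi)), Real.sqrt_pos.2 (by positivity), fun D hD =>
    conv_of_dom (h _ ?_ D hD)⟩
  rw [Real.sq_sqrt (by positivity)]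
  field_simp

end Vale.Agent.P145.JG
end

section

/-!
The law of the height representation in a polygon is a probability measure, and heights exist.
-/

namespace Vale.Agent.P145.Dom

open Finset Filter Topology MeasureTheory ProbabilityTheory Vale.Agent.P145.FP
  Vale.Agent.P145.PT

lemma ew_nonneg {t : ℝ} (ht : 0 ≤ t) (a b p q : Bool) : 0 ≤ ew t a b p q := by
  unfold ew; split_ifs <;> positivity

lemma hw_nonneg {t : ℝ} (ht : 0 ≤ t) (σ : Conf) (e : ℤ × ℤ) : 0 ≤ hw t σ e := ew_nonneg ht _ _ _ _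

lemma vw_nonneg {t : ℝ} (ht : 0 ≤ t) (σ : Conf) (e : ℤ × ℤ) : 0 ≤ vw t σ e := ew_nonneg ht _ _ _ _

lemma wt_nonneg {t : ℝ} (ht : 0 ≤ t) (F : Finset (ℤ × ℤ)) (σ : Conf) : 0 ≤ wt t F σ :=
  mul_nonneg (prod_nonneg fun _ _ => hw_nonneg ht _ _) (prod_nonneg fun _ _ => vw_nonneg ht _ _)

lemma conf_empty : conf ∅ = fun _ => true := by
  funext x; simp [conf]

lemma conf_eq_true {S : Finset Site} {x : Site} : conf S x = true ↔ x ∉ S := by
  simp [conf]

lemma wt_empty (t : ℝ) (F : Finset (ℤ × ℤ)) : wt t F (conf ∅) = 1 := by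
  simp only [wt, hw, ew, conf_empty, or_self, ↓reduceIte, add_zero, pow_zero, prod_const_one, vw, mul_one]

lemma Z_pos {t : ℝ} (ht : 0 ≤ t) {n : ℕ} (p : ZMod n → ℤ × ℤ) (F : Finset (ℤ × ℤ)) :
    0 < ∑ S' ∈ (free p F).powerset, wt t F (conf S') := by
  have h1 : wt t F (conf ∅) ≤ ∑ S' ∈ (free p F).powerset, wt t F (conf S') :=
    single_le_sum (f := fun S => wt t F (conf S)) (fun S _ => wt_nonneg ht F (conf S))
      (empty_mem_powerset _)
  rw [wt_empty] at h1
  linarith only [h1]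

theorem law_prob {t : ℝ} (ht : 0 ≤ t) {n : ℕ} (p : ZMod n → ℤ × ℤ) (F : Finset (ℤ × ℤ)) :
    IsProbabilityMeasure (law t p F) := by
  have hZ := Z_pos ht p F
  refine ⟨?_⟩
  unfold law
  rw [Measure.coe_finsetSum, Finset.sum_apply]
  simp only [Measure.smul_apply, measure_univ, smul_eq_mul, mul_one]
  rw [← ENNReal.ofReal_sum_of_nonneg (fun S _ => div_nonneg (wt_nonneg ht F _) hZ.le),
    ← sum_div, div_self hZ.ne', ENNReal.ofReal_one]

/-- An integral with respect to the law. -/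
theorem law_integral {t : ℝ} (ht : 0 ≤ t) {n : ℕ} (p : ZMod n → ℤ × ℤ) (F : Finset (ℤ × ℤ))
    {E : Type*} [NormedAddCommGroup E] [NormedSpace ℝ E] [CompleteSpace E] (f : Conf → E) :
    ∫ σ, f σ ∂(law t p F) = ∑ S ∈ (free p F).powerset,
      (wt t F (conf S) / ∑ S' ∈ (free p F).powerset, wt t F (conf S')) • f (conf S) := by
  have hZ := Z_pos ht p F
  unfold law
  rw [integral_finsetSum_measure]
  · refine sum_congr rfl fun S _ => ?_
    rw [integral_smul_measure, integral_dirac,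
      ENNReal.toReal_ofReal (div_nonneg (wt_nonneg ht F _) hZ.le)]
  · intro S _
    exact (integrable_dirac (by simp)).smul_measure ENNReal.ofReal_ne_top

theorem law_ae {t : ℝ} {n : ℕ} {p : ZMod n → ℤ × ℤ} {F : Finset (ℤ × ℤ)}
    {P : Conf → Prop} (h : ∀ S ⊆ free p F, wt t F (conf S) ≠ 0 → P (conf S)) :
    ∀ᵐ σ ∂(law t p F), P σ := by
  unfold law
  rw [ae_iff, Measure.coe_finsetSum, Finset.sum_apply]
  refine sum_eq_zero fun S hS => ?_
  rw [Measure.smul_apply, smul_eq_mul, mul_eq_zero]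
  by_cases h0 : wt t F (conf S) = 0
  · left; rw [h0]; simp
  · right
    rw [Measure.dirac_apply]
    have h1 : P (conf S) := h S (mem_powerset.1 hS) h0
    simp [Set.indicator, h1]

/-- Conversely, an almost sure property holds for all configurations of positive weight. -/
theorem of_law_ae {t : ℝ} (ht : 0 ≤ t) {n : ℕ} {p : ZMod n → ℤ × ℤ} {F : Finset (ℤ × ℤ)}
    {P : Conf → Prop} (h : ∀ᵐ σ ∂(law t p F), P σ) {S : Finset Site} (hS : S ⊆ free p F)
    (h0 : wt t F (conf S) ≠ 0) : P (conf S) := by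
  have hZ := Z_pos ht p F
  unfold law at h
  rw [ae_iff, Measure.coe_finsetSum, Finset.sum_apply, Finset.sum_eq_zero_iff] at h
  have h1 := h S (mem_powerset.2 hS)
  rw [Measure.smul_apply, smul_eq_mul, mul_eq_zero] at h1
  have h2 : 0 < wt t F (conf S) := lt_of_le_of_ne (wt_nonneg ht F _) (Ne.symm h0)
  rcases h1 with h1 | h1
  · rw [ENNReal.ofReal_eq_zero] at h1
    exact absurd h1 (not_le.2 (div_pos h2 hZ))
  · rw [Measure.dirac_apply] at h1
    by_contra h3
    simp [Set.indicator, h3] at h1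

end Vale.Agent.P145.Dom
end

section

/-!
Zero boundary six-vertex heights on a finite set of faces of `ℤ²`.
-/

namespace Vale.Agent.P145.Dom

open Finset Filter Topology MeasureTheory ProbabilityTheory Vale.Agent.P145.FP
  Vale.Agent.P145.PT

/-- Six-vertex heights (twice the height function) on the finite set `F` of faces of `ℤ²`: even
at the vertices, neighbouring heights differ by one, `0` at the vertices which have a face outside
of `F` (and, by convention, at the faces outside of `F`). -/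
def ZH (F : Finset (ℤ × ℤ)) : Set (Site → ℤ) :=
  {x | (∀ v, Even (x (Sum.inl v))) ∧ (∀ f, f ∉ F → x (Sum.inr f) = 0) ∧
    ∀ f : ℤ × ℤ, ∀ a b : ℤ, (a = 0 ∨ a = 1) → (b = 0 ∨ b = 1) →
      (f ∉ F → x (Sum.inl (f.1 + a, f.2 + b)) = 0) ∧
      (f ∈ F → |x (Sum.inr f) - x (Sum.inl (f.1 + a, f.2 + b))| = 1)}

/-- The weight: `c` for every interior edge such that the heights agree at both ends and at both
sides. -/
noncomputable def zw (c : ℝ) (F : Finset (ℤ × ℤ)) (x : Site → ℤ) : ℝ :=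
  (∏ e ∈ F with e - (0, 1) ∈ F,
    if x (Sum.inl e) = x (Sum.inl (e.1 + 1, e.2)) ∧ x (Sum.inr e) = x (Sum.inr (e.1, e.2 - 1))
      then c else 1) *
  ∏ e ∈ F with e - (1, 0) ∈ F,
    if x (Sum.inl e) = x (Sum.inl (e.1, e.2 + 1)) ∧ x (Sum.inr e) = x (Sum.inr (e.1 - 1, e.2))
      then c else 1

/-- The weighted sum of `Φ` over the zero boundary heights on `F`. -/
noncomputable def zs (c : ℝ) (F : Finset (ℤ × ℤ)) (Φ : (Site → ℤ) → ℝ) : ℝ :=
  ∑ᶠ x ∈ ZH F, zw c F x * Φ x

/-- The expectation of `Φ` under the zero boundary law on `F`. -/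
noncomputable def ze (c : ℝ) (F : Finset (ℤ × ℤ)) (Φ : (Site → ℤ) → ℝ) : ℝ :=
  zs c F Φ / zs c F (fun _ => 1)

/-- `δ² ∑_v h(v) φ(δ v) / 2`: the height function `h / 2` tested against `φ`. -/
noncomputable def zf (F : Finset (ℤ × ℤ)) (δ : ℝ) (φ : ℝ × ℝ → ℝ) (x : Site → ℤ) : ℝ :=
  fldD F (fun s => (x s : ℝ) / 2) δ φ

end Vale.Agent.P145.Dom
end

section

/-!
Basic facts on test functions, integration by parts and the Poincaré inequality.
-/

namespace Vale.Agent.P145.PT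

open MeasureTheory Set Filter Topology

/-- Smooth. -/
abbrev Sm (f : ℝ × ℝ → ℝ) : Prop := ContDiff ℝ ((⊤ : ℕ∞) : WithTop ℕ∞) f

theorem Sm.fd {f : ℝ × ℝ → ℝ} (h : Sm f) (v : ℝ × ℝ) : Sm (fun z => fderiv ℝ f z v) := by
  have h1 : ContDiff ℝ ((⊤ : ℕ∞) : WithTop ℕ∞) (fderiv ℝ f) :=
    h.fderiv_right (m := ((⊤ : ℕ∞) : WithTop ℕ∞)) (by norm_cast)
  exact h1.clm_apply contDiff_const

theorem Sm.dx {f : ℝ × ℝ → ℝ} (h : Sm f) : Sm (dx f) := h.fd (1, 0)
theorem Sm.dy {f : ℝ × ℝ → ℝ} (h : Sm f) : Sm (dy f) := h.fd (0, 1)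
theorem Sm.lap {f : ℝ × ℝ → ℝ} (h : Sm f) : Sm (lap f) := (h.dx.dx).add (h.dy.dy)
theorem Sm.diff {f : ℝ × ℝ → ℝ} (h : Sm f) : Differentiable ℝ f := h.differentiable (by simp)

theorem TestOn.sm {D : Set (ℝ × ℝ)} {f : ℝ × ℝ → ℝ} (h : TestOn D f) : Sm f := h.1
theorem TestOn.cs {D : Set (ℝ × ℝ)} {f : ℝ × ℝ → ℝ} (h : TestOn D f) : HasCompactSupport f := h.2.1
theorem TestOn.cont {D : Set (ℝ × ℝ)} {f : ℝ × ℝ → ℝ} (h : TestOn D f) : Continuous f :=
  h.1.continuous
theorem TestOn.int {D : Set (ℝ × ℝ)} {f : ℝ × ℝ → ℝ} (h : TestOn D f) : Integrable f :=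
  h.cont.integrable_of_hasCompactSupport h.cs

theorem TestOn.mono {D D' : Set (ℝ × ℝ)} {f : ℝ × ℝ → ℝ} (h : TestOn D f) (hD : D ⊆ D') :
    TestOn D' f := ⟨h.1, h.2.1, h.2.2.trans hD⟩

theorem TestOn.zero (D : Set (ℝ × ℝ)) : TestOn D (fun _ => 0) := by
  refine ⟨contDiff_const, ?_, ?_⟩
  · exact HasCompactSupport.zero
  · have : tsupport (fun _ : ℝ × ℝ => (0 : ℝ)) = ∅ := by
      simp only [tsupport, Function.support_fun_zero, finite_empty, Finite.isClosed, IsClosed.closure_eq]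
    rw [this]; exact empty_subset _

theorem TestOn.add {D : Set (ℝ × ℝ)} {f g : ℝ × ℝ → ℝ} (hf : TestOn D f) (hg : TestOn D g) :
    TestOn D (fun z => f z + g z) :=
  ⟨hf.1.add hg.1, hf.2.1.add hg.2.1,
    (tsupport_add f g).trans (union_subset hf.2.2 hg.2.2)⟩

theorem TestOn.mulSm {D : Set (ℝ × ℝ)} {f g : ℝ × ℝ → ℝ} (hf : TestOn D f) (hg : Sm g) :
    TestOn D (fun z => g z * f z) :=
  ⟨hg.mul hf.1, hf.2.1.mul_left, (tsupport_mul_subset_right).trans hf.2.2⟩

theorem TestOn.smul {D : Set (ℝ × ℝ)} {f : ℝ × ℝ → ℝ} (hf : TestOn D f) (c : ℝ) :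
    TestOn D (fun z => c * f z) := hf.mulSm contDiff_const

theorem TestOn.neg {D : Set (ℝ × ℝ)} {f : ℝ × ℝ → ℝ} (hf : TestOn D f) :
    TestOn D (fun z => - f z) := by
  simpa using hf.smul (-1)

theorem TestOn.sub {D : Set (ℝ × ℝ)} {f g : ℝ × ℝ → ℝ} (hf : TestOn D f) (hg : TestOn D g) :
    TestOn D (fun z => f z - g z) := by
  simpa [sub_eq_add_neg] using hf.add hg.neg

theorem TestOn.fd {D : Set (ℝ × ℝ)} {f : ℝ × ℝ → ℝ} (hf : TestOn D f) (v : ℝ × ℝ) :
    TestOn D (fun z => fderiv ℝ f z v) :=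
  ⟨hf.sm.fd v, hf.2.1.fderiv_apply (𝕜 := ℝ) v, (tsupport_fderiv_apply_subset ℝ v).trans hf.2.2⟩

theorem TestOn.dx {D : Set (ℝ × ℝ)} {f : ℝ × ℝ → ℝ} (hf : TestOn D f) : TestOn D (dx f) :=
  hf.fd (1, 0)
theorem TestOn.dy {D : Set (ℝ × ℝ)} {f : ℝ × ℝ → ℝ} (hf : TestOn D f) : TestOn D (dy f) :=
  hf.fd (0, 1)
theorem TestOn.lap {D : Set (ℝ × ℝ)} {f : ℝ × ℝ → ℝ} (hf : TestOn D f) : TestOn D (lap f) :=
  hf.dx.dx.add hf.dy.dy

theorem dx_add {f g : ℝ × ℝ → ℝ} (hf : Sm f) (hg : Sm g) (z : ℝ × ℝ) :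
    dx (fun z => f z + g z) z = dx f z + dx g z := by
  unfold PT.dx
  rw [fderiv_fun_add hf.diff.differentiableAt hg.diff.differentiableAt]; rfl

theorem dy_add {f g : ℝ × ℝ → ℝ} (hf : Sm f) (hg : Sm g) (z : ℝ × ℝ) :
    dy (fun z => f z + g z) z = dy f z + dy g z := by
  unfold PT.dy
  rw [fderiv_fun_add hf.diff.differentiableAt hg.diff.differentiableAt]; rfl

theorem dx_smul {f : ℝ × ℝ → ℝ} (hf : Sm f) (c : ℝ) (z : ℝ × ℝ) :
    dx (fun z => c * f z) z = c * dx f z := by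
  unfold PT.dx
  rw [fderiv_const_mul hf.diff.differentiableAt]; rfl

theorem dy_smul {f : ℝ × ℝ → ℝ} (hf : Sm f) (c : ℝ) (z : ℝ × ℝ) :
    dy (fun z => c * f z) z = c * dy f z := by
  unfold PT.dy
  rw [fderiv_const_mul hf.diff.differentiableAt]; rfl

theorem dx_mul {f g : ℝ × ℝ → ℝ} (hf : Sm f) (hg : Sm g) (z : ℝ × ℝ) :
    dx (fun z => f z * g z) z = f z * dx g z + dx f z * g z := by
  unfold PT.dx
  rw [fderiv_fun_mul hf.diff.differentiableAt hg.diff.differentiableAt]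
  simp only [add_apply, smul_apply, smul_eq_mul, add_right_inj]; ring

theorem dy_mul {f g : ℝ × ℝ → ℝ} (hf : Sm f) (hg : Sm g) (z : ℝ × ℝ) :
    dy (fun z => f z * g z) z = f z * dy g z + dy f z * g z := by
  unfold PT.dy
  rw [fderiv_fun_mul hf.diff.differentiableAt hg.diff.differentiableAt]
  simp only [add_apply, smul_apply, smul_eq_mul, add_right_inj]; ring

theorem lap_smul {f : ℝ × ℝ → ℝ} (hf : Sm f) (c : ℝ) (z : ℝ × ℝ) :
    lap (fun z => c * f z) z = c * lap f z := by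
  unfold PT.lap
  have h1 : PT.dx (fun z => c * f z) = fun z => c * PT.dx f z := by funext w; exact dx_smul hf c w
  have h2 : PT.dy (fun z => c * f z) = fun z => c * PT.dy f z := by funext w; exact dy_smul hf c w
  rw [h1, h2, dx_smul hf.dx, dy_smul hf.dy]; ring

theorem lap_add {f g : ℝ × ℝ → ℝ} (hf : Sm f) (hg : Sm g) (z : ℝ × ℝ) :
    lap (fun z => f z + g z) z = lap f z + lap g z := by
  unfold PT.lap
  have h1 : PT.dx (fun z => f z + g z) = fun z => PT.dx f z + PT.dx g z := by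
    funext w; exact dx_add hf hg w
  have h2 : PT.dy (fun z => f z + g z) = fun z => PT.dy f z + PT.dy g z := by
    funext w; exact dy_add hf hg w
  rw [h1, h2, dx_add hf.dx hg.dx, dy_add hf.dy hg.dy]; ring

/-- Integration by parts. -/
theorem ibp {D : Set (ℝ × ℝ)} {f g : ℝ × ℝ → ℝ} (hf : TestOn D f) (hg : Sm g) (v : ℝ × ℝ) :
    ∫ z, f z * fderiv ℝ g z v = - ∫ z, fderiv ℝ f z v * g z := by
  refine integral_mul_fderiv_eq_neg_fderiv_mul_of_integrable ?_ ?_ ?_
    (fun x _ => hf.sm.diff x) (fun x _ => hg.diff x)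
  · refine Continuous.integrable_of_hasCompactSupport ?_ ?_
    · exact (hf.fd v).cont.mul hg.continuous
    · exact (hf.fd v).cs.mul_right
  · refine Continuous.integrable_of_hasCompactSupport ?_ ?_
    · exact hf.cont.mul (hg.fd v).continuous
    · exact hf.cs.mul_right
  · refine Continuous.integrable_of_hasCompactSupport ?_ ?_
    · exact hf.cont.mul hg.continuous
    · exact hf.cs.mul_right

theorem TestOn.intMul {D : Set (ℝ × ℝ)} {f g : ℝ × ℝ → ℝ} (hf : TestOn D f) (hg : Continuous g) :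
    Integrable (fun z => f z * g z) :=
  Continuous.integrable_of_hasCompactSupport (hf.cont.mul hg) hf.cs.mul_right

theorem TestOn.intMul' {D : Set (ℝ × ℝ)} {f g : ℝ × ℝ → ℝ} (hf : TestOn D f) (hg : Continuous g) :
    Integrable (fun z => g z * f z) :=
  Continuous.integrable_of_hasCompactSupport (hg.mul hf.cont) hf.cs.mul_left

theorem TestOn.intSq {D : Set (ℝ × ℝ)} {f : ℝ × ℝ → ℝ} (hf : TestOn D f) :
    Integrable (fun z => f z ^ 2) := by
  simpa only [sq] using hf.intMul hf.cont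

theorem TestOn.intE {D : Set (ℝ × ℝ)} {f : ℝ × ℝ → ℝ} (hf : TestOn D f) :
    Integrable (fun z => PT.dx f z ^ 2 + PT.dy f z ^ 2) := hf.dx.intSq.add hf.dy.intSq

theorem energy_nonneg (f : ℝ × ℝ → ℝ) : 0 ≤ energy f :=
  integral_nonneg fun z => by positivity

/-- Green's identity `∫ ψ (-Δ u) = ∫ ∇ψ · ∇u`. -/
theorem green_id {D : Set (ℝ × ℝ)} {f g : ℝ × ℝ → ℝ} (hf : TestOn D f) (hg : Sm g) :
    ∫ z, f z * lap g z = - ∫ z, (PT.dx f z * PT.dx g z + PT.dy f z * PT.dy g z) := by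
  have h1 := ibp hf hg.dx (1, 0)
  have h2 := ibp hf hg.dy (0, 1)
  have e1 : ∫ z, f z * lap g z = (∫ z, f z * PT.dx (PT.dx g) z) + ∫ z, f z * PT.dy (PT.dy g) z := by
    rw [← integral_add]
    · congr 1; funext z; unfold PT.lap; ring
    · exact hf.intMul hg.dx.dx.continuous
    · exact hf.intMul hg.dy.dy.continuous
  have e2 : ∫ z, (PT.dx f z * PT.dx g z + PT.dy f z * PT.dy g z)
      = (∫ z, PT.dx f z * PT.dx g z) + ∫ z, PT.dy f z * PT.dy g z := by
    rw [← integral_add]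
    · exact hf.dx.intMul hg.dx.continuous
    · exact hf.dy.intMul hg.dy.continuous
  rw [e1, e2]
  have h1' : ∫ z, f z * PT.dx (PT.dx g) z = - ∫ z, PT.dx f z * PT.dx g z := h1
  have h2' : ∫ z, f z * PT.dy (PT.dy g) z = - ∫ z, PT.dy f z * PT.dy g z := h2
  rw [h1', h2']; ring

theorem energy_eq {D : Set (ℝ × ℝ)} {f : ℝ × ℝ → ℝ} (hf : TestOn D f) :
    energy f = - ∫ z, f z * lap f z := by
  rw [green_id hf hf.sm, neg_neg]; unfold energy
  congr 1; funext z; ring

end Vale.Agent.P145.PT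
end

section

/-!
Poincaré inequality on bounded sets; `V D φ` is finite for bounded `D`; first properties of `V`.
-/

namespace Vale.Agent.P145.PT

open MeasureTheory Set Filter Topology

theorem dx_fst (z : ℝ × ℝ) : dx (fun z => z.1) z = 1 := by
  unfold dx; rw [fderiv_fst]; rfl

/-- Poincaré: if `ψ` is a test function on `D ⊆ {|x| ≤ R}` then `∫ ψ² ≤ 4 R² ∫ (∂ₓψ)²`. -/
theorem poincare {D : Set (ℝ × ℝ)} {R : ℝ} (hD : ∀ z ∈ D, |z.1| ≤ R)
    {ψ : ℝ × ℝ → ℝ} (hψ : TestOn D ψ) :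
    ∫ z, ψ z ^ 2 ≤ 4 * R ^ 2 * ∫ z, dx ψ z ^ 2 := by
  have hz : ∀ z, ψ z ≠ 0 → |z.1| ≤ R := fun z hz =>
    hD z (hψ.2.2 (subset_tsupport _ hz))
  have h1 := ibp (hψ.mulSm hψ.sm) (g := fun z => z.1) contDiff_fst (1, 0)
  have h2 : ∀ z, fderiv ℝ (fun z : ℝ × ℝ => z.1) z (1, 0) = 1 := dx_fst
  have h3 : ∀ z, fderiv ℝ (fun z => ψ z * ψ z) z (1, 0) = 2 * (ψ z * dx ψ z) := by
    intro z
    have := dx_mul hψ.sm hψ.sm z
    unfold dx at this ⊢
    rw [this]; ring
  simp only [h2, h3, mul_one] at h1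
  have i1 : Integrable (fun z => ψ z ^ 2) := hψ.intSq
  have i2 : Integrable (fun z => dx ψ z ^ 2) := hψ.dx.intSq
  have h4 : ∫ z, -(2 * (ψ z * dx ψ z) * z.1) ≤ ∫ z, (1 / 2 * ψ z ^ 2 + 2 * R ^ 2 * dx ψ z ^ 2) := by
    refine integral_mono ?_ ((i1.const_mul _).add (i2.const_mul _)) ?_
    · have : Integrable (fun z => ψ z * (dx ψ z * z.1)) :=
        hψ.intMul (hψ.dx.cont.mul continuous_fst)
      refine (this.const_mul (-2)).congr (ae_of_all _ fun z => ?_)
      simp only; ring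
    · intro z
      by_cases h : ψ z = 0
      · simp only [h, zero_mul, mul_zero, neg_zero, one_div, ne_eq, OfNat.ofNat_ne_zero, not_false_eq_true, zero_pow, zero_add]; (clear * -; positivity)
      · have hR := hz z h
        have : -(2 * (ψ z * dx ψ z) * z.1) ≤ 1 / 2 * ψ z ^ 2 + 2 * (z.1 * dx ψ z) ^ 2 := by
          nlinarith only [sq_nonneg (ψ z + 2 * (z.1 * dx ψ z))]
        have h5 : z.1 ^ 2 ≤ R ^ 2 := sq_le_sq' (by linarith only [abs_le.1 hR]) (abs_le.1 hR).2
        have h6 : (z.1 * dx ψ z) ^ 2 ≤ R ^ 2 * dx ψ z ^ 2 := by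
          rw [mul_pow]; exact mul_le_mul_of_nonneg_right h5 (sq_nonneg _)
        simp only
        linarith only [this, h6]
  rw [integral_neg, integral_add (i1.const_mul _) (i2.const_mul _), integral_const_mul,
    integral_const_mul] at h4
  have h7 : ∫ z, ψ z * ψ z = ∫ z, ψ z ^ 2 := by congr 1; funext z; ring
  rw [h7] at h1
  linarith

theorem bdd_fst {D : Set (ℝ × ℝ)} (hD : Bornology.IsBounded D) :
    ∃ R : ℝ, 0 < R ∧ ∀ z ∈ D, |z.1| ≤ R := by
  obtain ⟨R, hR⟩ := hD.exists_norm_le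
  refine ⟨max R 1, by positivity, fun z hz => ?_⟩
  exact ((norm_fst_le z).trans (hR z hz)).trans (le_max_left _ _)

theorem energy_ge_dx {D : Set (ℝ × ℝ)} {ψ : ℝ × ℝ → ℝ} (hψ : TestOn D ψ) :
    ∫ z, dx ψ z ^ 2 ≤ energy ψ := by
  refine integral_mono hψ.dx.intSq hψ.intE fun z => ?_
  simp only; nlinarith only []

/-- The functional in the definition of `V` is bounded. -/
theorem functional_le {D : Set (ℝ × ℝ)} {R : ℝ} (hD : ∀ z ∈ D, |z.1| ≤ R)
    {φ ψ : ℝ × ℝ → ℝ} (hφ : Integrable (fun z => φ z ^ 2)) (hφm : AEStronglyMeasurable φ)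
    (hψ : TestOn D ψ) :
    (2 * ∫ z, φ z * ψ z) - energy ψ ≤ 4 * R ^ 2 * ∫ z, φ z ^ 2 := by
  have h1 := poincare hD hψ
  have h2 := energy_ge_dx hψ
  by_cases hR : R = 0
  · subst hR
    have h3 : ∫ z, ψ z ^ 2 ≤ 0 := by simpa only [ne_eq, OfNat.ofNat_ne_zero, not_false_eq_true, zero_pow, mul_zero, zero_mul] using h1
    have h4 : (fun z => ψ z ^ 2) =ᵐ[volume] 0 :=
      (integral_eq_zero_iff_of_nonneg (fun z => sq_nonneg _) hψ.intSq).1
        (le_antisymm h3 (integral_nonneg fun z => sq_nonneg _))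
    have h5 : ∫ z, φ z * ψ z = 0 := by
      rw [← integral_zero (ℝ × ℝ) ℝ]
      refine integral_congr_ae ?_
      filter_upwards [h4] with z hz
      have : ψ z = 0 := by simpa using hz
      simp [this]
    rw [h5]; have := energy_nonneg ψ; simp only [mul_zero, zero_sub, ne_eq, OfNat.ofNat_ne_zero, not_false_eq_true, zero_pow, zero_mul, Left.neg_nonpos_iff, ge_iff_le]; linarith
  have hR2 : 0 < 4 * R ^ 2 := by positivity
  have h3 : (2 * ∫ z, φ z * ψ z) ≤ 4 * R ^ 2 * (∫ z, φ z ^ 2) + (4 * R ^ 2)⁻¹ * ∫ z, ψ z ^ 2 := by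
    rw [← integral_const_mul, ← integral_const_mul, ← integral_const_mul, ← integral_add
      (hφ.const_mul _) (hψ.intSq.const_mul _)]
    refine integral_mono ?_ ((hφ.const_mul _).add (hψ.intSq.const_mul _)) fun z => ?_
    · refine Integrable.const_mul ?_ _
      refine Integrable.mono' ((hφ.add hψ.intSq)) (hφm.mul hψ.cont.aestronglyMeasurable) ?_
      refine ae_of_all _ fun z => ?_
      rw [Real.norm_eq_abs, abs_mul]
      simp only [Pi.add_apply]
      nlinarith only [sq_abs (φ z), sq_abs (ψ z)]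
    · simp only
      have : 0 ≤ (4 * R ^ 2)⁻¹ * (4 * R ^ 2 * φ z - ψ z) ^ 2 := by (clear * - hR; positivity)
      have e : (4 * R ^ 2)⁻¹ * (4 * R ^ 2 * φ z - ψ z) ^ 2
          = 4 * R ^ 2 * φ z ^ 2 + (4 * R ^ 2)⁻¹ * ψ z ^ 2 - 2 * (φ z * ψ z) := by
        field_simp; ring
      linarith only [this, e]
  have h4 : (4 * R ^ 2)⁻¹ * ∫ z, ψ z ^ 2 ≤ energy ψ := by
    calc (4 * R ^ 2)⁻¹ * ∫ z, ψ z ^ 2 ≤ (4 * R ^ 2)⁻¹ * (4 * R ^ 2 * ∫ z, dx ψ z ^ 2) :=
          mul_le_mul_of_nonneg_left h1 (by positivity)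
      _ = ∫ z, dx ψ z ^ 2 := by (clear * - hR; field_simp)
      _ ≤ energy ψ := h2
  linarith only [h3, h4]

theorem bddAbove_V {D D' : Set (ℝ × ℝ)} (hD : Bornology.IsBounded D)
    {φ : ℝ × ℝ → ℝ} (hφ : TestOn D' φ) :
    BddAbove (Set.range fun ψ : {ψ : ℝ × ℝ → ℝ // TestOn D ψ} =>
      (2 * ∫ z, φ z * ψ.1 z) - energy ψ.1) := by
  obtain ⟨R, _, hR⟩ := bdd_fst hD
  refine ⟨4 * R ^ 2 * ∫ z, φ z ^ 2, ?_⟩
  rintro _ ⟨ψ, rfl⟩
  exact functional_le hR hφ.intSq hφ.cont.aestronglyMeasurable ψ.2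

theorem le_V {D D' : Set (ℝ × ℝ)} (hD : Bornology.IsBounded D)
    {φ ψ : ℝ × ℝ → ℝ} (hφ : TestOn D' φ) (hψ : TestOn D ψ) :
    (2 * ∫ z, φ z * ψ z) - energy ψ ≤ V D φ :=
  le_ciSup (f := fun ψ : {ψ : ℝ × ℝ → ℝ // TestOn D ψ} =>
    (2 * ∫ z, φ z * ψ.1 z) - energy ψ.1) (bddAbove_V hD hφ) ⟨ψ, hψ⟩

theorem energy_zero : energy (fun _ => (0 : ℝ)) = 0 := by
  unfold energy dx dy; simp only [fderiv_fun_const, Pi.zero_apply, zero_apply, ne_eq, OfNat.ofNat_ne_zero, not_false_eq_true, zero_pow, add_zero, integral_zero]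

theorem V_le {D : Set (ℝ × ℝ)} {φ : ℝ × ℝ → ℝ} {C : ℝ}
    (h : ∀ ψ, TestOn D ψ → (2 * ∫ z, φ z * ψ z) - energy ψ ≤ C) : V D φ ≤ C := by
  have : Nonempty {ψ : ℝ × ℝ → ℝ // TestOn D ψ} := ⟨⟨_, TestOn.zero D⟩⟩
  exact ciSup_le fun ψ => h ψ.1 ψ.2

theorem V_nonneg {D D' : Set (ℝ × ℝ)} (hD : Bornology.IsBounded D)
    {φ : ℝ × ℝ → ℝ} (hφ : TestOn D' φ) : 0 ≤ V D φ := by
  have := le_V hD hφ (TestOn.zero D)
  rw [energy_zero] at this
  simpa only [ge_iff_le, mul_zero, integral_zero, sub_self] using this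

theorem V_mono {D D' D'' : Set (ℝ × ℝ)} (hD' : Bornology.IsBounded D') (h : D ⊆ D')
    {φ : ℝ × ℝ → ℝ} (hφ : TestOn D'' φ) : V D φ ≤ V D' φ :=
  V_le fun _ hψ => le_V hD' hφ (hψ.mono h)

/-- Cauchy-Schwarz for `V`: `2 ∫ φ ψ ≤ t V(φ) + energy ψ / t`. -/
theorem pair_le {D D' : Set (ℝ × ℝ)} (hD : Bornology.IsBounded D)
    {φ ψ : ℝ × ℝ → ℝ} (hφ : TestOn D' φ) (hψ : TestOn D ψ) :
    (∫ z, φ z * ψ z) ^ 2 ≤ V D φ * energy ψ := by
  have h : ∀ t : ℝ, 0 ≤ energy ψ * (t * t) + (-(2 * ∫ z, φ z * ψ z)) * t + V D φ := by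
    intro t
    have h1 := le_V hD hφ (hψ.smul t)
    have h2 : energy (fun z => t * ψ z) = t ^ 2 * energy ψ := by
      unfold energy
      rw [← integral_const_mul]
      congr 1; funext z
      rw [dx_smul hψ.sm, dy_smul hψ.sm]; ring
    have h3 : ∫ z, φ z * (t * ψ z) = t * ∫ z, φ z * ψ z := by
      rw [← integral_const_mul]; congr 1; funext z; ring
    rw [h2, h3] at h1
    linarith
  have := discrim_le_zero h
  unfold discrim at this
  linarith

end Vale.Agent.P145.PT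
end

section

/-!
A linear functional on test functions which is bounded in `L²` is given by an integrable function.
-/

namespace Vale.Agent.P145.PT

open MeasureTheory Set Filter Topology

/-- A linear functional on the test functions on `D` with `|T θ| ≤ C ∫ |θ|`. -/
structure BdFn (D : Set (ℝ × ℝ)) (T : (ℝ × ℝ → ℝ) → ℝ) (C : ℝ) : Prop where
  add : ∀ f g, TestOn D f → TestOn D g → T (fun z => f z + g z) = T f + T g
  smul : ∀ (c : ℝ) f, TestOn D f → T (fun z => c * f z) = c * T f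
  bd : ∀ f, TestOn D f → |T f| ≤ C * ∫ z, |f z|

/-- The space of test functions. -/
def TS (D : Set (ℝ × ℝ)) : Submodule ℝ (ℝ × ℝ → ℝ) where
  carrier := {f | TestOn D f}
  add_mem' := fun hf hg => hf.add hg
  zero_mem' := TestOn.zero D
  smul_mem' := fun c _ hf => hf.smul c

theorem TestOn.memLp {D : Set (ℝ × ℝ)} {f : ℝ × ℝ → ℝ} (hf : TestOn D f) (μ : Measure (ℝ × ℝ))
    [IsFiniteMeasureOnCompacts μ] (p : ENNReal) : MemLp f p μ :=
  hf.cont.memLp_of_hasCompactSupport hf.cs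

/-- A linear functional on the test functions on `D` with `|T θ| ≤ C (∫ θ²)^(1/2)`. -/
structure L2Fn (D : Set (ℝ × ℝ)) (T : (ℝ × ℝ → ℝ) → ℝ) (C : ℝ) : Prop where
  add : ∀ f g, TestOn D f → TestOn D g → T (fun z => f z + g z) = T f + T g
  smul : ∀ (c : ℝ) f, TestOn D f → T (fun z => c * f z) = c * T f
  bd : ∀ f, TestOn D f → |T f| ≤ C * Real.sqrt (∫ z, f z ^ 2)

theorem cs_int {D : Set (ℝ × ℝ)} (hD : IsOpen D) (hb : Bornology.IsBounded D)
    {f : ℝ × ℝ → ℝ} (hf : TestOn D f) :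
    ∫ z, |f z| ≤ Real.sqrt (volume D).toReal * Real.sqrt (∫ z, f z ^ 2) := by
  have hvol : volume D ≠ ⊤ := hb.measure_lt_top.ne
  set A := (volume D).toReal with hA
  have hA0 : 0 ≤ A := ENNReal.toReal_nonneg
  have hzero : ∀ z, z ∉ D → f z = 0 := fun z hz => by
    by_contra h
    exact hz (hf.2.2 (subset_tsupport _ h))
  have hI0 : 0 ≤ ∫ z, |f z| := integral_nonneg fun z => abs_nonneg _
  rw [← Real.sqrt_mul hA0]
  refine Real.le_sqrt_of_sq_le ?_
  -- discriminant
  have h : ∀ t : ℝ, 0 ≤ A * (t * t) + (-(2 * ∫ z, |f z|)) * t + ∫ z, f z ^ 2 := by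
    intro t
    have i1 : Integrable (D.indicator fun _ => (1 : ℝ)) :=
      (integrable_indicator_iff hD.measurableSet).2 (integrableOn_const (hs := hvol))
    have e1 : ∫ z, D.indicator (fun _ => (1 : ℝ)) z = A := by
      rw [integral_indicator hD.measurableSet, setIntegral_const, smul_eq_mul, mul_one]; rfl
    have e2 : A * (t * t) + (-(2 * ∫ z, |f z|)) * t + ∫ z, f z ^ 2
        = ∫ z, ((t * t) * D.indicator (fun _ => (1 : ℝ)) z + (-(2 * t)) * |f z| + f z ^ 2) := by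
      have j1 : Integrable (fun z => (t * t) * D.indicator (fun _ => (1 : ℝ)) z) := i1.const_mul _
      have j2 : Integrable (fun z => (-(2 * t)) * |f z|) := hf.int.abs.const_mul _
      have j3 : Integrable (fun z => (t * t) * D.indicator (fun _ => (1 : ℝ)) z
        + (-(2 * t)) * |f z|) := j1.add j2
      rw [integral_add j3 hf.intSq, integral_add j1 j2, integral_const_mul,
        integral_const_mul, e1]
      ring
    rw [e2]
    refine integral_nonneg fun z => ?_
    by_cases hz : z ∈ D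
    · simp only [Pi.zero_apply, indicator_of_mem hz]
      have : t * t * 1 + -(2 * t) * |f z| + f z ^ 2 = (t - |f z|) ^ 2 := by
        rw [sub_sq, sq_abs]; ring
      rw [this]; (clear * -; positivity)
    · simp [indicator_of_notMem hz, hzero z hz]
  have := discrim_le_zero h
  unfold discrim at this
  linarith

theorem BdFn.l2 {D : Set (ℝ × ℝ)} (hD : IsOpen D) (hb : Bornology.IsBounded D)
    {T : (ℝ × ℝ → ℝ) → ℝ} {C : ℝ} (hT : BdFn D T C) :
    L2Fn D T (|C| * Real.sqrt (volume D).toReal) where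
  add := hT.add
  smul := hT.smul
  bd := fun f hf => by
    have h1 := hT.bd f hf
    have h2 : 0 ≤ ∫ z, |f z| := integral_nonneg fun z => abs_nonneg _
    calc |T f| ≤ C * ∫ z, |f z| := h1
      _ ≤ |C| * ∫ z, |f z| := mul_le_mul_of_nonneg_right (le_abs_self _) h2
      _ ≤ |C| * (Real.sqrt (volume D).toReal * Real.sqrt (∫ z, f z ^ 2)) :=
          mul_le_mul_of_nonneg_left (cs_int hD hb hf) (abs_nonneg _)
      _ = _ := by ring

theorem rep {D : Set (ℝ × ℝ)} (hD : IsOpen D) (hb : Bornology.IsBounded D)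
    {T : (ℝ × ℝ → ℝ) → ℝ} {C : ℝ} (hT : L2Fn D T C) :
    ∃ u : ℝ × ℝ → ℝ, Integrable u ∧ (∀ z, z ∉ D → u z = 0) ∧
      ∀ θ, TestOn D θ → T θ = ∫ z, u z * θ z := by
  classical
  set μ : Measure (ℝ × ℝ) := volume.restrict D with hμ
  have hfin : volume D < ⊤ := hb.measure_lt_top
  have : IsFiniteMeasure μ := ⟨by rw [hμ, Measure.restrict_apply_univ]; exact hfin⟩
  let j : TS D →ₗ[ℝ] Lp ℝ 2 μ :=
    { toFun := fun f => (TestOn.memLp f.2 μ 2).toLp f.1
      map_add' := fun f g => rfl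
      map_smul' := fun c f => rfl }
  let T' : TS D →ₗ[ℝ] ℝ :=
    { toFun := fun f => T f.1
      map_add' := fun f g => hT.add f.1 g.1 f.2 g.2
      map_smul' := fun c f => hT.smul c f.1 f.2 }
  obtain ⟨K, hK0, hK⟩ : ∃ K : ℝ, 0 ≤ K ∧ ∀ f : TS D, |T' f| ≤ K * ‖j f‖ := by
    refine ⟨|C|, abs_nonneg _, fun f => ?_⟩
    have h1 : |T' f| ≤ C * Real.sqrt (∫ z, f.1 z ^ 2) := hT.bd f.1 f.2
    have hf : MemLp f.1 2 μ := TestOn.memLp f.2 μ 2
    have h2 : ∫ z, f.1 z ^ 2 = ∫ z, f.1 z ^ 2 ∂μ := by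
      rw [hμ, setIntegral_eq_integral_of_forall_compl_eq_zero]
      intro z hz
      have : f.1 z = 0 := by
        by_contra h
        exact hz (f.2.2.2 (subset_tsupport _ h))
      simp [this]
    have h3 : ∫ z, f.1 z ^ 2 ∂μ = ‖j f‖ ^ 2 := by
      rw [← real_inner_self_eq_norm_sq, L2.inner_def]
      refine integral_congr_ae ?_
      filter_upwards [MemLp.coeFn_toLp hf] with z hz
      have hz' : (j f : ℝ × ℝ → ℝ) z = f.1 z := hz
      rw [hz']
      simp only [sq, inner_self_eq_norm_sq_to_K, Real.norm_eq_abs, Real.ringHom_apply, abs_mul_abs_self]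
    rw [h2, h3, Real.sqrt_sq (norm_nonneg _)] at h1
    exact h1.trans (mul_le_mul_of_nonneg_right (le_abs_self _) (norm_nonneg _))
  have hker : LinearMap.ker j ≤ LinearMap.ker T' := by
    intro f hf
    rw [LinearMap.mem_ker] at hf ⊢
    have := hK f
    rw [hf, norm_zero, mul_zero] at this
    exact abs_eq_zero.1 (le_antisymm this (abs_nonneg _))
  let T2 : LinearMap.range j →ₗ[ℝ] ℝ :=
    ((LinearMap.ker j).liftQ T' hker).comp (LinearMap.quotKerEquivRange j).symm.toLinearMap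
  have hT2 : ∀ f : TS D, T2 ⟨j f, LinearMap.mem_range_self j f⟩ = T' f := by
    intro f
    have : (LinearMap.quotKerEquivRange j).symm ⟨j f, LinearMap.mem_range_self j f⟩
        = Submodule.Quotient.mk f := by
      rw [LinearEquiv.symm_apply_eq]; rfl
    simp only [T2, LinearMap.comp_apply, LinearEquiv.coe_coe, this]
    rfl
  have hT2b : ∀ x : LinearMap.range j, ‖T2 x‖ ≤ K * ‖x‖ := by
    rintro ⟨x, f, rfl⟩
    rw [hT2 f]; exact hK f
  obtain ⟨g, hg, -⟩ := _root_.exists_extension_norm_eq (LinearMap.range j)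
    (LinearMap.mkContinuous T2 K hT2b)
  set v : Lp ℝ 2 μ := (InnerProductSpace.toDual ℝ (Lp ℝ 2 μ)).symm g with hv
  have hvi : Integrable (v : ℝ × ℝ → ℝ) μ := (Lp.memLp v).integrable (by norm_num)
  refine ⟨D.indicator v, ?_, fun z hz => indicator_of_notMem hz _, fun θ hθ => ?_⟩
  · rw [integrable_indicator_iff hD.measurableSet]; exact hvi
  · have e1 : T θ = g (j ⟨θ, hθ⟩) := by
      have := hg ⟨j ⟨θ, hθ⟩, LinearMap.mem_range_self j _⟩
      rw [this]
      exact (hT2 ⟨θ, hθ⟩).symm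
    have e2 : g (j ⟨θ, hθ⟩) = inner ℝ v (j ⟨θ, hθ⟩) := by
      rw [hv, InnerProductSpace.toDual_symm_apply]
    rw [e1, e2, L2.inner_def]
    have e3 : ∀ z, D.indicator v z * θ z = D.indicator (fun z => v z * θ z) z := by
      intro z
      by_cases hz : z ∈ D <;> simp [hz]
    simp_rw [e3]
    rw [integral_indicator hD.measurableSet]
    refine integral_congr_ae ?_
    have e4 : (j ⟨θ, hθ⟩ : ℝ × ℝ → ℝ) =ᵐ[μ] θ :=
      MemLp.coeFn_toLp (TestOn.memLp hθ μ 2)
    filter_upwards [e4] with z hz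
    rw [hz]
    simp only [RCLike.inner_apply, Real.ringHom_apply, mul_comm]

end Vale.Agent.P145.PT
end

section

/-!
The radial mollifier `rs s y = s⁻² ρ(y / s)` and its derivative in `s`, which is a Laplacian.
-/

namespace Vale.Agent.P145.PT

open MeasureTheory Set Filter Topology

/-- Smooth decreasing cutoff, `1` on `(-∞, 0]`, `0` on `[1, ∞)`. -/
noncomputable def kk (t : ℝ) : ℝ := Real.smoothTransition (1 - t)

theorem kk_smooth : ContDiff ℝ ((⊤ : ℕ∞) : WithTop ℕ∞) kk :=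
  Real.smoothTransition.contDiff.comp (contDiff_const.sub contDiff_id)

theorem kk_nonneg (t : ℝ) : 0 ≤ kk t := Real.smoothTransition.nonneg _
theorem kk_le_one (t : ℝ) : kk t ≤ 1 := Real.smoothTransition.le_one _
theorem kk_zero {t : ℝ} (h : 1 ≤ t) : kk t = 0 :=
  Real.smoothTransition.zero_of_nonpos (by linarith)
theorem kk_pos {t : ℝ} (h : t < 1) : 0 < kk t :=
  Real.smoothTransition.pos_of_pos (by linarith only [h])

/-- `K(t) = ∫_t^1 k`. -/
noncomputable def KK (t : ℝ) : ℝ := - ∫ τ in (1 : ℝ)..t, kk τ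

theorem KK_hasDeriv (t : ℝ) : HasDerivAt KK (-kk t) t := by
  have := intervalIntegral.integral_hasDerivAt_right (f := kk) (a := 1) (b := t)
    (kk_smooth.continuous.intervalIntegrable _ _)
    (kk_smooth.continuous.stronglyMeasurableAtFilter _ _) kk_smooth.continuous.continuousAt
  exact this.neg

theorem KK_smooth : ContDiff ℝ ((⊤ : ℕ∞) : WithTop ℕ∞) KK := by
  have h1 : deriv KK = fun t => - kk t := by funext t; exact (KK_hasDeriv t).deriv
  rw [contDiff_infty_iff_deriv]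
  refine ⟨fun t => (KK_hasDeriv t).differentiableAt, ?_⟩
  rw [h1]; exact kk_smooth.neg

theorem KK_zero {t : ℝ} (h : 1 ≤ t) : KK t = 0 := by
  unfold KK
  rw [intervalIntegral.integral_congr (g := fun _ => (0 : ℝ))]
  · simp
  · intro τ hτ
    rw [uIcc_of_le h] at hτ
    exact kk_zero hτ.1

/-- `|y|²`. -/
def sqn (y : ℝ × ℝ) : ℝ := y.1 ^ 2 + y.2 ^ 2

theorem sqn_smooth : Sm sqn := (contDiff_fst.pow 2).add (contDiff_snd.pow 2)

theorem norm_le_of_sqn {y : ℝ × ℝ} {r : ℝ} (hr : 0 ≤ r) (h : sqn y ≤ r ^ 2) : ‖y‖ ≤ r := by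
  unfold sqn at h
  rw [Prod.norm_def, max_le_iff, Real.norm_eq_abs, Real.norm_eq_abs]
  exact ⟨abs_le_of_sq_le_sq (by nlinarith [sq_nonneg y.2]) hr,
    abs_le_of_sq_le_sq (by nlinarith only [h]) hr⟩

/-- Normalisation. -/
noncomputable def Z0 : ℝ := ∫ y : ℝ × ℝ, kk (sqn y)

theorem kks_smooth : Sm (fun y => kk (sqn y)) := kk_smooth.comp sqn_smooth

theorem kks_supp : Function.support (fun y => kk (sqn y)) ⊆ Metric.closedBall 0 1 := by
  intro y hy
  rw [mem_closedBall_zero_iff]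
  refine norm_le_of_sqn zero_le_one ?_
  by_contra h
  push Not at h
  exact hy (kk_zero (by linarith))

theorem kks_cs : HasCompactSupport (fun y => kk (sqn y)) :=
  HasCompactSupport.intro' (isCompact_closedBall 0 1) Metric.isClosed_closedBall
    fun y hy => by by_contra h; exact hy (kks_supp h)

theorem Z0_pos : 0 < Z0 := by
  unfold Z0
  rw [integral_pos_iff_support_of_nonneg (fun y => kk_nonneg _)
    (kks_smooth.continuous.integrable_of_hasCompactSupport kks_cs)]
  refine (IsOpen.measure_pos volume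
    (isOpen_ne.preimage kks_smooth.continuous : IsOpen {y : ℝ × ℝ | kk (sqn y) ≠ 0})
    ⟨0, ?_⟩)
  have : sqn (0 : ℝ × ℝ) = 0 := by simp [sqn]
  change kk (sqn 0) ≠ 0
  rw [this]
  exact (kk_pos (by norm_num)).ne'

/-- The radial mollifier of width `s`. -/
noncomputable def rs (s : ℝ) (y : ℝ × ℝ) : ℝ := Z0⁻¹ * (s ^ 2)⁻¹ * kk (sqn y / s ^ 2)

theorem rs_smooth (s : ℝ) : Sm (rs s) :=
  contDiff_const.mul (kk_smooth.comp (sqn_smooth.div_const _))

theorem rs_nonneg (s : ℝ) (y : ℝ × ℝ) : 0 ≤ rs s y :=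
  mul_nonneg (mul_nonneg (inv_nonneg.2 Z0_pos.le) (by positivity)) (kk_nonneg _)

theorem rs_neg (s : ℝ) (y : ℝ × ℝ) : rs s (-y) = rs s y := by
  unfold rs sqn; simp only [Prod.fst_neg, even_two, Even.neg_pow, Prod.snd_neg]

theorem rs_zero {s : ℝ} (hs : 0 < s) {y : ℝ × ℝ} (h : s < ‖y‖) : rs s y = 0 := by
  unfold rs
  rw [kk_zero, mul_zero]
  rw [le_div_iff₀ (by positivity), one_mul]
  by_contra h1
  push Not at h1
  exact absurd (norm_le_of_sqn hs.le h1.le) (not_le.2 h)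

theorem rs_supp {s : ℝ} (hs : 0 < s) : Function.support (rs s) ⊆ Metric.closedBall 0 s := by
  intro y hy
  rw [mem_closedBall_zero_iff]
  by_contra h
  push Not at h
  exact hy (rs_zero hs h)

theorem rs_cs {s : ℝ} (hs : 0 < s) : HasCompactSupport (rs s) :=
  HasCompactSupport.intro' (isCompact_closedBall 0 s) Metric.isClosed_closedBall
    fun y hy => by by_contra h; exact hy (rs_supp hs h)

theorem rs_int {s : ℝ} (hs : 0 < s) : ∫ y, rs s y = 1 := by
  have h1 : ∀ y, rs s y = (Z0⁻¹ * (s ^ 2)⁻¹) * (fun y => kk (sqn y)) (s⁻¹ • y) := by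
    intro y
    unfold rs sqn
    simp only [Prod.smul_fst, Prod.smul_snd, smul_eq_mul]
    congr 2
    field_simp
  simp_rw [h1]
  rw [integral_const_mul, Measure.integral_comp_smul volume (fun y => kk (sqn y)) s⁻¹]
  have hd : Module.finrank ℝ (ℝ × ℝ) = 2 := by simp
  rw [hd, smul_eq_mul]
  have : |((s⁻¹) ^ 2)⁻¹| = s ^ 2 := by rw [abs_of_pos (by positivity)]; field_simp
  rw [this]
  change Z0⁻¹ * (s ^ 2)⁻¹ * (s ^ 2 * Z0) = 1
  have := Z0_pos.ne'
  field_simp

/-- The bump of width `s` at `x`. -/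
noncomputable def bump (s : ℝ) (x z : ℝ × ℝ) : ℝ := rs s (z - x)

theorem bump_smooth (s : ℝ) (x : ℝ × ℝ) : Sm (bump s x) :=
  (rs_smooth s).comp (contDiff_id.sub contDiff_const)

theorem bump_nonneg (s : ℝ) (x z : ℝ × ℝ) : 0 ≤ bump s x z := rs_nonneg _ _

theorem bump_zero {s : ℝ} (hs : 0 < s) {x z : ℝ × ℝ} (h : s < dist z x) : bump s x z = 0 :=
  rs_zero hs (by rwa [← dist_eq_norm])

theorem bump_supp {s : ℝ} (hs : 0 < s) (x : ℝ × ℝ) :
    Function.support (bump s x) ⊆ Metric.closedBall x s := by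
  intro y hy
  rw [Metric.mem_closedBall]
  by_contra h
  push Not at h
  exact hy (bump_zero hs h)

theorem bump_test {D : Set (ℝ × ℝ)} {s : ℝ} (hs : 0 < s) {x : ℝ × ℝ}
    (h : Metric.closedBall x s ⊆ D) : TestOn D (bump s x) := by
  refine ⟨bump_smooth s x, ?_, ?_⟩
  · exact HasCompactSupport.intro' (isCompact_closedBall x s) Metric.isClosed_closedBall
      fun y hy => by by_contra h; exact hy (bump_supp hs x h)
  · exact (closure_minimal (bump_supp hs x) Metric.isClosed_closedBall).trans h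

theorem bump_int {s : ℝ} (hs : 0 < s) (x : ℝ × ℝ) : ∫ z, bump s x z = 1 := by
  unfold bump
  rw [integral_sub_right_eq_self (fun y => rs s y) x]
  exact rs_int hs

end Vale.Agent.P145.PT
end

section

/-!
`∂ₛ rs s y = s⁻¹ Δ (W(· / s)) (y)`.
-/

namespace Vale.Agent.P145.PT

open MeasureTheory Set Filter Topology

theorem hasFDerivAt_sqn (y : ℝ × ℝ) :
    HasFDerivAt sqn ((2 * y.1) • ContinuousLinearMap.fst ℝ ℝ ℝ
      + (2 * y.2) • ContinuousLinearMap.snd ℝ ℝ ℝ) y := by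
  have h1 : HasFDerivAt (fun y : ℝ × ℝ => y.1) (ContinuousLinearMap.fst ℝ ℝ ℝ) y :=
    hasFDerivAt_fst
  have h2 : HasFDerivAt (fun y : ℝ × ℝ => y.2) (ContinuousLinearMap.snd ℝ ℝ ℝ) y :=
    hasFDerivAt_snd
  have h3 : HasFDerivAt sqn _ y := (h1.pow 2).add (h2.pow 2)
  refine h3.congr_fderiv ?_
  simp only [Nat.add_one_sub_one, pow_one, nsmul_eq_mul, Nat.cast_ofNat]

theorem hasFDerivAt_comp_sqn {g g' : ℝ → ℝ} (hg : ∀ t, HasDerivAt g (g' t) t) (s : ℝ)
    (y : ℝ × ℝ) :
    HasFDerivAt (fun y => g (sqn y / s ^ 2)) (g' (sqn y / s ^ 2) • ((s ^ 2)⁻¹ •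
      ((2 * y.1) • ContinuousLinearMap.fst ℝ ℝ ℝ
        + (2 * y.2) • ContinuousLinearMap.snd ℝ ℝ ℝ))) y := by
  have h1 : HasFDerivAt (fun y => sqn y / s ^ 2) ((s ^ 2)⁻¹ •
      ((2 * y.1) • ContinuousLinearMap.fst ℝ ℝ ℝ
        + (2 * y.2) • ContinuousLinearMap.snd ℝ ℝ ℝ)) y := by
    have := (hasFDerivAt_sqn y).const_mul ((s ^ 2)⁻¹)
    refine this.congr_of_eventuallyEq (Eventually.of_forall fun z => ?_)
    simp only; rw [div_eq_inv_mul]
  exact (hg _).comp_hasFDerivAt y h1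

theorem dx_comp_sqn {g g' : ℝ → ℝ} (hg : ∀ t, HasDerivAt g (g' t) t) (s : ℝ) (y : ℝ × ℝ) :
    dx (fun y => g (sqn y / s ^ 2)) y = g' (sqn y / s ^ 2) * ((s ^ 2)⁻¹ * (2 * y.1)) := by
  unfold dx
  rw [(hasFDerivAt_comp_sqn hg s y).fderiv]
  simp

theorem dy_comp_sqn {g g' : ℝ → ℝ} (hg : ∀ t, HasDerivAt g (g' t) t) (s : ℝ) (y : ℝ × ℝ) :
    dy (fun y => g (sqn y / s ^ 2)) y = g' (sqn y / s ^ 2) * ((s ^ 2)⁻¹ * (2 * y.2)) := by
  unfold dy
  rw [(hasFDerivAt_comp_sqn hg s y).fderiv]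
  simp

/-- `W(y / s)`. -/
noncomputable def Ws (s : ℝ) (y : ℝ × ℝ) : ℝ := (2 * Z0)⁻¹ * KK (sqn y / s ^ 2)

theorem Ws_smooth (s : ℝ) : Sm (Ws s) :=
  contDiff_const.mul (KK_smooth.comp (sqn_smooth.div_const _))

theorem Ws_zero {s : ℝ} (hs : 0 < s) {y : ℝ × ℝ} (h : s < ‖y‖) : Ws s y = 0 := by
  unfold Ws
  rw [KK_zero, mul_zero]
  rw [le_div_iff₀ (by positivity), one_mul]
  by_contra h1
  push Not at h1
  exact absurd (norm_le_of_sqn hs.le h1.le) (not_le.2 h)

theorem kk_hasDeriv (t : ℝ) : HasDerivAt kk (deriv kk t) t :=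
  ((kk_smooth.differentiable (by simp)) t).hasDerivAt

theorem lap_Ws (s : ℝ) (y : ℝ × ℝ) :
    lap (Ws s) y = -(2 * Z0⁻¹ * (s ^ 2)⁻¹) *
      (kk (sqn y / s ^ 2) + sqn y / s ^ 2 * deriv kk (sqn y / s ^ 2)) := by
  have hK : Sm (fun y => KK (sqn y / s ^ 2)) := KK_smooth.comp (sqn_smooth.div_const _)
  have hk : Sm (fun y => kk (sqn y / s ^ 2)) := kk_smooth.comp (sqn_smooth.div_const _)
  have hf1 : Sm (fun y : ℝ × ℝ => -(s ^ 2)⁻¹ * (2 * y.1)) :=
    contDiff_const.mul (contDiff_const.mul contDiff_fst)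
  have hf2 : Sm (fun y : ℝ × ℝ => -(s ^ 2)⁻¹ * (2 * y.2)) :=
    contDiff_const.mul (contDiff_const.mul contDiff_snd)
  have e1 : dx (fun y => KK (sqn y / s ^ 2))
      = fun y => kk (sqn y / s ^ 2) * (-(s ^ 2)⁻¹ * (2 * y.1)) := by
    funext y; rw [dx_comp_sqn KK_hasDeriv]; ring
  have e2 : dy (fun y => KK (sqn y / s ^ 2))
      = fun y => kk (sqn y / s ^ 2) * (-(s ^ 2)⁻¹ * (2 * y.2)) := by
    funext y; rw [dy_comp_sqn KK_hasDeriv]; ring
  have e3 : ∀ y : ℝ × ℝ, dx (fun y : ℝ × ℝ => -(s ^ 2)⁻¹ * (2 * y.1)) y = -(s ^ 2)⁻¹ * 2 := by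
    intro y
    rw [dx_smul (contDiff_const.mul contDiff_fst), dx_smul contDiff_fst]
    unfold dx; rw [fderiv_fst]; simp
  have e4 : ∀ y : ℝ × ℝ, dy (fun y : ℝ × ℝ => -(s ^ 2)⁻¹ * (2 * y.2)) y = -(s ^ 2)⁻¹ * 2 := by
    intro y
    rw [dy_smul (contDiff_const.mul contDiff_snd), dy_smul contDiff_snd]
    unfold dy; rw [fderiv_snd]; simp
  have e0 : Ws s = fun y => (2 * Z0)⁻¹ * (fun y => KK (sqn y / s ^ 2)) y := rfl
  rw [e0, lap_smul hK]
  unfold lap
  rw [e1, e2, dx_mul hk hf1, dy_mul hk hf2, dx_comp_sqn kk_hasDeriv, dy_comp_sqn kk_hasDeriv,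
    e3, e4, mul_inv]
  unfold sqn
  ring

theorem rs_hasDeriv {s : ℝ} (hs : 0 < s) (y : ℝ × ℝ) :
    HasDerivAt (fun s => rs s y) (s⁻¹ * lap (Ws s) y) s := by
  have h1 : HasDerivAt (fun s : ℝ => (s ^ 2)⁻¹) (-(2 * s) / (s ^ 2) ^ 2) s := by
    have h0 : HasDerivAt (fun s : ℝ => (s ^ 2)⁻¹) _ s := (hasDerivAt_pow 2 s).inv (by positivity)
    refine h0.congr_deriv ?_
    simp only [Nat.cast_ofNat, Nat.add_one_sub_one, pow_one]
  have h2 : HasDerivAt (fun s : ℝ => sqn y / s ^ 2) (sqn y * (-(2 * s) / (s ^ 2) ^ 2)) s := by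
    have := h1.const_mul (sqn y)
    simpa only [div_eq_mul_inv, neg_mul, mul_neg] using this
  have h3 := (kk_hasDeriv (sqn y / s ^ 2)).comp s h2
  have h4 := (h1.const_mul Z0⁻¹).mul h3
  refine h4.congr_deriv ?_
  rw [lap_Ws]
  simp only [Function.comp]
  have := Z0_pos.ne'
  field_simp
  ring

end Vale.Agent.P145.PT
end

section

/-!
Convolutions `cv u g x = ∫ u(t) g(x - t) dt` of an integrable function with a test function.
-/

namespace Vale.Agent.P145.PT

open MeasureTheory Set Filter Topology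

/-- Convolution. -/
noncomputable def cv (u g : ℝ × ℝ → ℝ) (x : ℝ × ℝ) : ℝ := ∫ t, u t * g (x - t)

theorem cv_eq (u g : ℝ × ℝ → ℝ) :
    cv u g = convolution u g (ContinuousLinearMap.mul ℝ ℝ) volume := by
  funext x
  simp only [cv, convolution, ContinuousLinearMap.mul_apply']

theorem cv_smooth {u g : ℝ × ℝ → ℝ} (hu : Integrable u) (hg : Sm g) (hc : HasCompactSupport g) :
    Sm (cv u g) := by
  rw [cv_eq]
  exact hc.contDiff_convolution_right _ hu.locallyIntegrable hg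

theorem cv_fderiv {u g : ℝ × ℝ → ℝ} (hu : Integrable u) (hg : Sm g) (hc : HasCompactSupport g)
    (x v : ℝ × ℝ) : fderiv ℝ (cv u g) x v = cv u (fun z => fderiv ℝ g z v) x := by
  have h1 := hc.hasFDerivAt_convolution_right (ContinuousLinearMap.mul ℝ ℝ)
    hu.locallyIntegrable (hg.of_le (by exact_mod_cast le_top)) x
  rw [cv_eq, h1.fderiv]
  have h2 : ConvolutionExistsAt u (fderiv ℝ g) x
      ((ContinuousLinearMap.mul ℝ ℝ).precompR (ℝ × ℝ)) volume := by
    refine (hc.fderiv ℝ).convolutionExists_right _ hu.locallyIntegrable ?_ x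
    exact (hg.continuous_fderiv (by simp))
  rw [convolution, ContinuousLinearMap.integral_apply h2]
  unfold cv
  congr 1

theorem cv_dx {u g : ℝ × ℝ → ℝ} (hu : Integrable u) (hg : Sm g) (hc : HasCompactSupport g) :
    dx (cv u g) = cv u (dx g) := by
  funext x; exact cv_fderiv hu hg hc x (1, 0)

theorem cv_dy {u g : ℝ × ℝ → ℝ} (hu : Integrable u) (hg : Sm g) (hc : HasCompactSupport g) :
    dy (cv u g) = cv u (dy g) := by
  funext x; exact cv_fderiv hu hg hc x (0, 1)

theorem cv_int {u g : ℝ × ℝ → ℝ} (hu : Integrable u) (hg : Continuous g)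
    (hc : HasCompactSupport g) (x : ℝ × ℝ) : Integrable (fun t => u t * g (x - t)) := by
  obtain ⟨C, hC⟩ := hc.exists_bound_of_continuous hg
  refine hu.mul_bdd (c := C) ?_ ?_
  · exact (hg.comp (continuous_const.sub continuous_id)).aestronglyMeasurable
  · exact ae_of_all _ fun t => hC _

theorem cv_lap {u g : ℝ × ℝ → ℝ} (hu : Integrable u) (hg : Sm g) (hc : HasCompactSupport g)
    (x : ℝ × ℝ) : lap (cv u g) x = cv u (lap g) x := by
  have c1 : HasCompactSupport (dx g) := hc.fderiv_apply (𝕜 := ℝ) (1, 0)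
  have c2 : HasCompactSupport (dy g) := hc.fderiv_apply (𝕜 := ℝ) (0, 1)
  have c3 : HasCompactSupport (dx (dx g)) := c1.fderiv_apply (𝕜 := ℝ) (1, 0)
  have c4 : HasCompactSupport (dy (dy g)) := c2.fderiv_apply (𝕜 := ℝ) (0, 1)
  unfold lap
  rw [cv_dx hu hg hc, cv_dy hu hg hc, cv_dx hu hg.dx c1, cv_dy hu hg.dy c2]
  unfold cv
  rw [← integral_add (cv_int hu hg.dx.dx.continuous c3 x) (cv_int hu hg.dy.dy.continuous c4 x)]
  congr 1; funext t; ring

/-! Reflections and translations. -/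

theorem fderiv_refl {g : ℝ × ℝ → ℝ} (hg : Sm g) (x z v : ℝ × ℝ) :
    fderiv ℝ (fun z => g (x - z)) z v = - fderiv ℝ g (x - z) v := by
  have h1 : HasFDerivAt (fun z : ℝ × ℝ => x - z) (-ContinuousLinearMap.id ℝ (ℝ × ℝ)) z :=
    (hasFDerivAt_id z).const_sub x
  have h2 := (hg.diff (x - z)).hasFDerivAt.comp z h1
  have h3 : HasFDerivAt (fun z => g (x - z)) _ z := h2
  rw [h3.fderiv]; simp

theorem lap_refl {g : ℝ × ℝ → ℝ} (hg : Sm g) (x z : ℝ × ℝ) :
    lap (fun z => g (x - z)) z = lap g (x - z) := by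
  unfold lap
  have e1 : dx (fun z => g (x - z)) = fun z => (fun w => - dx g w) (x - z) := by
    funext w; exact fderiv_refl hg x w (1, 0)
  have e2 : dy (fun z => g (x - z)) = fun z => (fun w => - dy g w) (x - z) := by
    funext w; exact fderiv_refl hg x w (0, 1)
  rw [e1, e2]
  have h1 : dx (fun z => (fun w => - dx g w) (x - z)) z = - dx (fun w => - dx g w) (x - z) :=
    fderiv_refl hg.dx.neg x z (1, 0)
  have h2 : dy (fun z => (fun w => - dy g w) (x - z)) z = - dy (fun w => - dy g w) (x - z) :=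
    fderiv_refl hg.dy.neg x z (0, 1)
  have h3 : dx (fun w => - dx g w) (x - z) = - dx (dx g) (x - z) := by
    unfold dx; rw [fderiv_fun_neg]; rfl
  have h4 : dy (fun w => - dy g w) (x - z) = - dy (dy g) (x - z) := by
    unfold dy; rw [fderiv_fun_neg]; rfl
  rw [h1, h2, h3, h4]; ring

theorem bump_eq (s : ℝ) (x : ℝ × ℝ) : bump s x = fun z => rs s (x - z) := by
  funext z; unfold bump; rw [← rs_neg, neg_sub]

theorem bump_symm (s : ℝ) (x z : ℝ × ℝ) : bump s x z = bump s z x := by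
  rw [bump_eq]; rfl

/-- The mollification `U s x = ∫ u(z) bump s x z dz`. -/
noncomputable def US (u : ℝ × ℝ → ℝ) (s : ℝ) : ℝ × ℝ → ℝ := cv u (rs s)

theorem US_eq (u : ℝ × ℝ → ℝ) (s : ℝ) (x : ℝ × ℝ) : US u s x = ∫ z, u z * bump s x z := by
  unfold US cv; rw [bump_eq]

theorem US_smooth {u : ℝ × ℝ → ℝ} (hu : Integrable u) {s : ℝ} (hs : 0 < s) : Sm (US u s) :=
  cv_smooth hu (rs_smooth s) (rs_cs hs)

theorem US_lap {u : ℝ × ℝ → ℝ} (hu : Integrable u) {s : ℝ} (hs : 0 < s) (x : ℝ × ℝ) :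
    lap (US u s) x = ∫ z, u z * lap (bump s x) z := by
  unfold US
  rw [cv_lap hu (rs_smooth s) (rs_cs hs)]
  unfold cv
  congr 1; funext z
  rw [bump_eq, lap_refl (rs_smooth s)]

theorem US_integrable {u : ℝ × ℝ → ℝ} (hu : Integrable u) {s : ℝ} (hs : 0 < s) :
    Integrable (US u s) := by
  unfold US
  rw [cv_eq]
  exact hu.integrable_convolution _ ((rs_smooth s).continuous.integrable_of_hasCompactSupport
    (rs_cs hs))

theorem US_L1 {u : ℝ × ℝ → ℝ} (hu : Integrable u) {s : ℝ} (hs : 0 < s) :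
    ∫ x, |US u s x| ≤ ∫ z, |u z| := by
  have h1 : ∫ x, US (fun z => |u z|) s x = ∫ z, |u z| := by
    unfold US
    rw [cv_eq, integral_convolution (ContinuousLinearMap.mul ℝ ℝ) hu.abs
      ((rs_smooth s).continuous.integrable_of_hasCompactSupport (rs_cs hs)), rs_int hs]
    simp only [ContinuousLinearMap.mul_apply', mul_one]
  rw [← h1]
  refine integral_mono (US_integrable hu hs).abs (US_integrable hu.abs hs) fun x => ?_
  simp only
  rw [US_eq, US_eq]
  refine (abs_integral_le_integral_abs).trans (le_of_eq ?_)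
  congr 1; funext z
  rw [abs_mul, abs_of_nonneg (bump_nonneg s x z)]

/-- Uniform approximation by mollification. -/
theorem moll_unif {f : ℝ × ℝ → ℝ} (hf : Continuous f) (hc : HasCompactSupport f) {η : ℝ}
    (hη : 0 < η) : ∃ s0 : ℝ, 0 < s0 ∧ ∀ s, 0 < s → s < s0 → ∀ x,
      |(∫ z, f z * bump s x z) - f x| ≤ η := by
  have hu := hc.uniformContinuous_of_continuous hf
  rw [Metric.uniformContinuous_iff] at hu
  obtain ⟨s0, hs0, h⟩ := hu η hη
  refine ⟨s0, hs0, fun s hs hss x => ?_⟩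
  have hbi : Integrable (bump s x) := (bump_test hs (D := univ) (subset_univ _)).int
  have i1 : Integrable (fun z => f z * bump s x z) :=
    (bump_test hs (D := univ) (subset_univ _) (x := x)).intMul' hf
  have e : (∫ z, f z * bump s x z) - f x = ∫ z, (f z - f x) * bump s x z := by
    have e0 : ∀ z, (f z - f x) * bump s x z = f z * bump s x z - f x * bump s x z := by
      intro z; ring
    simp_rw [e0]
    rw [integral_sub i1 (hbi.const_mul _), integral_const_mul, bump_int hs, mul_one]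
  rw [e]
  calc |∫ z, (f z - f x) * bump s x z| ≤ ∫ z, |(f z - f x) * bump s x z| :=
        abs_integral_le_integral_abs
    _ ≤ ∫ z, η * bump s x z := by
        refine integral_mono_of_nonneg (ae_of_all _ fun z => abs_nonneg _) (hbi.const_mul _)
          (ae_of_all _ fun z => ?_)
        simp only
        rw [abs_mul, abs_of_nonneg (bump_nonneg s x z)]
        by_cases hz : s < dist z x
        · rw [bump_zero hs hz]; simp
        · push Not at hz
          refine mul_le_mul_of_nonneg_right ?_ (bump_nonneg s x z)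
          have := h (lt_of_le_of_lt hz hss)
          rw [Real.dist_eq] at this
          exact this.le
    _ = η := by rw [integral_const_mul, bump_int hs, mul_one]

end Vale.Agent.P145.PT
end

section

/-!
The truncation function and the independence of `∫ u bump s x` of the width `s`.
-/

namespace Vale.Agent.P145.PT

open MeasureTheory Set Filter Topology

/-- Smooth version of `(x - ε)⁺`. -/
noncomputable def FF (ε x : ℝ) : ℝ := ∫ τ in ε..x, Real.smoothTransition ((τ - ε) / ε)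

theorem st_cont (ε : ℝ) : Continuous (fun τ : ℝ => Real.smoothTransition ((τ - ε) / ε)) :=
  Real.smoothTransition.continuous.comp ((continuous_id.sub continuous_const).div_const _)

theorem FF_hasDeriv (ε x : ℝ) : HasDerivAt (FF ε) (Real.smoothTransition ((x - ε) / ε)) x :=
  intervalIntegral.integral_hasDerivAt_right ((st_cont ε).intervalIntegrable _ _)
    ((st_cont ε).stronglyMeasurableAtFilter _ _) (st_cont ε).continuousAt

theorem FF_smooth (ε : ℝ) : ContDiff ℝ ((⊤ : ℕ∞) : WithTop ℕ∞) (FF ε) := by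
  have h1 : deriv (FF ε) = fun x => Real.smoothTransition ((x - ε) / ε) := by
    funext t; exact (FF_hasDeriv ε t).deriv
  rw [contDiff_infty_iff_deriv]
  refine ⟨fun t => (FF_hasDeriv ε t).differentiableAt, ?_⟩
  rw [h1]
  exact Real.smoothTransition.contDiff.comp ((contDiff_id.sub contDiff_const).div_const _)

theorem FF_zero {ε x : ℝ} (hε : 0 < ε) (h : x ≤ ε) : FF ε x = 0 := by
  unfold FF
  rw [intervalIntegral.integral_congr (g := fun _ => (0 : ℝ))]
  · simp
  · intro τ hτ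
    rw [uIcc_of_ge h] at hτ
    exact Real.smoothTransition.zero_of_nonpos
      (div_nonpos_of_nonpos_of_nonneg (by linarith only [hτ.2]) hε.le)

theorem FF_nonneg {ε : ℝ} (hε : 0 < ε) (x : ℝ) : 0 ≤ FF ε x := by
  rcases le_total x ε with h | h
  · rw [FF_zero hε h]
  · exact intervalIntegral.integral_nonneg h fun _ _ => Real.smoothTransition.nonneg _

theorem FF_le {ε : ℝ} (hε : 0 < ε) {x : ℝ} {C : ℝ} (hC : 0 ≤ C) (h : x ≤ C) : FF ε x ≤ C := by
  rcases le_total x ε with h1 | h1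
  · rw [FF_zero hε h1]; exact hC
  · have : FF ε x ≤ ∫ _ in ε..x, (1 : ℝ) :=
      intervalIntegral.integral_mono_on h1 ((st_cont ε).intervalIntegrable _ _)
        (intervalIntegrable_const) fun _ _ => Real.smoothTransition.le_one _
    rw [intervalIntegral.integral_const, smul_eq_mul, mul_one] at this
    linarith

theorem FF_le_abs {ε : ℝ} (hε : 0 < ε) (x : ℝ) : FF ε x ≤ |x| :=
  FF_le hε (abs_nonneg x) (le_abs_self x)

theorem FF_ge {ε : ℝ} (hε : 0 < ε) (x : ℝ) : x - 2 * ε ≤ FF ε x := by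
  rcases le_total x (2 * ε) with h | h
  · linarith [FF_nonneg hε x]
  · have e : FF ε x = (∫ τ in ε..(2 * ε), Real.smoothTransition ((τ - ε) / ε))
        + ∫ τ in (2 * ε)..x, Real.smoothTransition ((τ - ε) / ε) := by
      unfold FF
      rw [intervalIntegral.integral_add_adjacent_intervals
        ((st_cont ε).intervalIntegrable _ _) ((st_cont ε).intervalIntegrable _ _)]
    have e1 : 0 ≤ ∫ τ in ε..(2 * ε), Real.smoothTransition ((τ - ε) / ε) :=
      intervalIntegral.integral_nonneg (by linarith only [hε]) fun _ _ => Real.smoothTransition.nonneg _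
    have e2 : ∫ τ in (2 * ε)..x, Real.smoothTransition ((τ - ε) / ε)
        = ∫ τ in (2 * ε)..x, (1 : ℝ) := by
      refine intervalIntegral.integral_congr fun τ hτ => ?_
      rw [uIcc_of_le h] at hτ
      refine Real.smoothTransition.one_of_one_le ?_
      rw [le_div_iff₀ hε]; linarith only [hτ.1]
    rw [intervalIntegral.integral_const, smul_eq_mul, mul_one] at e2
    linarith

theorem kk_bound : ∃ B : ℝ, ∀ q : ℝ, 0 ≤ q → |kk q + q * deriv kk q| ≤ B := by
  have hc : Continuous (fun q : ℝ => kk q + q * deriv kk q) :=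
    kk_smooth.continuous.add (continuous_id.mul (kk_smooth.continuous_deriv (by simp only [WithTop.one_le_coe, le_top])))
  obtain ⟨B, hB⟩ := (isCompact_Icc (a := (0 : ℝ)) (b := 1)).exists_bound_of_continuousOn
    hc.continuousOn
  refine ⟨max B 0, fun q hq => ?_⟩
  rcases le_or_gt q 1 with h | h
  · exact (hB q ⟨hq, h⟩).trans (le_max_left _ _)
  · have h1 : kk q = 0 := kk_zero h.le
    have h2 : deriv kk q = 0 := by
      have : kk =ᶠ[𝓝 q] fun _ => 0 := by
        filter_upwards [Ioi_mem_nhds h] with t ht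
        exact kk_zero (le_of_lt ht)
      rw [this.deriv_eq]; simp
    rw [h1, h2]; simp only [mul_zero, add_zero, abs_zero, le_sup_right]

theorem sqn_nonneg (y : ℝ × ℝ) : 0 ≤ sqn y := by unfold sqn; positivity

/-- If `Δu = 0` near `x` in the weak sense, `∫ u bump s x` does not depend on `s`. -/
theorem bump_const {D : Set (ℝ × ℝ)} {u f : ℝ × ℝ → ℝ} (hu : Integrable u)
    (heq : ∀ ψ, TestOn D ψ → ∫ z, u z * lap ψ z = - ∫ z, ψ z * f z)
    {x : ℝ × ℝ} {s t : ℝ} (hs : 0 < s) (hst : s ≤ t) (hb : Metric.closedBall x t ⊆ D)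
    (hf : ∀ z ∈ Metric.closedBall x t, f z = 0) :
    ∫ z, u z * bump t x z = ∫ z, u z * bump s x z := by
  obtain ⟨B, hB⟩ := kk_bound
  have hB0 : 0 ≤ B := (abs_nonneg _).trans (hB 0 le_rfl)
  have hZ := Z0_pos
  have key : ∀ r ∈ Icc s t, HasDerivAt (fun r => ∫ z, u z * bump r x z) 0 r := by
    intro r hr
    have hr0 : 0 < r := hs.trans_le hr.1
    have h1 : HasDerivAt (fun r => ∫ z, u z * bump r x z)
        (∫ z, u z * (r⁻¹ * lap (Ws r) (z - x))) r := by
      refine (hasDerivAt_integral_of_dominated_loc_of_deriv_le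
        (F := fun r z => u z * bump r x z) (F' := fun r z => u z * (r⁻¹ * lap (Ws r) (z - x)))
        (bound := fun z => |u z| * ((r / 2)⁻¹ * (2 * Z0⁻¹ * ((r / 2) ^ 2)⁻¹ * B)))
        (s := Ioi (r / 2)) (Ioi_mem_nhds (by linarith only [hr0])) ?_ ?_ ?_ ?_ ?_ ?_).2
      · refine Eventually.of_forall fun r => ?_
        exact hu.aestronglyMeasurable.mul (bump_smooth r x).continuous.aestronglyMeasurable
      · simp_rw [bump_eq]
        exact cv_int hu (rs_smooth r).continuous (rs_cs hr0) x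
      · refine hu.aestronglyMeasurable.mul (Continuous.aestronglyMeasurable ?_)
        exact continuous_const.mul ((Ws_smooth r).lap.continuous.comp
          (continuous_id.sub continuous_const))
      · refine ae_of_all _ fun z q hq => ?_
        have hq0 : 0 < r / 2 := by linarith only [hr0]
        have hq1 : r / 2 < q := hq
        rw [Real.norm_eq_abs, abs_mul]
        refine mul_le_mul_of_nonneg_left ?_ (abs_nonneg _)
        rw [abs_mul, abs_of_pos (inv_pos.2 (hq0.trans hq1))]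
        refine mul_le_mul (inv_anti₀ hq0 hq1.le) ?_ (abs_nonneg _) (by positivity)
        rw [lap_Ws, abs_mul, abs_neg, abs_of_nonneg (by (clear * - hZ; positivity))]
        refine mul_le_mul ?_ (hB _ (div_nonneg (sqn_nonneg _) (by positivity)))
          (abs_nonneg _) (by positivity)
        refine mul_le_mul_of_nonneg_left ?_ (by positivity)
        exact inv_anti₀ (by positivity) (pow_le_pow_left₀ hq0.le hq1.le 2)
      · exact (hu.abs).mul_const _
      · refine ae_of_all _ fun z q hq => ?_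
        have hq0 : 0 < q := lt_trans (by linarith only [hr0] : (0 : ℝ) < r / 2) hq
        exact (rs_hasDeriv hq0 (z - x)).const_mul (u z)
    have h2 : ∫ z, u z * (r⁻¹ * lap (Ws r) (z - x)) = 0 := by
      have hT : TestOn D (fun z => Ws r (x - z)) := by
        refine ⟨(Ws_smooth r).comp (contDiff_const.sub contDiff_id), ?_, ?_⟩
        · refine HasCompactSupport.intro' (isCompact_closedBall x r) Metric.isClosed_closedBall
            fun y hy => Ws_zero hr0 ?_
          rw [Metric.mem_closedBall, not_le, dist_eq_norm] at hy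
          rwa [← norm_neg, neg_sub]
        · refine (closure_minimal ?_ Metric.isClosed_closedBall).trans
            ((Metric.closedBall_subset_closedBall hr.2).trans hb)
          intro y hy
          by_contra hy'
          rw [Metric.mem_closedBall, not_le, dist_eq_norm] at hy'
          exact hy (Ws_zero hr0 (by rwa [← norm_neg, neg_sub]))
      have h3 := heq _ hT
      have h4 : ∀ z, lap (fun z => Ws r (x - z)) z = lap (Ws r) (z - x) := by
        intro z
        rw [lap_refl (Ws_smooth r), lap_Ws, lap_Ws]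
        have : sqn (x - z) = sqn (z - x) := by unfold sqn; simp only [Prod.fst_sub, Prod.snd_sub]; ring
        rw [this]
      simp_rw [h4] at h3
      have h5 : ∫ z, Ws r (x - z) * f z = 0 := by
        rw [← integral_zero (ℝ × ℝ) ℝ]
        congr 1; funext z
        by_cases hz : z ∈ Metric.closedBall x t
        · rw [hf z hz, mul_zero]
        · rw [Metric.mem_closedBall, not_le, dist_eq_norm] at hz
          rw [Ws_zero hr0, zero_mul]
          rw [← norm_neg, neg_sub]; exact lt_of_le_of_lt hr.2 hz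
      rw [h5, neg_zero] at h3
      have h6 : ∀ z, u z * (r⁻¹ * lap (Ws r) (z - x)) = r⁻¹ * (u z * lap (Ws r) (z - x)) := by
        intro z; ring
      simp_rw [h6]
      rw [integral_const_mul, h3, mul_zero]
    rw [h2] at h1
    exact h1
  have hc : ContinuousOn (fun r => ∫ z, u z * bump r x z) (Icc s t) :=
    fun r hr => (key r hr).continuousAt.continuousWithinAt
  exact constant_of_has_deriv_right_zero hc
    (fun r hr => (key r (Ico_subset_Icc_self hr)).hasDerivWithinAt) t ⟨hst, le_rfl⟩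

end Vale.Agent.P145.PT
end

section

/-!
The truncation argument: a functional `T` with `-Δ T = f` and one-sided decay at the boundary is
dominated by test functions with small energy.
-/

namespace Vale.Agent.P145.PT

open MeasureTheory Set Filter Topology

/-- Distance to the complement. -/
noncomputable def dd (D : Set (ℝ × ℝ)) (x : ℝ × ℝ) : ℝ := Metric.infDist x Dᶜ

theorem dd_cont (D : Set (ℝ × ℝ)) : Continuous (dd D) := Metric.continuous_infDist_pt _

theorem compl_ne {D : Set (ℝ × ℝ)} (hb : Bornology.IsBounded D) : (Dᶜ).Nonempty := by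
  rw [Set.nonempty_compl]
  rintro rfl
  exact NoncompactSpace.noncompact_univ (X := ℝ × ℝ)
    (Metric.isCompact_of_isClosed_isBounded isClosed_univ hb)

theorem dd_pos {D : Set (ℝ × ℝ)} (hD : IsOpen D) (hb : Bornology.IsBounded D) {x : ℝ × ℝ} :
    0 < dd D x ↔ x ∈ D := by
  have := hD.isClosed_compl.notMem_iff_infDist_pos (compl_ne hb) (x := x)
  rw [← notMem_compl_iff, this]; rfl

theorem ball_sub {D : Set (ℝ × ℝ)} {x : ℝ × ℝ} {s : ℝ} (hs : s < dd D x) :
    Metric.closedBall x s ⊆ D := by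
  intro z hz
  by_contra h
  have h1 : dd D x ≤ dist x z := Metric.infDist_le_dist_of_mem h
  rw [Metric.mem_closedBall, dist_comm] at hz
  linarith

theorem dd_le_add (D : Set (ℝ × ℝ)) (x z : ℝ × ℝ) : dd D x ≤ dd D z + dist x z :=
  Metric.infDist_le_infDist_add_dist

/-- Smooth cutoff: `0` on `{dd ≤ a}`, `1` on `{dd ≥ b}`. -/
theorem exists_cutoff (D : Set (ℝ × ℝ)) {a b : ℝ} (hab : a < b) :
    ∃ χ : ℝ × ℝ → ℝ, Sm χ ∧ (∀ x, 0 ≤ χ x ∧ χ x ≤ 1) ∧ (∀ x, dd D x ≤ a → χ x = 0) ∧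
      (∀ x, b ≤ dd D x → χ x = 1) := by
  obtain ⟨χ, h0, h1, h2⟩ := exists_contMDiffMap_zero_one_of_isClosed (n := (⊤ : ℕ∞))
    (modelWithCornersSelf ℝ (ℝ × ℝ)) (s := {x | dd D x ≤ a}) (t := {x | b ≤ dd D x})
    (isClosed_le (dd_cont D) continuous_const) (isClosed_le continuous_const (dd_cont D))
    (by
      rw [Set.disjoint_left]
      intro x hx hx'
      exact absurd (lt_of_lt_of_le hab hx') (not_lt.2 hx))
  exact ⟨χ, χ.contMDiff.contDiff, fun x => ⟨(h2 x).1, (h2 x).2⟩, fun x hx => h0 hx,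
    fun x hx => h1 hx⟩

theorem fd_comp {F F' : ℝ → ℝ} (hF : ∀ x, HasDerivAt F (F' x) x) {U : ℝ × ℝ → ℝ} (hU : Sm U)
    (x v : ℝ × ℝ) : fderiv ℝ (fun x => F (U x)) x v = F' (U x) * fderiv ℝ U x v := by
  have h1 := (hF (U x)).comp_hasFDerivAt x (hU.diff x).hasFDerivAt
  have h2 : HasFDerivAt (fun x => F (U x)) _ x := h1
  rw [h2.fderiv]; simp only [smul_apply, smul_eq_mul]

theorem exists_low {D : Set (ℝ × ℝ)} (hD : IsOpen D) (hb : Bornology.IsBounded D)
    {f : ℝ × ℝ → ℝ} (hf : TestOn D f) : ∃ r : ℝ, 0 < r ∧ ∀ z, dd D z ≤ r → f z = 0 := by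
  rcases (tsupport f).eq_empty_or_nonempty with he | hne
  · refine ⟨1, one_pos, fun z _ => ?_⟩
    by_contra h
    have := subset_tsupport f h
    rw [he] at this; exact this
  · obtain ⟨z0, hz0, hmin⟩ := IsCompact.exists_isMinOn (s := tsupport f) hf.cs hne
      (dd_cont D).continuousOn
    have hp : 0 < dd D z0 := (dd_pos hD hb).2 (hf.2.2 hz0)
    refine ⟨dd D z0 / 2, by linarith, fun z hz => ?_⟩
    by_contra h
    have h1 := hmin (subset_tsupport f h)
    simp only [mem_ofPred_eq] at h1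
    linarith only [hp, hz, h1]

theorem lemB {D : Set (ℝ × ℝ)} (hD : IsOpen D) (hb : Bornology.IsBounded D)
    {T : (ℝ × ℝ → ℝ) → ℝ} {C : ℝ} (hT : L2Fn D T C) {f : ℝ × ℝ → ℝ} (hf : TestOn D f)
    (heq : ∀ ψ, TestOn D ψ → T (lap ψ) = - ∫ z, ψ z * f z)
    (hdec : ∀ ε : ℝ, 0 < ε → ∃ r : ℝ, 0 < r ∧ ∀ x ∈ D, dd D x < r →
      T (bump (dd D x / 2) x) ≤ ε)
    {θ : ℝ × ℝ → ℝ} (hθ : TestOn D θ) (hθ0 : ∀ z, 0 ≤ θ z) {η : ℝ} (hη : 0 < η) :
    ∃ ψ, TestOn D ψ ∧ energy ψ ≤ (∫ z, f z * ψ z) + η ∧ T θ ≤ (∫ z, θ z * ψ z) + η := by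
  obtain ⟨u, hu, huD, hTu⟩ := rep hD hb hT
  have heq' : ∀ ψ, TestOn D ψ → ∫ z, u z * lap ψ z = - ∫ z, ψ z * f z := by
    intro ψ hψ; rw [← hTu _ hψ.lap]; exact heq ψ hψ
  -- constants
  set I := ∫ z, θ z with hI
  have hI0 : 0 ≤ I := integral_nonneg hθ0
  set N := ∫ z, |u z| with hN
  have hN0 : 0 ≤ N := integral_nonneg fun z => abs_nonneg _
  set ε : ℝ := η / (4 * (I + 1)) with hε
  have hε0 : 0 < ε := by (clear * - hη hI0; positivity)
  have hεI : 2 * ε * I ≤ η / 2 := by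
    rw [hε]
    have : 2 * (η / (4 * (I + 1))) * I = η / 2 * (I / (I + 1)) := by field_simp; ring
    rw [this]
    have : I / (I + 1) ≤ 1 := by rw [div_le_one (by linarith only [hI0])]; linarith only []
    nlinarith only [hη, this]
  obtain ⟨rf, hrf, hfz⟩ := exists_low hD hb hf
  obtain ⟨rt, hrt, htz⟩ := exists_low hD hb hθ
  obtain ⟨rd, hrd, hdd⟩ := hdec ε hε0
  set r : ℝ := min (min (rf / 2) rt) rd with hr
  have hr0 : 0 < r := lt_min (lt_min (by linarith only [hrf]) hrt) hrd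
  have hr1 : r ≤ rf / 2 := (min_le_left _ _).trans (min_le_left _ _)
  have hr2 : r ≤ rt := (min_le_left _ _).trans (min_le_right _ _)
  have hr3 : r ≤ rd := min_le_right _ _
  obtain ⟨s1, hs1, hm1⟩ := moll_unif hf.cont hf.cs (η := η / (N + 1)) (by (clear * - hη; positivity))
  obtain ⟨s2, hs2, hm2⟩ := moll_unif hθ.cont hθ.cs (η := η / (2 * (N + 1))) (by positivity)
  set s : ℝ := min (min (s1 / 2) (s2 / 2)) (r / 4) with hs
  have hs0 : 0 < s := lt_min (lt_min (by linarith only [hs1]) (by linarith only [hs2])) (by linarith only [hr0])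
  have hss1 : s < s1 := lt_of_le_of_lt ((min_le_left _ _).trans (min_le_left _ _)) (by linarith only [hs1])
  have hss2 : s < s2 := lt_of_le_of_lt ((min_le_left _ _).trans (min_le_right _ _)) (by linarith only [hs2])
  have hssr : s ≤ r / 4 := min_le_right _ _
  set U := US u s with hU
  have hUs : Sm U := US_smooth hu hs0
  -- values of U
  have hUv : ∀ x, s < dd D x → U x = T (bump s x) := by
    intro x hx
    rw [hU, US_eq, hTu _ (bump_test hs0 (ball_sub hx))]
  have hUε : ∀ x, r / 2 < dd D x → dd D x < r → U x ≤ ε := by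
    intro x hx1 hx2
    have hxD : x ∈ D := (dd_pos hD hb).1 (by linarith only [hs0, hssr, hx1])
    have h1 := hdd x hxD (lt_of_lt_of_le hx2 hr3)
    have hd2 : dd D x / 2 < dd D x := by linarith only [hs0, hssr, hx1]
    rw [hTu _ (bump_test (by linarith only [hs0, hssr, hx1]) (ball_sub hd2))] at h1
    rw [bump_const hu heq' hs0 (by linarith only [hssr, hx1]) (ball_sub hd2) ?_] at h1
    · rw [hU, US_eq]; exact h1
    · intro z hz
      refine hfz z ?_
      rw [Metric.mem_closedBall] at hz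
      have := dd_le_add D z x
      linarith only [hr1, hs0, hssr, hx2, hz, this]
  -- the cutoff
  obtain ⟨χ, hχs, hχ01, hχ0, hχ1⟩ := exists_cutoff D (show r / 2 < 3 * r / 4 by linarith only [hs0, hssr])
  set ψ : ℝ × ℝ → ℝ := fun x => χ x * FF ε (U x) with hψ
  have hψv : ∀ x, r / 2 < dd D x → ψ x = FF ε (U x) := by
    intro x hx
    rcases le_or_gt (3 * r / 4) (dd D x) with h | h
    · rw [hψ]; simp only; rw [hχ1 x h, one_mul]
    · rw [hψ]; simp only; rw [FF_zero hε0 (hUε x hx (by linarith only [hs0, hssr, h])), mul_zero]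
  have hψz : ∀ x, dd D x ≤ r / 2 → ψ x = 0 := by
    intro x hx; rw [hψ]; simp only; rw [hχ0 x hx, zero_mul]
  have hψ0 : ∀ x, 0 ≤ ψ x := fun x => mul_nonneg (hχ01 x).1 (FF_nonneg hε0 _)
  have hψs : Sm ψ := hχs.mul ((FF_smooth ε).comp hUs)
  have hsub : tsupport ψ ⊆ {x | r / 2 ≤ dd D x} := by
    refine closure_minimal ?_ (isClosed_le continuous_const (dd_cont D))
    intro x hx
    by_contra h
    rw [mem_ofPred_eq, not_le] at h
    exact hx (hψz x h.le)
  have hsubD : tsupport ψ ⊆ D := fun x hx => by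
    have h1 : r / 2 ≤ dd D x := hsub hx
    exact (dd_pos hD hb).1 (by linarith only [hs0, hssr, h1])
  have hψT : TestOn D ψ := by
    refine ⟨hψs, ?_, hsubD⟩
    exact Metric.isCompact_of_isClosed_isBounded (isClosed_tsupport _) (hb.subset hsubD)
  have hψU : ∀ x, ψ x ≤ |U x| := by
    intro x
    calc ψ x ≤ 1 * FF ε (U x) := mul_le_mul_of_nonneg_right (hχ01 x).2 (FF_nonneg hε0 _)
      _ ≤ |U x| := by rw [one_mul]; exact FF_le_abs hε0 _
  have hψI : ∫ x, ψ x ≤ N :=
    (integral_mono hψT.int (US_integrable hu hs0).abs hψU).trans (US_L1 hu hs0)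
  -- derivatives of ψ
  have hd1 : ∀ x, r / 2 < dd D x → ∀ v,
      fderiv ℝ ψ x v = Real.smoothTransition ((U x - ε) / ε) * fderiv ℝ U x v := by
    intro x hx v
    have : ψ =ᶠ[𝓝 x] fun x => FF ε (U x) := by
      filter_upwards [(isOpen_lt continuous_const (dd_cont D)).mem_nhds hx] with y hy
      exact hψv y hy
    rw [this.fderiv_eq]
    exact fd_comp (FF_hasDeriv ε) hUs x v
  have hd2 : ∀ x, dd D x ≤ r / 2 → ∀ v, fderiv ℝ ψ x v = 0 := by
    intro x hx v
    have : IsLocalMin ψ x := Eventually.of_forall fun y => by rw [hψz x hx]; exact hψ0 y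
    rw [this.fderiv_eq_zero]; rfl
  have hpt : ∀ x v, fderiv ℝ ψ x v ^ 2 ≤ fderiv ℝ ψ x v * fderiv ℝ U x v := by
    intro x v
    rcases lt_or_ge (r / 2) (dd D x) with h | h
    · rw [hd1 x h v]
      set a := Real.smoothTransition ((U x - ε) / ε)
      have ha0 : 0 ≤ a := Real.smoothTransition.nonneg _
      have ha1 : a ≤ 1 := Real.smoothTransition.le_one _
      have : a * fderiv ℝ U x v * fderiv ℝ U x v - (a * fderiv ℝ U x v) ^ 2
          = a * (1 - a) * fderiv ℝ U x v ^ 2 := by ring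
      nlinarith only [mul_nonneg (mul_nonneg ha0 (sub_nonneg.2 ha1)) (sq_nonneg (fderiv ℝ U x v))]
    · rw [hd2 x h v]; simp
  have hE1 : energy ψ ≤ ∫ z, (dx ψ z * dx U z + dy ψ z * dy U z) := by
    refine integral_mono hψT.intE ((hψT.dx.intMul hUs.dx.continuous).add
      (hψT.dy.intMul hUs.dy.continuous)) fun z => ?_
    exact add_le_add (hpt z (1, 0)) (hpt z (0, 1))
  have hE2 : ∫ z, (dx ψ z * dx U z + dy ψ z * dy U z) = - ∫ z, ψ z * lap U z := by
    rw [green_id hψT hUs, neg_neg]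
  have hlap : ∀ x, s < dd D x → lap U x = - ∫ z, f z * bump s x z := by
    intro x hx
    rw [hU, US_lap hu hs0, heq' _ (bump_test hs0 (ball_sub hx))]
    congr 2; funext z; ring
  have hE3 : - ∫ z, ψ z * lap U z ≤ (∫ z, f z * ψ z) + η := by
    have e1 : - ∫ z, ψ z * lap U z = ∫ z, -(ψ z * lap U z) := (integral_neg _).symm
    rw [e1]
    have e2 : (∫ z, f z * ψ z) + η / (N + 1) * ∫ z, ψ z
        = ∫ z, (f z * ψ z + η / (N + 1) * ψ z) := by
      rw [integral_add (hf.intMul hψT.cont) (hψT.int.const_mul _), integral_const_mul]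
    have e3 : η / (N + 1) * ∫ z, ψ z ≤ η := by
      calc η / (N + 1) * ∫ z, ψ z ≤ η / (N + 1) * N :=
            mul_le_mul_of_nonneg_left hψI (by (clear * - hη; positivity))
        _ ≤ η := by
            rw [div_mul_eq_mul_div, div_le_iff₀ (by (clear * -; positivity))]
            nlinarith only [hη]
    refine le_trans ?_ (add_le_add le_rfl e3)
    rw [e2]
    refine integral_mono (hψT.intMul hUs.lap.continuous).neg ((hf.intMul hψT.cont).add
      (hψT.int.const_mul _)) fun x => ?_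
    simp only
    rcases lt_or_ge (r / 2) (dd D x) with h | h
    · rw [hlap x (by linarith only [hs0, hssr, h])]
      have h1 := abs_le.1 (hm1 s hs0 hss1 x)
      have h3 := hψ0 x
      have h4 : ψ x * ((∫ z, f z * bump s x z) - f x) ≤ ψ x * (η / (N + 1)) :=
        mul_le_mul_of_nonneg_left h1.2 h3
      nlinarith only [h4]
    · rw [hψz x h]
      simp
  -- comparison with T θ
  have hF : T θ ≤ (∫ z, θ z * ψ z) + η := by
    have g1 : T θ = ∫ z, u z * θ z := hTu θ hθ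
    -- θ U
    have g2 : ∫ x, θ x * U x = ∫ z, u z * (∫ x, θ x * bump s z x) := by
      have hi : Integrable (fun p : (ℝ × ℝ) × (ℝ × ℝ) => θ p.1 * (u p.2 * bump s p.1 p.2))
          (volume.prod volume) := by
        obtain ⟨M, hM⟩ := (rs_cs hs0).exists_bound_of_continuous (rs_smooth s).continuous
        have h1 : Integrable (fun p : (ℝ × ℝ) × (ℝ × ℝ) => (θ p.1 * u p.2) * bump s p.1 p.2)
            (volume.prod volume) := by
          refine (hθ.int.mul_prod hu).mul_bdd (c := M) ?_ (ae_of_all _ fun p => hM _)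
          refine Continuous.aestronglyMeasurable ?_
          exact (rs_smooth s).continuous.comp (continuous_snd.sub continuous_fst)
        refine h1.congr (ae_of_all _ fun p => ?_)
        simp only; ring
      calc ∫ x, θ x * U x = ∫ x, ∫ z, θ x * (u z * bump s x z) := by
            congr 1; funext x; rw [integral_const_mul, hU, US_eq]
        _ = ∫ z, ∫ x, θ x * (u z * bump s x z) := integral_integral_swap hi
        _ = _ := by
            congr 1; funext z
            rw [← integral_const_mul]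
            congr 1; funext x
            rw [bump_symm s z x]; ring
    obtain ⟨Mθ, hMθ⟩ := hθ.cs.exists_bound_of_continuous hθ.cont
    have hcont : Continuous (fun z => ∫ x, θ x * bump s z x) := by
      have : (fun z => ∫ x, θ x * bump s z x) = US θ s := by funext z; rw [US_eq]
      rw [this]; exact (US_smooth hθ.int hs0).continuous
    have hbd : ∀ z, |∫ x, θ x * bump s z x| ≤ Mθ + η / (2 * (N + 1)) := by
      intro z
      have h1 := abs_le.1 (hm2 s hs0 hss2 z)
      have h2 := abs_le.1 (hMθ z)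
      rw [abs_le]; constructor <;> linarith only [h1, h2]
    have g3 : |(∫ x, θ x * U x) - ∫ z, u z * θ z| ≤ η / 2 := by
      rw [g2]
      have i1 : Integrable (fun z => u z * ∫ x, θ x * bump s z x) :=
        hu.mul_bdd hcont.aestronglyMeasurable (ae_of_all _ hbd)
      have i2 : Integrable (fun z => u z * θ z) :=
        hu.mul_bdd hθ.cont.aestronglyMeasurable (ae_of_all _ hMθ)
      rw [← integral_sub i1 i2]
      calc |∫ z, (u z * (∫ x, θ x * bump s z x) - u z * θ z)|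
          ≤ ∫ z, |u z * (∫ x, θ x * bump s z x) - u z * θ z| := abs_integral_le_integral_abs
        _ ≤ ∫ z, |u z| * (η / (2 * (N + 1))) := by
            refine integral_mono_of_nonneg (ae_of_all _ fun z => abs_nonneg _)
              (hu.abs.mul_const _) (ae_of_all _ fun z => ?_)
            simp only
            rw [← mul_sub, abs_mul]
            exact mul_le_mul_of_nonneg_left (hm2 s hs0 hss2 z) (abs_nonneg _)
        _ = N * (η / (2 * (N + 1))) := by rw [integral_mul_const]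
        _ ≤ η / 2 := by
            have : N * (η / (2 * (N + 1))) = η / 2 * (N / (N + 1)) := by (clear * - hN0 hη; field_simp)
            rw [this]
            have : N / (N + 1) ≤ 1 := by rw [div_le_one (by linarith only [hN0])]; linarith only []
            nlinarith only [hη, this]
    have g4 : ∫ x, θ x * U x ≤ (∫ x, θ x * ψ x) + 2 * ε * I := by
      rw [hI, ← integral_const_mul, ← integral_add (hθ.intMul hψT.cont) (hθ.int.const_mul _)]
      refine integral_mono (hθ.intMul hUs.continuous)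
        ((hθ.intMul hψT.cont).add (hθ.int.const_mul _)) fun x => ?_
      simp only
      rcases le_or_gt (dd D x) rt with h | h
      · rw [htz x h]; simp
      · rw [hψv x (by linarith only [hr2, hs0, hssr, h])]
        have := FF_ge hε0 (U x)
        nlinarith only [this, hθ0 x]
    have g5 := abs_le.1 g3
    rw [g1]
    linarith only [hεI, g4, g5]
  exact ⟨ψ, hψT, hE1.trans (hE2.le.trans hE3), hF⟩

end Vale.Agent.P145.PT
end

section

/-!
P145, block F-A: `⟨-Δψ, (-Δ)⁻¹ g⟩ = ∫ ψ g` for the whole plane Green function.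
-/

namespace Vale.Agent.P145.FA

open MeasureTheory Set Filter Topology
open Vale.Agent.P145.PT Vale.Agent.P152.GFF.S

/-- Regularised logarithm. -/
noncomputable def LL (ε : ℝ) (z : ℝ × ℝ) : ℝ := Real.log (z.1 ^ 2 + z.2 ^ 2 + ε ^ 2) / 2

theorem LL_sm {ε : ℝ} (hε : 0 < ε) : Sm (LL ε) := by
  unfold LL
  refine ContDiff.div_const (ContDiff.log (by fun_prop) (fun z => ?_)) 2
  positivity

theorem dx_of {f : ℝ × ℝ → ℝ} (hf : Differentiable ℝ f) {z : ℝ × ℝ} {c : ℝ}
    (h : HasDerivAt (fun t => f (t, z.2)) c z.1) : PT.dx f z = c := by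
  have h1 : HasDerivAt (fun t => f (t, z.2)) (fderiv ℝ f z (1, 0)) z.1 :=
    (hf z).hasFDerivAt.comp_hasDerivAt z.1
      ((hasDerivAt_id z.1).prodMk (hasDerivAt_const z.1 z.2))
  exact h1.unique h

theorem dy_of {f : ℝ × ℝ → ℝ} (hf : Differentiable ℝ f) {z : ℝ × ℝ} {c : ℝ}
    (h : HasDerivAt (fun t => f (z.1, t)) c z.2) : PT.dy f z = c := by
  have h1 : HasDerivAt (fun t => f (z.1, t)) (fderiv ℝ f z (0, 1)) z.2 :=
    (hf z).hasFDerivAt.comp_hasDerivAt z.2
      ((hasDerivAt_const z.2 z.1).prodMk (hasDerivAt_id z.2))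
  exact h1.unique h

theorem LL_dx {ε : ℝ} (hε : 0 < ε) (z : ℝ × ℝ) :
    PT.dx (LL ε) z = z.1 / (z.1 ^ 2 + z.2 ^ 2 + ε ^ 2) := by
  refine dx_of (LL_sm hε).diff ?_
  have hq : (z.1 ^ 2 + z.2 ^ 2 + ε ^ 2) ≠ 0 := by positivity
  have h1 : HasDerivAt (fun t : ℝ => t ^ 2 + z.2 ^ 2 + ε ^ 2) (2 * z.1) z.1 := by
    simpa only [hasDerivAt_add_const_iff, Pi.pow_apply, id_eq, Nat.cast_ofNat, Nat.add_one_sub_one, pow_one,     mul_one] using (((hasDerivAt_id z.1).pow 2).add_const (z.2 ^ 2)).add_const (ε ^ 2)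
  have h2 := (h1.log hq).div_const 2
  refine h2.congr_deriv ?_
  (clear * - hq; field_simp)

theorem LL_dy {ε : ℝ} (hε : 0 < ε) (z : ℝ × ℝ) :
    PT.dy (LL ε) z = z.2 / (z.1 ^ 2 + z.2 ^ 2 + ε ^ 2) := by
  refine dy_of (LL_sm hε).diff ?_
  have hq : (z.1 ^ 2 + z.2 ^ 2 + ε ^ 2) ≠ 0 := by positivity
  have h1 : HasDerivAt (fun t : ℝ => z.1 ^ 2 + t ^ 2 + ε ^ 2) (2 * z.2) z.2 := by
    simpa using (((hasDerivAt_id z.2).pow 2).const_add (z.1 ^ 2)).add_const (ε ^ 2)
  have h2 := (h1.log hq).div_const 2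
  refine h2.congr_deriv ?_
  field_simp

theorem LL_lap {ε : ℝ} (hε : 0 < ε) (z : ℝ × ℝ) :
    lap (LL ε) z = 2 * ε ^ 2 / (z.1 ^ 2 + z.2 ^ 2 + ε ^ 2) ^ 2 := by
  have hq : (z.1 ^ 2 + z.2 ^ 2 + ε ^ 2) ≠ 0 := by positivity
  have e1 : PT.dx (PT.dx (LL ε)) z =
      ((z.1 ^ 2 + z.2 ^ 2 + ε ^ 2) - z.1 * (2 * z.1)) / (z.1 ^ 2 + z.2 ^ 2 + ε ^ 2) ^ 2 := by
    refine dx_of (LL_sm hε).dx.diff ?_
    have h0 : (fun t => PT.dx (LL ε) (t, z.2)) = fun t => t / (t ^ 2 + z.2 ^ 2 + ε ^ 2) := by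
      funext t; rw [LL_dx hε]
    rw [h0]
    have h1 : HasDerivAt (fun t : ℝ => t ^ 2 + z.2 ^ 2 + ε ^ 2) (2 * z.1) z.1 := by
      simpa only [hasDerivAt_add_const_iff, Pi.pow_apply, id_eq, Nat.cast_ofNat, Nat.add_one_sub_one, pow_one,     mul_one] using (((hasDerivAt_id z.1).pow 2).add_const (z.2 ^ 2)).add_const (ε ^ 2)
    have h2 := (hasDerivAt_id z.1).div h1 hq
    refine h2.congr_deriv ?_
    simp only [one_mul, id_eq]
  have e2 : PT.dy (PT.dy (LL ε)) z =
      ((z.1 ^ 2 + z.2 ^ 2 + ε ^ 2) - z.2 * (2 * z.2)) / (z.1 ^ 2 + z.2 ^ 2 + ε ^ 2) ^ 2 := by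
    refine dy_of (LL_sm hε).dy.diff ?_
    have h0 : (fun t => PT.dy (LL ε) (z.1, t)) = fun t => t / (z.1 ^ 2 + t ^ 2 + ε ^ 2) := by
      funext t; rw [LL_dy hε]
    rw [h0]
    have h1 : HasDerivAt (fun t : ℝ => z.1 ^ 2 + t ^ 2 + ε ^ 2) (2 * z.2) z.2 := by
      simpa using (((hasDerivAt_id z.2).pow 2).const_add (z.1 ^ 2)).add_const (ε ^ 2)
    have h2 := (hasDerivAt_id z.2).div h1 hq
    refine h2.congr_deriv ?_
    simp
  unfold lap
  rw [e1, e2]
  ring

theorem lap_swap {φ : ℝ × ℝ → ℝ} (hφ : TestOn univ φ) {L : ℝ × ℝ → ℝ} (hL : Sm L) :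
    ∫ z, L z * lap φ z = ∫ z, φ z * lap L z := by
  rw [green_id hφ hL]
  have h1 := ibp hφ.dx hL (1, 0)
  have h2 := ibp hφ.dy hL (0, 1)
  have e2 : ∫ z, (PT.dx φ z * PT.dx L z + PT.dy φ z * PT.dy L z)
      = (∫ z, PT.dx φ z * PT.dx L z) + ∫ z, PT.dy φ z * PT.dy L z := by
    rw [← integral_add]
    · exact hφ.dx.intMul hL.dx.continuous
    · exact hφ.dy.intMul hL.dy.continuous
  have e1 : ∫ z, L z * lap φ z = (∫ z, PT.dx (PT.dx φ) z * L z) + ∫ z, PT.dy (PT.dy φ) z * L z := by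
    rw [← integral_add]
    · congr 1; funext z; unfold PT.lap; ring
    · exact hφ.dx.dx.intMul hL.continuous
    · exact hφ.dy.dy.intMul hL.continuous
  rw [e1, e2]
  have h1' : ∫ z, PT.dx φ z * PT.dx L z = - ∫ z, PT.dx (PT.dx φ) z * L z := h1
  have h2' : ∫ z, PT.dy φ z * PT.dy L z = - ∫ z, PT.dy (PT.dy φ) z * L z := h2
  rw [h1', h2']; ring

/-- The kernel. -/
noncomputable def ker1 (w : ℝ × ℝ) : ℝ := 2 / (w.1 ^ 2 + w.2 ^ 2 + 1) ^ 2

theorem ker1_nonneg (w : ℝ × ℝ) : 0 ≤ ker1 w := by unfold ker1; positivity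

theorem ker1_integrable : Integrable ker1 := by
  have h1 : Integrable (fun x : ℝ × ℝ => (2 : ℝ) * ((1 : ℝ) + ‖x‖ ^ 2) ^ (-(4 : ℝ) / 2)) := by
    refine Integrable.const_mul ?_ 2
    refine integrable_rpow_neg_one_add_norm_sq ?_
    simp
    norm_num
  refine h1.mono' ?_ (Eventually.of_forall fun w => ?_)
  · unfold ker1
    exact (by (clear * -; fun_prop) : Measurable fun w : ℝ × ℝ => 2 / (w.1 ^ 2 + w.2 ^ 2 + 1) ^ 2).aestronglyMeasurable
  · rw [Real.norm_eq_abs, abs_of_nonneg (ker1_nonneg w)]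
    unfold ker1
    have h2 : (-(4 : ℝ) / 2) = -((2 : ℕ) : ℝ) := by norm_num
    rw [h2, Real.rpow_neg (by (clear * -; positivity)), Real.rpow_natCast, ← div_eq_mul_inv]
    refine div_le_div_of_nonneg_left (by norm_num) (by positivity) ?_
    refine pow_le_pow_left₀ (by positivity) ?_ 2
    have h3 : ‖w‖ ^ 2 ≤ w.1 ^ 2 + w.2 ^ 2 := by
      rw [Prod.norm_def, Real.norm_eq_abs, Real.norm_eq_abs]
      rcases max_choice |w.1| |w.2| with h | h
      · rw [h, sq_abs]; nlinarith [sq_nonneg w.2]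
      · rw [h, sq_abs]; nlinarith only []
    linarith

theorem ker1_integral : ∫ w, ker1 w = 2 * Real.pi := by
  rw [← integral_comp_polarCoord_symm]
  have h0 : ∀ p : ℝ × ℝ, p.1 • ker1 (polarCoord.symm p) = (2 * p.1 / (p.1 ^ 2 + 1) ^ 2) * 1 := by
    intro p
    rw [polarCoord_symm_apply]
    unfold ker1
    have : (p.1 * Real.cos p.2) ^ 2 + (p.1 * Real.sin p.2) ^ 2 = p.1 ^ 2 := by
      rw [mul_pow, mul_pow, ← mul_add, Real.cos_sq_add_sin_sq, mul_one]
    simp only [this, smul_eq_mul]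
    ring
  simp_rw [h0]
  rw [polarCoord_target, Measure.volume_eq_prod,
    setIntegral_prod_mul (fun r : ℝ => 2 * r / (r ^ 2 + 1) ^ 2) (fun _ : ℝ => (1 : ℝ))]
  have h1 : ∫ r in Ioi (0 : ℝ), 2 * r / (r ^ 2 + 1) ^ 2 = 0 - (-1) := by
    refine (integral_Ioi_of_hasDerivAt_of_nonneg' (g := fun r : ℝ => - (r ^ 2 + 1)⁻¹) (l := 0)
      ?_ ?_ ?_).trans ?_
    · intro r _
      have h2 : HasDerivAt (fun t : ℝ => t ^ 2 + 1) (2 * r) r := by
        simpa only [hasDerivAt_add_const_iff, Pi.pow_apply, id_eq, Nat.cast_ofNat, Nat.add_one_sub_one, pow_one,     mul_one] using ((hasDerivAt_id r).pow 2).add_const (1 : ℝ)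
      have h3 := (h2.inv (by positivity)).neg
      refine h3.congr_deriv ?_
      ring
    · intro r hr
      have : (0 : ℝ) < r := hr
      positivity
    · have : Tendsto (fun r : ℝ => (r ^ 2 + 1)) atTop atTop :=
        tendsto_atTop_add_const_right _ _ (tendsto_pow_atTop (by norm_num))
      simpa using (tendsto_inv_atTop_zero.comp this).neg
    · norm_num
  rw [h1]
  simp only [sub_neg_eq_add, zero_add, integral_const, MeasurableSet.univ, measureReal_restrict_apply, univ_inter, Real.volume_real_Ioo_of_le (by linarith [Real.pi_pos] : -Real.pi ≤ Real.pi), smul_eq_mul, mul_one, one_mul]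
  ring

theorem ker_lim {φ : ℝ × ℝ → ℝ} (hφ : Continuous φ) (cφ : HasCompactSupport φ) :
    Tendsto (fun n : ℕ => ∫ z, φ z * (2 * (1 / ((n : ℝ) + 1)) ^ 2 /
      (z.1 ^ 2 + z.2 ^ 2 + (1 / ((n : ℝ) + 1)) ^ 2) ^ 2)) atTop (𝓝 (2 * Real.pi * φ 0)) := by
  obtain ⟨C, hC⟩ := cφ.exists_bound_of_continuous hφ
  have h1 : ∀ n : ℕ, ∫ z, φ z * (2 * (1 / ((n : ℝ) + 1)) ^ 2 /
      (z.1 ^ 2 + z.2 ^ 2 + (1 / ((n : ℝ) + 1)) ^ 2) ^ 2) =
      ∫ w, φ ((1 / ((n : ℝ) + 1)) • w) * ker1 w := by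
    intro n
    set ε : ℝ := 1 / ((n : ℝ) + 1) with hε
    have hε0 : 0 < ε := by (clear * -; positivity)
    have h2 := Measure.integral_comp_smul (volume : Measure (ℝ × ℝ))
      (fun z : ℝ × ℝ => φ z * (2 * ε ^ 2 / (z.1 ^ 2 + z.2 ^ 2 + ε ^ 2) ^ 2)) ε
    have h3 : Module.finrank ℝ (ℝ × ℝ) = 2 := by simp
    rw [h3, abs_of_pos (by (clear * -; positivity)), smul_eq_mul] at h2
    have h4 : ∫ z, φ z * (2 * ε ^ 2 / (z.1 ^ 2 + z.2 ^ 2 + ε ^ 2) ^ 2) =
        ε ^ 2 * ∫ w : ℝ × ℝ, φ (ε • w) * (2 * ε ^ 2 / ((ε • w).1 ^ 2 + (ε • w).2 ^ 2 + ε ^ 2) ^ 2) := by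
      rw [h2, ← mul_assoc, mul_inv_cancel₀ (by positivity), one_mul]
    rw [h4, ← integral_const_mul]
    refine integral_congr_ae (Eventually.of_forall fun w => ?_)
    simp only [Prod.smul_fst, Prod.smul_snd, smul_eq_mul]
    unfold ker1
    have h5 : (ε * w.1) ^ 2 + (ε * w.2) ^ 2 + ε ^ 2 = ε ^ 2 * (w.1 ^ 2 + w.2 ^ 2 + 1) := by ring
    rw [h5]
    have h6 : (w.1 ^ 2 + w.2 ^ 2 + 1) ≠ 0 := by (clear * -; positivity)
    field_simp
  simp_rw [h1]
  have h2 : 2 * Real.pi * φ 0 = ∫ w, φ 0 * ker1 w := by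
    rw [integral_const_mul, ker1_integral]; ring
  rw [h2]
  refine tendsto_integral_of_dominated_convergence (fun w => C * ker1 w) ?_ ?_ ?_ ?_
  · intro n
    exact ((hφ.comp (continuous_const_smul _)).aestronglyMeasurable).mul
      ker1_integrable.aestronglyMeasurable
  · exact ker1_integrable.const_mul C
  · intro n
    refine Eventually.of_forall fun w => ?_
    rw [norm_mul, Real.norm_eq_abs (ker1 w), abs_of_nonneg (ker1_nonneg w)]
    exact mul_le_mul_of_nonneg_right (hC _) (ker1_nonneg w)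
  · refine Eventually.of_forall fun w => ?_
    refine Tendsto.mul_const _ ?_
    have h3 : Tendsto (fun n : ℕ => (1 / ((n : ℝ) + 1)) • w) atTop (𝓝 ((0 : ℝ) • w)) :=
      tendsto_one_div_add_atTop_nhds_zero_nat.smul_const w
    rw [zero_smul] at h3
    exact (hφ.tendsto 0).comp h3

theorem log_lim {f : ℝ × ℝ → ℝ} (hf : Continuous f) (cf : HasCompactSupport f) :
    Tendsto (fun n : ℕ => ∫ z, LL (1 / ((n : ℝ) + 1)) z * f z) atTop
      (𝓝 (∫ z, Real.log (Real.sqrt (z.1 ^ 2 + z.2 ^ 2)) * f z)) := by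
  obtain ⟨C, hC⟩ := cf.exists_bound_of_continuous hf
  obtain ⟨R, hR⟩ := (Metric.isBounded_iff_subset_closedBall 0).mp cf.isCompact.isBounded
  set M : ℝ := max 1 R with hM
  have hM1 : 1 ≤ M := le_max_left _ _
  have hC0 : 0 ≤ C := (norm_nonneg _).trans (hC 0)
  have hne : ∀ᵐ z : ℝ × ℝ, z.1 ≠ 0 := by
    have h0 : (volume : Measure (ℝ × ℝ)) ({(0 : ℝ)} ×ˢ Set.univ) = 0 := by
      rw [Measure.volume_eq_prod, Measure.prod_prod]
      simp
    refine measure_mono_null (fun z hz => ?_) h0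
    simp only [Set.mem_compl_iff, Set.mem_ofPred_eq, not_not] at hz
    exact ⟨hz, Set.mem_univ _⟩
  refine tendsto_integral_of_dominated_convergence
    (fun z => C * S10_phi M z + (2 * M ^ 2) * ‖f z‖) ?_ ?_ ?_ ?_
  · intro n
    exact ((LL_sm (by (clear * -; positivity))).continuous.mul hf).aestronglyMeasurable
  · exact ((S10_phi_integrable hM1).const_mul C).add
      ((hf.integrable_of_hasCompactSupport cf).norm.const_mul _)
  · intro n
    filter_upwards [hne] with z hz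
    set ε : ℝ := 1 / ((n : ℝ) + 1) with hε
    have hε0 : 0 < ε := by positivity
    have hε1 : ε ≤ 1 := by
      rw [hε, div_le_one (by positivity)]
      have : (0 : ℝ) ≤ n := by (clear * -; positivity)
      linarith only []
    by_cases hfz : f z = 0
    · rw [hfz, mul_zero, norm_zero, mul_zero, add_zero]
      refine mul_nonneg hC0 ?_
      unfold S10_phi
      split_ifs
      · exact abs_nonneg _
      · exact le_refl _
    · have hz1 : ‖z‖ ≤ M := by
        have := hR (subset_tsupport f hfz)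
        rw [Metric.mem_closedBall, dist_zero_right] at this
        exact this.trans (le_max_right _ _)
      have hd1 : |z.1| ≤ M := (norm_fst_le z).trans hz1
      have hd2 : |z.2| ≤ M := (norm_snd_le z).trans hz1
      have hphi : S10_phi M z = |Real.log (Real.sqrt (z.1 ^ 2 + z.2 ^ 2))| := by
        unfold S10_phi; rw [if_pos ⟨hd1, hd2⟩]
      have hr : 0 < z.1 ^ 2 + z.2 ^ 2 := by (clear * - hz; positivity)
      have hlog : Real.log (Real.sqrt (z.1 ^ 2 + z.2 ^ 2)) = Real.log (z.1 ^ 2 + z.2 ^ 2) / 2 :=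
        Real.log_sqrt hr.le
      have hlow : Real.log (Real.sqrt (z.1 ^ 2 + z.2 ^ 2)) ≤ LL ε z := by
        rw [hlog]; unfold LL
        have := Real.log_le_log hr (by nlinarith only [] :
          z.1 ^ 2 + z.2 ^ 2 ≤ z.1 ^ 2 + z.2 ^ 2 + ε ^ 2)
        linarith only [this]
      have hup : LL ε z ≤ 2 * M ^ 2 := by
        unfold LL
        have h1 := Real.log_le_sub_one_of_pos (by (clear * - hz; positivity) : 0 < z.1 ^ 2 + z.2 ^ 2 + ε ^ 2)
        have h2 : z.1 ^ 2 ≤ M ^ 2 := by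
          rw [← sq_abs z.1]; exact pow_le_pow_left₀ (abs_nonneg _) hd1 2
        have h3 : z.2 ^ 2 ≤ M ^ 2 := by
          rw [← sq_abs z.2]; exact pow_le_pow_left₀ (abs_nonneg _) hd2 2
        have h4 : ε ^ 2 ≤ 1 := by nlinarith only [hε1, hε0]
        linarith
      have habs : |LL ε z| ≤ S10_phi M z + 2 * M ^ 2 := by
        rw [hphi, abs_le]
        constructor
        · have h5 := neg_abs_le (Real.log (Real.sqrt (z.1 ^ 2 + z.2 ^ 2)))
          nlinarith only [hlow, h5]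
        · have h6 := abs_nonneg (Real.log (Real.sqrt (z.1 ^ 2 + z.2 ^ 2)))
          linarith only [hup, h6]
      have hphi0 : 0 ≤ S10_phi M z := by rw [hphi]; exact abs_nonneg _
      rw [norm_mul, Real.norm_eq_abs (LL ε z)]
      calc |LL ε z| * ‖f z‖ ≤ (S10_phi M z + 2 * M ^ 2) * ‖f z‖ :=
            mul_le_mul_of_nonneg_right habs (norm_nonneg _)
        _ ≤ C * S10_phi M z + 2 * M ^ 2 * ‖f z‖ := by
            have := mul_le_mul_of_nonneg_left (hC z) hphi0
            nlinarith only [this]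
  · filter_upwards [hne] with z hz
    refine Tendsto.mul_const _ ?_
    have hr : 0 < z.1 ^ 2 + z.2 ^ 2 := by (clear * - hz; positivity)
    rw [Real.log_sqrt hr.le]
    unfold LL
    refine Tendsto.div_const ?_ 2
    have h3 : Tendsto (fun n : ℕ => z.1 ^ 2 + z.2 ^ 2 + (1 / ((n : ℝ) + 1)) ^ 2) atTop
        (𝓝 (z.1 ^ 2 + z.2 ^ 2 + 0 ^ 2)) :=
      tendsto_const_nhds.add (tendsto_one_div_add_atTop_nhds_zero_nat.pow 2)
    rw [zero_pow two_ne_zero, add_zero] at h3
    exact h3.log hr.ne'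

/-- The logarithm is a fundamental solution. -/
theorem log_lap {φ : ℝ × ℝ → ℝ} (hφ : TestOn univ φ) :
    ∫ z, Real.log (Real.sqrt (z.1 ^ 2 + z.2 ^ 2)) * lap φ z = 2 * Real.pi * φ 0 := by
  have h1 := log_lim hφ.lap.cont hφ.lap.cs
  have h2 := ker_lim hφ.cont hφ.cs
  refine tendsto_nhds_unique h1 (h2.congr fun n => ?_)
  rw [lap_swap hφ (LL_sm (by positivity))]
  refine integral_congr_ae (Eventually.of_forall fun z => ?_)
  simp only
  rw [LL_lap (by positivity)]

theorem green_int {ψ : ℝ × ℝ → ℝ} (hψ : TestOn univ ψ) (y : ℝ × ℝ) :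
    ∫ x, green x y * (- lap ψ x) = ψ y := by
  have hφ : TestOn univ (fun z => ψ (y + z)) := by
    refine ⟨hψ.1.comp (contDiff_const.add contDiff_id), ?_, Set.subset_univ _⟩
    exact hψ.2.1.comp_homeomorph (Homeomorph.addLeft y)
  have h1 := log_lap hφ
  have hlap : ∀ z, lap (fun z => ψ (y + z)) z = lap ψ (y + z) := by
    intro z
    have e1 : PT.dx (fun z => ψ (y + z)) = fun z => PT.dx ψ (y + z) := by
      funext w; unfold PT.dx; rw [fderiv_comp_add_left]
    have e2 : PT.dy (fun z => ψ (y + z)) = fun z => PT.dy ψ (y + z) := by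
      funext w; unfold PT.dy; rw [fderiv_comp_add_left]
    unfold lap
    rw [e1, e2]
    congr 1
    · show fderiv ℝ (fun z => PT.dx ψ (y + z)) z (1, 0) = fderiv ℝ (PT.dx ψ) (y + z) (1, 0)
      rw [fderiv_comp_add_left]
    · show fderiv ℝ (fun z => PT.dy ψ (y + z)) z (0, 1) = fderiv ℝ (PT.dy ψ) (y + z) (0, 1)
      rw [fderiv_comp_add_left]
  simp_rw [hlap] at h1
  rw [← integral_add_left_eq_self (μ := volume) (fun x => green x y * (- lap ψ x)) y]
  have h2 : ∀ z : ℝ × ℝ, green (y + z) y * (- lap ψ (y + z)) =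
      (2 * Real.pi)⁻¹ * (Real.log (Real.sqrt (z.1 ^ 2 + z.2 ^ 2)) * lap ψ (y + z)) := by
    intro z
    unfold green
    rw [Prod.fst_add, Prod.snd_add, add_sub_cancel_left, add_sub_cancel_left]
    ring
  simp_rw [h2]
  rw [integral_const_mul, h1, add_zero, ← mul_assoc, inv_mul_cancel₀ (by positivity), one_mul]

/-- Green's identity for the covariance of the free field. -/
theorem green_lap {ψ g : ℝ × ℝ → ℝ} (hψ : ContDiff ℝ ((⊤ : ℕ∞) : WithTop ℕ∞) ψ)
    (cψ : HasCompactSupport ψ) (hg : Continuous g) (cg : HasCompactSupport g) :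
    gffCov (fun x => - lap ψ x) g = ∫ x, ψ x * g x := by
  have hT : TestOn univ ψ := ⟨hψ, cψ, Set.subset_univ _⟩
  have h := green_integrable (f := fun x => - lap ψ x) hT.lap.cont.neg hg hT.lap.cs.neg cg
  rw [Measure.volume_eq_prod] at h
  unfold gffCov
  rw [integral_integral_swap h]
  refine integral_congr_ae (Eventually.of_forall fun y => ?_)
  simp only
  rw [integral_mul_const, green_int hT]

end Vale.Agent.P145.FA
end

section

/-!
P145, block K1: ferromagnetic spins, second Griffiths inequality.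
-/

namespace Vale.Agent.P145.FK

open Finset

variable {I : Type*} [Fintype I] [DecidableEq I]

/-- The sign of a Boolean. -/
def sv (b : Bool) : ℝ := if b then -1 else 1

@[simp] lemma sv_true : sv true = -1 := rfl
@[simp] lemma sv_false : sv false = 1 := rfl

lemma sv_xor (a b : Bool) : sv (xor a b) = sv a * sv b := by
  cases a <;> cases b <;> norm_num [sv]

lemma sv_mul_self (a : Bool) : sv a * sv a = 1 := by cases a <;> norm_num [sv]

lemma sv_abs_le (a : Bool) : |sv a| = 1 := by cases a <;> norm_num [sv]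

/-- A character. -/
def chi (A : I → Bool) (s : I → Bool) : ℝ := ∏ i, if A i then sv (s i) else 1

omit [DecidableEq I] in
lemma chi_mul (A B s : I → Bool) : chi A s * chi B s = chi (fun i => xor (A i) (B i)) s := by
  unfold chi
  rw [← Finset.prod_mul_distrib]
  refine Finset.prod_congr rfl (fun i _ => ?_)
  rcases hA : A i <;> rcases hB : B i <;> simp [sv_mul_self, hA, hB]

omit [DecidableEq I] in
lemma chi_xor (A s r : I → Bool) : chi A (fun i => xor (s i) (r i)) = chi A s * chi A r := by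
  unfold chi
  rw [← Finset.prod_mul_distrib]
  refine Finset.prod_congr rfl (fun i _ => ?_)
  by_cases h : A i = true
  · simp only [h, if_true]
    exact sv_xor _ _
  · simp [h]

omit [DecidableEq I] in
lemma chi_false (s : I → Bool) : chi (fun _ => false) s = 1 := by
  simp only [chi, Bool.false_eq_true, ↓reduceIte, prod_const_one]

omit [DecidableEq I] in
lemma chi_le_one (A s : I → Bool) : chi A s ≤ 1 := by
  have h : |chi A s| ≤ 1 := by
    unfold chi
    rw [Finset.abs_prod]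
    refine Finset.prod_le_one (fun i _ => abs_nonneg _) (fun i _ => ?_)
    split_ifs
    · exact (sv_abs_le _).le
    · norm_num
  exact (abs_le.mp h).2

omit [DecidableEq I] in
lemma neg_one_le_chi (A s : I → Bool) : -1 ≤ chi A s := by
  have h : |chi A s| ≤ 1 := by
    unfold chi
    rw [Finset.abs_prod]
    refine Finset.prod_le_one (fun i _ => abs_nonneg _) (fun i _ => ?_)
    split_ifs
    · exact (sv_abs_le _).le
    · norm_num
  exact (abs_le.mp h).1

lemma sum_chi_nonneg (A : I → Bool) : 0 ≤ ∑ s : I → Bool, chi A s := by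
  have h : ∑ s : I → Bool, chi A s = ∏ i, ∑ b : Bool, (if A i then sv b else (1 : ℝ)) := by
    rw [Finset.prod_univ_sum, Fintype.piFinset_univ]
    rfl
  rw [h]
  refine Finset.prod_nonneg (fun i _ => ?_)
  cases A i <;> simp

/-- Nonnegative combinations of characters. -/
inductive Pos : ((I → Bool) → ℝ) → Prop
  | chr (c : ℝ) (hc : 0 ≤ c) (A : I → Bool) : Pos (fun s => c * chi A s)
  | add {f g : (I → Bool) → ℝ} : Pos f → Pos g → Pos (fun s => f s + g s)

namespace Pos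

omit [DecidableEq I] in
lemma const (c : ℝ) (hc : 0 ≤ c) : Pos (fun _ : I → Bool => c) := by
  have h := Pos.chr c hc (fun _ : I => false)
  simpa [chi_false] using h

omit [DecidableEq I] in
lemma mul {f g : (I → Bool) → ℝ} (hf : Pos f) (hg : Pos g) : Pos (fun s => f s * g s) := by
  induction hf with
  | chr c hc A =>
    induction hg with
    | chr c' hc' B =>
      have h := Pos.chr (c * c') (mul_nonneg hc hc') (fun i => xor (A i) (B i))
      have e : (fun s => c * c' * chi (fun i => xor (A i) (B i)) s)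
          = fun s => c * chi A s * (c' * chi B s) := by
        funext s
        rw [← chi_mul]; ring
      rwa [e] at h
    | add h1 h2 ih1 ih2 =>
      have h := Pos.add ih1 ih2
      simpa only [mul_add] using h
  | add h1 h2 ih1 ih2 =>
    have h := Pos.add ih1 ih2
    simpa only [add_mul] using h

omit [DecidableEq I] in
lemma smul {f : (I → Bool) → ℝ} (c : ℝ) (hc : 0 ≤ c) (hf : Pos f) : Pos (fun s => c * f s) :=
  mul (const c hc) hf

omit [DecidableEq I] in
lemma prod {ι : Type*} (T : Finset ι) (f : ι → (I → Bool) → ℝ)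
    (h : ∀ i ∈ T, Pos (f i)) : Pos (fun s => ∏ i ∈ T, f i s) := by
  classical
  induction T using Finset.induction_on with
  | empty => simpa using const (I := I) 1 zero_le_one
  | insert i T hi ih =>
    have h1 := h i (Finset.mem_insert_self i T)
    have h2 := ih (fun j hj => h j (Finset.mem_insert_of_mem hj))
    simpa only [Finset.prod_insert hi] using mul h1 h2

omit [DecidableEq I] in
lemma sum {ι : Type*} (T : Finset ι) (f : ι → (I → Bool) → ℝ)
    (h : ∀ i ∈ T, Pos (f i)) : Pos (fun s => ∑ i ∈ T, f i s) := by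
  classical
  induction T using Finset.induction_on with
  | empty => simpa using const (I := I) 0 le_rfl
  | insert i T hi ih =>
    have h1 := h i (Finset.mem_insert_self i T)
    have h2 := ih (fun j hj => h j (Finset.mem_insert_of_mem hj))
    simpa only [Finset.sum_insert hi] using Pos.add h1 h2

lemma single (i : I) : Pos (fun s : I → Bool => sv (s i)) := by
  have h := Pos.chr 1 zero_le_one (fun j : I => decide (j = i))
  have e : (fun s : I → Bool => 1 * chi (fun j : I => decide (j = i)) s) = fun s => sv (s i) := by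
    funext s
    rw [one_mul]
    unfold chi
    rw [Finset.prod_eq_single i]
    · simp
    · intro b _ hb; simp [hb]
    · simp only [mem_univ, not_true_eq_false, decide_true, ↓reduceIte, IsEmpty.forall_iff]
  rwa [e] at h

lemma sum_nonneg {f : (I → Bool) → ℝ} (hf : Pos f) : 0 ≤ ∑ s, f s := by
  induction hf with
  | chr c hc A =>
    rw [← Finset.mul_sum]
    exact mul_nonneg hc (sum_chi_nonneg A)
  | add h1 h2 ih1 ih2 =>
    rw [Finset.sum_add_distrib]
    exact add_nonneg ih1 ih2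

omit [DecidableEq I] in
lemma diff {g : (I → Bool) → ℝ} (hg : Pos g) (r : I → Bool) :
    Pos (fun s => g s - g (fun i => xor (s i) (r i))) := by
  induction hg with
  | chr c hc A =>
    have h := Pos.chr (c * (1 - chi A r)) (mul_nonneg hc (by linarith only [chi_le_one A r])) A
    have e : (fun s => c * (1 - chi A r) * chi A s)
        = fun s => c * chi A s - c * chi A (fun i => xor (s i) (r i)) := by
      funext s
      rw [chi_xor]; ring
    rwa [e] at h
  | add h1 h2 ih1 ih2 =>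
    have h := Pos.add ih1 ih2
    refine (congrArg Pos ?_).mp h
    funext s
    ring

end Pos

/-- Ferromagnetic weights. -/
def Ferro (W : (I → Bool) → ℝ) : Prop :=
  ∀ r : I → Bool, Pos (fun s => W s * W (fun i => xor (s i) (r i)))

omit [DecidableEq I] in
lemma Ferro.const (c : ℝ) : Ferro (fun _ : I → Bool => c) := by
  intro r
  exact Pos.const _ (mul_self_nonneg c)

omit [DecidableEq I] in
lemma Ferro.mul {W W' : (I → Bool) → ℝ} (h : Ferro W) (h' : Ferro W') :
    Ferro (fun s => W s * W' s) := by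
  intro r
  have := Pos.mul (h r) (h' r)
  refine (congrArg Pos ?_).mp this
  funext s
  ring

omit [DecidableEq I] in
lemma Ferro.prod {ι : Type*} (T : Finset ι) (f : ι → (I → Bool) → ℝ)
    (h : ∀ i ∈ T, Ferro (f i)) : Ferro (fun s => ∏ i ∈ T, f i s) := by
  classical
  induction T using Finset.induction_on with
  | empty => simpa using Ferro.const (I := I) 1
  | insert i T hi ih =>
    have h1 := h i (Finset.mem_insert_self i T)
    have h2 := ih (fun j hj => h j (Finset.mem_insert_of_mem hj))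
    simpa only [Finset.prod_insert hi] using Ferro.mul h1 h2

omit [DecidableEq I] in
lemma Ferro.affine {a b : ℝ} (hb : 0 ≤ b) (hab : b ≤ a) (A : I → Bool) :
    Ferro (fun s => a + b * chi A s) := by
  intro r
  have hc : Pos (fun s : I → Bool => (a * a + b * b * chi A r) + a * b * (1 + chi A r) * chi A s) :=
    Pos.add (Pos.const _ (by
      have h1 := neg_one_le_chi A r
      (clear * - hb hab h1; nlinarith [mul_nonneg hb hb, mul_nonneg hb (sub_nonneg.mpr hab), mul_self_nonneg (a - b)])))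
      (Pos.chr _ (mul_nonneg (mul_nonneg (hb.trans hab) hb) (by linarith [neg_one_le_chi A r])) A)
  refine (congrArg Pos ?_).mp hc
  funext s
  show _ = (a + b * chi A s) * (a + b * chi A (fun i => xor (s i) (r i)))
  rw [chi_xor]
  have h2 : chi A s * chi A s = 1 := by
    rw [chi_mul]; simp [chi_false]
  have h3 : b * chi A s * (b * (chi A s * chi A r)) = b * b * chi A r := by
    calc b * chi A s * (b * (chi A s * chi A r)) = b * b * (chi A s * chi A s) * chi A r := by ring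
      _ = b * b * chi A r := by rw [h2]; ring
  calc a * a + b * b * chi A r + a * b * (1 + chi A r) * chi A s
      = a * a + a * (b * (chi A s * chi A r)) + b * chi A s * a + b * b * chi A r := by ring
    _ = (a + b * chi A s) * (a + b * (chi A s * chi A r)) := by rw [← h3]; ring

/-- Translation of the spin configurations. -/
def flipE (s : I → Bool) : (I → Bool) ≃ (I → Bool) where
  toFun r := fun i => xor (s i) (r i)
  invFun r := fun i => xor (s i) (r i)
  left_inv r := by funext i; simp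
  right_inv r := by funext i; simp

/-- Second Griffiths inequality. -/
theorem gks {W f g : (I → Bool) → ℝ} (hW : Ferro W) (hf : Pos f) (hg : Pos g) :
    (∑ s, W s * f s) * (∑ s, W s * g s) ≤ (∑ s, W s) * (∑ s, W s * (f s * g s)) := by
  have e1 : (∑ s, W s) * (∑ s, W s * (f s * g s)) - (∑ s, W s * f s) * (∑ s, W s * g s)
      = ∑ s : I → Bool, ∑ s' : I → Bool, (W s * W s') * (f s * (g s - g s')) := by
    rw [mul_comm (∑ s, W s), Finset.sum_mul_sum, Finset.sum_mul_sum, ← Finset.sum_sub_distrib]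
    refine Finset.sum_congr rfl (fun s _ => ?_)
    rw [← Finset.sum_sub_distrib]
    refine Finset.sum_congr rfl (fun s' _ => ?_)
    ring
  have e2 : ∀ s : I → Bool, ∑ s' : I → Bool, (W s * W s') * (f s * (g s - g s'))
      = ∑ r : I → Bool, (W s * W (fun i => xor (s i) (r i))) *
        (f s * (g s - g (fun i => xor (s i) (r i)))) := by
    intro s
    exact ((flipE s).sum_comp (fun s' => (W s * W s') * (f s * (g s - g s')))).symm
  have e3 : 0 ≤ ∑ r : I → Bool, ∑ s : I → Bool, (W s * W (fun i => xor (s i) (r i))) *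
        (f s * (g s - g (fun i => xor (s i) (r i)))) := by
    refine Finset.sum_nonneg (fun r _ => ?_)
    exact Pos.sum_nonneg (Pos.mul (hW r) (Pos.mul hf (Pos.diff hg r)))
  rw [Finset.sum_comm] at e3
  rw [← sub_nonneg, e1, Finset.sum_congr rfl (fun s _ => e2 s)]
  exact e3

end Vale.Agent.P145.FK
end

section

/-!
P145, block K1: six-vertex heights (a = b = t, c = 1, t at most 1) on a finite incidence structure,
magnitudes and signs; lattice condition.
-/

namespace Vale.Agent.P145.FK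

open Finset
open scoped Classical

/-- Even sites `V`, odd sites `F`, medial vertices `E`; `u e, v e` are the two even sites and
`f e, g e` the two odd sites around `e`. -/
structure Net (V F E : Type*) where
  u : E → V
  v : E → V
  f : E → F
  g : E → F
  inc : V → F → Prop
  huf : ∀ e, inc (u e) (f e)
  hug : ∀ e, inc (u e) (g e)
  hvf : ∀ e, inc (v e) (f e)
  hvg : ∀ e, inc (v e) (g e)

namespace Net

variable {V F E : Type*} {K : ℕ}

/-- Magnitudes: the modulus of the height is `2 a` on `V` and `2 a + 1` on `F`. -/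
def adm (N : Net V F E) (a : V ⊕ F → Fin (K + 1)) : Prop :=
  ∀ v f, N.inc v f → (a (.inr f) : ℕ) = a (.inl v) ∨ (a (.inr f) : ℕ) + 1 = a (.inl v)

/-- The flat weight. -/
noncomputable def wE (N : Net V F E) (t : ℝ) (a : V ⊕ F → Fin (K + 1)) (e : E) : ℝ :=
  if (a (.inl (N.u e)) : ℕ) = a (.inl (N.v e)) ∧ (a (.inr (N.f e)) : ℕ) = a (.inr (N.g e))
  then 1 else t

lemma fmin {n : ℕ} (x y : Fin n) : ((x ⊓ y : Fin n) : ℕ) = min (x : ℕ) y := by
  rcases le_total x y with h | h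
  · rw [inf_eq_left.mpr h, min_eq_left (by exact_mod_cast h)]
  · rw [inf_eq_right.mpr h, min_eq_right (by exact_mod_cast h)]

lemma fmax {n : ℕ} (x y : Fin n) : ((x ⊔ y : Fin n) : ℕ) = max (x : ℕ) y := by
  rcases le_total x y with h | h
  · rw [sup_eq_right.mpr h, max_eq_right (by exact_mod_cast h)]
  · rw [sup_eq_left.mpr h, max_eq_left (by exact_mod_cast h)]

lemma adm_inf {N : Net V F E} {a b : V ⊕ F → Fin (K + 1)} (ha : N.adm a) (hb : N.adm b) :
    N.adm (a ⊓ b) := by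
  intro v f h
  have h1 := ha v f h
  have h2 := hb v f h
  simp only [Pi.inf_apply, fmin]
  (clear * - h1 h2; omega)

lemma adm_sup {N : Net V F E} {a b : V ⊕ F → Fin (K + 1)} (ha : N.adm a) (hb : N.adm b) :
    N.adm (a ⊔ b) := by
  intro v f h
  have h1 := ha v f h
  have h2 := hb v f h
  simp only [Pi.sup_apply, fmax]
  omega

lemma wE_nonneg {N : Net V F E} {t : ℝ} (ht : 0 ≤ t) (a : V ⊕ F → Fin (K + 1)) (e : E) :
    0 ≤ N.wE t a e := by
  unfold wE; split_ifs <;> linarith only [ht]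

lemma wE_pos {N : Net V F E} {t : ℝ} (ht : 0 < t) (a : V ⊕ F → Fin (K + 1)) (e : E) :
    0 < N.wE t a e := by
  unfold wE; split_ifs <;> linarith

lemma wE_ge {N : Net V F E} {t : ℝ} (ht : t ≤ 1) (a : V ⊕ F → Fin (K + 1)) (e : E) :
    t ≤ N.wE t a e := by
  unfold wE; split_ifs <;> linarith only [ht]

lemma wE_lattice {N : Net V F E} {t : ℝ} (ht0 : 0 ≤ t) (ht : t ≤ 1)
    {a b : V ⊕ F → Fin (K + 1)} (ha : N.adm a) (hb : N.adm b) (e : E) :
    N.wE t a e * N.wE t b e ≤ N.wE t (a ⊓ b) e * N.wE t (a ⊔ b) e := by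
  have a1 := ha _ _ (N.huf e)
  have a2 := ha _ _ (N.hug e)
  have a3 := ha _ _ (N.hvf e)
  have a4 := ha _ _ (N.hvg e)
  have b1 := hb _ _ (N.huf e)
  have b2 := hb _ _ (N.hug e)
  have b3 := hb _ _ (N.hvf e)
  have b4 := hb _ _ (N.hvg e)
  unfold wE
  simp only [Pi.inf_apply, Pi.sup_apply, fmin, fmax]
  generalize (a (.inl (N.u e)) : ℕ) = x1 at *
  generalize (a (.inl (N.v e)) : ℕ) = x2 at *
  generalize (a (.inr (N.f e)) : ℕ) = x3 at *
  generalize (a (.inr (N.g e)) : ℕ) = x4 at *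
  generalize (b (.inl (N.u e)) : ℕ) = y1 at *
  generalize (b (.inl (N.v e)) : ℕ) = y2 at *
  generalize (b (.inr (N.f e)) : ℕ) = y3 at *
  generalize (b (.inr (N.g e)) : ℕ) = y4 at *
  by_cases hA : x1 = x2 ∧ x3 = x4
  · by_cases hB : y1 = y2 ∧ y3 = y4
    · obtain ⟨rfl, rfl⟩ := hA
      obtain ⟨rfl, rfl⟩ := hB
      simp only [and_self, ↓reduceIte, mul_one, Std.le_refl]
    · have h : (min x1 y1 = min x2 y2 ∧ min x3 y3 = min x4 y4) ∨
          (max x1 y1 = max x2 y2 ∧ max x3 y3 = max x4 y4) := by (clear * - b1 b3 b2 b4 hA hB; omega)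
      rw [if_pos hA, if_neg hB]
      rcases h with h | h
      · rw [if_pos h]
        split_ifs <;> linarith only [ht]
      · rw [if_pos h]
        split_ifs <;> linarith only [ht]
  · by_cases hB : y1 = y2 ∧ y3 = y4
    · have h : (min x1 y1 = min x2 y2 ∧ min x3 y3 = min x4 y4) ∨
          (max x1 y1 = max x2 y2 ∧ max x3 y3 = max x4 y4) := by omega
      rw [if_neg hA, if_pos hB]
      rcases h with h | h
      · rw [if_pos h]
        split_ifs <;> linarith only [ht]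
      · rw [if_pos h]
        split_ifs <;> linarith only [ht]
    · rw [if_neg hA, if_neg hB]
      split_ifs <;> nlinarith

/-- Sites of `V` with nonzero height. -/
noncomputable def supp [Fintype V] (a : V ⊕ F → Fin (K + 1)) : Finset V :=
  Finset.univ.filter (fun v => (a (.inl v) : ℕ) ≠ 0)

lemma supp_inf [Fintype V] (a b : V ⊕ F → Fin (K + 1)) :
    supp (a ⊓ b) = supp a ∩ supp b := by
  ext v
  simp only [supp, Finset.mem_filter, Finset.mem_univ, true_and, Finset.mem_inter, Pi.inf_apply,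
    fmin]
  (clear * -; omega)

lemma supp_sup [Fintype V] (a b : V ⊕ F → Fin (K + 1)) :
    supp (a ⊔ b) = supp a ∪ supp b := by
  ext v
  simp only [supp, Finset.mem_filter, Finset.mem_univ, true_and, Finset.mem_union, Pi.sup_apply,
    fmax]
  omega

lemma supp_mono [Fintype V] {a b : V ⊕ F → Fin (K + 1)} (h : a ≤ b) : supp a ⊆ supp b := by
  intro v
  simp only [supp, Finset.mem_filter, Finset.mem_univ, true_and]
  have h1 : (a (.inl v) : ℕ) ≤ b (.inl v) := by exact_mod_cast h (.inl v)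
  omega

/-- A pair interaction. -/
noncomputable def pr (x y : ℝ) (i j : V ⊕ F) (s : V ⊕ F → Bool) : ℝ :=
  x + y * (sv (s i) * sv (s j))

variable [Fintype V] [Fintype F] [Fintype E]

lemma pair_chi (i j : V ⊕ F) : ∃ A : V ⊕ F → Bool, ∀ s, sv (s i) * sv (s j) = chi A s := by
  have h : ∀ (k : V ⊕ F) (s : V ⊕ F → Bool), sv (s k) = chi (fun l => decide (l = k)) s := by
    intro k s
    unfold chi
    rw [Finset.prod_eq_single k]
    · simp
    · intro b _ hb; simp [hb]
    · simp only [mem_univ, not_true_eq_false, decide_true, ↓reduceIte, IsEmpty.forall_iff]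
  refine ⟨fun l => xor (decide (l = i)) (decide (l = j)), fun s => ?_⟩
  rw [h i, h j, chi_mul]

lemma pr_pos {x y : ℝ} (hx : 0 ≤ x) (hy : 0 ≤ y) (i j : V ⊕ F) : Pos (pr x y i j) := by
  obtain ⟨A, hA⟩ := pair_chi (V := V) (F := F) i j
  have h := Pos.add (Pos.const (I := V ⊕ F) x hx) (Pos.chr y hy A)
  refine (congrArg Pos ?_).mp h
  funext s
  simp only [pr, hA]

lemma pr_ferro {x y : ℝ} (hy : 0 ≤ y) (hxy : y ≤ x) (i j : V ⊕ F) : Ferro (pr x y i j) := by
  obtain ⟨A, hA⟩ := pair_chi (V := V) (F := F) i j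
  have h := Ferro.affine hy hxy A
  refine (congrArg Ferro ?_).mp h
  funext s
  simp only [pr, hA]

/-- The sign interaction across a medial vertex. -/
noncomputable def th (N : Net V F E) (r : ℝ) (e : E) (s : V ⊕ F → Bool) : ℝ :=
  pr ((1 + r) / 2) ((1 - r) / 2) (.inr (N.f e)) (.inr (N.g e)) s

/-- The constraint at a site of `V` with nonzero height. -/
noncomputable def cv (N : Net V F E) (v : V) (s : V ⊕ F → Bool) : ℝ :=
  ∏ f ∈ Finset.univ.filter (fun f => N.inc v f), pr (1 / 2) (1 / 2) (.inl v) (.inr f) s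

omit [Fintype E] in
lemma th_pos (N : Net V F E) {r : ℝ} (h0 : 0 ≤ r) (h1 : r ≤ 1) (e : E) : Pos (N.th r e) :=
  pr_pos (by linarith) (by linarith only [h1]) _ _

omit [Fintype E] in
lemma th_ferro (N : Net V F E) {r : ℝ} (h0 : 0 ≤ r) (h1 : r ≤ 1) (e : E) : Ferro (N.th r e) :=
  pr_ferro (by linarith) (by linarith) _ _

omit [Fintype E] in
lemma cv_pos (N : Net V F E) (v : V) : Pos (N.cv v) :=
  Pos.prod _ _ (fun _ _ => pr_pos (by norm_num) (by norm_num) _ _)

omit [Fintype E] in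
lemma cv_ferro (N : Net V F E) (v : V) : Ferro (N.cv v) :=
  Ferro.prod _ _ (fun _ _ => pr_ferro (by norm_num) (by norm_num) _ _)

omit [Fintype V] [Fintype F] in
lemma pr_half_cases (i j : V ⊕ F) (s : V ⊕ F → Bool) :
    pr (1 / 2) (1 / 2) i j s = 0 ∨ pr (1 / 2) (1 / 2) i j s = 1 := by
  unfold pr
  cases s i <;> cases s j <;> norm_num

omit [Fintype V] [Fintype E] in
lemma cv_cases (N : Net V F E) (v : V) (s : V ⊕ F → Bool) : N.cv v s = 0 ∨ N.cv v s = 1 := by
  unfold cv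
  by_cases h : ∃ f ∈ Finset.univ.filter (fun f => N.inc v f),
      pr (1 / 2) (1 / 2) (.inl v) (.inr f) s = 0
  · obtain ⟨f, hf, h0⟩ := h
    exact Or.inl (Finset.prod_eq_zero hf h0)
  · push Not at h
    refine Or.inr (Finset.prod_eq_one (fun f hf => ?_))
    exact (pr_half_cases _ _ s).resolve_left (h f hf)

omit [Fintype V] [Fintype E] in
lemma cv_nonneg (N : Net V F E) (v : V) (s : V ⊕ F → Bool) : 0 ≤ N.cv v s := by
  rcases N.cv_cases v s with h | h <;> simp [h]

omit [Fintype V] [Fintype E] in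
lemma cv_sq (N : Net V F E) (v : V) (s : V ⊕ F → Bool) : N.cv v s * N.cv v s = N.cv v s := by
  rcases N.cv_cases v s with h | h <;> simp [h]

omit [Fintype V] [Fintype F] [Fintype E] in
lemma th_nonneg (N : Net V F E) {r : ℝ} (h0 : 0 ≤ r) (e : E) (s : V ⊕ F → Bool) :
    0 ≤ N.th r e s := by
  unfold th pr
  cases s (.inr (N.f e)) <;> cases s (.inr (N.g e)) <;> norm_num <;> linarith

/-- Sign weight for the set `S` of nonzero even sites. -/
noncomputable def W (N : Net V F E) (r : E → ℝ) (S : Finset V) (s : V ⊕ F → Bool) : ℝ :=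
  (∏ e, N.th (r e) e s) * ∏ v ∈ S, N.cv v s

/-- Sign sum. -/
noncomputable def Z (N : Net V F E) (r : E → ℝ) (S : Finset V) (φ : (V ⊕ F → Bool) → ℝ) : ℝ :=
  ∑ s, N.W r S s * φ s

omit [Fintype V] in
lemma W_nonneg (N : Net V F E) {r : E → ℝ} (h0 : ∀ e, 0 ≤ r e) (S : Finset V)
    (s : V ⊕ F → Bool) : 0 ≤ N.W r S s :=
  mul_nonneg (Finset.prod_nonneg fun e _ => N.th_nonneg (h0 e) e s)
    (Finset.prod_nonneg fun v _ => N.cv_nonneg v s)

lemma W_ferro (N : Net V F E) {r : E → ℝ} (h0 : ∀ e, 0 ≤ r e) (h1 : ∀ e, r e ≤ 1)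
    (S : Finset V) : Ferro (N.W r S) :=
  Ferro.mul (Ferro.prod _ _ fun e _ => N.th_ferro (h0 e) (h1 e) e)
    (Ferro.prod _ _ fun v _ => N.cv_ferro v)

lemma cvs_pos (N : Net V F E) (S : Finset V) : Pos (fun s => ∏ v ∈ S, N.cv v s) :=
  Pos.prod _ _ fun v _ => N.cv_pos v

omit [Fintype V] in
lemma W_union (N : Net V F E) (r : E → ℝ) (S T : Finset V) (hd : Disjoint S T)
    (s : V ⊕ F → Bool) : N.W r (S ∪ T) s = N.W r S s * ∏ v ∈ T, N.cv v s := by
  unfold W
  rw [Finset.prod_union hd, mul_assoc]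

lemma Z_one_pos (N : Net V F E) {r : E → ℝ} (h0 : ∀ e, 0 ≤ r e) (S : Finset V) :
    0 < N.Z r S (fun _ => 1) := by
  unfold Z
  have h : (1 : ℝ) ≤ N.W r S (fun _ => false) := by
    unfold W th cv pr
    have e1 : ∀ x : ℝ, (1 + x) / 2 + (1 - x) / 2 * (1 * 1) = 1 := fun x => by ring
    simp only [sv_false, e1, Finset.prod_const_one]
    norm_num
  have h2 : N.W r S (fun _ => false) * 1 ≤ ∑ s, N.W r S s * 1 :=
    Finset.single_le_sum (f := fun s => N.W r S s * 1)
      (fun s _ => by rw [mul_one]; exact N.W_nonneg h0 S s) (Finset.mem_univ _)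
  linarith only [h, h2]

/-- Supermodularity of the sign partition function. -/
lemma Z_super (N : Net V F E) {r : E → ℝ} (h0 : ∀ e, 0 ≤ r e) (h1 : ∀ e, r e ≤ 1)
    (S T : Finset V) :
    N.Z r S (fun _ => 1) * N.Z r T (fun _ => 1)
      ≤ N.Z r (S ∩ T) (fun _ => 1) * N.Z r (S ∪ T) (fun _ => 1) := by
  have h := gks (N.W_ferro h0 h1 (S ∩ T)) (N.cvs_pos (S \ T)) (N.cvs_pos (T \ S))
  have eS : S = (S ∩ T) ∪ (S \ T) := by ext x; simp; (clear * -; tauto)
  have eT : T = (S ∩ T) ∪ (T \ S) := by ext x; simp; (clear * -; tauto)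
  have eU : S ∪ T = ((S ∩ T) ∪ (S \ T)) ∪ (T \ S) := by ext x; simp; tauto
  have d1 : Disjoint (S ∩ T) (S \ T) := by
    rw [Finset.disjoint_left]; intro x hx hx'; simp at hx hx'; (clear * - hx hx'; tauto)
  have d2 : Disjoint (S ∩ T) (T \ S) := by
    rw [Finset.disjoint_left]; intro x hx hx'; simp at hx hx'; (clear * - hx hx'; tauto)
  have d3 : Disjoint ((S ∩ T) ∪ (S \ T)) (T \ S) := by
    rw [Finset.disjoint_left]; intro x hx hx'; simp at hx hx'; (clear * - hx hx'; tauto)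
  have z1 : N.Z r S (fun _ => 1) = ∑ s, N.W r (S ∩ T) s * ∏ v ∈ S \ T, N.cv v s := by
    unfold Z
    refine Finset.sum_congr rfl fun s _ => ?_
    rw [mul_one, ← N.W_union r _ _ d1, ← eS]
  have z2 : N.Z r T (fun _ => 1) = ∑ s, N.W r (S ∩ T) s * ∏ v ∈ T \ S, N.cv v s := by
    unfold Z
    refine Finset.sum_congr rfl fun s _ => ?_
    rw [mul_one, ← N.W_union r _ _ d2, ← eT]
  have z3 : N.Z r (S ∪ T) (fun _ => 1) = ∑ s, N.W r (S ∩ T) s *
      ((∏ v ∈ S \ T, N.cv v s) * ∏ v ∈ T \ S, N.cv v s) := by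
    unfold Z
    refine Finset.sum_congr rfl fun s _ => ?_
    rw [mul_one, ← mul_assoc, ← N.W_union r _ _ d1, ← N.W_union r _ _ d3, ← eU]
  have z4 : N.Z r (S ∩ T) (fun _ => 1) = ∑ s, N.W r (S ∩ T) s := by
    unfold Z; simp
  rw [z1, z2, z3, z4]
  exact h

/-- Monotonicity of sign expectations in the set of nonzero sites. -/
lemma Z_mono (N : Net V F E) {r : E → ℝ} (h0 : ∀ e, 0 ≤ r e) (h1 : ∀ e, r e ≤ 1)
    {S T : Finset V} (hST : S ⊆ T) {φ : (V ⊕ F → Bool) → ℝ} (hφ : Pos φ) :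
    N.Z r S φ * N.Z r T (fun _ => 1) ≤ N.Z r S (fun _ => 1) * N.Z r T φ := by
  have h := gks (N.W_ferro h0 h1 S) hφ (N.cvs_pos (T \ S))
  have d1 : Disjoint S (T \ S) := Finset.disjoint_sdiff
  have eT : T = S ∪ (T \ S) := (Finset.union_sdiff_of_subset hST).symm
  have z1 : N.Z r T (fun _ => 1) = ∑ s, N.W r S s * ∏ v ∈ T \ S, N.cv v s := by
    unfold Z
    refine Finset.sum_congr rfl fun s _ => ?_
    rw [mul_one, ← N.W_union r _ _ d1, ← eT]
  have z2 : N.Z r T φ = ∑ s, N.W r S s * (φ s * ∏ v ∈ T \ S, N.cv v s) := by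
    unfold Z
    refine Finset.sum_congr rfl fun s _ => ?_
    rw [eT, N.W_union r _ _ d1, ← eT]; ring
  have z3 : N.Z r S (fun _ => 1) = ∑ s, N.W r S s := by
    unfold Z; simp
  rw [z1, z2, z3]
  exact h

lemma Z_pos (N : Net V F E) {r : E → ℝ} (h0 : ∀ e, 0 ≤ r e) (h1 : ∀ e, r e ≤ 1)
    (S : Finset V) {φ : (V ⊕ F → Bool) → ℝ} (hφ : Pos φ) : 0 ≤ N.Z r S φ := by
  unfold Z
  refine Pos.sum_nonneg (Pos.mul (Pos.mul ?_ (N.cvs_pos S)) hφ)
  exact Pos.prod _ _ fun e _ => N.th_pos (h0 e) (h1 e) e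

end Net

end Vale.Agent.P145.FK
end

section

/-!
P145, block K1: functions increasing in an ordered variable and ferromagnetic in the signs;
the four functions theorem as a comparison of two tilts.
-/

namespace Vale.Agent.P145.FK

open Finset
open scoped Classical

/-- Functions increasing in the first variable and ferromagnetic in the signs. -/
inductive Mon {α I : Type*} [Preorder α] [Fintype I] : (α → (I → Bool) → ℝ) → Prop
  | one {B : α → ℝ} (hB0 : ∀ a, 0 ≤ B a) (hB : Monotone B)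
      {φ : (I → Bool) → ℝ} (hφ : Pos φ) : Mon (fun a s => B a * φ s)
  | add {f g : α → (I → Bool) → ℝ} : Mon f → Mon g → Mon (fun a s => f a s + g a s)

namespace Mon

variable {α β I : Type*} [Preorder α] [Preorder β] [Fintype I]

lemma mag {B : α → ℝ} (hB0 : ∀ a, 0 ≤ B a) (hB : Monotone B) :
    Mon (fun a (_ : I → Bool) => B a) := by
  have h := Mon.one hB0 hB (Pos.const (I := I) 1 zero_le_one)
  simpa using h

lemma sgn {φ : (I → Bool) → ℝ} (hφ : Pos φ) : Mon (fun (_ : α) s => φ s) := by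
  have h := Mon.one (α := α) (B := fun _ => 1) (fun _ => zero_le_one) (fun _ _ _ => le_rfl) hφ
  simpa using h

lemma const {c : ℝ} (hc : 0 ≤ c) : Mon (fun (_ : α) (_ : I → Bool) => c) :=
  mag (fun _ => hc) (fun _ _ _ => le_rfl)

lemma mul {f g : α → (I → Bool) → ℝ} (hf : Mon f) (hg : Mon g) :
    Mon (fun a s => f a s * g a s) := by
  induction hf with
  | one h0 hB hφ =>
    induction hg with
    | one h0' hB' hφ' =>
      have h := Mon.one (fun a => mul_nonneg (h0 a) (h0' a))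
        (fun a b hab => mul_le_mul (hB hab) (hB' hab) (h0' a) (h0 b)) (Pos.mul hφ hφ')
      refine (congrArg Mon ?_).mp h
      funext a s
      ring
    | add h1 h2 ih1 ih2 =>
      have h := Mon.add ih1 ih2
      refine (congrArg Mon ?_).mp h
      funext a s
      ring
  | add h1 h2 ih1 ih2 =>
    have h := Mon.add ih1 ih2
    refine (congrArg Mon ?_).mp h
    funext a s
    ring

lemma smul {f : α → (I → Bool) → ℝ} {c : ℝ} (hc : 0 ≤ c)
    (hf : Mon f) : Mon (fun a s => c * f a s) := mul (const hc) hf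

lemma sum {ι : Type*} (T : Finset ι) (f : ι → α → (I → Bool) → ℝ)
    (h : ∀ i ∈ T, Mon (f i)) : Mon (fun a s => ∑ i ∈ T, f i a s) := by
  classical
  induction T using Finset.induction_on with
  | empty => simpa using const (α := α) (I := I) le_rfl
  | insert i T hi ih =>
    have h1 := h i (Finset.mem_insert_self i T)
    have h2 := ih (fun j hj => h j (Finset.mem_insert_of_mem hj))
    simpa only [Finset.sum_insert hi] using Mon.add h1 h2

lemma prod {ι : Type*} (T : Finset ι) (f : ι → α → (I → Bool) → ℝ)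
    (h : ∀ i ∈ T, Mon (f i)) : Mon (fun a s => ∏ i ∈ T, f i a s) := by
  classical
  induction T using Finset.induction_on with
  | empty => simpa using const (α := α) (I := I) zero_le_one
  | insert i T hi ih =>
    have h1 := h i (Finset.mem_insert_self i T)
    have h2 := ih (fun j hj => h j (Finset.mem_insert_of_mem hj))
    simpa only [Finset.prod_insert hi] using Mon.mul h1 h2

lemma comp {f : α → (I → Bool) → ℝ} (hf : Mon f) {g : β → α} (hg : Monotone g) :
    Mon (fun b s => f (g b) s) := by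
  induction hf with
  | one h0 hB hφ => exact Mon.one (fun b => h0 (g b)) (hB.comp hg) hφ
  | add h1 h2 ih1 ih2 => exact Mon.add ih1 ih2

end Mon

/-- Four functions, in the form of a comparison of two tilts. -/
lemma four {α : Type*} [DistribLattice α] [Fintype α] (μ P Q A : α → ℝ) (hμ0 : ∀ a, 0 ≤ μ a)
    (hμ : ∀ a b, μ a * μ b ≤ μ (a ⊓ b) * μ (a ⊔ b)) (hP : ∀ a, 0 ≤ P a) (hQ : ∀ a, 0 ≤ Q a)
    (hA : ∀ a, 0 ≤ A a) (hAm : Monotone A)
    (hPQ : ∀ a b, μ a ≠ 0 → μ b ≠ 0 → P a * Q b ≤ P (a ⊓ b) * Q (a ⊔ b)) :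
    (∑ a, P a * μ a * A a) * (∑ a, Q a * μ a) ≤ (∑ a, P a * μ a) * (∑ a, Q a * μ a * A a) := by
  classical
  refine four_functions_theorem_univ (fun a => P a * μ a * A a) (fun a => Q a * μ a)
    (fun a => P a * μ a) (fun a => Q a * μ a * A a)
    (fun a => mul_nonneg (mul_nonneg (hP a) (hμ0 a)) (hA a))
    (fun a => mul_nonneg (hQ a) (hμ0 a)) (fun a => mul_nonneg (hP a) (hμ0 a))
    (fun a => mul_nonneg (mul_nonneg (hQ a) (hμ0 a)) (hA a)) ?_
  intro a b
  show P a * μ a * A a * (Q b * μ b) ≤ P (a ⊓ b) * μ (a ⊓ b) * (Q (a ⊔ b) * μ (a ⊔ b) * A (a ⊔ b))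
  by_cases h1 : μ a = 0
  · rw [h1]
    have : 0 ≤ P (a ⊓ b) * μ (a ⊓ b) * (Q (a ⊔ b) * μ (a ⊔ b) * A (a ⊔ b)) :=
      mul_nonneg (mul_nonneg (hP _) (hμ0 _)) (mul_nonneg (mul_nonneg (hQ _) (hμ0 _)) (hA _))
    simpa only [mul_zero, zero_mul, ge_iff_le] using this
  by_cases h2 : μ b = 0
  · rw [h2]
    have : 0 ≤ P (a ⊓ b) * μ (a ⊓ b) * (Q (a ⊔ b) * μ (a ⊔ b) * A (a ⊔ b)) :=
      mul_nonneg (mul_nonneg (hP _) (hμ0 _)) (mul_nonneg (mul_nonneg (hQ _) (hμ0 _)) (hA _))
    simpa only [mul_zero, ge_iff_le] using this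
  have e1 : (P a * Q b) * (μ a * μ b) ≤ (P (a ⊓ b) * Q (a ⊔ b)) * (μ (a ⊓ b) * μ (a ⊔ b)) :=
    mul_le_mul (hPQ a b h1 h2) (hμ a b) (mul_nonneg (hμ0 a) (hμ0 b))
      (mul_nonneg (hP _) (hQ _))
  have e2 : A a ≤ A (a ⊔ b) := hAm le_sup_left
  calc P a * μ a * A a * (Q b * μ b) = (P a * Q b) * (μ a * μ b) * A a := by ring
    _ ≤ (P (a ⊓ b) * Q (a ⊔ b)) * (μ (a ⊓ b) * μ (a ⊔ b)) * A (a ⊔ b) :=
      mul_le_mul e1 e2 (hA a) (mul_nonneg (mul_nonneg (hP _) (hQ _))
        (mul_nonneg (hμ0 _) (hμ0 _)))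
    _ = _ := by ring

end Vale.Agent.P145.FK
end

section

/-!
P145, block K1: correlation inequality for magnitudes and signs, with two systems of sign
couplings.
-/

namespace Vale.Agent.P145.FK

open Finset
open scoped Classical

namespace Net

variable {V F E : Type*} {K : ℕ}

section mag
variable [Fintype V] [Fintype F] [Fintype E]

/-- Weight of the magnitudes: on-site weights, ice rule, flat weights. -/
noncomputable def mw (N : Net V F E) (t : ℝ) (κ : V ⊕ F → Fin (K + 1) → ℝ)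
    (a : V ⊕ F → Fin (K + 1)) : ℝ :=
  (if N.adm a then 1 else 0) * ((∏ e, N.wE t a e) * ∏ i, κ i (a i))

lemma mw_nonneg (N : Net V F E) {t : ℝ} (ht0 : 0 ≤ t) {κ : V ⊕ F → Fin (K + 1) → ℝ}
    (hκ : ∀ i x, 0 ≤ κ i x) (a : V ⊕ F → Fin (K + 1)) : 0 ≤ N.mw t κ a := by
  unfold mw
  refine mul_nonneg (by split_ifs <;> norm_num) (mul_nonneg ?_ ?_)
  · exact Finset.prod_nonneg fun e _ => wE_nonneg ht0 a e
  · exact Finset.prod_nonneg fun i _ => hκ i _

lemma mw_adm (N : Net V F E) {t : ℝ} {κ : V ⊕ F → Fin (K + 1) → ℝ}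
    {a : V ⊕ F → Fin (K + 1)} (h : N.mw t κ a ≠ 0) : N.adm a := by
  by_contra h'
  exact h (by simp only [mw, h', ↓reduceIte, Fintype.prod_sum_type, zero_mul])

lemma mw_lattice (N : Net V F E) {t : ℝ} (ht0 : 0 ≤ t) (ht : t ≤ 1)
    {κ : V ⊕ F → Fin (K + 1) → ℝ} (hκ : ∀ i x, 0 ≤ κ i x) (a b : V ⊕ F → Fin (K + 1)) :
    N.mw t κ a * N.mw t κ b ≤ N.mw t κ (a ⊓ b) * N.mw t κ (a ⊔ b) := by
  by_cases ha : N.adm a
  · by_cases hb : N.adm b
    · unfold mw
      rw [if_pos ha, if_pos hb, if_pos (adm_inf ha hb), if_pos (adm_sup ha hb), one_mul, one_mul,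
        one_mul, one_mul]
      have h1 : (∏ e, N.wE t a e) * (∏ e, N.wE t b e)
          ≤ (∏ e, N.wE t (a ⊓ b) e) * (∏ e, N.wE t (a ⊔ b) e) := by
        rw [← Finset.prod_mul_distrib, ← Finset.prod_mul_distrib]
        exact Finset.prod_le_prod
          (fun e _ => mul_nonneg (wE_nonneg ht0 a e) (wE_nonneg ht0 b e))
          (fun e _ => wE_lattice ht0 ht ha hb e)
      have h2 : (∏ i, κ i (a i)) * (∏ i, κ i (b i))
          = (∏ i, κ i ((a ⊓ b) i)) * (∏ i, κ i ((a ⊔ b) i)) := by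
        rw [← Finset.prod_mul_distrib, ← Finset.prod_mul_distrib]
        refine Finset.prod_congr rfl fun i _ => ?_
        rcases le_total (a i) (b i) with h | h
        · rw [Pi.inf_apply, Pi.sup_apply, inf_eq_left.mpr h, sup_eq_right.mpr h]
        · rw [Pi.inf_apply, Pi.sup_apply, inf_eq_right.mpr h, sup_eq_left.mpr h, mul_comm]
      calc _ = ((∏ e, N.wE t a e) * (∏ e, N.wE t b e)) *
            ((∏ i, κ i (a i)) * (∏ i, κ i (b i))) := by ring
        _ ≤ ((∏ e, N.wE t (a ⊓ b) e) * (∏ e, N.wE t (a ⊔ b) e)) *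
            ((∏ i, κ i (a i)) * (∏ i, κ i (b i))) :=
          mul_le_mul_of_nonneg_right h1 (mul_nonneg
            (Finset.prod_nonneg fun i _ => hκ i _) (Finset.prod_nonneg fun i _ => hκ i _))
        _ = _ := by rw [h2]; ring
    · have : N.mw t κ b = 0 := by simp only [mw, hb, ↓reduceIte, Fintype.prod_sum_type, zero_mul]
      rw [this, mul_zero]
      exact mul_nonneg (N.mw_nonneg ht0 hκ _) (N.mw_nonneg ht0 hκ _)
  · have : N.mw t κ a = 0 := by simp only [mw, ha, ↓reduceIte, Fintype.prod_sum_type, zero_mul]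
    rw [this, zero_mul]
    exact mul_nonneg (N.mw_nonneg ht0 hκ _) (N.mw_nonneg ht0 hκ _)

end mag

section main
variable [Fintype V] [Fintype F]

variable [Fintype E]

/-- Partition sum over magnitudes and signs. -/
noncomputable def S (N : Net V F E) (t : ℝ) (κ : V ⊕ F → Fin (K + 1) → ℝ) (r : E → ℝ)
    (G : (V ⊕ F → Fin (K + 1)) → (V ⊕ F → Bool) → ℝ) : ℝ :=
  ∑ a, ∑ s, N.mw t κ a * N.W r (supp a) s * G a s

/-- The product of the additional sign couplings. -/
noncomputable def Th (N : Net V F E) (q : E → ℝ) (s : V ⊕ F → Bool) : ℝ := ∏ e, N.th (q e) e s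

lemma Th_pos (N : Net V F E) {q : E → ℝ} (h0 : ∀ e, 0 ≤ q e) (h1 : ∀ e, q e ≤ 1) :
    Pos (N.Th q) := Pos.prod _ _ fun e _ => N.th_pos (h0 e) (h1 e) e

omit [Fintype V] [Fintype F] [Fintype E] in
lemma th_mul (N : Net V F E) (x y : ℝ) (e : E) (s : V ⊕ F → Bool) :
    N.th (x * y) e s = N.th x e s * N.th y e s := by
  unfold th pr
  cases s (.inr (N.f e)) <;> cases s (.inr (N.g e)) <;> norm_num <;> ring

omit [Fintype V] in
lemma W_mul (N : Net V F E) (x y : E → ℝ) (S : Finset V) (s : V ⊕ F → Bool) :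
    N.W (fun e => x e * y e) S s = N.W x S s * N.Th y s := by
  unfold W Th
  simp only [th_mul, Finset.prod_mul_distrib]
  ring

lemma Z_mul (N : Net V F E) (x y : E → ℝ) (S : Finset V) (φ : (V ⊕ F → Bool) → ℝ) :
    N.Z (fun e => x e * y e) S φ = N.Z x S (fun s => N.Th y s * φ s) := by
  unfold Z
  refine Finset.sum_congr rfl fun s _ => ?_
  rw [W_mul]; ring

lemma S_mag (N : Net V F E) (t : ℝ) (κ : V ⊕ F → Fin (K + 1) → ℝ) (r : E → ℝ)
    (P : (V ⊕ F → Fin (K + 1)) → ℝ) (φ : (V ⊕ F → Bool) → ℝ) :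
    N.S t κ r (fun a s => P a * φ s) = ∑ a, P a * N.mw t κ a * N.Z r (supp a) φ := by
  unfold S Z
  refine Finset.sum_congr rfl fun a _ => ?_
  rw [Finset.mul_sum]
  refine Finset.sum_congr rfl fun s _ => ?_
  ring

/-- Master inequality. `x` are the sign couplings of the first system and `x * q` those of the
second; `P` and `Q` are tilts by functions of the magnitudes. -/
theorem master (N : Net V F E) {t : ℝ} (ht0 : 0 ≤ t) (ht : t ≤ 1)
    {κ : V ⊕ F → Fin (K + 1) → ℝ} (hκ : ∀ i z, 0 ≤ κ i z) {x q : E → ℝ}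
    (hx0 : ∀ e, 0 ≤ x e) (hx1 : ∀ e, x e ≤ 1) (hq0 : ∀ e, 0 ≤ q e) (hq1 : ∀ e, q e ≤ 1)
    {P Q : (V ⊕ F → Fin (K + 1)) → ℝ} (hP : ∀ a, 0 ≤ P a) (hQ : ∀ a, 0 ≤ Q a)
    (hPQ : ∀ a b, N.mw t κ a ≠ 0 → N.mw t κ b ≠ 0 → P a * Q b ≤ P (a ⊓ b) * Q (a ⊔ b))
    {A : (V ⊕ F → Fin (K + 1)) → (V ⊕ F → Bool) → ℝ} (hA : Mon A) :
    N.S t κ x (fun a s => P a * A a s) * N.S t κ (fun e => x e * q e) (fun a _ => Q a)
      ≤ N.S t κ x (fun a _ => P a) * N.S t κ (fun e => x e * q e) (fun a s => Q a * A a s) := by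
  induction hA with
  | add h1 h2 ih1 ih2 =>
    have e1 : ∀ (y : E → ℝ) (R : (V ⊕ F → Fin (K + 1)) → ℝ)
        (f g : (V ⊕ F → Fin (K + 1)) → (V ⊕ F → Bool) → ℝ),
        N.S t κ y (fun a s => R a * (f a s + g a s))
          = N.S t κ y (fun a s => R a * f a s) + N.S t κ y (fun a s => R a * g a s) := by
      intro y R f g
      unfold S
      rw [← Finset.sum_add_distrib]
      refine Finset.sum_congr rfl fun a _ => ?_
      rw [← Finset.sum_add_distrib]
      refine Finset.sum_congr rfl fun s _ => ?_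
      ring
    rw [e1, e1, add_mul, mul_add]
    exact add_le_add ih1 ih2
  | @one B hB0 hB φ hφ =>
    set r : E → ℝ := fun e => x e * q e with hr
    have hr0 : ∀ e, 0 ≤ r e := fun e => mul_nonneg (hx0 e) (hq0 e)
    have hr1 : ∀ e, r e ≤ 1 := fun e => mul_le_one₀ (hx1 e) (hq0 e) (hq1 e)
    have z0 : ∀ T : Finset V, 0 < N.Z x T (fun _ => 1) := fun T => N.Z_one_pos hx0 T
    have z1 : ∀ T : Finset V, 0 < N.Z r T (fun _ => 1) := fun T => N.Z_one_pos hr0 T
    have zr : ∀ (T : Finset V) (ψ : (V ⊕ F → Bool) → ℝ),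
        N.Z r T ψ = N.Z x T (fun s => N.Th q s * ψ s) := fun T ψ => N.Z_mul x q T ψ
    have hTh := N.Th_pos hq0 hq1
    -- sign expectations increase with the couplings
    have c1 : ∀ T : Finset V,
        N.Z x T φ ≤ N.Z x T (fun _ => 1) * (N.Z r T φ / N.Z r T (fun _ => 1)) := by
      intro T
      have h := gks (N.W_ferro hx0 hx1 T) hφ hTh
      have h2 : N.Z x T φ * N.Z r T (fun _ => 1) ≤ N.Z x T (fun _ => 1) * N.Z r T φ := by
        rw [zr T φ, zr T (fun _ => 1)]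
        unfold Z
        simp only [mul_one]
        refine h.trans (le_of_eq ?_)
        congr 1
        refine Finset.sum_congr rfl fun s _ => ?_
        ring
      rw [← mul_div_assoc, le_div_iff₀ (z1 T)]
      exact h2
    -- the ratio of the sign partition functions
    have c2 : ∀ S T : Finset V, S ⊆ T → N.Z x T (fun _ => 1) / N.Z r T (fun _ => 1)
        ≤ N.Z x S (fun _ => 1) / N.Z r S (fun _ => 1) := by
      intro S T hST
      have h := N.Z_mono hx0 hx1 hST hTh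
      have hS : N.Z r S (fun _ => 1) = N.Z x S (N.Th q) := by
        rw [zr]; simp only [mul_one]
      have hT : N.Z r T (fun _ => 1) = N.Z x T (N.Th q) := by
        rw [zr]; simp only [mul_one]
      rw [div_le_div_iff₀ (z1 T) (z1 S), hS, hT, mul_comm]
      exact h
    -- the averaged observable
    have c3 : ∀ S T : Finset V, S ⊆ T → N.Z r S φ / N.Z r S (fun _ => 1)
        ≤ N.Z r T φ / N.Z r T (fun _ => 1) := by
      intro S T hST
      have h := N.Z_mono hr0 hr1 hST hφ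
      rw [div_le_div_iff₀ (z1 S) (z1 T), mul_comm (N.Z r T φ)]
      exact h
    have c4 : ∀ T : Finset V, 0 ≤ N.Z r T φ / N.Z r T (fun _ => 1) := fun T =>
      div_nonneg (N.Z_pos hr0 hr1 T hφ) (z1 T).le
    have m0 := N.mw_nonneg (κ := κ) ht0 hκ
    have key := four (fun a => N.mw t κ a * N.Z r (supp a) (fun _ => 1))
      (fun a => P a * (N.Z x (supp a) (fun _ => 1) / N.Z r (supp a) (fun _ => 1))) Q
      (fun a => B a * (N.Z r (supp a) φ / N.Z r (supp a) (fun _ => 1)))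
      (fun a => mul_nonneg (m0 a) (z1 _).le)
      (fun a b => by
        have h1 := N.mw_lattice ht0 ht hκ a b
        have h2 := N.Z_super hr0 hr1 (supp a) (supp b)
        rw [← supp_inf, ← supp_sup] at h2
        calc N.mw t κ a * N.Z r (supp a) (fun _ => 1) * (N.mw t κ b * N.Z r (supp b) (fun _ => 1))
            = (N.mw t κ a * N.mw t κ b) *
              (N.Z r (supp a) (fun _ => 1) * N.Z r (supp b) (fun _ => 1)) := by ring
          _ ≤ (N.mw t κ (a ⊓ b) * N.mw t κ (a ⊔ b)) *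
              (N.Z r (supp (a ⊓ b)) (fun _ => 1) * N.Z r (supp (a ⊔ b)) (fun _ => 1)) :=
            mul_le_mul h1 h2 (mul_nonneg (z1 _).le (z1 _).le) (mul_nonneg (m0 _) (m0 _))
          _ = _ := by ring)
      (fun a => mul_nonneg (hP a) (div_nonneg (z0 _).le (z1 _).le)) hQ
      (fun a => mul_nonneg (hB0 a) (c4 _))
      (fun a b hab => mul_le_mul (hB hab) (c3 _ _ (supp_mono hab)) (c4 _) (hB0 b))
      (fun a b ha hb => by
        have h1 := hPQ a b (left_ne_zero_of_mul ha) (left_ne_zero_of_mul hb)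
        have h2 := c2 (supp (a ⊓ b)) (supp a) (supp_mono inf_le_left)
        calc P a * (N.Z x (supp a) (fun _ => 1) / N.Z r (supp a) (fun _ => 1)) * Q b
            = (P a * Q b) * (N.Z x (supp a) (fun _ => 1) / N.Z r (supp a) (fun _ => 1)) := by ring
          _ ≤ (P (a ⊓ b) * Q (a ⊔ b)) *
              (N.Z x (supp (a ⊓ b)) (fun _ => 1) / N.Z r (supp (a ⊓ b)) (fun _ => 1)) :=
            mul_le_mul h1 h2 (div_nonneg (z0 _).le (z1 _).le) (mul_nonneg (hP _) (hQ _))
          _ = _ := by ring)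
    -- rewrite the four sums
    have s1 : N.S t κ x (fun a s => P a * (B a * φ s))
        ≤ ∑ a, P a * (N.Z x (supp a) (fun _ => 1) / N.Z r (supp a) (fun _ => 1)) *
          (N.mw t κ a * N.Z r (supp a) (fun _ => 1)) *
          (B a * (N.Z r (supp a) φ / N.Z r (supp a) (fun _ => 1))) := by
      have e : N.S t κ x (fun a s => P a * (B a * φ s))
          = ∑ a, P a * B a * N.mw t κ a * N.Z x (supp a) φ := by
        rw [← S_mag]
        congr 1
        funext a s
        ring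
      rw [e]
      refine Finset.sum_le_sum fun a _ => ?_
      have h := c1 (supp a)
      have hne := (z1 (supp a)).ne'
      calc P a * B a * N.mw t κ a * N.Z x (supp a) φ
          ≤ P a * B a * N.mw t κ a * (N.Z x (supp a) (fun _ => 1) *
            (N.Z r (supp a) φ / N.Z r (supp a) (fun _ => 1))) :=
            mul_le_mul_of_nonneg_left h (mul_nonneg (mul_nonneg (hP a) (hB0 a)) (m0 a))
        _ = _ := by (clear * - hne; field_simp)
    have s2 : N.S t κ r (fun a _ => Q a)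
        = ∑ a, Q a * (N.mw t κ a * N.Z r (supp a) (fun _ => 1)) := by
      have e := S_mag N t κ r Q (fun _ => 1)
      simp only [mul_one] at e
      rw [e]
      refine Finset.sum_congr rfl fun a _ => ?_
      ring
    have s3 : N.S t κ x (fun a _ => P a)
        = ∑ a, P a * (N.Z x (supp a) (fun _ => 1) / N.Z r (supp a) (fun _ => 1)) *
          (N.mw t κ a * N.Z r (supp a) (fun _ => 1)) := by
      have e := S_mag N t κ x P (fun _ => 1)
      simp only [mul_one] at e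
      rw [e]
      refine Finset.sum_congr rfl fun a _ => ?_
      have hne := (z1 (supp a)).ne'
      (clear * - hne; field_simp)
    have s4 : N.S t κ r (fun a s => Q a * (B a * φ s))
        = ∑ a, Q a * (N.mw t κ a * N.Z r (supp a) (fun _ => 1)) *
          (B a * (N.Z r (supp a) φ / N.Z r (supp a) (fun _ => 1))) := by
      have e : N.S t κ r (fun a s => Q a * (B a * φ s))
          = ∑ a, Q a * B a * N.mw t κ a * N.Z r (supp a) φ := by
        rw [← S_mag]
        congr 1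
        funext a s
        ring
      rw [e]
      refine Finset.sum_congr rfl fun a _ => ?_
      have hne := (z1 (supp a)).ne'
      (clear * - hne; field_simp)
    have s2n : 0 ≤ N.S t κ r (fun a _ => Q a) := by
      rw [s2]
      exact Finset.sum_nonneg fun a _ => mul_nonneg (hQ a) (mul_nonneg (m0 a) (z1 _).le)
    calc N.S t κ x (fun a s => P a * (B a * φ s)) * N.S t κ r (fun a _ => Q a)
        ≤ (∑ a, P a * (N.Z x (supp a) (fun _ => 1) / N.Z r (supp a) (fun _ => 1)) *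
          (N.mw t κ a * N.Z r (supp a) (fun _ => 1)) *
          (B a * (N.Z r (supp a) φ / N.Z r (supp a) (fun _ => 1)))) *
          N.S t κ r (fun a _ => Q a) := mul_le_mul_of_nonneg_right s1 s2n
      _ ≤ _ := by
        rw [s2, s3, s4]
        exact key

end main

end Net

end Vale.Agent.P145.FK
end

section

/-!
P145, block K1: joint law of magnitudes, signs and open/closed medial vertices.
The medial vertex `e` is closed (`ω e = false`) or open (`ω e = true`); an open one forces the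
signs of its two odd sites to agree.
-/

namespace Vale.Agent.P145.FK

open Finset
open scoped Classical

namespace Net

variable {V F E : Type*} {K : ℕ}

/-- Magnitudes and open medial vertices. -/
abbrev Cfg (V F E : Type*) (K : ℕ) := (V ⊕ F → Fin (K + 1)) × (E → Bool)

section basic
variable [Fintype V] [Fintype F]

/-- The constraint at a nonzero even site or at an open medial vertex. -/
noncomputable def con (N : Net V F E) (i : V ⊕ E) (s : V ⊕ F → Bool) : ℝ :=
  Sum.elim (fun v => N.cv v s) (fun e => N.th 0 e s) i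

omit [Fintype V] in
lemma con_cases (N : Net V F E) (i : V ⊕ E) (s : V ⊕ F → Bool) : N.con i s = 0 ∨ N.con i s = 1 := by
  rcases i with v | e
  · exact N.cv_cases v s
  · simp only [con, Sum.elim_inr, th, pr]
    cases s (.inr (N.f e)) <;> cases s (.inr (N.g e)) <;> norm_num

omit [Fintype V] in
lemma con_nonneg (N : Net V F E) (i : V ⊕ E) (s : V ⊕ F → Bool) : 0 ≤ N.con i s := by
  rcases N.con_cases i s with h | h <;> simp [h]

lemma con_pos (N : Net V F E) (i : V ⊕ E) : Pos (N.con i) := by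
  rcases i with v | e
  · exact N.cv_pos v
  · exact N.th_pos le_rfl zero_le_one e

lemma con_ferro (N : Net V F E) (i : V ⊕ E) : Ferro (N.con i) := by
  rcases i with v | e
  · exact N.cv_ferro v
  · exact N.th_ferro le_rfl zero_le_one e

/-- Product of the active constraints. -/
noncomputable def cst (N : Net V F E) (T : Finset (V ⊕ E)) (s : V ⊕ F → Bool) : ℝ :=
  ∏ i ∈ T, N.con i s

omit [Fintype V] in
lemma cst_nonneg (N : Net V F E) (T : Finset (V ⊕ E)) (s : V ⊕ F → Bool) : 0 ≤ N.cst T s :=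
  Finset.prod_nonneg fun i _ => N.con_nonneg i s

lemma cst_pos (N : Net V F E) (T : Finset (V ⊕ E)) : Pos (N.cst T) :=
  Pos.prod _ _ fun i _ => N.con_pos i

lemma cst_ferro (N : Net V F E) (T : Finset (V ⊕ E)) : Ferro (N.cst T) :=
  Ferro.prod _ _ fun i _ => N.con_ferro i

omit [Fintype V] in
lemma cst_union (N : Net V F E) (S T : Finset (V ⊕ E)) (hd : Disjoint S T)
    (s : V ⊕ F → Bool) : N.cst (S ∪ T) s = N.cst S s * N.cst T s := by
  unfold cst
  rw [Finset.prod_union hd]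

omit [Fintype V] in
lemma cst_false (N : Net V F E) (T : Finset (V ⊕ E)) : N.cst T (fun _ => false) = 1 := by
  unfold cst
  refine Finset.prod_eq_one fun i _ => ?_
  rcases i with v | e
  · simp only [con, Sum.elim_inl, cv, pr, sv_false]
    norm_num
  · simp only [con, Sum.elim_inr, th, pr, sv_false]
    norm_num

/-- Sign sum. -/
noncomputable def Y (N : Net V F E) (T : Finset (V ⊕ E)) (φ : (V ⊕ F → Bool) → ℝ) : ℝ :=
  ∑ s, N.cst T s * φ s

lemma Y_one_pos (N : Net V F E) (T : Finset (V ⊕ E)) : 0 < N.Y T (fun _ => 1) := by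
  unfold Y
  have h2 : N.cst T (fun _ => false) * 1 ≤ ∑ s, N.cst T s * 1 :=
    Finset.single_le_sum (f := fun s => N.cst T s * 1)
      (fun s _ => by rw [mul_one]; exact N.cst_nonneg T s) (Finset.mem_univ _)
  rw [N.cst_false] at h2
  linarith

lemma Y_pos (N : Net V F E) (T : Finset (V ⊕ E)) {φ : (V ⊕ F → Bool) → ℝ} (hφ : Pos φ) :
    0 ≤ N.Y T φ := Pos.sum_nonneg (Pos.mul (N.cst_pos T) hφ)

lemma Y_super (N : Net V F E) (S T : Finset (V ⊕ E)) :
    N.Y S (fun _ => 1) * N.Y T (fun _ => 1)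
      ≤ N.Y (S ∩ T) (fun _ => 1) * N.Y (S ∪ T) (fun _ => 1) := by
  have h := gks (N.cst_ferro (S ∩ T)) (N.cst_pos (S \ T)) (N.cst_pos (T \ S))
  have eS : S = (S ∩ T) ∪ (S \ T) := by ext x; simp; tauto
  have eT : T = (S ∩ T) ∪ (T \ S) := by ext x; simp; tauto
  have eU : S ∪ T = ((S ∩ T) ∪ (S \ T)) ∪ (T \ S) := by ext x; simp; tauto
  have d1 : Disjoint (S ∩ T) (S \ T) := by
    rw [Finset.disjoint_left]; intro x hx hx'; simp at hx hx'; tauto
  have d2 : Disjoint (S ∩ T) (T \ S) := by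
    rw [Finset.disjoint_left]; intro x hx hx'; simp at hx hx'; tauto
  have d3 : Disjoint ((S ∩ T) ∪ (S \ T)) (T \ S) := by
    rw [Finset.disjoint_left]; intro x hx hx'; simp at hx hx'; (clear * - hx hx'; tauto)
  have z1 : N.Y S (fun _ => 1) = ∑ s, N.cst (S ∩ T) s * N.cst (S \ T) s := by
    unfold Y
    refine Finset.sum_congr rfl fun s _ => ?_
    rw [mul_one, ← N.cst_union _ _ d1, ← eS]
  have z2 : N.Y T (fun _ => 1) = ∑ s, N.cst (S ∩ T) s * N.cst (T \ S) s := by
    unfold Y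
    refine Finset.sum_congr rfl fun s _ => ?_
    rw [mul_one, ← N.cst_union _ _ d2, ← eT]
  have z3 : N.Y (S ∪ T) (fun _ => 1) = ∑ s, N.cst (S ∩ T) s *
      (N.cst (S \ T) s * N.cst (T \ S) s) := by
    unfold Y
    refine Finset.sum_congr rfl fun s _ => ?_
    rw [mul_one, ← mul_assoc, ← N.cst_union _ _ d1, ← N.cst_union _ _ d3, ← eU]
  have z4 : N.Y (S ∩ T) (fun _ => 1) = ∑ s, N.cst (S ∩ T) s := by
    unfold Y; simp
  rw [z1, z2, z3, z4]
  exact h

lemma Y_mono (N : Net V F E) {S T : Finset (V ⊕ E)} (hST : S ⊆ T)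
    {φ : (V ⊕ F → Bool) → ℝ} (hφ : Pos φ) :
    N.Y S φ * N.Y T (fun _ => 1) ≤ N.Y S (fun _ => 1) * N.Y T φ := by
  have h := gks (N.cst_ferro S) hφ (N.cst_pos (T \ S))
  have d1 : Disjoint S (T \ S) := Finset.disjoint_sdiff
  have eT : T = S ∪ (T \ S) := (Finset.union_sdiff_of_subset hST).symm
  have z1 : N.Y T (fun _ => 1) = ∑ s, N.cst S s * N.cst (T \ S) s := by
    unfold Y
    refine Finset.sum_congr rfl fun s _ => ?_
    rw [mul_one, ← N.cst_union _ _ d1, ← eT]
  have z2 : N.Y T φ = ∑ s, N.cst S s * (φ s * N.cst (T \ S) s) := by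
    unfold Y
    refine Finset.sum_congr rfl fun s _ => ?_
    rw [eT, N.cst_union _ _ d1, ← eT]; ring
  have z3 : N.Y S (fun _ => 1) = ∑ s, N.cst S s := by
    unfold Y; simp
  rw [z1, z2, z3]
  exact h

end basic

section joint
variable [Fintype V] [Fintype F] [Fintype E]

/-- The active constraints. -/
noncomputable def act (x : Cfg V F E K) : Finset (V ⊕ E) :=
  Finset.univ.filter (fun i => Sum.elim (fun v => (x.1 (.inl v) : ℕ) ≠ 0) (fun e => x.2 e = true) i)

omit [Fintype F] in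
lemma mem_act_inl {x : Cfg V F E K} {v : V} : (.inl v : V ⊕ E) ∈ act x ↔ (x.1 (.inl v) : ℕ) ≠ 0 := by
  simp only [act, ne_eq, Fin.val_eq_zero_iff, mem_filter, mem_univ, Sum.elim_inl, true_and]

omit [Fintype F] in
lemma mem_act_inr {x : Cfg V F E K} {e : E} : (.inr e : V ⊕ E) ∈ act x ↔ x.2 e = true := by
  simp only [act, ne_eq, Fin.val_eq_zero_iff, mem_filter, mem_univ, Sum.elim_inr, true_and]

omit [Fintype F] in
lemma act_inf (x y : Cfg V F E K) : act (x ⊓ y) = act x ∩ act y := by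
  ext i
  rcases i with v | e
  · simp only [Finset.mem_inter, mem_act_inl, Prod.fst_inf, Pi.inf_apply, fmin]
    omega
  · simp only [Finset.mem_inter, mem_act_inr, Prod.snd_inf, Pi.inf_apply]
    cases x.2 e <;> cases y.2 e <;> simp

omit [Fintype F] in
lemma act_sup (x y : Cfg V F E K) : act (x ⊔ y) = act x ∪ act y := by
  ext i
  rcases i with v | e
  · simp only [Finset.mem_union, mem_act_inl, Prod.fst_sup, Pi.sup_apply, fmax]
    omega
  · simp only [Finset.mem_union, mem_act_inr, Prod.snd_sup, Pi.sup_apply]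
    cases x.2 e <;> cases y.2 e <;> simp

omit [Fintype F] in
lemma act_mono {x y : Cfg V F E K} (h : x ≤ y) : act x ⊆ act y := by
  have : act x = act x ∩ act y := by rw [← act_inf, inf_eq_left.mpr h]
  rw [this]
  exact Finset.inter_subset_right

/-- Joint weight of magnitudes and open medial vertices (without the signs). -/
noncomputable def jw (N : Net V F E) (t : ℝ) (κ : V ⊕ F → Fin (K + 1) → ℝ) (β : E → Bool → ℝ)
    (x : Cfg V F E K) : ℝ := N.mw t κ x.1 * ∏ e, β e (x.2 e)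

lemma jw_nonneg (N : Net V F E) {t : ℝ} (ht0 : 0 ≤ t) {κ : V ⊕ F → Fin (K + 1) → ℝ}
    (hκ : ∀ i z, 0 ≤ κ i z) {β : E → Bool → ℝ} (hβ : ∀ e b, 0 ≤ β e b) (x : Cfg V F E K) :
    0 ≤ N.jw t κ β x :=
  mul_nonneg (N.mw_nonneg ht0 hκ _) (Finset.prod_nonneg fun e _ => hβ e _)

lemma jw_lattice (N : Net V F E) {t : ℝ} (ht0 : 0 ≤ t) (ht : t ≤ 1)
    {κ : V ⊕ F → Fin (K + 1) → ℝ} (hκ : ∀ i z, 0 ≤ κ i z) {β : E → Bool → ℝ}
    (hβ : ∀ e b, 0 ≤ β e b) (x y : Cfg V F E K) :
    N.jw t κ β x * N.jw t κ β y ≤ N.jw t κ β (x ⊓ y) * N.jw t κ β (x ⊔ y) := by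
  unfold jw
  have h1 := N.mw_lattice ht0 ht hκ x.1 y.1
  have h2 : (∏ e, β e (x.2 e)) * (∏ e, β e (y.2 e))
      = (∏ e, β e ((x ⊓ y).2 e)) * (∏ e, β e ((x ⊔ y).2 e)) := by
    rw [← Finset.prod_mul_distrib, ← Finset.prod_mul_distrib]
    refine Finset.prod_congr rfl fun e _ => ?_
    simp only [Prod.snd_inf, Prod.snd_sup, Pi.inf_apply, Pi.sup_apply]
    cases x.2 e <;> cases y.2 e <;> simp [mul_comm]
  calc N.mw t κ x.1 * (∏ e, β e (x.2 e)) * (N.mw t κ y.1 * ∏ e, β e (y.2 e))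
      = (N.mw t κ x.1 * N.mw t κ y.1) * ((∏ e, β e (x.2 e)) * (∏ e, β e (y.2 e))) := by ring
    _ ≤ (N.mw t κ (x.1 ⊓ y.1) * N.mw t κ (x.1 ⊔ y.1)) *
        ((∏ e, β e (x.2 e)) * (∏ e, β e (y.2 e))) :=
      mul_le_mul_of_nonneg_right h1 (mul_nonneg
        (Finset.prod_nonneg fun e _ => hβ e _) (Finset.prod_nonneg fun e _ => hβ e _))
    _ = _ := by
      rw [h2]
      simp only [Prod.fst_inf, Prod.fst_sup]
      ring

/-- Partition sum over magnitudes, open medial vertices and signs. -/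
noncomputable def J (N : Net V F E) (t : ℝ) (κ : V ⊕ F → Fin (K + 1) → ℝ) (β : E → Bool → ℝ)
    (G : Cfg V F E K → (V ⊕ F → Bool) → ℝ) : ℝ :=
  ∑ x, ∑ s, N.jw t κ β x * N.cst (act x) s * G x s

lemma J_mag (N : Net V F E) (t : ℝ) (κ : V ⊕ F → Fin (K + 1) → ℝ) (β : E → Bool → ℝ)
    (P : Cfg V F E K → ℝ) (φ : (V ⊕ F → Bool) → ℝ) :
    N.J t κ β (fun x s => P x * φ s) = ∑ x, P x * N.jw t κ β x * N.Y (act x) φ := by
  unfold J Y
  refine Finset.sum_congr rfl fun x _ => ?_
  rw [Finset.mul_sum]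
  refine Finset.sum_congr rfl fun s _ => ?_
  ring

lemma J_add (N : Net V F E) (t : ℝ) (κ : V ⊕ F → Fin (K + 1) → ℝ) (β : E → Bool → ℝ)
    (G H : Cfg V F E K → (V ⊕ F → Bool) → ℝ) :
    N.J t κ β (fun x s => G x s + H x s) = N.J t κ β G + N.J t κ β H := by
  unfold J
  rw [← Finset.sum_add_distrib]
  refine Finset.sum_congr rfl fun x _ => ?_
  rw [← Finset.sum_add_distrib]
  refine Finset.sum_congr rfl fun s _ => ?_
  ring

lemma J_congr (N : Net V F E) (t : ℝ) (κ : V ⊕ F → Fin (K + 1) → ℝ) (β : E → Bool → ℝ)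
    {G H : Cfg V F E K → (V ⊕ F → Bool) → ℝ}
    (h : ∀ x s, N.jw t κ β x ≠ 0 → N.cst (act x) s ≠ 0 → G x s = H x s) :
    N.J t κ β G = N.J t κ β H := by
  unfold J
  refine Finset.sum_congr rfl fun x _ => Finset.sum_congr rfl fun s _ => ?_
  by_cases h1 : N.jw t κ β x = 0
  · simp [h1]
  by_cases h2 : N.cst (act x) s = 0
  · simp [h2]
  rw [h x s h1 h2]

lemma J_nonneg (N : Net V F E) {t : ℝ} (ht0 : 0 ≤ t) {κ : V ⊕ F → Fin (K + 1) → ℝ}
    (hκ : ∀ i z, 0 ≤ κ i z) {β : E → Bool → ℝ} (hβ : ∀ e b, 0 ≤ β e b)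
    {G : Cfg V F E K → (V ⊕ F → Bool) → ℝ} (hG : ∀ x s, 0 ≤ G x s) : 0 ≤ N.J t κ β G :=
  Finset.sum_nonneg fun x _ => Finset.sum_nonneg fun s _ =>
    mul_nonneg (mul_nonneg (N.jw_nonneg ht0 hκ hβ x) (N.cst_nonneg _ s)) (hG x s)

/-- Master inequality for the joint law. -/
theorem masterJ (N : Net V F E) {t : ℝ} (ht0 : 0 ≤ t) (ht : t ≤ 1)
    {κ : V ⊕ F → Fin (K + 1) → ℝ} (hκ : ∀ i z, 0 ≤ κ i z) {β : E → Bool → ℝ}
    (hβ : ∀ e b, 0 ≤ β e b) {P Q : Cfg V F E K → ℝ} (hP : ∀ x, 0 ≤ P x) (hQ : ∀ x, 0 ≤ Q x)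
    (hPQ : ∀ x y, N.jw t κ β x ≠ 0 → N.jw t κ β y ≠ 0 → P x * Q y ≤ P (x ⊓ y) * Q (x ⊔ y))
    {A : Cfg V F E K → (V ⊕ F → Bool) → ℝ} (hA : Mon A) :
    N.J t κ β (fun x s => P x * A x s) * N.J t κ β (fun x _ => Q x)
      ≤ N.J t κ β (fun x _ => P x) * N.J t κ β (fun x s => Q x * A x s) := by
  induction hA with
  | add h1 h2 ih1 ih2 =>
    simp only [mul_add, J_add]
    rw [add_mul]
    exact add_le_add ih1 ih2
  | @one B hB0 hB φ hφ =>
    have z1 : ∀ T : Finset (V ⊕ E), 0 < N.Y T (fun _ => 1) := fun T => N.Y_one_pos T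
    have c3 : ∀ S T : Finset (V ⊕ E), S ⊆ T → N.Y S φ / N.Y S (fun _ => 1)
        ≤ N.Y T φ / N.Y T (fun _ => 1) := by
      intro S T hST
      have h := N.Y_mono hST hφ
      rw [div_le_div_iff₀ (z1 S) (z1 T), mul_comm (N.Y T φ)]
      exact h
    have c4 : ∀ T : Finset (V ⊕ E), 0 ≤ N.Y T φ / N.Y T (fun _ => 1) := fun T =>
      div_nonneg (N.Y_pos T hφ) (z1 T).le
    have m0 := N.jw_nonneg (κ := κ) ht0 hκ hβ
    have key := four (fun x : Cfg V F E K => N.jw t κ β x * N.Y (act x) (fun _ => 1)) P Q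
      (fun x => B x * (N.Y (act x) φ / N.Y (act x) (fun _ => 1)))
      (fun x => mul_nonneg (m0 x) (z1 _).le)
      (fun x y => by
        have h1 := N.jw_lattice ht0 ht hκ hβ x y
        have h2 := N.Y_super (act x) (act y)
        rw [← act_inf, ← act_sup] at h2
        calc N.jw t κ β x * N.Y (act x) (fun _ => 1) * (N.jw t κ β y * N.Y (act y) (fun _ => 1))
            = (N.jw t κ β x * N.jw t κ β y) *
              (N.Y (act x) (fun _ => 1) * N.Y (act y) (fun _ => 1)) := by ring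
          _ ≤ (N.jw t κ β (x ⊓ y) * N.jw t κ β (x ⊔ y)) *
              (N.Y (act (x ⊓ y)) (fun _ => 1) * N.Y (act (x ⊔ y)) (fun _ => 1)) :=
            mul_le_mul h1 h2 (mul_nonneg (z1 _).le (z1 _).le) (mul_nonneg (m0 _) (m0 _))
          _ = _ := by ring)
      hP hQ (fun x => mul_nonneg (hB0 x) (c4 _))
      (fun x y hxy => mul_le_mul (hB hxy) (c3 _ _ (act_mono hxy)) (c4 _) (hB0 y))
      (fun x y hx hy => hPQ x y (left_ne_zero_of_mul hx) (left_ne_zero_of_mul hy))
    have sA : ∀ R : Cfg V F E K → ℝ, N.J t κ β (fun x s => R x * (B x * φ s))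
        = ∑ x, R x * (N.jw t κ β x * N.Y (act x) (fun _ => 1)) *
          (B x * (N.Y (act x) φ / N.Y (act x) (fun _ => 1))) := by
      intro R
      have e : N.J t κ β (fun x s => R x * (B x * φ s))
          = ∑ x, R x * B x * N.jw t κ β x * N.Y (act x) φ := by
        rw [← J_mag]
        congr 1
        funext x s
        ring
      rw [e]
      refine Finset.sum_congr rfl fun x _ => ?_
      have hne := (z1 (act x)).ne'
      (clear * - hne; field_simp)
    have s1 : ∀ R : Cfg V F E K → ℝ, N.J t κ β (fun x _ => R x)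
        = ∑ x, R x * (N.jw t κ β x * N.Y (act x) (fun _ => 1)) := by
      intro R
      have e := J_mag N t κ β R (fun _ => 1)
      simp only [mul_one] at e
      rw [e]
      refine Finset.sum_congr rfl fun x _ => ?_
      ring
    rw [sA P, sA Q, s1 P, s1 Q]
    exact key

end joint

end Net

end Vale.Agent.P145.FK
end

section

/-!
P145, block K1: zero boundary conditions on the complement of a set `D` of odd sites;
domain monotonicity and comparison with tilted laws.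
-/

namespace Vale.Agent.P145.FK

open Finset
open scoped Classical

namespace Net

variable {V F E : Type*} {K : ℕ}

/-- Interior sites of the set `D` of odd sites. -/
def inD (N : Net V F E) (D : Set F) (i : V ⊕ F) : Prop :=
  Sum.elim (fun v => ∀ f, N.inc v f → f ∈ D) (fun f => f ∈ D) i

/-- Interior medial vertices. -/
def inE (N : Net V F E) (D : Set F) (e : E) : Prop := N.f e ∈ D ∧ N.g e ∈ D

/-- Everything outside `D` is minimal and closed. -/
def zb (N : Net V F E) (D : Set F) (x : Cfg V F E K) : Prop :=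
  (∀ i, ¬ N.inD D i → (x.1 i : ℕ) = 0) ∧ ∀ e, ¬ N.inE D e → x.2 e = false

/-- Indicator of `zb`. -/
noncomputable def zbi (N : Net V F E) (D : Set F) (x : Cfg V F E K) : ℝ :=
  if N.zb D x then 1 else 0

/-- Agreement outside `D`. -/
def agOut (N : Net V F E) (D : Set F) (x y : Cfg V F E K) : Prop :=
  (∀ i, ¬ N.inD D i → x.1 i = y.1 i) ∧ ∀ e, ¬ N.inE D e → x.2 e = y.2 e

/-- Agreement inside `D`. -/
def agIn (N : Net V F E) (D : Set F) (x y : Cfg V F E K) : Prop :=
  (∀ i, N.inD D i → x.1 i = y.1 i) ∧ ∀ e, N.inE D e → x.2 e = y.2 e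

lemma inD_mono {N : Net V F E} {D D' : Set F} (h : D ⊆ D') {i : V ⊕ F} (hi : N.inD D i) :
    N.inD D' i := by
  rcases i with v | f
  · exact fun f hf => h (hi f hf)
  · exact h hi

lemma inE_mono {N : Net V F E} {D D' : Set F} (h : D ⊆ D') {e : E} (he : N.inE D e) :
    N.inE D' e := ⟨h he.1, h he.2⟩

lemma zb_mono {N : Net V F E} {D D' : Set F} (h : D ⊆ D') {x : Cfg V F E K} (hx : N.zb D x) :
    N.zb D' x :=
  ⟨fun i hi => hx.1 i fun h' => hi (inD_mono h h'), fun e he => hx.2 e fun h' => he (inE_mono h h')⟩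

lemma zb_inf {N : Net V F E} {D : Set F} {x : Cfg V F E K} (hx : N.zb D x) (y : Cfg V F E K) :
    N.zb D (x ⊓ y) := by
  refine ⟨fun i hi => ?_, fun e he => ?_⟩
  · have h := hx.1 i hi
    simp only [Prod.fst_inf, Pi.inf_apply, fmin, h]
    omega
  · have h := hx.2 e he
    simp only [Prod.snd_inf, Pi.inf_apply, h, Bool.false_le, inf_of_le_left]

lemma zb_sup {N : Net V F E} {D : Set F} {x y : Cfg V F E K} (hx : N.zb D x) (hy : N.zb D y) :
    N.zb D (x ⊔ y) := by
  refine ⟨fun i hi => ?_, fun e he => ?_⟩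
  · have h := hx.1 i hi
    have h' := hy.1 i hi
    simp only [Prod.fst_sup, Pi.sup_apply, fmax, h, h']
    omega
  · have h := hx.2 e he
    have h' := hy.2 e he
    simp only [Prod.snd_sup, Pi.sup_apply, h, h', max_self]

lemma agOut_sup {N : Net V F E} {D : Set F} {x : Cfg V F E K} (hx : N.zb D x)
    (y : Cfg V F E K) : N.agOut D (x ⊔ y) y := by
  refine ⟨fun i hi => ?_, fun e he => ?_⟩
  · have h := hx.1 i hi
    apply Fin.ext
    simp only [Prod.fst_sup, Pi.sup_apply, fmax, h]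
    omega
  · have h := hx.2 e he
    simp only [Prod.snd_sup, Pi.sup_apply, h, Bool.false_le, sup_of_le_right]

lemma zbi_nonneg (N : Net V F E) (D : Set F) (x : Cfg V F E K) : 0 ≤ N.zbi D x := by
  unfold zbi; split_ifs <;> norm_num

section
variable [Fintype V] [Fintype F] [Fintype E]

/-- Comparison of the zero boundary condition on `D`, tilted by a decreasing function, with an
increasing tilt. -/
theorem zero_le_tilt (N : Net V F E) {t : ℝ} (ht0 : 0 ≤ t) (ht : t ≤ 1)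
    {κ : V ⊕ F → Fin (K + 1) → ℝ} (hκ : ∀ i z, 0 ≤ κ i z) {β : E → Bool → ℝ}
    (hβ : ∀ e b, 0 ≤ β e b) (D : Set F) {X Q : Cfg V F E K → ℝ} (hX : ∀ x, 0 ≤ X x)
    (hXa : Antitone X) (hQ : ∀ x, 0 ≤ Q x) (hQD : ∀ x y, N.zb D x → Q y ≤ Q (x ⊔ y))
    {A : Cfg V F E K → (V ⊕ F → Bool) → ℝ} (hA : Mon A) :
    N.J t κ β (fun x s => X x * N.zbi D x * A x s) * N.J t κ β (fun x _ => Q x)
      ≤ N.J t κ β (fun x _ => X x * N.zbi D x) * N.J t κ β (fun x s => Q x * A x s) := by
  refine N.masterJ ht0 ht hκ hβ (P := fun x => X x * N.zbi D x) (Q := Q)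
    (fun x => mul_nonneg (hX x) (N.zbi_nonneg D x)) hQ ?_ hA
  intro x y _ _
  by_cases h : N.zb D x
  · have h1 : N.zbi D x = 1 := if_pos h
    have h2 : N.zbi D (x ⊓ y) = 1 := if_pos (zb_inf h y)
    show X x * N.zbi D x * Q y ≤ X (x ⊓ y) * N.zbi D (x ⊓ y) * Q (x ⊔ y)
    rw [h1, h2, mul_one, mul_one]
    exact mul_le_mul (hXa inf_le_left) (hQD x y h) (hQ y) (hX _)
  · have h1 : N.zbi D x = 0 := if_neg h
    show X x * N.zbi D x * Q y ≤ X (x ⊓ y) * N.zbi D (x ⊓ y) * Q (x ⊔ y)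
    rw [h1, mul_zero, zero_mul]
    exact mul_nonneg (mul_nonneg (hX _) (N.zbi_nonneg D _)) (hQ _)

/-- Domain monotonicity, with a decreasing tilt of the smaller domain. -/
theorem dom_mono (N : Net V F E) {t : ℝ} (ht0 : 0 ≤ t) (ht : t ≤ 1)
    {κ : V ⊕ F → Fin (K + 1) → ℝ} (hκ : ∀ i z, 0 ≤ κ i z) {β : E → Bool → ℝ}
    (hβ : ∀ e b, 0 ≤ β e b) {D D' : Set F} (hD : D ⊆ D') {X : Cfg V F E K → ℝ}
    (hX : ∀ x, 0 ≤ X x) (hXa : Antitone X) {A : Cfg V F E K → (V ⊕ F → Bool) → ℝ} (hA : Mon A) :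
    N.J t κ β (fun x s => X x * N.zbi D x * A x s) * N.J t κ β (fun x _ => N.zbi D' x)
      ≤ N.J t κ β (fun x _ => X x * N.zbi D x) * N.J t κ β (fun x s => N.zbi D' x * A x s) := by
  refine N.zero_le_tilt ht0 ht hκ hβ D hX hXa (N.zbi_nonneg D') ?_ hA
  intro x y hx
  by_cases h : N.zb D' y
  · have h1 : N.zbi D' y = 1 := if_pos h
    have h2 : N.zbi D' (x ⊔ y) = 1 := if_pos (zb_sup (zb_mono hD hx) h)
    rw [h1, h2]
  · have h1 : N.zbi D' y = 0 := if_neg h
    rw [h1]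
    exact N.zbi_nonneg D' _

/-- Comparison of the zero boundary condition on `D` with any law which is tilted by a function
`Θ` of what is outside `D` and an increasing function `C`. -/
theorem zero_le_out (N : Net V F E) {t : ℝ} (ht0 : 0 ≤ t) (ht : t ≤ 1)
    {κ : V ⊕ F → Fin (K + 1) → ℝ} (hκ : ∀ i z, 0 ≤ κ i z) {β : E → Bool → ℝ}
    (hβ : ∀ e b, 0 ≤ β e b) (D : Set F) {X Θ C : Cfg V F E K → ℝ}
    (hX : ∀ x, 0 ≤ X x) (hXa : Antitone X) (hΘ : ∀ x, 0 ≤ Θ x)
    (hΘD : ∀ x y, N.agOut D x y → Θ x = Θ y) (hC : ∀ x, 0 ≤ C x) (hCm : Monotone C)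
    {A : Cfg V F E K → (V ⊕ F → Bool) → ℝ} (hA : Mon A) :
    N.J t κ β (fun x s => X x * N.zbi D x * A x s) * N.J t κ β (fun x _ => Θ x * C x)
      ≤ N.J t κ β (fun x _ => X x * N.zbi D x) * N.J t κ β (fun x s => Θ x * C x * A x s) := by
  refine N.zero_le_tilt ht0 ht hκ hβ D hX hXa (fun x => mul_nonneg (hΘ x) (hC x)) ?_ hA
  intro x y hx
  have h1 : Θ (x ⊔ y) = Θ y := hΘD _ _ (agOut_sup hx y)
  rw [h1]
  exact mul_le_mul_of_nonneg_left (hCm le_sup_right) (hΘ y)

/-- Positive association of the magnitudes and open medial vertices, and of these with the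
functions in `Mon`. -/
theorem fkgJ (N : Net V F E) {t : ℝ} (ht0 : 0 ≤ t) (ht : t ≤ 1)
    {κ : V ⊕ F → Fin (K + 1) → ℝ} (hκ : ∀ i z, 0 ≤ κ i z) {β : E → Bool → ℝ}
    (hβ : ∀ e b, 0 ≤ β e b) {C : Cfg V F E K → ℝ} (hC : ∀ x, 0 ≤ C x) (hCm : Monotone C)
    {A : Cfg V F E K → (V ⊕ F → Bool) → ℝ} (hA : Mon A) :
    N.J t κ β A * N.J t κ β (fun x _ => C x)
      ≤ N.J t κ β (fun _ _ => 1) * N.J t κ β (fun x s => C x * A x s) := by
  have h := N.masterJ ht0 ht hκ hβ (P := fun _ => 1) (Q := C) (fun _ => zero_le_one) hC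
    (fun x y _ _ => by
      show 1 * C y ≤ 1 * C (x ⊔ y)
      rw [one_mul, one_mul]
      exact hCm le_sup_right) hA
  simpa only [ge_iff_le, one_mul] using h

end

end Net

end Vale.Agent.P145.FK
end

section

/-!
P145, block K1: spatial Markov property for blocked boundaries, by exchanging the insides of two
configurations.
-/

namespace Vale.Agent.P145.FK

open Finset
open scoped Classical

namespace Net

variable {V F E : Type*} {K : ℕ}

/-- The boundary of `D` is blocked: even sites adjacent to both sides of the boundary are zero,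
medial vertices between the inside and the outside are closed. -/
def blk (N : Net V F E) (D : Set F) (x : Cfg V F E K) : Prop :=
  (∀ v, ¬ N.inD D (.inl v) → (∃ f, N.inc v f ∧ f ∈ D) → (x.1 (.inl v) : ℕ) = 0) ∧
    ∀ e, ¬ (N.f e ∈ D ↔ N.g e ∈ D) → x.2 e = false

lemma zb_blk {N : Net V F E} {D : Set F} {x : Cfg V F E K} (hx : N.zb D x) : N.blk D x := by
  refine ⟨fun v hv _ => hx.1 _ hv, fun e he => hx.2 e fun h => he ⟨fun _ => h.2, fun _ => h.1⟩⟩

/-- Outside from `x`, inside from `y`. -/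
noncomputable def mixC (N : Net V F E) (D : Set F) (x y : Cfg V F E K) : Cfg V F E K :=
  (fun i => if N.inD D i then y.1 i else x.1 i, fun e => if N.inE D e then y.2 e else x.2 e)

/-- Outside from `s`, inside from `s'`. -/
noncomputable def mixS (N : Net V F E) (D : Set F) (s s' : V ⊕ F → Bool) : V ⊕ F → Bool :=
  fun i => if N.inD D i then s' i else s i

lemma mixC_in {N : Net V F E} {D : Set F} {x y : Cfg V F E K} {i : V ⊕ F} (h : N.inD D i) :
    (N.mixC D x y).1 i = y.1 i := if_pos h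

lemma mixC_out {N : Net V F E} {D : Set F} {x y : Cfg V F E K} {i : V ⊕ F} (h : ¬ N.inD D i) :
    (N.mixC D x y).1 i = x.1 i := if_neg h

lemma mixC_mixC (N : Net V F E) (D : Set F) (x y : Cfg V F E K) :
    N.mixC D (N.mixC D x y) (N.mixC D y x) = x := by
  refine Prod.ext ?_ ?_
  · funext i
    by_cases h : N.inD D i <;> simp only [mixC, h, ↓reduceIte]
  · funext e
    by_cases h : N.inE D e <;> simp only [mixC, h, ↓reduceIte]

lemma mixS_mixS (N : Net V F E) (D : Set F) (s s' : V ⊕ F → Bool) :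
    N.mixS D (N.mixS D s s') (N.mixS D s' s) = s := by
  funext i
  by_cases h : N.inD D i <;> simp [mixS, h]

/-- The two cases at a pair of incident sites. -/
lemma loc_vf {N : Net V F E} {D : Set F} {x y : Cfg V F E K} (hx : N.blk D x) (hy : N.blk D y)
    {v : V} {f : F} (h : N.inc v f) :
    ((N.mixC D x y).1 (.inl v) = x.1 (.inl v) ∧ (N.mixC D x y).1 (.inr f) = x.1 (.inr f) ∧
      (N.mixC D y x).1 (.inl v) = y.1 (.inl v) ∧ (N.mixC D y x).1 (.inr f) = y.1 (.inr f)) ∨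
    ((N.mixC D x y).1 (.inl v) = y.1 (.inl v) ∧ (N.mixC D x y).1 (.inr f) = y.1 (.inr f) ∧
      (N.mixC D y x).1 (.inl v) = x.1 (.inl v) ∧ (N.mixC D y x).1 (.inr f) = x.1 (.inr f)) := by
  by_cases hf : f ∈ D
  · have hf' : N.inD D (.inr f) := hf
    by_cases hv : N.inD D (.inl v)
    · right
      exact ⟨mixC_in hv, mixC_in hf', mixC_in hv, mixC_in hf'⟩
    · right
      have e : x.1 (.inl v) = y.1 (.inl v) := by
        apply Fin.ext
        rw [hx.1 v hv ⟨f, h, hf⟩, hy.1 v hv ⟨f, h, hf⟩]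
      exact ⟨(mixC_out hv).trans e, mixC_in hf', (mixC_out hv).trans e.symm, mixC_in hf'⟩
  · have hf' : ¬ N.inD D (.inr f) := hf
    have hv : ¬ N.inD D (.inl v) := fun h' => hf (h' f h)
    left
    exact ⟨mixC_out hv, mixC_out hf', mixC_out hv, mixC_out hf'⟩

/-- The two cases at a medial vertex. -/
lemma loc_e {N : Net V F E} {D : Set F} {x y : Cfg V F E K} (hx : N.blk D x) (hy : N.blk D y)
    (ax : N.adm x.1) (ay : N.adm y.1) (e : E) :
    ((N.mixC D x y).1 (.inl (N.u e)) = x.1 (.inl (N.u e)) ∧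
      (N.mixC D x y).1 (.inl (N.v e)) = x.1 (.inl (N.v e)) ∧
      (N.mixC D x y).1 (.inr (N.f e)) = x.1 (.inr (N.f e)) ∧
      (N.mixC D x y).1 (.inr (N.g e)) = x.1 (.inr (N.g e)) ∧
      (N.mixC D y x).1 (.inl (N.u e)) = y.1 (.inl (N.u e)) ∧
      (N.mixC D y x).1 (.inl (N.v e)) = y.1 (.inl (N.v e)) ∧
      (N.mixC D y x).1 (.inr (N.f e)) = y.1 (.inr (N.f e)) ∧
      (N.mixC D y x).1 (.inr (N.g e)) = y.1 (.inr (N.g e))) ∨
    ((N.mixC D x y).1 (.inl (N.u e)) = y.1 (.inl (N.u e)) ∧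
      (N.mixC D x y).1 (.inl (N.v e)) = y.1 (.inl (N.v e)) ∧
      (N.mixC D x y).1 (.inr (N.f e)) = y.1 (.inr (N.f e)) ∧
      (N.mixC D x y).1 (.inr (N.g e)) = y.1 (.inr (N.g e)) ∧
      (N.mixC D y x).1 (.inl (N.u e)) = x.1 (.inl (N.u e)) ∧
      (N.mixC D y x).1 (.inl (N.v e)) = x.1 (.inl (N.v e)) ∧
      (N.mixC D y x).1 (.inr (N.f e)) = x.1 (.inr (N.f e)) ∧
      (N.mixC D y x).1 (.inr (N.g e)) = x.1 (.inr (N.g e))) := by
  -- the value of a site which is in the outer half of a pair of incident sites one of which is in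
  by_cases hfg : N.f e ∈ D ∨ N.g e ∈ D
  · right
    have hv : ∀ v, (∃ f, N.inc v f ∧ f ∈ D) → (N.mixC D x y).1 (.inl v) = y.1 (.inl v) ∧
        (N.mixC D y x).1 (.inl v) = x.1 (.inl v) ∧
        (¬ N.inD D (.inl v) → (x.1 (.inl v) : ℕ) = 0 ∧ (y.1 (.inl v) : ℕ) = 0) := by
      intro v hf
      by_cases hv : N.inD D (.inl v)
      · exact ⟨mixC_in hv, mixC_in hv, fun h => absurd hv h⟩
      · have e : x.1 (.inl v) = y.1 (.inl v) := by
          apply Fin.ext
          rw [hx.1 v hv hf, hy.1 v hv hf]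
        exact ⟨(mixC_out hv).trans e, (mixC_out hv).trans e.symm,
          fun _ => ⟨hx.1 v hv hf, hy.1 v hv hf⟩⟩
    have hu1 := hv (N.u e) (by
      rcases hfg with h | h
      · exact ⟨_, N.huf e, h⟩
      · exact ⟨_, N.hug e, h⟩)
    have hv1 := hv (N.v e) (by
      rcases hfg with h | h
      · exact ⟨_, N.hvf e, h⟩
      · exact ⟨_, N.hvg e, h⟩)
    have hf1 : ∀ f, N.inc (N.u e) f → (N.mixC D x y).1 (.inr f) = y.1 (.inr f) ∧
        (N.mixC D y x).1 (.inr f) = x.1 (.inr f) := by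
      intro f hf
      by_cases hfD : f ∈ D
      · have hf' : N.inD D (.inr f) := hfD
        exact ⟨mixC_in hf', mixC_in hf'⟩
      · have hf' : ¬ N.inD D (.inr f) := hfD
        have hnu : ¬ N.inD D (.inl (N.u e)) := fun h' => hfD (h' f hf)
        obtain ⟨h1, h2⟩ := hu1.2.2 hnu
        have a1 := ax _ _ hf
        have a2 := ay _ _ hf
        have e : x.1 (.inr f) = y.1 (.inr f) := by
          apply Fin.ext
          omega
        exact ⟨(mixC_out hf').trans e, (mixC_out hf').trans e.symm⟩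
    exact ⟨hu1.1, hv1.1, (hf1 _ (N.huf e)).1, (hf1 _ (N.hug e)).1, hu1.2.1, hv1.2.1,
      (hf1 _ (N.huf e)).2, (hf1 _ (N.hug e)).2⟩
  · left
    push Not at hfg
    have hf' : ¬ N.inD D (.inr (N.f e)) := hfg.1
    have hg' : ¬ N.inD D (.inr (N.g e)) := hfg.2
    have hu' : ¬ N.inD D (.inl (N.u e)) := fun h' => hfg.1 (h' _ (N.huf e))
    have hv' : ¬ N.inD D (.inl (N.v e)) := fun h' => hfg.1 (h' _ (N.hvf e))
    exact ⟨mixC_out hu', mixC_out hv', mixC_out hf', mixC_out hg',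
      mixC_out hu', mixC_out hv', mixC_out hf', mixC_out hg'⟩

section
variable [Fintype V] [Fintype F] [Fintype E]

/-- Total weight. -/
noncomputable def tw (N : Net V F E) (t : ℝ) (κ : V ⊕ F → Fin (K + 1) → ℝ) (β : E → Bool → ℝ)
    (x : Cfg V F E K) (s : V ⊕ F → Bool) : ℝ := N.jw t κ β x * N.cst (act x) s

omit [Fintype E] in
lemma adm_ind (N : Net V F E) (a : V ⊕ F → Fin (K + 1)) :
    (if N.adm a then (1 : ℝ) else 0) = ∏ p ∈ Finset.univ.filter (fun p : V × F => N.inc p.1 p.2),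
      (if (a (.inr p.2) : ℕ) = a (.inl p.1) ∨ (a (.inr p.2) : ℕ) + 1 = a (.inl p.1)
        then (1 : ℝ) else 0) := by
  by_cases h : N.adm a
  · rw [if_pos h]
    refine (Finset.prod_eq_one fun p hp => ?_).symm
    rw [if_pos (h p.1 p.2 (Finset.mem_filter.mp hp).2)]
  · rw [if_neg h]
    unfold adm at h
    push Not at h
    obtain ⟨v, f, hvf, h⟩ := h
    refine (Finset.prod_eq_zero (i := (v, f)) (by simp only [mem_filter, mem_univ, hvf, and_self]) ?_).symm
    rw [if_neg]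
    push Not
    exact h

lemma cst_act (N : Net V F E) (x : Cfg V F E K) (s : V ⊕ F → Bool) :
    N.cst (act x) s = (∏ p ∈ Finset.univ.filter (fun p : V × F => N.inc p.1 p.2),
      (if (x.1 (.inl p.1) : ℕ) ≠ 0 then pr (1 / 2) (1 / 2) (.inl p.1) (.inr p.2) s else 1)) *
      ∏ e, (if x.2 e = true then N.th 0 e s else 1) := by
  unfold cst act
  rw [Finset.prod_filter, Fintype.prod_sum_type]
  simp only [Sum.elim_inl, Sum.elim_inr, con]
  have e1 : ∀ v : V, (if (x.1 (.inl v) : ℕ) ≠ 0 then N.cv v s else 1)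
      = ∏ f, (if N.inc v f then
        (if (x.1 (.inl v) : ℕ) ≠ 0 then pr (1 / 2) (1 / 2) (.inl v) (.inr f) s else 1) else 1) := by
    intro v
    by_cases h : (x.1 (.inl v) : ℕ) ≠ 0
    · simp only [h, ne_eq, not_false_eq_true, if_true]
      unfold cv
      rw [Finset.prod_filter]
    · simp only [h, if_false, ite_self, Finset.prod_const_one]
  congr 1
  · rw [Finset.prod_filter, Fintype.prod_prod_type]
    refine Finset.prod_congr rfl fun v _ => ?_
    refine Eq.trans ?_ (e1 v)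
    congr
  · refine Finset.prod_congr rfl fun e _ => ?_
    congr

/-- Exchange of the insides. -/
lemma tw_swap (N : Net V F E) (t : ℝ) (κ : V ⊕ F → Fin (K + 1) → ℝ) (β : E → Bool → ℝ)
    {D : Set F} {x y : Cfg V F E K} (hx : N.blk D x) (hy : N.blk D y) (s s' : V ⊕ F → Bool) :
    N.tw t κ β x s * N.tw t κ β y s'
      = N.tw t κ β (N.mixC D x y) (N.mixS D s s') * N.tw t κ β (N.mixC D y x) (N.mixS D s' s) := by
  have i1 : (if N.adm x.1 then (1 : ℝ) else 0) * (if N.adm y.1 then (1 : ℝ) else 0)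
      = (if N.adm (N.mixC D x y).1 then (1 : ℝ) else 0) *
        (if N.adm (N.mixC D y x).1 then (1 : ℝ) else 0) := by
    rw [adm_ind, adm_ind, adm_ind, adm_ind, ← Finset.prod_mul_distrib, ← Finset.prod_mul_distrib]
    refine Finset.prod_congr rfl fun p hp => ?_
    rcases loc_vf hx hy (Finset.mem_filter.mp hp).2 with ⟨h1, h2, h3, h4⟩ | ⟨h1, h2, h3, h4⟩
    · rw [h1, h2, h3, h4]
    · rw [h1, h2, h3, h4, mul_comm]
  have i2 : (∏ i, κ i (x.1 i)) * (∏ i, κ i (y.1 i))
      = (∏ i, κ i ((N.mixC D x y).1 i)) * (∏ i, κ i ((N.mixC D y x).1 i)) := by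
    rw [← Finset.prod_mul_distrib, ← Finset.prod_mul_distrib]
    refine Finset.prod_congr rfl fun i _ => ?_
    by_cases h : N.inD D i
    · rw [mixC_in h, mixC_in h, mul_comm]
    · rw [mixC_out h, mixC_out h]
  have i3 : (∏ e, β e (x.2 e)) * (∏ e, β e (y.2 e))
      = (∏ e, β e ((N.mixC D x y).2 e)) * (∏ e, β e ((N.mixC D y x).2 e)) := by
    rw [← Finset.prod_mul_distrib, ← Finset.prod_mul_distrib]
    refine Finset.prod_congr rfl fun e _ => ?_
    by_cases h : N.inE D e <;> simp [mixC, h, mul_comm]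
  have i4 : N.cst (act x) s * N.cst (act y) s'
      = N.cst (act (N.mixC D x y)) (N.mixS D s s') *
        N.cst (act (N.mixC D y x)) (N.mixS D s' s) := by
    rw [cst_act, cst_act, cst_act, cst_act]
    have j1 : (∏ p ∈ Finset.univ.filter (fun p : V × F => N.inc p.1 p.2),
        (if (x.1 (.inl p.1) : ℕ) ≠ 0 then pr (1 / 2) (1 / 2) (.inl p.1) (.inr p.2) s else 1)) *
        (∏ p ∈ Finset.univ.filter (fun p : V × F => N.inc p.1 p.2),
        (if (y.1 (.inl p.1) : ℕ) ≠ 0 then pr (1 / 2) (1 / 2) (.inl p.1) (.inr p.2) s' else 1))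
        = (∏ p ∈ Finset.univ.filter (fun p : V × F => N.inc p.1 p.2),
        (if ((N.mixC D x y).1 (.inl p.1) : ℕ) ≠ 0 then
          pr (1 / 2) (1 / 2) (.inl p.1) (.inr p.2) (N.mixS D s s') else 1)) *
        (∏ p ∈ Finset.univ.filter (fun p : V × F => N.inc p.1 p.2),
        (if ((N.mixC D y x).1 (.inl p.1) : ℕ) ≠ 0 then
          pr (1 / 2) (1 / 2) (.inl p.1) (.inr p.2) (N.mixS D s' s) else 1)) := by
      rw [← Finset.prod_mul_distrib, ← Finset.prod_mul_distrib]
      refine Finset.prod_congr rfl fun p hp => ?_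
      have hinc := (Finset.mem_filter.mp hp).2
      by_cases hf : p.2 ∈ D
      · have hf' : N.inD D (.inr p.2) := hf
        by_cases hv : N.inD D (.inl p.1)
        · rw [mixC_in hv, mixC_in hv]
          simp only [pr, mixS, if_pos hv, if_pos hf']
          rw [mul_comm]
        · rw [mixC_out hv, mixC_out hv, hx.1 _ hv ⟨_, hinc, hf⟩, hy.1 _ hv ⟨_, hinc, hf⟩]
          simp
      · have hf' : ¬ N.inD D (.inr p.2) := hf
        have hv : ¬ N.inD D (.inl p.1) := fun h' => hf (h' _ hinc)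
        rw [mixC_out hv, mixC_out hv]
        simp only [pr, mixS, if_neg hv, if_neg hf']
    have j2 : (∏ e, (if x.2 e = true then N.th 0 e s else 1)) *
        (∏ e, (if y.2 e = true then N.th 0 e s' else 1))
        = (∏ e, (if (N.mixC D x y).2 e = true then N.th 0 e (N.mixS D s s') else 1)) *
          (∏ e, (if (N.mixC D y x).2 e = true then N.th 0 e (N.mixS D s' s) else 1)) := by
      rw [← Finset.prod_mul_distrib, ← Finset.prod_mul_distrib]
      refine Finset.prod_congr rfl fun e _ => ?_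
      by_cases hf : N.f e ∈ D
      · have hf' : N.inD D (.inr (N.f e)) := hf
        by_cases hg : N.g e ∈ D
        · have hg' : N.inD D (.inr (N.g e)) := hg
          have he : N.inE D e := ⟨hf, hg⟩
          simp only [th, pr, mixC, if_pos he, mixS, if_pos hf', if_pos hg']
          rw [mul_comm]
        · have he : ¬ N.inE D e := fun h => hg h.2
          have h1 := hx.2 e (fun h => hg (h.1 hf))
          have h2 := hy.2 e (fun h => hg (h.1 hf))
          simp [mixC, h1, h2]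
      · have hf' : ¬ N.inD D (.inr (N.f e)) := hf
        have he : ¬ N.inE D e := fun h => hf h.1
        by_cases hg : N.g e ∈ D
        · have h1 := hx.2 e (fun h => hf (h.2 hg))
          have h2 := hy.2 e (fun h => hf (h.2 hg))
          simp [mixC, h1, h2]
        · have hg' : ¬ N.inD D (.inr (N.g e)) := hg
          simp only [mixC, if_neg he, th, pr, mixS, if_neg hf', if_neg hg']
    calc _ = ((∏ p ∈ Finset.univ.filter (fun p : V × F => N.inc p.1 p.2),
        (if (x.1 (.inl p.1) : ℕ) ≠ 0 then pr (1 / 2) (1 / 2) (.inl p.1) (.inr p.2) s else 1)) *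
        (∏ p ∈ Finset.univ.filter (fun p : V × F => N.inc p.1 p.2),
        (if (y.1 (.inl p.1) : ℕ) ≠ 0 then pr (1 / 2) (1 / 2) (.inl p.1) (.inr p.2) s' else 1))) *
        ((∏ e, (if x.2 e = true then N.th 0 e s else 1)) *
        (∏ e, (if y.2 e = true then N.th 0 e s' else 1))) := by ring
      _ = _ := by rw [j1, j2]; ring
  by_cases had : N.adm x.1 ∧ N.adm y.1
  · obtain ⟨ax, ay⟩ := had
    have i5 : (∏ e, N.wE t x.1 e) * (∏ e, N.wE t y.1 e)
        = (∏ e, N.wE t (N.mixC D x y).1 e) * (∏ e, N.wE t (N.mixC D y x).1 e) := by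
      rw [← Finset.prod_mul_distrib, ← Finset.prod_mul_distrib]
      refine Finset.prod_congr rfl fun e _ => ?_
      unfold wE
      rcases loc_e hx hy ax ay e with ⟨h1, h2, h3, h4, h5, h6, h7, h8⟩ |
        ⟨h1, h2, h3, h4, h5, h6, h7, h8⟩
      · rw [h1, h2, h3, h4, h5, h6, h7, h8]
      · rw [h1, h2, h3, h4, h5, h6, h7, h8, mul_comm]
    unfold tw jw mw
    calc _ = ((if N.adm x.1 then (1 : ℝ) else 0) * (if N.adm y.1 then (1 : ℝ) else 0)) *
          ((∏ e, N.wE t x.1 e) * (∏ e, N.wE t y.1 e)) *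
          ((∏ i, κ i (x.1 i)) * (∏ i, κ i (y.1 i))) *
          ((∏ e, β e (x.2 e)) * (∏ e, β e (y.2 e))) *
          (N.cst (act x) s * N.cst (act y) s') := by ring
      _ = _ := by rw [i1, i2, i3, i4, i5]; ring
  · have z1 : (if N.adm x.1 then (1 : ℝ) else 0) * (if N.adm y.1 then (1 : ℝ) else 0) = 0 := by
      by_cases ax : N.adm x.1
      · have ay : ¬ N.adm y.1 := fun h => had ⟨ax, h⟩
        rw [if_neg ay, mul_zero]
      · rw [if_neg ax, zero_mul]
    have z2 := i1.symm.trans z1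
    unfold tw jw mw
    calc _ = ((if N.adm x.1 then (1 : ℝ) else 0) * (if N.adm y.1 then (1 : ℝ) else 0)) *
          (((∏ e, N.wE t x.1 e) * ∏ i, κ i (x.1 i)) * (∏ e, β e (x.2 e)) * N.cst (act x) s *
          (((∏ e, N.wE t y.1 e) * ∏ i, κ i (y.1 i)) * (∏ e, β e (y.2 e)) * N.cst (act y) s')) := by
            ring
      _ = ((if N.adm (N.mixC D x y).1 then (1 : ℝ) else 0) *
          (if N.adm (N.mixC D y x).1 then (1 : ℝ) else 0)) *
          (((∏ e, N.wE t (N.mixC D x y).1 e) * ∏ i, κ i ((N.mixC D x y).1 i)) *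
          (∏ e, β e ((N.mixC D x y).2 e)) * N.cst (act (N.mixC D x y)) (N.mixS D s s') *
          (((∏ e, N.wE t (N.mixC D y x).1 e) * ∏ i, κ i ((N.mixC D y x).1 i)) *
          (∏ e, β e ((N.mixC D y x).2 e)) * N.cst (act (N.mixC D y x)) (N.mixS D s' s))) := by
            rw [z1, z2, zero_mul, zero_mul]
      _ = _ := by ring

end

end Net

end Vale.Agent.P145.FK
end

section

/-!
P145, block K1: summation over the fibres of a product map.
-/

namespace Vale.Agent.P145.FK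

open Finset

/-- Summation over the fibres of a product map. -/
lemma sum_fiber {ι X Y : Type*} [Fintype ι] [DecidableEq ι] [Fintype X] [DecidableEq Y]
    (π : ι → X → Y) (T : ι → Finset Y) (hT : ∀ i x, π i x ∈ T i) (c : ι → X → ℝ)
    (g : (ι → Y) → ℝ) :
    ∑ x : ι → X, (∏ i, c i (x i)) * g (fun i => π i (x i))
      = ∑ y ∈ Fintype.piFinset T,
        (∏ i, ∑ z ∈ Finset.univ.filter (fun z => π i z = y i), c i z) * g y := by
  classical
  have h1 : ∀ x ∈ (Finset.univ : Finset (ι → X)),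
      (fun i => π i (x i)) ∈ Fintype.piFinset T := fun x _ =>
    Fintype.mem_piFinset.mpr fun i => hT i (x i)
  rw [← Finset.sum_fiberwise_of_maps_to h1]
  refine Finset.sum_congr rfl fun y _ => ?_
  rw [Finset.prod_univ_sum, Finset.sum_mul]
  refine Finset.sum_congr ?_ ?_
  · ext x
    simp only [Finset.mem_filter, Finset.mem_univ, true_and, Fintype.mem_piFinset]
    exact funext_iff
  · intro x hx
    have : (fun i => π i (x i)) = y := by
      funext i
      have := (Fintype.mem_piFinset.mp hx) i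
      simpa only [mem_filter, mem_univ, true_and] using this
    rw [this]

end Vale.Agent.P145.FK
end

section

/-!
# P145, block F-C: exploration of the clusters at level zero and the domain Markov property

Heights on the even sites `V` and the odd sites (faces) `F` of an arbitrary incidence structure,
with Edwards-Sokal edge variables at level `0`. If the union of the clusters which meet `A` is
`κ`, the rest of the region carries exactly the zero boundary law of `S \ κ`.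
-/

namespace Vale.Agent.P145.FC

open Finset Relation

/-- incidence structure: the edge `e` joins the even sites `u e`, `v e` and separates the faces
`a e`, `b e`; `cor v f`: the even site `v` is a corner of the face `f`. -/
structure Inc (V F E : Type*) where
  u : E → V
  v : E → V
  a : E → F
  b : E → F
  cor : V → F → Prop
  ua : ∀ e, cor (u e) (a e)
  ub : ∀ e, cor (u e) (b e)
  va : ∀ e, cor (v e) (a e)
  vb : ∀ e, cor (v e) (b e)

/-- configurations: heights on even sites, on faces, edge variables. -/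
@[ext] structure Cf (V F E : Type*) where
  h : V → ℤ
  k : F → ℤ
  w : E → Bool

variable {V F E : Type*} (I : Inc V F E)

/-- the configurations of the region `S` (a set of faces) with free even sites `U`, all other even
sites are at height `0`. An edge variable may be closed only if both ends have height `0`. -/
def Cfg (U : Set V) (S : Set F) : Set (Cf V F E) :=
  {x | (∀ v, v ∉ U → x.h v = 0) ∧ (∀ f, f ∉ S → x.k f = 0) ∧
    (∀ v, Even (x.h v)) ∧ (∀ v f, I.cor v f → f ∈ S → |x.h v - x.k f| = 1) ∧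
    (∀ e, ¬ (I.a e ∈ S ∧ I.b e ∈ S) → x.w e = false) ∧
    (∀ e, I.a e ∈ S → I.b e ∈ S → x.w e = false → x.h (I.u e) = 0 ∧ x.h (I.v e) = 0)}

/-- weight of one edge inside the region. -/
noncomputable def ew (c : ℝ) (x : Cf V F E) (e : E) : ℝ :=
  if x.h (I.u e) = 0 ∧ x.h (I.v e) = 0 then
    (if x.w e = true then (if x.k (I.a e) = x.k (I.b e) then c - 1 else 0) else 1)
  else (if x.h (I.u e) = x.h (I.v e) ∧ x.k (I.a e) = x.k (I.b e) then c else 1)

open Classical in
/-- weight of a configuration of the region `S`. -/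
noncomputable def wt [Fintype E] (c : ℝ) (S : Set F) (x : Cf V F E) : ℝ :=
  ∏ e : E, if I.a e ∈ S ∧ I.b e ∈ S then ew I c x e else 1

/-- one step of the exploration. -/
def Step (x : Cf V F E) (f g : F) : Prop :=
  ∃ e, x.w e = true ∧ ((I.a e = f ∧ I.b e = g) ∨ (I.a e = g ∧ I.b e = f))

/-- the union of the clusters which meet `A`. -/
def Clu (A : Set F) (x : Cf V F E) : Set F := {f | ∃ g ∈ A, ReflTransGen (Step I x) g f}

/-- the free even sites of `U` all whose faces in `S` belong to `T`. -/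
def rin (U : Set V) (S T : Set F) : Set V := {v | v ∈ U ∧ ∀ f ∈ S, I.cor v f → f ∈ T}

open Classical in
/-- restriction to the region `T` of `S`. -/
noncomputable def res (U : Set V) (S T : Set F) (x : Cf V F E) : Cf V F E where
  h := fun v => if v ∈ rin I U S T then x.h v else 0
  k := fun f => if f ∈ T then x.k f else 0
  w := fun e => if I.a e ∈ T ∧ I.b e ∈ T then x.w e else false

/-- superposition of configurations of disjoint regions. -/
def add (y z : Cf V F E) : Cf V F E where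
  h := fun v => y.h v + z.h v
  k := fun f => y.k f + z.k f
  w := fun e => y.w e || z.w e

/-- the faces of `S` at a free even site are joined by edges at this site. -/
def Loc (U : Set V) (S : Set F) : Prop :=
  ∀ v ∈ U, ∀ T : Set F, (∃ f ∈ S, f ∈ T ∧ I.cor v f) → (∃ f ∈ S, f ∉ T ∧ I.cor v f) →
    ∃ e, (I.u e = v ∨ I.v e = v) ∧ I.a e ∈ S ∧ I.b e ∈ S ∧ ¬ (I.a e ∈ T ↔ I.b e ∈ T)

variable {I} {U : Set V} {S A κ : Set F} {x : Cf V F E}

theorem subset_clu : A ⊆ Clu I A x := fun f hf => ⟨f, hf, ReflTransGen.refl⟩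

theorem clu_step {f g : F} (hf : f ∈ Clu I A x) (h : Step I x f g) : g ∈ Clu I A x := by
  obtain ⟨a, ha, h1⟩ := hf
  exact ⟨a, ha, h1.tail h⟩

/-- edges which leave the explored set are closed. -/
theorem closed_of_cross {e : E} (h : ¬ (I.a e ∈ Clu I A x ↔ I.b e ∈ Clu I A x)) :
    x.w e = false := by
  by_contra hcon
  have hw : x.w e = true := by simpa using hcon
  apply h
  constructor
  · intro ha
    exact clu_step ha ⟨e, hw, Or.inl ⟨rfl, rfl⟩⟩
  · intro hb
    exact clu_step hb ⟨e, hw, Or.inr ⟨rfl, rfl⟩⟩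

/-- a free even site which meets both sides of the explored set has height `0`. -/
theorem zero_of_both (hloc : Loc I U S) (hx : x ∈ Cfg I U S) {v : V}
    (h1 : ∃ f ∈ S, f ∈ Clu I A x ∧ I.cor v f) (h2 : ∃ f ∈ S, f ∉ Clu I A x ∧ I.cor v f) :
    x.h v = 0 := by
  by_cases hv : v ∈ U
  · obtain ⟨e, he, ha, hb, hab⟩ := hloc v hv (Clu I A x) h1 h2
    have hw := closed_of_cross hab
    have h3 := hx.2.2.2.2.2 e ha hb hw
    rcases he with rfl | rfl
    · exact h3.1
    · exact h3.2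
  · exact hx.1 v hv

theorem clu_subset (hA : A ⊆ S) (hx : x ∈ Cfg I U S) : Clu I A x ⊆ S := by
  rintro f ⟨g, hg, h⟩
  have hgS := hA hg
  clear hg
  induction h with
  | refl => exact hgS
  | tail _ h2 _ =>
    obtain ⟨e, he, h3⟩ := h2
    have h4 : I.a e ∈ S ∧ I.b e ∈ S := by
      by_contra hcon
      have := hx.2.2.2.2.1 e hcon
      rw [this] at he
      exact Bool.false_ne_true he
    rcases h3 with ⟨_, rfl⟩ | ⟨rfl, _⟩
    · exact h4.2
    · exact h4.1

/-- restriction of a configuration to a union of clusters or to its complement. -/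
theorem res_mem {T : Set F} (hTS : T ⊆ S) (hx : x ∈ Cfg I U S)
    (hz : ∀ v, (∃ f ∈ S, f ∈ T ∧ I.cor v f) → (∃ f ∈ S, f ∉ T ∧ I.cor v f) → x.h v = 0) :
    res I U S T x ∈ Cfg I (rin I U S T) T := by
  classical
  have hh : ∀ v f, I.cor v f → f ∈ T → (res I U S T x).h v = x.h v := by
    intro v f hvf hf
    unfold res
    by_cases hv : v ∈ rin I U S T
    · simp [hv]
    · simp only [hv, if_false]
      by_cases hvU : v ∈ U
      · have h1 : ∃ g ∈ S, I.cor v g ∧ g ∉ T := by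
          by_contra hcon
          push Not at hcon
          exact hv ⟨hvU, fun g hg hvg => hcon g hg hvg⟩
        obtain ⟨g, hg, hvg, hgT⟩ := h1
        exact (hz v ⟨f, hTS hf, hf, hvf⟩ ⟨g, hg, hgT, hvg⟩).symm
      · exact (hx.1 v hvU).symm
  refine ⟨?_, ?_, ?_, ?_, ?_, ?_⟩
  · intro v hv
    unfold res
    simp [hv]
  · intro f hf
    unfold res
    simp [hf]
  · intro v
    unfold res
    by_cases hv : v ∈ rin I U S T
    · simp only [hv, if_true]
      exact hx.2.2.1 v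
    · simp only [hv, ↓reduceIte, Even.zero]
  · intro v f hvf hf
    rw [hh v f hvf hf]
    have h1 : (res I U S T x).k f = x.k f := by
      unfold res
      simp [hf]
    rw [h1]
    exact hx.2.2.2.1 v f hvf (hTS hf)
  · intro e he
    unfold res
    simp [he]
  · intro e ha hb hw
    have h1 : (res I U S T x).w e = x.w e := by
      unfold res
      simp [ha, hb]
    rw [h1] at hw
    rw [hh _ _ (I.ua e) ha, hh _ _ (I.va e) ha]
    exact hx.2.2.2.2.2 e (hTS ha) (hTS hb) hw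

theorem res_h_eq {T : Set F} (hTS : T ⊆ S) (hx : x ∈ Cfg I U S)
    (hz : ∀ v, (∃ f ∈ S, f ∈ T ∧ I.cor v f) → (∃ f ∈ S, f ∉ T ∧ I.cor v f) → x.h v = 0)
    {v : V} {f : F} (hvf : I.cor v f) (hf : f ∈ T) : (res I U S T x).h v = x.h v := by
  classical
  unfold res
  by_cases hv : v ∈ rin I U S T
  · simp [hv]
  · simp only [hv, if_false]
    by_cases hvU : v ∈ U
    · have h1 : ∃ g ∈ S, I.cor v g ∧ g ∉ T := by
        by_contra hcon
        push Not at hcon
        exact hv ⟨hvU, fun g hg hvg => hcon g hg hvg⟩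
      obtain ⟨g, hg, hvg, hgT⟩ := h1
      exact (hz v ⟨f, hTS hf, hf, hvf⟩ ⟨g, hg, hgT, hvg⟩).symm
    · exact (hx.1 v hvU).symm

theorem res_k_eq {T : Set F} {f : F} (hf : f ∈ T) : (res I U S T x).k f = x.k f := by
  classical
  unfold res
  simp [hf]

theorem res_w_eq {T : Set F} {e : E} (ha : I.a e ∈ T) (hb : I.b e ∈ T) :
    (res I U S T x).w e = x.w e := by
  classical
  unfold res
  simp [ha, hb]

theorem res_w_false {T : Set F} {e : E} (h : ¬ (I.a e ∈ T ∧ I.b e ∈ T)) :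
    (res I U S T x).w e = false := by
  classical
  unfold res
  simp [h]

/-- the hypothesis of `res_mem` for the explored set. -/
theorem both_zero (hloc : Loc I U S) (hx : x ∈ Cfg I U S) (hκ : Clu I A x = κ) (v : V)
    (h1 : ∃ f ∈ S, f ∈ κ ∧ I.cor v f) (h2 : ∃ f ∈ S, f ∉ κ ∧ I.cor v f) : x.h v = 0 := by
  subst hκ
  exact zero_of_both hloc hx h1 h2

/-- the hypothesis of `res_mem` for the complement of the explored set. -/
theorem both_zero' (hloc : Loc I U S) (hx : x ∈ Cfg I U S) (hκ : Clu I A x = κ) (v : V)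
    (h1 : ∃ f ∈ S, f ∈ S \ κ ∧ I.cor v f) (h2 : ∃ f ∈ S, f ∉ S \ κ ∧ I.cor v f) :
    x.h v = 0 := by
  obtain ⟨f, hf, hfκ, hvf⟩ := h1
  obtain ⟨g, hg, hgκ, hvg⟩ := h2
  refine both_zero hloc hx hκ v ⟨g, hg, ?_, hvg⟩ ⟨f, hf, hfκ.2, hvf⟩
  by_contra h
  exact hgκ ⟨hg, h⟩

theorem step_mono {y : Cf V F E} (h : ∀ e, y.w e = true → x.w e = true) {f g : F}
    (hs : Step I y f g) : Step I x f g := by
  obtain ⟨e, he, h1⟩ := hs
  exact ⟨e, h e he, h1⟩

theorem clu_mono {y : Cf V F E} (h : ∀ e, y.w e = true → x.w e = true) :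
    Clu I A y ⊆ Clu I A x := by
  rintro f ⟨g, hg, h1⟩
  exact ⟨g, hg, h1.lift id fun _ _ hs => step_mono h hs⟩

theorem clu_res (hκ : Clu I A x = κ) : Clu I A (res I U S κ x) = κ := by
  classical
  apply subset_antisymm
  · refine subset_trans (clu_mono (x := x) fun e he => ?_) hκ.subset
    by_cases h : I.a e ∈ κ ∧ I.b e ∈ κ
    · rwa [res_w_eq h.1 h.2] at he
    · rw [res_w_false h] at he
      exact absurd he Bool.false_ne_true
  · intro f hf
    have hf' := hf
    rw [← hκ] at hf'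
    obtain ⟨g, hg, h1⟩ := hf'
    refine ⟨g, hg, ?_⟩
    have key : ∀ f', ReflTransGen (Step I x) g f' → ReflTransGen (Step I (res I U S κ x)) g f' ∧
        f' ∈ κ := by
      intro f' h
      induction h with
      | refl => exact ⟨ReflTransGen.refl, by rw [← hκ]; exact subset_clu hg⟩
      | tail h2 h3 ih =>
        obtain ⟨i1, i2⟩ := ih
        have i3 := i2
        rw [← hκ] at i3
        have h4 := clu_step i3 h3
        rw [hκ] at h4
        refine ⟨i1.tail ?_, h4⟩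
        obtain ⟨e, he, h5⟩ := h3
        refine ⟨e, ?_, h5⟩
        rw [res_w_eq]
        · exact he
        · rcases h5 with ⟨rfl, rfl⟩ | ⟨rfl, rfl⟩ <;> assumption
        · rcases h5 with ⟨rfl, rfl⟩ | ⟨rfl, rfl⟩ <;> assumption
    exact (key f h1).1

/-- a configuration is the superposition of its parts. -/
theorem add_res (hU : ∀ v ∈ U, ∃ f ∈ S, I.cor v f) (hloc : Loc I U S) (hA : A ⊆ S)
    (hx : x ∈ Cfg I U S) (hκ : Clu I A x = κ) :
    add (res I U S κ x) (res I U S (S \ κ) x) = x := by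
  classical
  have hκS : κ ⊆ S := hκ ▸ clu_subset hA hx
  ext t
  · change (res I U S κ x).h t + (res I U S (S \ κ) x).h t = x.h t
    by_cases htU : t ∈ U
    · obtain ⟨f, hf, htf⟩ := hU t htU
      by_cases hfκ : f ∈ κ
      · have h1 := res_h_eq (U := U) hκS hx (both_zero hloc hx hκ) htf hfκ
        have h2 : (res I U S (S \ κ) x).h t = 0 := by
          have h3 : t ∉ rin I U S (S \ κ) := fun h => (h.2 f hf htf).2 hfκ
          unfold res
          simp [h3]
        rw [h1, h2, add_zero]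
      · have hf2 : f ∈ S \ κ := ⟨hf, hfκ⟩
        have h1 := res_h_eq (U := U) Set.sdiff_subset hx (both_zero' hloc hx hκ) htf hf2
        have h2 : (res I U S κ x).h t = 0 := by
          have h3 : t ∉ rin I U S κ := fun h => hfκ (h.2 f hf htf)
          unfold res
          simp [h3]
        rw [h1, h2, zero_add]
    · have h1 : t ∉ rin I U S κ := fun h => htU h.1
      have h2 : t ∉ rin I U S (S \ κ) := fun h => htU h.1
      unfold res
      simp [h1, h2, hx.1 t htU]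
  · change (res I U S κ x).k t + (res I U S (S \ κ) x).k t = x.k t
    unfold res
    by_cases h1 : t ∈ κ
    · simp [h1]
    · by_cases h2 : t ∈ S
      · simp [h1, h2]
      · simp [h1, h2, hx.2.1 t h2]
  · change ((res I U S κ x).w t || (res I U S (S \ κ) x).w t) = x.w t
    by_cases ha : I.a t ∈ κ <;> by_cases hb : I.b t ∈ κ
    · rw [res_w_eq ha hb, res_w_false (T := S \ κ) (fun h => h.1.2 ha), Bool.or_false]
    · rw [res_w_false (T := κ) (fun h => hb h.2), res_w_false (T := S \ κ) (fun h => h.1.2 ha),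
        Bool.or_false]
      symm
      apply closed_of_cross (I := I) (A := A)
      rw [hκ]
      (clear * - hb ha; tauto)
    · rw [res_w_false (T := κ) (fun h => ha h.1), res_w_false (T := S \ κ) (fun h => h.2.2 hb),
        Bool.or_false]
      symm
      apply closed_of_cross (I := I) (A := A)
      rw [hκ]
      (clear * - ha hb; tauto)
    · rw [res_w_false (T := κ) (fun h => ha h.1), Bool.false_or]
      by_cases h2 : I.a t ∈ S ∧ I.b t ∈ S
      · exact res_w_eq ⟨h2.1, ha⟩ ⟨h2.2, hb⟩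
      · rw [res_w_false (T := S \ κ) (fun h => h2 ⟨h.1.1, h.2.1⟩), hx.2.2.2.2.1 t h2]

section glue

variable {y z : Cf V F E}

theorem glue_h_left (hκS : κ ⊆ S) (hz : z ∈ Cfg I (rin I U S (S \ κ)) (S \ κ)) {v : V} {f : F}
    (hvf : I.cor v f) (hf : f ∈ κ) : (add y z).h v = y.h v := by
  change y.h v + z.h v = y.h v
  rw [hz.1 v fun h => (h.2 f (hκS hf) hvf).2 hf, add_zero]

theorem glue_h_right (hy : y ∈ Cfg I (rin I U S κ) κ) {v : V} {f : F}
    (hvf : I.cor v f) (hf : f ∈ S \ κ) : (add y z).h v = z.h v := by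
  change y.h v + z.h v = z.h v
  rw [hy.1 v fun h => hf.2 (h.2 f hf.1 hvf), zero_add]

theorem glue_k_left (hz : z ∈ Cfg I (rin I U S (S \ κ)) (S \ κ)) {f : F} (hf : f ∈ κ) :
    (add y z).k f = y.k f := by
  change y.k f + z.k f = y.k f
  rw [hz.2.1 f fun h => h.2 hf, add_zero]

theorem glue_k_right (hy : y ∈ Cfg I (rin I U S κ) κ) {f : F} (hf : f ∉ κ) :
    (add y z).k f = z.k f := by
  change y.k f + z.k f = z.k f
  rw [hy.2.1 f hf, zero_add]

theorem glue_w_left (hz : z ∈ Cfg I (rin I U S (S \ κ)) (S \ κ)) {e : E}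
    (h : I.a e ∈ κ ∨ I.b e ∈ κ) : (add y z).w e = y.w e := by
  change (y.w e || z.w e) = y.w e
  rw [hz.2.2.2.2.1 e fun h' => h.elim h'.1.2 h'.2.2, Bool.or_false]

theorem glue_w_right (hy : y ∈ Cfg I (rin I U S κ) κ) {e : E} (h : I.a e ∉ κ ∨ I.b e ∉ κ) :
    (add y z).w e = z.w e := by
  change (y.w e || z.w e) = z.w e
  rw [hy.2.2.2.2.1 e fun h' => h.elim (fun h1 => h1 h'.1) (fun h1 => h1 h'.2), Bool.false_or]

theorem glue_mem (hκS : κ ⊆ S) (hy : y ∈ Cfg I (rin I U S κ) κ)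
    (hz : z ∈ Cfg I (rin I U S (S \ κ)) (S \ κ)) : add y z ∈ Cfg I U S := by
  refine ⟨?_, ?_, ?_, ?_, ?_, ?_⟩
  · intro v hv
    change y.h v + z.h v = 0
    rw [hy.1 v fun h => hv h.1, hz.1 v fun h => hv h.1, add_zero]
  · intro f hf
    change y.k f + z.k f = 0
    rw [hy.2.1 f fun h => hf (hκS h), hz.2.1 f fun h => hf h.1, add_zero]
  · intro v
    exact (hy.2.2.1 v).add (hz.2.2.1 v)
  · intro v f hvf hf
    by_cases hfκ : f ∈ κ
    · rw [glue_h_left hκS hz hvf hfκ, glue_k_left hz hfκ]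
      exact hy.2.2.2.1 v f hvf hfκ
    · rw [glue_h_right hy hvf ⟨hf, hfκ⟩, glue_k_right hy hfκ]
      exact hz.2.2.2.1 v f hvf ⟨hf, hfκ⟩
  · intro e he
    change (y.w e || z.w e) = false
    rw [hy.2.2.2.2.1 e fun h => he ⟨hκS h.1, hκS h.2⟩,
      hz.2.2.2.2.1 e fun h => he ⟨h.1.1, h.2.1⟩, Bool.or_false]
  · intro e ha hb hw
    by_cases haκ : I.a e ∈ κ
    · by_cases hbκ : I.b e ∈ κ
      · rw [glue_w_left hz (Or.inl haκ)] at hw
        rw [glue_h_left hκS hz (I.ua e) haκ, glue_h_left hκS hz (I.va e) haκ]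
        exact hy.2.2.2.2.2 e haκ hbκ hw
      · constructor
        · rw [glue_h_left hκS hz (I.ua e) haκ]
          exact hy.1 _ fun h => hbκ (h.2 _ hb (I.ub e))
        · rw [glue_h_left hκS hz (I.va e) haκ]
          exact hy.1 _ fun h => hbκ (h.2 _ hb (I.vb e))
    · by_cases hbκ : I.b e ∈ κ
      · constructor
        · rw [glue_h_left hκS hz (I.ub e) hbκ]
          exact hy.1 _ fun h => haκ (h.2 _ ha (I.ua e))
        · rw [glue_h_left hκS hz (I.vb e) hbκ]
          exact hy.1 _ fun h => haκ (h.2 _ ha (I.va e))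
      · rw [glue_w_right hy (Or.inl haκ)] at hw
        rw [glue_h_right hy (I.ua e) ⟨ha, haκ⟩, glue_h_right hy (I.va e) ⟨ha, haκ⟩]
        exact hz.2.2.2.2.2 e ⟨ha, haκ⟩ ⟨hb, hbκ⟩ hw

theorem glue_clu (hy : y ∈ Cfg I (rin I U S κ) κ) (hyκ : Clu I A y = κ)
    (hz : z ∈ Cfg I (rin I U S (S \ κ)) (S \ κ)) : Clu I A (add y z) = κ := by
  apply subset_antisymm
  · rintro f ⟨g, hg, h⟩
    have hgκ : g ∈ κ := by rw [← hyκ]; exact subset_clu hg
    clear hg
    induction h with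
    | refl => exact hgκ
    | tail _ h3 ih =>
      obtain ⟨e, he, h5⟩ := h3
      rcases h5 with ⟨rfl, rfl⟩ | ⟨rfl, rfl⟩
      · rw [glue_w_left hz (Or.inl ih)] at he
        by_contra hcon
        rw [hy.2.2.2.2.1 e fun h => hcon h.2] at he
        exact Bool.false_ne_true he
      · rw [glue_w_left hz (Or.inr ih)] at he
        by_contra hcon
        rw [hy.2.2.2.2.1 e fun h => hcon h.1] at he
        exact Bool.false_ne_true he
  · intro f hf
    rw [← hyκ] at hf
    refine clu_mono (fun e he => ?_) hf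
    change (y.w e || z.w e) = true
    rw [he, Bool.true_or]

theorem res_glue_left (hU : ∀ v ∈ U, ∃ f ∈ S, I.cor v f) (hκS : κ ⊆ S)
    (hy : y ∈ Cfg I (rin I U S κ) κ)
    (hz : z ∈ Cfg I (rin I U S (S \ κ)) (S \ κ)) : res I U S κ (add y z) = y := by
  classical
  ext t
  · by_cases ht : t ∈ rin I U S κ
    · obtain ⟨f, hf, htf⟩ := hU t ht.1
      have hfκ := ht.2 f hf htf
      have h1 : (res I U S κ (add y z)).h t = (add y z).h t := by
        unfold res
        simp [ht]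
      rw [h1, glue_h_left hκS hz htf hfκ]
    · have h1 : (res I U S κ (add y z)).h t = 0 := by
        unfold res
        simp [ht]
      rw [h1, hy.1 t ht]
  · by_cases ht : t ∈ κ
    · rw [res_k_eq ht, glue_k_left hz ht]
    · have h1 : (res I U S κ (add y z)).k t = 0 := by
        unfold res
        simp [ht]
      rw [h1, hy.2.1 t ht]
  · by_cases ht : I.a t ∈ κ ∧ I.b t ∈ κ
    · rw [res_w_eq ht.1 ht.2, glue_w_left hz (Or.inl ht.1)]
    · rw [res_w_false ht, hy.2.2.2.2.1 t ht]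

theorem res_glue_right (hU : ∀ v ∈ U, ∃ f ∈ S, I.cor v f)
    (hy : y ∈ Cfg I (rin I U S κ) κ)
    (hz : z ∈ Cfg I (rin I U S (S \ κ)) (S \ κ)) : res I U S (S \ κ) (add y z) = z := by
  classical
  ext t
  · by_cases ht : t ∈ rin I U S (S \ κ)
    · obtain ⟨f, hf, htf⟩ := hU t ht.1
      have hfκ := ht.2 f hf htf
      have h1 : (res I U S (S \ κ) (add y z)).h t = (add y z).h t := by
        unfold res
        simp [ht]
      rw [h1, glue_h_right hy htf hfκ]
    · have h1 : (res I U S (S \ κ) (add y z)).h t = 0 := by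
        unfold res
        simp [ht]
      rw [h1, hz.1 t ht]
  · by_cases ht : t ∈ S \ κ
    · rw [res_k_eq ht, glue_k_right hy ht.2]
    · have h1 : (res I U S (S \ κ) (add y z)).k t = 0 := by
        unfold res
        simp only [ht, if_false]
      rw [h1, hz.2.1 t ht]
  · by_cases ht : I.a t ∈ S \ κ ∧ I.b t ∈ S \ κ
    · rw [res_w_eq ht.1 ht.2, glue_w_right hy (Or.inl ht.1.2)]
    · rw [res_w_false ht, hz.2.2.2.2.1 t ht]

/-- the exploration as an equivalence. -/
noncomputable def split (hU : ∀ v ∈ U, ∃ f ∈ S, I.cor v f) (hloc : Loc I U S) (hA : A ⊆ S)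
    (hκS : κ ⊆ S) :
    {x : Cf V F E // x ∈ Cfg I U S ∧ Clu I A x = κ} ≃
      {y : Cf V F E // y ∈ Cfg I (rin I U S κ) κ ∧ Clu I A y = κ} ×
      {z : Cf V F E // z ∈ Cfg I (rin I U S (S \ κ)) (S \ κ)} where
  toFun x := ⟨⟨res I U S κ x.1, res_mem hκS x.2.1 (both_zero hloc x.2.1 x.2.2),
    clu_res x.2.2⟩, ⟨res I U S (S \ κ) x.1,
    res_mem Set.sdiff_subset x.2.1 (both_zero' hloc x.2.1 x.2.2)⟩⟩
  invFun p := ⟨add p.1.1 p.2.1, glue_mem hκS p.1.2.1 p.2.2, glue_clu p.1.2.1 p.1.2.2 p.2.2⟩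
  left_inv x := Subtype.ext (add_res hU hloc hA x.2.1 x.2.2)
  right_inv p := Prod.ext (Subtype.ext (res_glue_left hU hκS p.1.2.1 p.2.2))
    (Subtype.ext (res_glue_right hU p.1.2.1 p.2.2))

/-- the weight factorizes. -/
theorem wt_glue [Fintype E] (c : ℝ) (hκS : κ ⊆ S) (hy : y ∈ Cfg I (rin I U S κ) κ)
    (hz : z ∈ Cfg I (rin I U S (S \ κ)) (S \ κ)) :
    wt I c S (add y z) = wt I c κ y * wt I c (S \ κ) z := by
  classical
  unfold wt
  rw [← Finset.prod_mul_distrib]
  refine Finset.prod_congr rfl fun e _ => ?_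
  by_cases haκ : I.a e ∈ κ <;> by_cases hbκ : I.b e ∈ κ
  · have h1 : I.a e ∈ S ∧ I.b e ∈ S := ⟨hκS haκ, hκS hbκ⟩
    have h2 : ¬ (I.a e ∈ S \ κ ∧ I.b e ∈ S \ κ) := fun h => h.1.2 haκ
    rw [if_pos h1, if_pos ⟨haκ, hbκ⟩, if_neg h2, mul_one]
    unfold ew
    rw [glue_h_left hκS hz (I.ua e) haκ, glue_h_left hκS hz (I.va e) haκ, glue_k_left hz haκ,
      glue_k_left hz hbκ, glue_w_left hz (Or.inl haκ)]
  · have h2 : ¬ (I.a e ∈ S \ κ ∧ I.b e ∈ S \ κ) := fun h => h.1.2 haκ
    rw [if_neg (fun h : I.a e ∈ κ ∧ I.b e ∈ κ => hbκ h.2), if_neg h2, mul_one]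
    split_ifs with h1
    · unfold ew
      rw [glue_h_left hκS hz (I.ua e) haκ, glue_h_left hκS hz (I.va e) haκ,
        glue_w_left hz (Or.inl haκ), hy.1 _ (fun h => hbκ (h.2 _ h1.2 (I.ub e))),
        hy.1 _ (fun h => hbκ (h.2 _ h1.2 (I.vb e))), hy.2.2.2.2.1 e (fun h => hbκ h.2)]
      simp
    · rfl
  · have h2 : ¬ (I.a e ∈ S \ κ ∧ I.b e ∈ S \ κ) := fun h => h.2.2 hbκ
    rw [if_neg (fun h : I.a e ∈ κ ∧ I.b e ∈ κ => haκ h.1), if_neg h2, mul_one]
    split_ifs with h1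
    · unfold ew
      rw [glue_h_left hκS hz (I.ub e) hbκ, glue_h_left hκS hz (I.vb e) hbκ,
        glue_w_left hz (Or.inr hbκ), hy.1 _ (fun h => haκ (h.2 _ h1.1 (I.ua e))),
        hy.1 _ (fun h => haκ (h.2 _ h1.1 (I.va e))), hy.2.2.2.2.1 e (fun h => haκ h.1)]
      simp
    · rfl
  · rw [if_neg (fun h : I.a e ∈ κ ∧ I.b e ∈ κ => haκ h.1), one_mul]
    by_cases h1 : I.a e ∈ S ∧ I.b e ∈ S
    · rw [if_pos h1, if_pos ⟨⟨h1.1, haκ⟩, ⟨h1.2, hbκ⟩⟩]
      unfold ew
      rw [glue_h_right hy (I.ua e) ⟨h1.1, haκ⟩, glue_h_right hy (I.va e) ⟨h1.1, haκ⟩,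
        glue_k_right hy haκ, glue_k_right hy hbκ, glue_w_right hy (Or.inl haκ)]
    · rw [if_neg h1, if_neg (fun h => h1 ⟨h.1.1, h.2.1⟩)]

end glue

end Vale.Agent.P145.FC
end

section

/-!
P145, block F-B: exponential moments of the vertex averages of the vertical arrows in the plane,
from Gaussian domination in boxes with free arrows.
-/

namespace Vale.Agent.P145.FB.Mom

open Finset Filter Topology MeasureTheory
open Vale.Agent.P152 Vale.Agent.P152.GFF Vale.Agent.P152.GFF.B3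
open Vale.Agent.P152.GFF.S (ar)

/-- the field of the window, moved and extended by zero. -/
noncomputable def secg (m r p n : ℕ) (s : ℝ) (g : ℕ → ℕ → ℝ) (i j : ℕ) : ℝ :=
  if (p ≤ i ∧ i < p + m) ∧ (n ≤ j ∧ j < n + r) then s * g (i - p) (j - n) else 0

lemma secg_in {m r p n : ℕ} (s : ℝ) (g : ℕ → ℕ → ℝ) {i j : ℕ} (hi : i < m) (hj : j < r) :
    secg m r p n s g (p + i) (n + j) = s * g i j := by
  unfold secg
  rw [if_pos ⟨⟨by omega, by omega⟩, ⟨by omega, by omega⟩⟩]
  congr 2 <;> omega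

lemma secg_out {m r p n : ℕ} (s : ℝ) (g : ℕ → ℕ → ℝ) {i j : ℕ}
    (h : i < p ∨ p + m ≤ i ∨ j < n ∨ n + r ≤ j) : secg m r p n s g i j = 0 := by
  unfold secg
  rw [if_neg]
  omega

lemma secg_sum {m r p n M R : ℕ} (hx : p + m ≤ M) (hy : n + r ≤ R) (s : ℝ)
    (g : ℕ → ℕ → ℝ) (H : Fin M × Fin R → ℝ → ℝ) (h0 : ∀ v, H v 0 = 0) :
    ∑ v : Fin M × Fin R, H v (secg m r p n s g v.1 v.2) =
      ∑ v : Fin m × Fin r, H (bxf p n hx hy v) (s * g v.1 v.2) := by
  symm
  refine Fintype.sum_of_injective (bxf p n hx hy) ?_ _ _ ?_ ?_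
  · rintro ⟨a, b⟩ ⟨c, d⟩ h
    simp only [bxf, Prod.mk.injEq, Fin.mk.injEq] at h
    ext
    · show a.val = c.val
      omega
    · show b.val = d.val
      omega
  · rintro ⟨a, b⟩ h
    have h1 : (a.val < p ∨ p + m ≤ a.val ∨ b.val < n ∨ n + r ≤ b.val) := by
      by_contra hc
      push Not at hc
      apply h
      refine ⟨(⟨a.val - p, by omega⟩, ⟨b.val - n, by omega⟩), ?_⟩
      simp only [bxf]
      ext
      · show p + (a.val - p) = a.val
        (clear * - hc; omega)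
      · show n + (b.val - n) = b.val
        omega
    show H (a, b) (secg m r p n s g a b) = 0
    rw [secg_out s g h1, h0]
  · rintro ⟨a, b⟩
    show H (bxf p n hx hy (a, b)) (s * g a b) =
      H (bxf p n hx hy (a, b)) (secg m r p n s g (p + a) (n + b))
    rw [secg_in s g a.2 b.2]

lemma sec_range (M R : ℕ) (h : ℕ → ℕ → ℝ) :
    ∑ i ∈ range M, ∑ j ∈ range R, h i j = ∑ v : Fin M × Fin R, h v.1 v.2 := by
  rw [Fintype.sum_prod_type, Finset.sum_range]
  exact Finset.sum_congr rfl fun i _ => Finset.sum_range _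

lemma secg_sq {m r p n M R : ℕ} (hx : p + m ≤ M) (hy : n + r ≤ R) (s : ℝ)
    (g : ℕ → ℕ → ℝ) :
    ∑ i ∈ range M, ∑ j ∈ range R, secg m r p n s g i j ^ 2 =
      s ^ 2 * ∑ i ∈ range m, ∑ j ∈ range r, g i j ^ 2 := by
  rw [sec_range M R (fun i j => secg m r p n s g i j ^ 2), sec_range m r (fun i j => g i j ^ 2),
    secg_sum hx hy s g (fun _ x => x ^ 2) (fun _ => by simp), Finset.mul_sum]
  exact Finset.sum_congr rfl fun v _ => mul_pow _ _ _

lemma secg_field {m r p n M R : ℕ} (hx : p + m ≤ M) (hy : n + r ≤ R) (s : ℝ)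
    (g : ℕ → ℕ → ℝ) (he : IsEmb (boxNet m r) (boxNet M R) (bxf p n hx hy) (bxg p n hx hy))
    (k : BE M R → ZMod 2) :
    fieldY M R (secg m r p n s g) k = s * fieldY m r g (fun e => k (bxg p n hx hy e)) := by
  unfold fieldY
  rw [secg_sum hx hy s g (fun v x => x / 2 *
    (sg (k (Sum.inl (v.1.castSucc, v.2))) + sg (k (Sum.inl (v.1.succ, v.2)))))
    (fun _ => by simp), Finset.mul_sum]
  refine Finset.sum_congr rfl fun v _ => ?_
  have h1 : k (Sum.inl ((bxf p n hx hy v).1.castSucc, (bxf p n hx hy v).2)) =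
      k (bxg p n hx hy (Sum.inl (v.1.castSucc, v.2))) := congrArg k (he.hl v)
  have h2 : k (Sum.inl ((bxf p n hx hy v).1.succ, (bxf p n hx hy v).2)) =
      k (bxg p n hx hy (Sum.inl (v.1.succ, v.2))) := congrArg k (he.hr v)
  rw [h1, h2]
  ring

/-- Exponential moments in the infinite-volume state. -/
theorem mexp (hGD : S_GD) (hmuI : S_muI) (hloc : S_loc) (hemb : S_emb)
    (w : Pairing → ℝ) (hw : GoodW w) (hw12 : w Pairing.t1 = w Pairing.t2) (hA : A6 w) :
    ∃ C > 0, ∃ γ > 0, ∀ (m r : ℕ) (g : ℕ → ℕ → ℝ), 1 ≤ m → 1 ≤ r → Even m → Even r →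
      (∀ i j, |g i j| ≤ γ) →
      mu w m r (fun x => Real.exp (fieldY m r g x)) ≤
        Real.exp (C * ∑ i ∈ range m, ∑ j ∈ range r, g i j ^ 2) := by
  obtain ⟨C0, hC0, γ0, hγ0, hG⟩ := hGD w hw.pos hw12 hA
  refine ⟨C0, hC0, γ0, hγ0, fun m r g hm hr hme hre hgb => ?_⟩
  set S : ℝ := ∑ i ∈ range m, ∑ j ∈ range r, g i j ^ 2 with hS
  have hbd : ∀ p n i j, |secg m r p n 1 g i j| ≤ γ0 := by
    intro p n i j
    unfold secg
    split_ifs with h
    · rw [one_mul]
      exact hgb _ _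
    · rw [abs_zero]
      exact hγ0.le
  -- the main estimate
  have key : ∀ ε : ℝ, 0 < ε → mu w m r (fun x => Real.exp (fieldY m r g x)) ≤
      Real.exp (C0 * S + ε) + ε := by
    intro ε hε
    obtain ⟨q0, hq0⟩ := hmuI w hw m r hm hr
      (fun x => Real.exp (fieldY m r g x) * (boxNet m r).W6 w x) ε hε
    have hl2 : 0 < Real.log 2 := Real.log_pos (by norm_num)
    obtain ⟨p0, hp0⟩ := exists_nat_ge ((r : ℝ) * m * Real.log 2 / ε)
    obtain ⟨p, hp⟩ : ∃ p, p = max (max q0 1) p0 := ⟨_, rfl⟩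
    obtain ⟨n0, hn0⟩ := exists_nat_ge ((r : ℝ) * (2 * p + m) * Real.log 2 / ε)
    obtain ⟨n, hn⟩ : ∃ n, n = max (max q0 1) n0 := ⟨_, rfl⟩
    have hp1 : 1 ≤ p := by (clear * - hp; omega)
    have hn1 : 1 ≤ n := by (clear * - hn; omega)
    have hpq : q0 ≤ p := by omega
    have hnq : q0 ≤ n := by omega
    have hp2 : (p0 : ℝ) ≤ p := by exact_mod_cast (by (clear * - hp; omega) : p0 ≤ p)
    have hn2 : (n0 : ℝ) ≤ n := by exact_mod_cast (by omega : n0 ≤ n)
    have hp3 : (0 : ℝ) < p := by exact_mod_cast hp1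
    have hn3 : (0 : ℝ) < n := by exact_mod_cast hn1
    have e1 : (r : ℝ) * m * Real.log 2 / (2 * p) ≤ ε / 2 := by
      have h1 : (r : ℝ) * m * Real.log 2 / ε ≤ p := le_trans hp0 hp2
      rw [div_le_iff₀ hε] at h1
      rw [div_le_iff₀ (by (clear * - hp1; positivity))]
      linarith only [h1]
    have e2 : (r : ℝ) * (2 * p + m) * Real.log 2 / (2 * n) ≤ ε / 2 := by
      have h1 : (r : ℝ) * (2 * p + m) * Real.log 2 / ε ≤ n := le_trans hn0 hn2
      rw [div_le_iff₀ hε] at h1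
      rw [div_le_iff₀ (by (clear * - hn1; positivity))]
      linarith only [h1]
    have hx : p + m ≤ p + m + p := by (clear * - hp hp1; omega)
    have hy : n + r ≤ n + r + n := by omega
    have he : IsEmb (boxNet m r) (boxNet (p + m + p) (n + r + n)) (bxf p n hx hy)
        (bxg p n hx hy) := hemb.2.2.1 m r _ _ p n hx hy
    have hE : (boxNet (p + m + p) (n + r + n)).Ea w
        (fun k => Real.exp (fieldY m r g (fun e => k (bxg p n hx hy e)))) ≤
        Real.exp (C0 * S + ε) := by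
      have h1 := hG p m n r (secg m r p n 1 g) hp1 hme hn1 hre
        (fun i j h => secg_out 1 g h) (hbd p n)
      have h2 : (fun k : BE (p + m + p) (n + r + n) → ZMod 2 =>
          Real.exp (fieldY (p + m + p) (n + r + n) (secg m r p n 1 g) k)) =
          fun k => Real.exp (fieldY m r g (fun e => k (bxg p n hx hy e))) := by
        funext k
        rw [secg_field hx hy 1 g he, one_mul]
      rw [h2, secg_sq hx hy] at h1
      refine le_trans h1 (Real.exp_le_exp.2 ?_)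
      rw [← hS, one_pow, one_mul]
      linarith only [e1, e2]
    have h2 := hq0 (p + m + p) (n + r + n) p n hx hy hpq hnq (by omega) (by omega)
    have h3 := hloc _ _ _ _ (boxNet m r) (boxNet (p + m + p) (n + r + n)) (bxf p n hx hy)
      (bxg p n hx hy) w he (fun x => Real.exp (fieldY m r g x))
    unfold Net.Ea at hE
    rw [← h3] at h2
    have h4 := (abs_le.1 h2).1
    unfold mu
    linarith only [hE, h4]
  have hlim : Tendsto (fun ε : ℝ => Real.exp (C0 * S + ε) + ε)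
      (𝓝[>] 0) (𝓝 (Real.exp (C0 * S + 0) + 0)) := by
    refine Tendsto.mono_left ?_ nhdsWithin_le_nhds
    have hc : Continuous (fun ε : ℝ => Real.exp (C0 * S + ε) + ε) := by fun_prop
    exact hc.tendsto 0
  have h5 : mu w m r (fun x => Real.exp (fieldY m r g x)) ≤ Real.exp (C0 * S + 0) + 0 :=
    ge_of_tendsto hlim (eventually_nhdsWithin_of_forall fun ε hε => key ε hε)
  rwa [add_zero, add_zero] at h5

/-- The same for the vertical arrows. -/
theorem mexpV (hGD : S_GD) (hmuI : S_muI) (htsym : S_tsym) (hloc : S_loc) (hemb : S_emb)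
    (w : Pairing → ℝ) (hw : GoodW w) (hw12 : w Pairing.t1 = w Pairing.t2) (hA : A6 w) :
    ∃ C > 0, ∃ γ > 0, ∀ (m r : ℕ) (g : ℕ → ℕ → ℝ), 1 ≤ m → 1 ≤ r → Even m → Even r →
      (∀ i j, |g i j| ≤ γ) →
      mu w m r (fun x => Real.exp (fieldY m r g x)) ≤
        Real.exp (C * ∑ i ∈ range m, ∑ j ∈ range r, g i j ^ 2) ∧
      mu w m r (fun x => Real.exp (∑ v : Fin m × Fin r, g v.1 v.2 / 2 *
        (sg (x (Sum.inr (v.1, v.2.castSucc))) + sg (x (Sum.inr (v.1, v.2.succ)))))) ≤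
        Real.exp (C * ∑ i ∈ range m, ∑ j ∈ range r, g i j ^ 2) := by
  obtain ⟨C, hC, γ, hγ, h⟩ := mexp hGD hmuI hloc hemb w hw hw12 hA
  refine ⟨C, hC, γ, hγ, fun m r g hm hr hme hre hg => ⟨h m r g hm hr hme hre hg, ?_⟩⟩
  rw [htsym.2.1 w hw m r hm hr]
  have h1 := h r m (fun i j => g j i) hr hm hre hme (fun i j => hg j i)
  have h2 : (fun x : BE r m → ZMod 2 => Real.exp (∑ v : Fin m × Fin r, g v.1 v.2 / 2 *
      (sg ((fun e => x (sw m r e)) (Sum.inr (v.1, v.2.castSucc))) +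
        sg ((fun e => x (sw m r e)) (Sum.inr (v.1, v.2.succ)))))) =
      fun x => Real.exp (fieldY r m (fun i j => g j i) x) := by
    funext x
    congr 1
    unfold fieldY
    rw [← Equiv.sum_comp (Equiv.prodComm (Fin m) (Fin r))]
    rfl
  rw [h2]
  refine le_trans h1 (le_of_eq ?_)
  rw [Finset.sum_comm]

/-- The value of an arrow read in a window. -/
lemma sg_rd_bit (b : Bool) : sg (if b = true then 0 else 1) = ((sgb b : ℤ) : ℝ) := by
  cases b <;> simp only [sg, Bool.false_eq_true, ↓reduceIte, one_ne_zero, sgb, Int.reduceNeg, Int.cast_neg, Int.cast_one]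

lemma sg_rd_inl (m r : ℕ) (x0 y0 : ℤ) (ω : Ori (ℤ × ℤ)) (v : Fin (m + 1) × Fin r) :
    sg (rd m r x0 y0 ω (Sum.inl v)) = ar ω (Sum.inl (x0 + v.1 - 1, y0 + v.2)) := by
  unfold rd ar
  exact sg_rd_bit _

lemma sg_rd_inr (m r : ℕ) (x0 y0 : ℤ) (ω : Ori (ℤ × ℤ)) (v : Fin m × Fin (r + 1)) :
    sg (rd m r x0 y0 ω (Sum.inr v)) = ar ω (Sum.inr (x0 + v.1, y0 + v.2 - 1)) := by
  unfold rd ar
  exact sg_rd_bit _

/-- A finite sum over `ℤ × ℤ` as a sum over a window. -/
lemma win_sum (s : Finset (ℤ × ℤ)) (N : ℕ) (hN : ∀ v ∈ s, v.1.natAbs + v.2.natAbs ≤ N)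
    (H : ℤ × ℤ → ℝ) :
    ∑ u ∈ s, H u = ∑ v : Fin (2 * N + 2) × Fin (2 * N + 2),
      if ((v.1 : ℤ) - N, (v.2 : ℤ) - N) ∈ s then H ((v.1 : ℤ) - N, (v.2 : ℤ) - N) else 0 := by
  rw [← Finset.sum_filter]
  symm
  refine Finset.sum_nbij (fun v => ((v.1 : ℤ) - N, (v.2 : ℤ) - N)) ?_ ?_ ?_ ?_
  · intro v hv
    exact (Finset.mem_filter.1 hv).2
  · intro v _ v' _ h
    simp only [Prod.mk.injEq] at h
    ext
    · omega
    · omega
  · intro u hu
    have h := hN u hu
    refine ⟨(⟨(u.1 + N).toNat, by omega⟩, ⟨(u.2 + N).toNat, by omega⟩), ?_, ?_⟩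
    · rw [Finset.mem_coe, Finset.mem_filter]
      refine ⟨Finset.mem_univ _, ?_⟩
      have h1 : (((u.1 + N).toNat : ℕ) : ℤ) - N = u.1 := by omega
      have h2 : (((u.2 + N).toNat : ℕ) : ℤ) - N = u.2 := by omega
      simp only [h1, h2]
      exact hu
    · have h1 : (((u.1 + N).toNat : ℕ) : ℤ) - N = u.1 := by omega
      have h2 : (((u.2 + N).toNat : ℕ) : ℤ) - N = u.2 := by (clear * - h h1; omega)
      simp only [h1, h2]
  · intro v _
    rfl

/-- Exponential moments of the vertex averages of the arrows. -/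
def EGD (P : Measure (Ori (ℤ × ℤ))) (C γ : ℝ) : Prop :=
  ∀ (s : Finset (ℤ × ℤ)) (g : ℤ × ℤ → ℝ), (∀ v, |g v| ≤ γ) →
    ∫ ω, Real.exp (∑ v ∈ s, g v * ((ar ω (Sum.inl (v.1 - 1, v.2)) + ar ω (Sum.inl v)) / 2)) ∂P ≤
      Real.exp (C * ∑ v ∈ s, g v ^ 2) ∧
    ∫ ω, Real.exp (∑ v ∈ s, g v * ((ar ω (Sum.inr (v.1, v.2 - 1)) + ar ω (Sum.inr v)) / 2)) ∂P ≤
      Real.exp (C * ∑ v ∈ s, g v ^ 2)

/-- Gaussian domination (exponential moments) for vertex averages. -/
theorem egd (hGD : S_GD) (hmuI : S_muI) (htsym : S_tsym) (hloc : S_loc) (hemb : S_emb)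
    {c : ℝ} (hc : 0 < c) (hc2 : c ^ 2 ≤ 2) (hA : A6 (wc c)) :
    ∃ C > 0, ∃ γ > 0, ∀ P : Measure (Ori (ℤ × ℤ)), IsP c P → EGD P C γ := by
  obtain ⟨C, hC, γ, hγ, hb⟩ := mexpV hGD hmuI htsym hloc hemb (wc c) (wc_good hc hc2) rfl hA
  refine ⟨C, hC, γ, hγ, fun P hP s g hg => ?_⟩
  classical
  set N : ℕ := ∑ v ∈ s, (v.1.natAbs + v.2.natAbs) with hNdef
  have hN : ∀ v ∈ s, v.1.natAbs + v.2.natAbs ≤ N := fun v hv =>
    Finset.single_le_sum (f := fun v : ℤ × ℤ => v.1.natAbs + v.2.natAbs)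
      (fun _ _ => Nat.zero_le _) hv
  set G : ℕ → ℕ → ℝ := fun i j =>
    if ((i : ℤ) - N, (j : ℤ) - N) ∈ s then g ((i : ℤ) - N, (j : ℤ) - N) else 0 with hG
  have hGb : ∀ i j, |G i j| ≤ γ := by
    intro i j
    simp only [hG]
    split_ifs
    · exact hg _
    · rw [abs_zero]
      exact hγ.le
  have hsq : ∑ i ∈ range (2 * N + 2), ∑ j ∈ range (2 * N + 2), G i j ^ 2 = ∑ v ∈ s, g v ^ 2 := by
    rw [win_sum s N hN (fun v => g v ^ 2), Fintype.sum_prod_type, Finset.sum_range]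
    refine Finset.sum_congr rfl fun i _ => ?_
    rw [Finset.sum_range]
    refine Finset.sum_congr rfl fun j _ => ?_
    simp only [hG]
    split_ifs <;> simp
  obtain ⟨hb1, hb2⟩ := hb (2 * N + 2) (2 * N + 2) G (by omega) (by omega) ⟨N + 1, by ring⟩
    ⟨N + 1, by ring⟩ hGb
  rw [hsq] at hb1 hb2
  have hx : ∀ a : ℤ, -(N : ℤ) + a = a - N := fun a => by ring
  constructor
  · refine le_trans (le_of_eq ?_) hb1
    rw [← hP.2.2 (2 * N + 2) (2 * N + 2) (by omega) (by omega)
      (fun x => Real.exp (fieldY (2 * N + 2) (2 * N + 2) G x)) (-(N : ℤ)) (-(N : ℤ))]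
    refine integral_congr_ae (Filter.Eventually.of_forall fun ω => ?_)
    beta_reduce
    congr 1
    rw [win_sum s N hN]
    unfold fieldY
    refine Finset.sum_congr rfl fun v _ => ?_
    rw [sg_rd_inl, sg_rd_inl]
    simp only [hG, hx, Fin.val_castSucc, Fin.val_succ]
    split_ifs with h
    · have e2 : (((v.1 : ℕ) + 1 : ℕ) : ℤ) - N - 1 = ((v.1 : ℕ) : ℤ) - N := by push_cast; ring
      rw [e2]
      ring
    · ring
  · refine le_trans (le_of_eq ?_) hb2
    rw [← hP.2.2 (2 * N + 2) (2 * N + 2) (by omega) (by omega)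
      (fun x => Real.exp (∑ v : Fin (2 * N + 2) × Fin (2 * N + 2), G v.1 v.2 / 2 *
        (sg (x (Sum.inr (v.1, v.2.castSucc))) + sg (x (Sum.inr (v.1, v.2.succ))))))
      (-(N : ℤ)) (-(N : ℤ))]
    refine integral_congr_ae (Filter.Eventually.of_forall fun ω => ?_)
    beta_reduce
    congr 1
    rw [win_sum s N hN]
    refine Finset.sum_congr rfl fun v _ => ?_
    rw [sg_rd_inr, sg_rd_inr]
    simp only [hG, hx, Fin.val_castSucc, Fin.val_succ]
    split_ifs with h
    · have e2 : (((v.2 : ℕ) + 1 : ℕ) : ℤ) - N - 1 = ((v.2 : ℕ) : ℤ) - N := by push_cast; ring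
      rw [e2]
      ring
    · ring

end Vale.Agent.P145.FB.Mom
end

section

/-!
P145, block F-B: all moments of the smoothed heights tested against a derivative `∂_t Ψ` are
bounded in terms of `∫ Ψ²`.
-/

namespace Vale.Agent.P145.FB.Mom

open Finset Filter Topology MeasureTheory
open Vale.Agent.P152 Vale.Agent.P152.GFF.S

theorem row_cells {Ψ : ℝ × ℝ → ℝ}
    (hΨ : ContDiff ℝ ((⊤ : ℕ∞) : WithTop ℕ∞) Ψ) (hs : HasCompactSupport Ψ) {ε : ℝ}
    (hε : 0 < ε) :
    ∀ᶠ δ : ℝ in 𝓝[>] 0, ∃ (s : Finset (ℤ × ℤ)) (c : ℤ × ℤ → ℝ),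
      (∀ v ∉ s, c v = 0) ∧ (∀ v ∉ s, c (v.1, v.2 + 1) = 0) ∧ (∀ v ∉ s, c (v.1, v.2 + 2) = 0) ∧
      (∀ ω : Ori (ℤ × ℤ), (∑' v : ℤ × ℤ, ar ω (Sum.inr v) *
        ∫ y in (δ * v.2)..(δ * (v.2 + 1)), Ψ (δ * v.1, y)) = ∑ v ∈ s, c v * ar ω (Sum.inr v)) ∧
      ∑ v ∈ s, c v ^ 2 ≤ (∫ x, Ψ x ^ 2) + ε ∧
      ∑ v ∈ s, |c (v.1, v.2 + 2) - 2 * c (v.1, v.2 + 1) + c v| ≤ ε ∧ ∀ v, |c v| ≤ ε := by
  have hΨc := hΨ.continuous
  -- the derivative in the second variable
  obtain ⟨D, hD⟩ : ∃ D : ℝ × ℝ → ℝ, ∀ p, D p = fderiv ℝ Ψ p (0, 1) := ⟨_, fun _ => rfl⟩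
  have hDc : Continuous D := by
    have h1 : Continuous (fderiv ℝ Ψ) := hΨ.continuous_fderiv (by simp)
    have h2 : D = fun p => fderiv ℝ Ψ p (0, 1) := funext hD
    rw [h2]
    exact h1.clm_apply continuous_const
  have hDs : HasCompactSupport D := by
    have h2 : D = fun p => fderiv ℝ Ψ p (0, 1) := funext hD
    rw [h2]
    exact hs.fderiv_apply (𝕜 := ℝ) (0, 1)
  have hDd : ∀ t y, HasDerivAt (fun y => Ψ (t, y)) (D (t, y)) y := by
    intro t y
    have h1 : HasFDerivAt Ψ (fderiv ℝ Ψ (t, y)) (t, y) :=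
      (hΨ.differentiable (by simp) (t, y)).hasFDerivAt
    have h2 : HasDerivAt (fun y : ℝ => (t, y)) ((0 : ℝ), (1 : ℝ)) y :=
      (hasDerivAt_const y t).prodMk (hasDerivAt_id y)
    rw [hD]
    exact h1.comp_hasDerivAt y h2
  -- bound
  obtain ⟨M, hM⟩ := hΨc.bounded_above_of_compact_support hs
  have hM' : ∀ p, |Ψ p| ≤ M := fun p => by rw [← Real.norm_eq_abs]; exact hM p
  have hM0 : 0 ≤ M := (norm_nonneg _).trans (hM 0)
  -- support
  obtain ⟨A, hA0, hA⟩ : ∃ A : ℝ, 0 < A ∧ ∀ p : ℝ × ℝ, (A ≤ |p.1| ∨ A ≤ |p.2|) → Ψ p = 0 := by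
    obtain ⟨A, hA0, hA⟩ := hs.isCompact.isBounded.exists_pos_norm_lt
    refine ⟨A, hA0, fun p hp => ?_⟩
    by_contra hne
    have h1 := hA p (subset_tsupport _ hne)
    rw [Prod.norm_def, max_lt_iff, Real.norm_eq_abs, Real.norm_eq_abs] at h1
    rcases hp with h | h <;> linarith only [h1, h]
  obtain ⟨K, hK⟩ : ∃ K : ℝ, K = (2 * A + 9) ^ 2 := ⟨_, rfl⟩
  have hK0 : 0 < K := by rw [hK]; (clear * - hA0; positivity)
  obtain ⟨η, hη0, hη⟩ : ∃ η : ℝ, 0 < η ∧
      (2 * M * η + η ^ 2) * K ≤ ε ∧ K * η ≤ ε := by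
    obtain ⟨L, hL⟩ : ∃ L : ℝ, L = (2 * M + 1) * K + K := ⟨_, rfl⟩
    have hL0 : 0 < L := by rw [hL]; (clear * - hM0 hK0; positivity)
    refine ⟨min 1 (ε / L), lt_min one_pos (div_pos hε hL0), ?_⟩
    have h1 : min 1 (ε / L) ≤ 1 := min_le_left _ _
    have h2 : min 1 (ε / L) ≤ ε / L := min_le_right _ _
    have h0 : 0 < min 1 (ε / L) := lt_min one_pos (div_pos hε hL0)
    generalize min 1 (ε / L) = η at h0 h1 h2
    have h3 : η ^ 2 ≤ η := by nlinarith only [h0, h1]
    have h4 : L * η ≤ ε := by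
      rw [le_div_iff₀ hL0] at h2
      linarith only [h2]
    have h5 : (2 * M * η + η ^ 2) * K ≤ (2 * M + 1) * K * η := by nlinarith only [hK, h3]
    have h6 : 0 ≤ (2 * M + 1) * K * η := by (clear * - hM0 hK0 h0; positivity)
    have h7 : 0 ≤ K * η := by (clear * - hK0 h0; positivity)
    have h8 : L * η = (2 * M + 1) * K * η + K * η := by rw [hL]; ring
    constructor <;> linarith only [h4, h5, h7, h8, h6]
  filter_upwards [modulus hΨc hs hη0, modulus hDc hDs hη0,
    Ioo_mem_nhdsGT (show (0 : ℝ) < 1 from one_pos),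
    Ioo_mem_nhdsGT (show (0 : ℝ) < ε / (M + 1) by (clear * - hε hM0; positivity))] with δ hu1 hu2 hδ1 hδ2
  have hδ : 0 < δ := hδ1.1
  obtain ⟨N, hN⟩ : ∃ N : ℤ, N = ⌈A / δ⌉ + 3 := ⟨_, rfl⟩
  have hN1 : A / δ + 3 ≤ N := by
    rw [hN]; push_cast; linarith only [Int.le_ceil (A / δ)]
  have hN2 : (N : ℝ) < A / δ + 4 := by
    rw [hN]; push_cast; linarith only [Int.ceil_lt_add_one (A / δ)]
  have hN0 : 0 ≤ N := by
    have : (0 : ℝ) ≤ N := le_trans (by (clear * - hA0 hδ; positivity)) hN1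
    exact_mod_cast this
  obtain ⟨s, hsdef⟩ : ∃ s : Finset (ℤ × ℤ), s = Finset.Icc (-N) N ×ˢ Finset.Icc (-N) N := ⟨_, rfl⟩
  obtain ⟨c, hc⟩ : ∃ c : ℤ × ℤ → ℝ, ∀ v, c v =
      ∫ y in (δ * v.2)..(δ * (v.2 + 1)), Ψ (δ * v.1, y) := ⟨_, fun _ => rfl⟩
  have hAδ : A = δ * (A / δ) := by (clear * - hδ hA0; field_simp)
  have hz : ∀ v : ℤ × ℤ, (N - 2 < |v.1| ∨ N - 2 < |v.2|) → c v = 0 := by
    intro v hv
    rw [hc]
    refine intervalIntegral.integral_zero_ae (Eventually.of_forall fun y hy => ?_)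
    rw [Set.uIoc_of_le (by nlinarith only [hδ])] at hy
    refine hA _ ?_
    rcases hv with hv | hv
    · left
      have h1 : (N : ℝ) - 2 < |(v.1 : ℝ)| := by
        have : ((N - 2 : ℤ) : ℝ) < ((|v.1| : ℤ) : ℝ) := by exact_mod_cast hv
        push_cast at this
        exact this
      rw [abs_mul, abs_of_pos hδ]
      nlinarith only [hδ, hAδ, hN1, h1]
    · right
      have h1 : (N : ℝ) - 2 < |(v.2 : ℝ)| := by
        have : ((N - 2 : ℤ) : ℝ) < ((|v.2| : ℤ) : ℝ) := by exact_mod_cast hv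
        push_cast at this
        exact this
      simp only
      rw [lt_abs] at h1
      rw [le_abs]
      rcases h1 with h1 | h1
      · left
        nlinarith only [hδ, hAδ, hN1, h1, hy.1]
      · right
        nlinarith only [hAδ, hδ, hN1, h1, hy.2]
  have hmem : ∀ v : ℤ × ℤ, v ∉ s → N < |v.1| ∨ N < |v.2| := by
    intro v hv
    by_contra hcon
    push Not at hcon
    refine hv ?_
    rw [hsdef, Finset.mem_product, Finset.mem_Icc, Finset.mem_Icc]
    exact ⟨abs_le.1 hcon.1, abs_le.1 hcon.2⟩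
  have hs0 : ∀ v ∉ s, c v = 0 := by
    intro v hv
    refine hz v ?_
    rcases hmem v hv with h | h
    · left; (clear * - hN h; omega)
    · right; omega
  have hsj : ∀ j : ℤ, 0 ≤ j → j ≤ 2 → ∀ v ∉ s, c (v.1, v.2 + j) = 0 := by
    intro j hj0 hj2 v hv
    refine hz _ ?_
    rcases hmem v hv with h | h
    · left; simp only; omega
    · right
      simp only
      rw [lt_abs] at h ⊢
      omega
  have hts : ∀ ω : Ori (ℤ × ℤ), (∑' v : ℤ × ℤ, ar ω (Sum.inr v) *
      ∫ y in (δ * v.2)..(δ * (v.2 + 1)), Ψ (δ * v.1, y)) = ∑ v ∈ s, c v * ar ω (Sum.inr v) := by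
    intro ω
    have h1 : ∑' v, c v * ar ω (Sum.inr v) = ∑ v ∈ s, c v * ar ω (Sum.inr v) :=
      tsum_eq_sum fun v hv => by rw [hs0 v hv, zero_mul]
    rw [← h1]
    refine tsum_congr fun v => ?_
    rw [hc]
    ring
  -- the two sums
  have hcard : (s.card : ℝ) * δ ^ 2 ≤ K := by
    have h1 : (s.card : ℝ) = (2 * N + 1) ^ 2 := by
      rw [hsdef, Finset.card_product, Int.card_Icc]
      have h2 : ((N + 1 - -N).toNat : ℝ) = 2 * N + 1 := by
        have h3 : ((N + 1 - -N).toNat : ℤ) = 2 * N + 1 := by omega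
        have h4 : (((N + 1 - -N).toNat : ℤ) : ℝ) = ((2 * N + 1 : ℤ) : ℝ) := by rw [h3]
        push_cast at h4
        exact h4
      push_cast
      rw [h2]
      ring
    have hN0' : (0 : ℝ) ≤ N := by exact_mod_cast hN0
    have h5 : (2 * (N : ℝ) + 1) * δ ≤ 2 * A + 9 := by
      have h6 : (N : ℝ) * δ ≤ A + 4 * δ := by
        have := mul_le_mul_of_nonneg_right hN2.le hδ.le
        have h7 : (A / δ + 4) * δ = A + 4 * δ := by (clear * - hδ hA0; field_simp)
        linarith only [hAδ, this]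
      nlinarith only [h6, hδ1.2]
    rw [h1, hK, ← mul_pow]
    exact pow_le_pow_left₀ (by (clear * - hN0 hδ; positivity)) h5 2
  have hcard0 : (0 : ℝ) ≤ s.card := Nat.cast_nonneg _
  have hsum1 : ∑ v ∈ s, c v ^ 2 ≤ (∫ x, Ψ x ^ 2) + (2 * M * η + η ^ 2) * K := by
    have h1 : ∑ v ∈ s, c v ^ 2 ≤
        ∑ v ∈ s, ((∫ x in cell δ v, Ψ x ^ 2) + (2 * M * η + η ^ 2) * δ ^ 2) := by
      refine Finset.sum_le_sum fun v _ => ?_
      rw [hc]
      exact cell_bound hΨc hs hM' hδ hη0.le hu1 v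
    rw [Finset.sum_add_distrib, Finset.sum_const, nsmul_eq_mul] at h1
    have h2 : ∑ v ∈ s, ∫ x in cell δ v, Ψ x ^ 2 ≤ ∫ x, Ψ x ^ 2 :=
      cell_sum hδ s (sq_int hΨc hs) fun x => sq_nonneg _
    have h3 : (s.card : ℝ) * ((2 * M * η + η ^ 2) * δ ^ 2) ≤ (2 * M * η + η ^ 2) * K := by
      have h4 : 0 ≤ 2 * M * η + η ^ 2 := by (clear * - hM0 hη0; positivity)
      have h5 := mul_le_mul_of_nonneg_left hcard h4
      linarith only [h5]
    linarith only [h1, h2, h3]
  have hsum2 : ∑ v ∈ s, |c (v.1, v.2 + 2) - 2 * c (v.1, v.2 + 1) + c v| ≤ K * η := by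
    have h1 : ∑ v ∈ s, |c (v.1, v.2 + 2) - 2 * c (v.1, v.2 + 1) + c v| ≤
        ∑ _v ∈ s, η * δ ^ 2 := by
      refine Finset.sum_le_sum fun v _ => ?_
      rw [hc, hc, hc]
      exact cell_diff hΨc hDd hδ hu2 v
    rw [Finset.sum_const, nsmul_eq_mul] at h1
    have h2 := mul_le_mul_of_nonneg_left hcard hη0.le
    linarith only [h1, h2]
  have hcb : ∀ v, |c v| ≤ ε := by
    intro v
    rw [hc, ← Real.norm_eq_abs]
    refine (intervalIntegral.norm_integral_le_of_norm_le_const (C := M) fun y _ => ?_).trans ?_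
    · exact hM _
    · have h4 : δ * ((v.2 : ℝ) + 1) - δ * v.2 = δ := by ring
      rw [h4, abs_of_pos hδ]
      have h5 : δ * (M + 1) < ε := (lt_div_iff₀ (by linarith only [hM0])).1 hδ2.2
      nlinarith only [hδ, h5]
  exact ⟨s, c, hs0, hsj 1 (by norm_num) (by norm_num), hsj 2 (by norm_num) (by norm_num), hts,
    by linarith only [hη, hsum1], by linarith only [hη, hsum2], hcb⟩


/-- Exponential moment of a sum of vertical arrows. -/
theorem vert_exp {P : Measure (Ori (ℤ × ℤ))} [IsProbabilityMeasure P] {C γ : ℝ} (hC : 0 ≤ C)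
    (hE : EGD P C γ) (s : Finset (ℤ × ℤ)) (c : ℤ × ℤ → ℝ)
    (hs : ∀ v ∉ s, c v = 0) (hs1 : ∀ v ∉ s, c (v.1, v.2 + 1) = 0)
    (hs2 : ∀ v ∉ s, c (v.1, v.2 + 2) = 0) {a ε : ℝ} (hc : ∀ v, |c v| ≤ ε)
    (ha : 2 * |a| * ε ≤ γ)
    (hd2 : ∑ v ∈ s, |c (v.1, v.2 + 2) - 2 * c (v.1, v.2 + 1) + c v| ≤ ε) :
    ∫ ω, Real.exp (a * ∑ v ∈ s, c v * ar ω (Sum.inr v)) ∂P ≤
      Real.exp (4 * C * a ^ 2 * ∑ v ∈ s, c v ^ 2 + |a| * ε) := by
  obtain ⟨d, hd⟩ : ∃ d : ℤ × ℤ → ℝ, ∀ v, d v = c (v.1, v.2 + 1) - c v := ⟨_, fun _ => rfl⟩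
  have hd' : ∀ v : ℤ × ℤ, d (v.1, v.2 + 1) = c (v.1, v.2 + 2) - c (v.1, v.2 + 1) := by
    intro v
    rw [hd]
    simp only [add_assoc]
    norm_num
  have hds : ∀ v ∉ s, d v = 0 := fun v hv => by rw [hd, hs v hv, hs1 v hv, sub_zero]
  have hds1 : ∀ v ∉ s, d (v.1, v.2 + 1) = 0 := fun v hv => by
    rw [hd', hs1 v hv, hs2 v hv, sub_zero]
  obtain ⟨g, hg⟩ : ∃ g : ℤ × ℤ → ℝ, ∀ v, g v = a * (c v - 1 / 2 * d v) := ⟨_, fun _ => rfl⟩
  have hgb : ∀ v, |g v| ≤ γ := by
    intro v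
    have h1 : |c v - 1 / 2 * d v| ≤ 2 * ε := by
      rw [hd]
      have h2 := abs_le.1 (hc v)
      have h3 := abs_le.1 (hc (v.1, v.2 + 1))
      rw [abs_le]
      constructor <;> linarith only [h2, h3]
    rw [hg, abs_mul]
    have := mul_le_mul_of_nonneg_left h1 (abs_nonneg a)
    linarith
  have key : ∀ ω : Ori (ℤ × ℤ), Real.exp (a * ∑ v ∈ s, c v * ar ω (Sum.inr v)) ≤
      Real.exp (|a| * ε) * Real.exp (∑ v ∈ s, g v *
        ((ar ω (Sum.inr (v.1, v.2 - 1)) + ar ω (Sum.inr v)) / 2)) := by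
    intro ω
    rw [← Real.exp_add, Real.exp_le_exp]
    have h1 := vert_split ω s c hs hs1
    have h2 := vert_split ω s d hds hds1
    have h3 : |∑ v ∈ s, (d (v.1, v.2 + 1) - d v) * ar ω (Sum.inr v)| ≤ ε := by
      refine (Finset.abs_sum_le_sum_abs _ _).trans (le_trans (Finset.sum_le_sum fun v _ => ?_) hd2)
      rw [abs_mul, ar_abs, mul_one, hd', hd]
      refine le_of_eq (congrArg _ ?_)
      ring
    simp only [← hd] at h1
    have h4 : ∑ v ∈ s, g v * ((ar ω (Sum.inr (v.1, v.2 - 1)) + ar ω (Sum.inr v)) / 2) =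
        a * (∑ v ∈ s, c v * ((ar ω (Sum.inr (v.1, v.2 - 1)) + ar ω (Sum.inr v)) / 2) -
          1 / 2 * ∑ v ∈ s, d v * ((ar ω (Sum.inr (v.1, v.2 - 1)) + ar ω (Sum.inr v)) / 2)) := by
      rw [Finset.mul_sum, ← Finset.sum_sub_distrib, Finset.mul_sum]
      refine Finset.sum_congr rfl fun v _ => ?_
      rw [hg]
      ring
    rw [h4, h1, h2]
    generalize (∑ v ∈ s, c v * ((ar ω (Sum.inr (v.1, v.2 - 1)) + ar ω (Sum.inr v)) / 2)) = p
    generalize (∑ v ∈ s, d v * ((ar ω (Sum.inr (v.1, v.2 - 1)) + ar ω (Sum.inr v)) / 2)) = q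
    generalize (∑ v ∈ s, (d (v.1, v.2 + 1) - d v) * ar ω (Sum.inr v)) = z at h3
    have h5 : a * (1 / 4 * z) ≤ |a| * ε := by
      have h6 : |a * (1 / 4 * z)| ≤ |a| * ε := by
        rw [abs_mul, abs_mul]
        refine mul_le_mul_of_nonneg_left ?_ (abs_nonneg a)
        have h7 : |(1 / 4 : ℝ)| = 1 / 4 := abs_of_pos (by norm_num)
        rw [h7]
        have := abs_nonneg z
        linarith only [h3, this]
      exact (le_abs_self _).trans h6
    nlinarith only [h5]
  have hmeas : Measurable fun ω : Ori (ℤ × ℤ) => ∑ v ∈ s, g v *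
      ((ar ω (Sum.inr (v.1, v.2 - 1)) + ar ω (Sum.inr v)) / 2) := by
    refine Finset.measurable_sum _ fun v _ => ?_
    exact (((ar_measurable _).add (ar_measurable _)).div_const _).const_mul _
  have hi : Integrable (fun ω => Real.exp (|a| * ε) * Real.exp (∑ v ∈ s, g v *
        ((ar ω (Sum.inr (v.1, v.2 - 1)) + ar ω (Sum.inr v)) / 2))) P := by
    refine Integrable.const_mul ?_ _
    refine Integrable.of_bound (Real.measurable_exp.comp hmeas).aestronglyMeasurable
      (Real.exp (∑ v ∈ s, |g v|)) (Eventually.of_forall fun ω => ?_)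
    rw [Real.norm_eq_abs, abs_of_pos (Real.exp_pos _), Real.exp_le_exp]
    refine Finset.sum_le_sum fun v _ => ?_
    refine (le_abs_self _).trans ?_
    rw [abs_mul]
    refine mul_le_of_le_one_right (abs_nonneg _) ?_
    have h1 := abs_le.1 (ar_abs_le ω (Sum.inr (v.1, v.2 - 1)))
    have h2 := abs_le.1 (ar_abs_le ω (Sum.inr v))
    rw [abs_le]
    constructor <;> linarith [h1.1, h1.2, h2.1, h2.2]
  have h8 : ∑ v ∈ s, g v ^ 2 ≤ a ^ 2 * (4 * ∑ v ∈ s, c v ^ 2) := by
    have h6 := sum_shift s (fun v => c v ^ 2) (fun v hv => by simp only [hs v hv]; norm_num)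
      (fun v hv => by simp only [hs1 v hv]; norm_num)
    have h7 : ∑ v ∈ s, g v ^ 2 ≤ ∑ v ∈ s, (a ^ 2 * (3 * c v ^ 2) +
        a ^ 2 * c (v.1, v.2 + 1) ^ 2) := by
      refine Finset.sum_le_sum fun v _ => ?_
      rw [hg, hd, mul_pow, ← mul_add]
      refine mul_le_mul_of_nonneg_left ?_ (sq_nonneg a)
      nlinarith only [sq_nonneg (c (v.1, v.2 + 1) + c v)]
    rw [Finset.sum_add_distrib, ← Finset.mul_sum, ← Finset.mul_sum, ← Finset.mul_sum, ← h6] at h7
    linarith only [h7]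
  calc ∫ ω, Real.exp (a * ∑ v ∈ s, c v * ar ω (Sum.inr v)) ∂P
      ≤ ∫ ω, Real.exp (|a| * ε) * Real.exp (∑ v ∈ s, g v *
        ((ar ω (Sum.inr (v.1, v.2 - 1)) + ar ω (Sum.inr v)) / 2)) ∂P :=
        integral_mono_of_nonneg (Eventually.of_forall fun ω => (Real.exp_pos _).le) hi
          (Eventually.of_forall key)
    _ = Real.exp (|a| * ε) * ∫ ω, Real.exp (∑ v ∈ s, g v *
        ((ar ω (Sum.inr (v.1, v.2 - 1)) + ar ω (Sum.inr v)) / 2)) ∂P := integral_const_mul _ _
    _ ≤ Real.exp (|a| * ε) * Real.exp (C * ∑ v ∈ s, g v ^ 2) :=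
        mul_le_mul_of_nonneg_left (hE s g hgb).2 (Real.exp_pos _).le
    _ ≤ Real.exp (4 * C * a ^ 2 * ∑ v ∈ s, c v ^ 2 + |a| * ε) := by
        rw [← Real.exp_add, Real.exp_le_exp]
        have := mul_le_mul_of_nonneg_left h8 hC
        linarith

/-- **Exponential moments** of the heights tested against `∂_t Ψ`. -/
theorem exp_moment {P : Measure (Ori (ℤ × ℤ))} [IsProbabilityMeasure P] {C γ : ℝ} (hC : 0 ≤ C)
    (hγ : 0 < γ) (hE : EGD P C γ) (hice : ∀ᵐ ω ∂P, ∀ x y, Ice ω x y) {Ψ F : ℝ × ℝ → ℝ}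
    (hΨ : ContDiff ℝ ((⊤ : ℕ∞) : WithTop ℕ∞) Ψ) (hs : HasCompactSupport Ψ) (hFc : Continuous F)
    (hF : ∀ t y, HasDerivAt (fun t => Ψ (t, y)) (F (t, y)) t) (a : ℝ) {ε : ℝ} (hε : 0 < ε) :
    ∀ᶠ δ : ℝ in 𝓝[>] 0, ∫ ω, Real.exp (a * hint (pth ω) δ F) ∂P ≤
      Real.exp (4 * C * a ^ 2 * (∫ x, Ψ x ^ 2) + ε) := by
  obtain ⟨ε', hε', h1, h2⟩ : ∃ ε' : ℝ, 0 < ε' ∧ 2 * |a| * ε' ≤ γ ∧
      4 * C * a ^ 2 * ε' + |a| * ε' ≤ ε := by
    refine ⟨min (γ / (2 * |a| + 1)) (ε / (4 * C * a ^ 2 + |a| + 1)), ?_, ?_, ?_⟩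
    · exact lt_min (by (clear * - hγ; positivity)) (by positivity)
    · have h1 : min (γ / (2 * |a| + 1)) (ε / (4 * C * a ^ 2 + |a| + 1)) ≤ γ / (2 * |a| + 1) :=
        min_le_left _ _
      have h2 := mul_le_mul_of_nonneg_left h1 (by positivity : 0 ≤ 2 * |a|)
      have h3 : 2 * |a| * (γ / (2 * |a| + 1)) ≤ γ := by
        rw [mul_div_assoc', div_le_iff₀ (by positivity)]
        nlinarith only [hγ]
      linarith
    · have h1 : min (γ / (2 * |a| + 1)) (ε / (4 * C * a ^ 2 + |a| + 1)) ≤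
          ε / (4 * C * a ^ 2 + |a| + 1) := min_le_right _ _
      have h2 := mul_le_mul_of_nonneg_left h1 (by (clear * - hC; positivity) : 0 ≤ 4 * C * a ^ 2 + |a|)
      have h3 : (4 * C * a ^ 2 + |a|) * (ε / (4 * C * a ^ 2 + |a| + 1)) ≤ ε := by
        rw [mul_div_assoc', div_le_iff₀ (by (clear * - hC; positivity))]
        nlinarith only [hε]
      linarith
  filter_upwards [row_cells hΨ hs hε', self_mem_nhdsWithin] with δ ⟨s, c, a1, a2, a3, a4, a5, a6, a7⟩ hδ
  have hδ0 : 0 < δ := hδ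
  have e : ∫ ω, Real.exp (a * hint (pth ω) δ F) ∂P =
      ∫ ω, Real.exp (a * ∑ v ∈ s, c v * ar ω (Sum.inr v)) ∂P := by
    refine integral_congr_ae ?_
    filter_upwards [hice] with ω hω
    rw [hint_dt (pth_isHeight hω) hδ0 hΨ.continuous hs hFc hF, a4 ω]
  rw [e]
  refine (vert_exp hC hE s c a1 a2 a3 a7 h1 a6).trans (Real.exp_le_exp.2 ?_)
  have h3 := mul_le_mul_of_nonneg_left a5 (by (clear * - hC; positivity) : 0 ≤ 4 * C * a ^ 2)
  linarith only [h2, h3]

lemma exp_integrable {P : Measure (Ori (ℤ × ℤ))} [IsProbabilityMeasure P] (s : Finset (ℤ × ℤ))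
    (c : ℤ × ℤ → ℝ) (a : ℝ) :
    Integrable (fun ω => Real.exp (a * ∑ v ∈ s, c v * ar ω (Sum.inr v))) P := by
  have hmeas : Measurable fun ω : Ori (ℤ × ℤ) => ∑ v ∈ s, c v * ar ω (Sum.inr v) :=
    Finset.measurable_sum _ fun v _ => (ar_measurable _).const_mul _
  refine Integrable.of_bound (Real.measurable_exp.comp (hmeas.const_mul a)).aestronglyMeasurable
    (Real.exp (|a| * ∑ v ∈ s, |c v|)) (Eventually.of_forall fun ω => ?_)
  rw [Real.norm_eq_abs, abs_of_pos (Real.exp_pos _), Real.exp_le_exp]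
  refine (le_abs_self _).trans ?_
  rw [abs_mul]
  refine mul_le_mul_of_nonneg_left ?_ (abs_nonneg _)
  refine (Finset.abs_sum_le_sum_abs _ _).trans (Finset.sum_le_sum fun v _ => ?_)
  rw [abs_mul, ar_abs, mul_one]

/-- The constant in the bound of the moments. -/
noncomputable def DD (C : ℝ) (k : ℕ) : ℝ := 2 * (2 * k).factorial * Real.exp (4 * C + 1)

/-- **All moments** of the heights tested against `∂_t Ψ`. -/
theorem moment {P : Measure (Ori (ℤ × ℤ))} [IsProbabilityMeasure P] {C γ : ℝ} (hC : 0 ≤ C)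
    (hγ : 0 < γ) (hE : EGD P C γ) (hice : ∀ᵐ ω ∂P, ∀ x y, Ice ω x y) {Ψ F : ℝ × ℝ → ℝ}
    (hΨ : ContDiff ℝ ((⊤ : ℕ∞) : WithTop ℕ∞) Ψ) (hs : HasCompactSupport Ψ) (hFc : Continuous F)
    (hF : ∀ t y, HasDerivAt (fun t => Ψ (t, y)) (F (t, y)) t) (k : ℕ) {ε : ℝ} (hε : 0 < ε) :
    ∀ᶠ δ : ℝ in 𝓝[>] 0, Integrable (fun ω => hint (pth ω) δ F ^ (2 * k)) P ∧
      ∫ ω, hint (pth ω) δ F ^ (2 * k) ∂P ≤ DD C k * ((∫ x, Ψ x ^ 2) + ε) ^ k := by
  set W : ℝ := (∫ x, Ψ x ^ 2) + ε with hW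
  have hI0 : 0 ≤ ∫ x, Ψ x ^ 2 := integral_nonneg fun x => sq_nonneg _
  have hW0 : 0 < W := by linarith only [hε, hI0]
  set a : ℝ := (Real.sqrt W)⁻¹ with ha
  have hsW : 0 < Real.sqrt W := Real.sqrt_pos.2 hW0
  have ha0 : 0 < a := inv_pos.2 hsW
  have ha2 : a ^ 2 * W = 1 := by
    rw [ha, inv_pow, Real.sq_sqrt hW0.le]
    (clear * - hW0; field_simp)
  have hb : 4 * C * a ^ 2 * (∫ x, Ψ x ^ 2) ≤ 4 * C := by
    have h1 : a ^ 2 * (∫ x, Ψ x ^ 2) ≤ 1 := by
      rw [← ha2]
      exact mul_le_mul_of_nonneg_left (by linarith only [hε]) (sq_nonneg a)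
    have := mul_le_mul_of_nonneg_left h1 (by (clear * - hC; positivity) : 0 ≤ 4 * C)
    linarith only [this]
  filter_upwards [exp_moment hC hγ hE hice hΨ hs hFc hF a one_pos,
    exp_moment hC hγ hE hice hΨ hs hFc hF (-a) one_pos, row_cells hΨ hs one_pos,
    self_mem_nhdsWithin] with δ h1 h2 ⟨s, c, _, _, _, a4, _, _, _⟩ hδ
  have hδ0 : 0 < δ := hδ
  obtain ⟨X, hX⟩ : ∃ X : Ori (ℤ × ℤ) → ℝ, ∀ ω, X ω = ∑ v ∈ s, c v * ar ω (Sum.inr v) :=
    ⟨_, fun _ => rfl⟩
  have hXa : ∀ᵐ ω ∂P, hint (pth ω) δ F = X ω := by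
    filter_upwards [hice] with ω hω
    rw [hint_dt (pth_isHeight hω) hδ0 hΨ.continuous hs hFc hF, a4 ω, hX]
  have e1 : ∀ b : ℝ, ∫ ω, Real.exp (b * hint (pth ω) δ F) ∂P = ∫ ω, Real.exp (b * X ω) ∂P := by
    intro b
    refine integral_congr_ae ?_
    filter_upwards [hXa] with ω hω
    rw [hω]
  rw [e1] at h1 h2
  have i1 : ∀ b : ℝ, Integrable (fun ω => Real.exp (b * X ω)) P := by
    intro b
    have := exp_integrable (P := P) s c b
    simpa only [← hX] using this
  have hpt : ∀ ω, X ω ^ (2 * k) ≤ ((2 * k).factorial : ℝ) * W ^ k *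
      (Real.exp (a * X ω) + Real.exp (-a * X ω)) := by
    intro ω
    have h3 := Real.pow_div_factorial_le_exp (|a * X ω|) (abs_nonneg _) (2 * k)
    rw [div_le_iff₀ (by positivity)] at h3
    have h4 : |a * X ω| ^ (2 * k) = a ^ (2 * k) * X ω ^ (2 * k) := by
      rw [pow_mul, sq_abs, ← pow_mul, mul_pow]
    have h5 : Real.exp |a * X ω| ≤ Real.exp (a * X ω) + Real.exp (-a * X ω) := by
      rcases abs_cases (a * X ω) with ⟨h, _⟩ | ⟨h, _⟩
      · rw [h]
        have := Real.exp_pos (-a * X ω)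
        linarith only [this]
      · rw [h]
        have := Real.exp_pos (a * X ω)
        have e2 : -(a * X ω) = -a * X ω := by ring
        rw [e2]
        linarith only [this]
    have h6 : W ^ k * a ^ (2 * k) = 1 := by
      rw [pow_mul, ← mul_pow, mul_comm, ha2, one_pow]
    rw [h4] at h3
    have h7 := mul_le_mul_of_nonneg_left h3 (by (clear * - hε; positivity) : 0 ≤ W ^ k)
    have h8 : W ^ k * (a ^ (2 * k) * X ω ^ (2 * k)) = X ω ^ (2 * k) := by
      rw [← mul_assoc, h6, one_mul]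
    rw [h8] at h7
    have h9 : W ^ k * (Real.exp |a * X ω| * ((2 * k).factorial : ℝ)) ≤
        ((2 * k).factorial : ℝ) * W ^ k * (Real.exp (a * X ω) + Real.exp (-a * X ω)) := by
      have := mul_le_mul_of_nonneg_left h5 (by (clear * - hε; positivity) : 0 ≤ ((2 * k).factorial : ℝ) * W ^ k)
      linarith
    exact h7.trans h9
  have hXm : Measurable X := by
    have : X = fun ω => ∑ v ∈ s, c v * ar ω (Sum.inr v) := funext hX
    rw [this]
    exact Finset.measurable_sum _ fun v _ => (ar_measurable _).const_mul _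
  have iR : Integrable (fun ω => ((2 * k).factorial : ℝ) * W ^ k *
      (Real.exp (a * X ω) + Real.exp (-a * X ω))) P := ((i1 a).add (i1 (-a))).const_mul _
  have hev : ∀ ω, 0 ≤ X ω ^ (2 * k) := fun ω => by
    rw [pow_mul]
    (clear * -; positivity)
  have iX : Integrable (fun ω => X ω ^ (2 * k)) P := by
    refine iR.mono' (hXm.pow_const _).aestronglyMeasurable (Eventually.of_forall fun ω => ?_)
    rw [Real.norm_eq_abs, abs_of_nonneg (hev ω)]
    exact hpt ω
  have hXa2 : (fun ω => hint (pth ω) δ F ^ (2 * k)) =ᵐ[P] fun ω => X ω ^ (2 * k) := by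
    filter_upwards [hXa] with ω hω
    rw [hω]
  refine ⟨iX.congr hXa2.symm, ?_⟩
  rw [integral_congr_ae hXa2]
  refine (integral_mono iX iR hpt).trans ?_
  rw [integral_const_mul, integral_add (i1 a) (i1 (-a))]
  have h3 : ∫ ω, Real.exp (a * X ω) ∂P ≤ Real.exp (4 * C + 1) :=
    h1.trans (Real.exp_le_exp.2 (by linarith only [hb]))
  have h4 : ∫ ω, Real.exp (-a * X ω) ∂P ≤ Real.exp (4 * C + 1) := by
    refine h2.trans (Real.exp_le_exp.2 ?_)
    rw [neg_sq]
    linarith only [hb]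
  unfold DD
  have h5 := mul_le_mul_of_nonneg_left (add_le_add h3 h4)
    (by (clear * - hε; positivity) : 0 ≤ ((2 * k).factorial : ℝ) * W ^ k)
  linarith only [h5]

/-! ### Flips and even powers -/

/-- A flip of `X` which fixes `Y` gives `∫ X ^ (2 q) ≤ ∫ (X + Y) ^ (2 q)`. -/
theorem flip_pow {Ω : Type*} [MeasurableSpace Ω] {ν : Measure Ω} {Φ : Ω → Ω}
    (hΦ : MeasurePreserving Φ ν ν) {X Y : Ω → ℝ}
    (hX : ∀ᵐ x ∂ν, X (Φ x) = - X x) (hY : ∀ᵐ x ∂ν, Y (Φ x) = Y x) (q : ℕ)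
    (iX : Integrable (fun x => X x ^ (2 * q)) ν)
    (iXY : Integrable (fun x => (X x + Y x) ^ (2 * q)) ν) :
    ∫ x, X x ^ (2 * q) ∂ν ≤ ∫ x, (X x + Y x) ^ (2 * q) ∂ν := by
  have hpt : ∀ x y : ℝ, 2 * x ^ (2 * q) ≤ (x + y) ^ (2 * q) + (-x + y) ^ (2 * q) := by
    intro x y
    have h1 : (-x + y) ^ (2 * q) = (x - y) ^ (2 * q) := by
      rw [pow_mul, pow_mul]
      congr 1
      ring
    rw [h1]
    have hconv : ConvexOn ℝ Set.univ (fun z : ℝ => z ^ (2 * q)) :=
      Even.convexOn_pow (even_two_mul q)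
    have h2 := hconv.2 (Set.mem_univ (x + y)) (Set.mem_univ (x - y))
      (by norm_num : (0 : ℝ) ≤ 1 / 2) (by norm_num : (0 : ℝ) ≤ 1 / 2) (by norm_num)
    simp only [smul_eq_mul] at h2
    have h3 : 1 / 2 * (x + y) + 1 / 2 * (x - y) = x := by ring
    rw [h3] at h2
    linarith only [h2]
  have e1 : ∫ x, (X (Φ x) + Y (Φ x)) ^ (2 * q) ∂ν = ∫ x, (X x + Y x) ^ (2 * q) ∂ν := by
    have h1 := integral_map (μ := ν) hΦ.measurable.aemeasurable
      (f := fun x => (X x + Y x) ^ (2 * q)) (by rw [hΦ.map_eq]; exact iXY.aestronglyMeasurable)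
    rw [hΦ.map_eq] at h1
    exact h1.symm
  have i2 : Integrable (fun x => (X (Φ x) + Y (Φ x)) ^ (2 * q)) ν :=
    hΦ.integrable_comp_of_integrable iXY
  have e2 : ∫ x, (X (Φ x) + Y (Φ x)) ^ (2 * q) ∂ν = ∫ x, (-X x + Y x) ^ (2 * q) ∂ν := by
    refine integral_congr_ae ?_
    filter_upwards [hX, hY] with x h1 h2
    rw [h1, h2]
  have i3 : Integrable (fun x => (-X x + Y x) ^ (2 * q)) ν := by
    refine i2.congr ?_
    filter_upwards [hX, hY] with x h1 h2
    rw [h1, h2]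
  have h4 : ∫ x, 2 * X x ^ (2 * q) ∂ν ≤
      ∫ x, ((X x + Y x) ^ (2 * q) + (-X x + Y x) ^ (2 * q)) ∂ν :=
    integral_mono (iX.const_mul 2) (iXY.add i3) fun x => hpt _ _
  rw [integral_const_mul, integral_add iXY i3, ← e2, e1] at h4
  linarith only [h4]

end Vale.Agent.P145.FB.Mom
end

section

/-!
P145, block F-B: smooth bumps, their scaling and the covariance of the difference of two bumps of
very different sizes.
-/

namespace Vale.Agent.P145.FB.AC

open MeasureTheory Filter Topology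
open Vale.Agent.P152.GFF.S

/-! ### Bumps -/

/-- A bump on the line. -/
noncomputable def bmp : ContDiffBump (0 : ℝ) := ⟨1 / 4, 1 / 2, by norm_num, by norm_num⟩

/-- The bump normalised to have integral one. -/
noncomputable def b (t : ℝ) : ℝ := bmp.normed volume t

lemma b_smooth : ContDiff ℝ ((⊤ : ℕ∞) : WithTop ℕ∞) b := bmp.contDiff_normed

lemma b_cont : Continuous b := b_smooth.continuous

lemma b_nonneg (t : ℝ) : 0 ≤ b t := bmp.nonneg_normed t

lemma b_compact : HasCompactSupport b := bmp.hasCompactSupport_normed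

lemma b_int : ∫ t, b t = 1 := bmp.integral_normed

lemma b_supp {t : ℝ} (h : b t ≠ 0) : |t| < 1 / 2 := by
  have h1 : t ∈ Function.support (bmp.normed volume) := h
  rw [bmp.support_normed_eq] at h1
  have h2 := Metric.mem_ball.1 h1
  rw [Real.dist_eq, sub_zero] at h2
  exact h2

/-- The bump at the point `c` of the plane. -/
noncomputable def phi (c : ℝ × ℝ) (x : ℝ × ℝ) : ℝ := b (x.1 - c.1) * b (x.2 - c.2)

lemma phi_smooth (c : ℝ × ℝ) : ContDiff ℝ ((⊤ : ℕ∞) : WithTop ℕ∞) (phi c) :=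
  (b_smooth.comp (contDiff_fst.sub contDiff_const)).mul
    (b_smooth.comp (contDiff_snd.sub contDiff_const))

lemma phi_cont (c : ℝ × ℝ) : Continuous (phi c) := (phi_smooth c).continuous

lemma phi_nonneg (c x : ℝ × ℝ) : 0 ≤ phi c x := mul_nonneg (b_nonneg _) (b_nonneg _)

lemma phi_supp {c x : ℝ × ℝ} (h : phi c x ≠ 0) : |x.1 - c.1| < 1 / 2 ∧ |x.2 - c.2| < 1 / 2 :=
  ⟨b_supp (left_ne_zero_of_mul h), b_supp (right_ne_zero_of_mul h)⟩

lemma phi_compact (c : ℝ × ℝ) : HasCompactSupport (phi c) := by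
  refine HasCompactSupport.intro
    ((isCompact_Icc (a := c.1 - 1) (b := c.1 + 1)).prod
      (isCompact_Icc (a := c.2 - 1) (b := c.2 + 1))) ?_
  intro x hx
  by_contra h
  obtain ⟨h1, h2⟩ := phi_supp h
  rw [abs_lt] at h1 h2
  exact hx ⟨⟨by linarith only [h1], by linarith only [h1]⟩, ⟨by linarith only [h2], by linarith only [h2]⟩⟩

lemma phi_int (c : ℝ × ℝ) : ∫ x, phi c x = 1 := by
  unfold phi
  rw [Measure.volume_eq_prod, integral_prod_mul (fun t => b (t - c.1)) (fun t => b (t - c.2)),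
    integral_sub_right_eq_self b c.1, integral_sub_right_eq_self b c.2, b_int, one_mul]

lemma phi_integrable (c : ℝ × ℝ) : Integrable (phi c) :=
  (phi_cont c).integrable_of_hasCompactSupport (phi_compact c)

/-! ### The difference of a bump and its translate is a derivative -/

theorem diff_deriv (c : ℝ × ℝ) (a : ℝ) : ∃ Ψ : ℝ × ℝ → ℝ,
    ContDiff ℝ ((⊤ : ℕ∞) : WithTop ℕ∞) Ψ ∧ HasCompactSupport Ψ ∧
      ∀ t y, HasDerivAt (fun t => Ψ (t, y)) (phi c (t, y) - phi (c.1 + a, c.2) (t, y)) t := by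
  set g : ℝ → ℝ := fun t => b (t - c.1) - b (t - (c.1 + a)) with hg
  have hgs : ContDiff ℝ ((⊤ : ℕ∞) : WithTop ℕ∞) g :=
    (b_smooth.comp (contDiff_id.sub contDiff_const)).sub
      (b_smooth.comp (contDiff_id.sub contDiff_const))
  have hgc : Continuous g := hgs.continuous
  set B : ℝ := |c.1| + |a| + 1 with hB
  have hgB : ∀ y, B < |y| → g y = 0 := by
    intro y hy
    have h1 : b (y - c.1) = 0 := by
      by_contra h
      have := b_supp h
      have h2 := abs_sub_abs_le_abs_sub y c.1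
      have h3 := abs_nonneg a
      linarith only [hy, this, h2, h3]
    have h2 : b (y - (c.1 + a)) = 0 := by
      by_contra h
      have := b_supp h
      have h2 := abs_sub_abs_le_abs_sub y (c.1 + a)
      have h3 := abs_add_le c.1 a
      linarith only [hy, this, h2, h3]
    simp only [hg, h1, h2, sub_zero]
  have hg0 : ∫ y, g y = 0 := by
    simp only [hg]
    rw [integral_sub]
    · rw [integral_sub_right_eq_self b, integral_sub_right_eq_self b, sub_self]
    · exact (b_cont.integrable_of_hasCompactSupport b_compact).comp_sub_right _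
    · exact (b_cont.integrable_of_hasCompactSupport b_compact).comp_sub_right _
  set ρ : ℝ → ℝ := fun y => ∫ u in (-B)..y, g u with hρ
  have hρd : ∀ y, HasDerivAt ρ (g y) y := fun y => deriv_conv hgc B y
  have hρs : ContDiff ℝ ((⊤ : ℕ∞) : WithTop ℕ∞) ρ := by
    rw [contDiff_infty_iff_deriv]
    refine ⟨fun y => (hρd y).differentiableAt, ?_⟩
    have e : deriv ρ = g := funext fun y => (hρd y).deriv
    rw [e]
    exact hgs
  have hρ0 : ∀ y, B < |y| → ρ y = 0 := fun y hy => interval_full hgc hgB hg0 hy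
  refine ⟨fun x => ρ x.1 * b (x.2 - c.2), ?_, ?_, ?_⟩
  · exact (hρs.comp contDiff_fst).mul (b_smooth.comp (contDiff_snd.sub contDiff_const))
  · refine HasCompactSupport.intro
      ((isCompact_Icc (a := -B) (b := B)).prod
        (isCompact_Icc (a := c.2 - 1) (b := c.2 + 1))) ?_
    intro x hx
    by_contra h
    have h1 : ρ x.1 ≠ 0 := left_ne_zero_of_mul h
    have h2 := b_supp (right_ne_zero_of_mul h)
    have h3 : |x.1| ≤ B := by
      by_contra h4
      exact h1 (hρ0 _ (not_le.1 h4))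
    rw [abs_lt] at h2
    exact hx ⟨abs_le.1 h3, ⟨by linarith only [h2], by linarith only [h2]⟩⟩
  · intro t y
    have h1 := (hρd t).mul_const (b (y - c.2))
    have e : phi c (t, y) - phi (c.1 + a, c.2) (t, y) = g t * b (y - c.2) := by
      simp only [phi, hg]
      ring
    rw [e]
    exact h1

/-! ### Scaling -/

/-- The bump rescaled by the factor `l`. -/
noncomputable def psi (l : ℝ) (c : ℝ × ℝ) (x : ℝ × ℝ) : ℝ :=
  (l ^ 2)⁻¹ * phi c (l⁻¹ * x.1, l⁻¹ * x.2)

lemma hint_scale (h : ℤ × ℤ → ℤ) {δ l : ℝ} (hl : 0 < l) (c : ℝ × ℝ) :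
    hint h δ (psi l c) = hint h (δ / l) (phi c) := by
  unfold hint
  set Fn : ℝ × ℝ → ℝ := fun y => (l ^ 2)⁻¹ * (hd h (δ / l) y * phi c y) with hFn
  have e : (fun x : ℝ × ℝ => hd h δ x * psi l c x) = fun x => Fn (l⁻¹ • x) := by
    funext x
    have e0 : l⁻¹ • x = (l⁻¹ * x.1, l⁻¹ * x.2) := rfl
    simp only [hd, psi, hFn, e0]
    have e1 : ∀ u : ℝ, l⁻¹ * u / (δ / l) = u / δ := by
      intro u
      field_simp
    rw [e1, e1]
    ring
  have hf : Module.finrank ℝ (ℝ × ℝ) = 2 := by simp only [Module.finrank_prod, Module.finrank_self, Nat.reduceAdd]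
  rw [e, Measure.integral_comp_smul volume Fn, hFn, integral_const_mul, hf, smul_eq_mul, inv_pow,
    inv_inv, abs_of_pos (by positivity), ← mul_assoc, mul_inv_cancel₀ (by positivity), one_mul]

lemma psi_smooth (l : ℝ) (c : ℝ × ℝ) : ContDiff ℝ ((⊤ : ℕ∞) : WithTop ℕ∞) (psi l c) := by
  refine contDiff_const.mul ((phi_smooth c).comp ?_)
  exact (contDiff_const.mul contDiff_fst).prodMk (contDiff_const.mul contDiff_snd)

lemma psi_nonneg (l : ℝ) (c x : ℝ × ℝ) : 0 ≤ psi l c x :=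
  mul_nonneg (by positivity) (phi_nonneg _ _)

lemma psi_supp {l : ℝ} (hl : 0 < l) {c x : ℝ × ℝ} (h : psi l c x ≠ 0) :
    |x.1 - l * c.1| < l / 2 ∧ |x.2 - l * c.2| < l / 2 := by
  have h1 := phi_supp (right_ne_zero_of_mul h)
  have e : ∀ u v : ℝ, |u - l * v| = l * |l⁻¹ * u - v| := by
    intro u v
    have e1 : u - l * v = l * (l⁻¹ * u - v) := by
      field_simp
    rw [e1, abs_mul, abs_of_pos hl]
  rw [e, e]
  constructor
  · have := mul_lt_mul_of_pos_left h1.1 hl
    linarith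
  · have := mul_lt_mul_of_pos_left h1.2 hl
    linarith only [this]

lemma psi_compact {l : ℝ} (hl : 0 < l) (c : ℝ × ℝ) : HasCompactSupport (psi l c) := by
  refine HasCompactSupport.intro
    ((isCompact_Icc (a := l * c.1 - l) (b := l * c.1 + l)).prod
      (isCompact_Icc (a := l * c.2 - l) (b := l * c.2 + l))) ?_
  intro x hx
  by_contra h
  obtain ⟨h1, h2⟩ := psi_supp hl h
  rw [abs_lt] at h1 h2
  exact hx ⟨⟨by linarith only [h1], by linarith only [h1]⟩, ⟨by linarith only [h2], by linarith only [h2]⟩⟩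

lemma psi_int {l : ℝ} (hl : 0 < l) (c : ℝ × ℝ) : ∫ x, psi l c x = 1 := by
  set Fn : ℝ × ℝ → ℝ := fun y => (l ^ 2)⁻¹ * phi c y with hFn
  have e : (fun x : ℝ × ℝ => psi l c x) = fun x => Fn (l⁻¹ • x) := rfl
  have hf : Module.finrank ℝ (ℝ × ℝ) = 2 := by simp
  rw [e, Measure.integral_comp_smul volume Fn, hFn, integral_const_mul, phi_int, hf, smul_eq_mul,
    inv_pow, inv_inv, abs_of_pos (by positivity), mul_one, mul_inv_cancel₀ (by positivity)]

lemma psi_integrable {l : ℝ} (hl : 0 < l) (c : ℝ × ℝ) : Integrable (psi l c) :=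
  (psi_smooth l c).continuous.integrable_of_hasCompactSupport (psi_compact hl c)

/-! ### Covariances -/

lemma haar4 : (volume : Measure ((ℝ × ℝ) × (ℝ × ℝ))).IsAddHaarMeasure :=
  inferInstanceAs
    (((volume : Measure (ℝ × ℝ)).prod (volume : Measure (ℝ × ℝ))).IsAddHaarMeasure)

lemma pi_pos' : (0 : ℝ) < (2 * Real.pi)⁻¹ := by positivity

/-- The covariance of the rescaled bump. -/
lemma cov_psi {l : ℝ} (hl : 1 ≤ l) (c : ℝ × ℝ) :
    gffCov (phi c) (phi c) - (2 * Real.pi)⁻¹ * Real.log l ≤ gffCov (psi l c) (psi l c) := by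
  have hl0 : 0 < l := by linarith only [hl]
  have := haar4
  have cc := (psi_smooth l c).continuous
  rw [TL.cov_eq cc cc (psi_compact hl0 c) (psi_compact hl0 c),
    TL.cov_eq (phi_cont c) (phi_cont c) (phi_compact c) (phi_compact c)]
  set Fn : (ℝ × ℝ) × (ℝ × ℝ) → ℝ := fun q => (l ^ 4)⁻¹ *
    (green (l * q.1.1, l * q.1.2) (l * q.2.1, l * q.2.2) * phi c q.1 * phi c q.2) with hFn
  have e : (fun p : (ℝ × ℝ) × (ℝ × ℝ) => green p.1 p.2 * psi l c p.1 * psi l c p.2) =
      fun p => Fn (l⁻¹ • p) := by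
    funext p
    have e0 : l⁻¹ • p = ((l⁻¹ * p.1.1, l⁻¹ * p.1.2), (l⁻¹ * p.2.1, l⁻¹ * p.2.2)) := rfl
    simp only [hFn, e0, psi]
    have e1 : ∀ u : ℝ, l * (l⁻¹ * u) = u := by
      intro u
      (clear * - hl; field_simp)
    rw [e1, e1, e1, e1]
    have e2 : (l ^ 4)⁻¹ = (l ^ 2)⁻¹ * (l ^ 2)⁻¹ := by
      rw [← mul_inv]
      ring_nf
    rw [e2]
    ring
  have hf : Module.finrank ℝ ((ℝ × ℝ) × (ℝ × ℝ)) = 4 := by simp only [Module.finrank_prod, Module.finrank_self, Nat.reduceAdd]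
  rw [e, Measure.integral_comp_smul volume Fn, hFn, integral_const_mul, hf, smul_eq_mul, inv_pow,
    inv_inv, abs_of_pos (by positivity), ← mul_assoc, mul_inv_cancel₀ (by positivity), one_mul]
  -- integrability
  have i1 : Integrable (fun q : (ℝ × ℝ) × (ℝ × ℝ) => green q.1 q.2 * phi c q.1 * phi c q.2) :=
    TL.gint2 (phi_cont c) (phi_cont c) (phi_compact c) (phi_compact c)
  have i2 : Integrable (fun q : (ℝ × ℝ) × (ℝ × ℝ) => phi c q.1 * phi c q.2) := by
    rw [Measure.volume_eq_prod]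
    exact (phi_integrable c).mul_prod (phi_integrable c)
  have i3 : Integrable (fun q : (ℝ × ℝ) × (ℝ × ℝ) =>
      green (l * q.1.1, l * q.1.2) (l * q.2.1, l * q.2.2) * phi c q.1 * phi c q.2) := by
    have i4 : Integrable (fun p : (ℝ × ℝ) × (ℝ × ℝ) =>
      green p.1 p.2 * psi l c p.1 * psi l c p.2) :=
      TL.gint2 cc cc (psi_compact hl0 c) (psi_compact hl0 c)
    have i5 := (integrable_comp_smul_iff volume (fun p : (ℝ × ℝ) × (ℝ × ℝ) =>
      green p.1 p.2 * psi l c p.1 * psi l c p.2) hl0.ne').2 i4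
    have i6 := i5.const_mul (l ^ 4)
    refine i6.congr (Eventually.of_forall fun q => ?_)
    have e0 : l • q = ((l * q.1.1, l * q.1.2), (l * q.2.1, l * q.2.2)) := rfl
    simp only [psi, e0]
    have e1 : ∀ u : ℝ, l⁻¹ * (l * u) = u := by
      intro u
      (clear * - hl; field_simp)
    rw [e1, e1, e1, e1]
    have e2 : l ^ 4 = l ^ 2 * l ^ 2 := by ring
    have e3 : l ^ 2 * (l ^ 2)⁻¹ = 1 := mul_inv_cancel₀ (by positivity)
    rw [e2]
    calc _ = (l ^ 2 * (l ^ 2)⁻¹) * (l ^ 2 * (l ^ 2)⁻¹) *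
        (green (l * q.1.1, l * q.1.2) (l * q.2.1, l * q.2.2) * phi c (q.1.1, q.1.2) *
          phi c (q.2.1, q.2.2)) := by ring
      _ = _ := by rw [e3, one_mul, one_mul]
  have i7 : ∫ q : (ℝ × ℝ) × (ℝ × ℝ), phi c q.1 * phi c q.2 = 1 := by
    rw [Measure.volume_eq_prod, integral_prod_mul (phi c) (phi c), phi_int, one_mul]
  have e3 : ∫ q : (ℝ × ℝ) × (ℝ × ℝ), (green q.1 q.2 * phi c q.1 * phi c q.2 -
      (2 * Real.pi)⁻¹ * Real.log l * (phi c q.1 * phi c q.2)) =
      (∫ q : (ℝ × ℝ) × (ℝ × ℝ), green q.1 q.2 * phi c q.1 * phi c q.2) -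
        (2 * Real.pi)⁻¹ * Real.log l := by
    rw [integral_sub i1 (i2.const_mul _), integral_const_mul, i7, mul_one]
  rw [← e3]
  refine integral_mono (i1.sub (i2.const_mul _)) i3 fun q => ?_
  simp only
  have hg : green q.1 q.2 - (2 * Real.pi)⁻¹ * Real.log l ≤
      green (l * q.1.1, l * q.1.2) (l * q.2.1, l * q.2.2) := by
    unfold green
    simp only
    have e4 : (l * q.1.1 - l * q.2.1) ^ 2 + (l * q.1.2 - l * q.2.2) ^ 2 =
        l ^ 2 * ((q.1.1 - q.2.1) ^ 2 + (q.1.2 - q.2.2) ^ 2) := by ring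
    rw [e4, Real.sqrt_mul (by positivity), Real.sqrt_sq hl0.le]
    by_cases h0 : Real.sqrt ((q.1.1 - q.2.1) ^ 2 + (q.1.2 - q.2.2) ^ 2) = 0
    · rw [h0, mul_zero, Real.log_zero, mul_zero]
      have := mul_nonneg pi_pos'.le (Real.log_nonneg hl)
      linarith only [this]
    · rw [Real.log_mul hl0.ne' h0]
      linarith only []
  have hp : 0 ≤ phi c q.1 * phi c q.2 := mul_nonneg (phi_nonneg _ _) (phi_nonneg _ _)
  have := mul_le_mul_of_nonneg_right hg hp
  nlinarith only [this]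

/-- The cross covariance. -/
lemma cov_cross {l : ℝ} (hl : 1 ≤ l) :
    gffCov (phi (0, 0)) (psi l (3, 3)) ≤ -((2 * Real.pi)⁻¹ * Real.log l) := by
  have hl0 : 0 < l := by linarith
  have cc := (psi_smooth l (3, 3)).continuous
  rw [TL.cov_eq (phi_cont _) cc (phi_compact _) (psi_compact hl0 _)]
  have i1 : Integrable (fun q : (ℝ × ℝ) × (ℝ × ℝ) =>
      green q.1 q.2 * phi (0, 0) q.1 * psi l (3, 3) q.2) :=
    TL.gint2 (phi_cont _) cc (phi_compact _) (psi_compact hl0 _)
  have i2 : Integrable (fun q : (ℝ × ℝ) × (ℝ × ℝ) => phi (0, 0) q.1 * psi l (3, 3) q.2) := by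
    rw [Measure.volume_eq_prod]
    exact (phi_integrable _).mul_prod (psi_integrable hl0 _)
  have i7 : ∫ q : (ℝ × ℝ) × (ℝ × ℝ), phi (0, 0) q.1 * psi l (3, 3) q.2 = 1 := by
    rw [Measure.volume_eq_prod, integral_prod_mul (phi (0, 0)) (psi l (3, 3)), phi_int,
      psi_int hl0, one_mul]
  have e3 : ∫ q : (ℝ × ℝ) × (ℝ × ℝ), -((2 * Real.pi)⁻¹ * Real.log l) *
      (phi (0, 0) q.1 * psi l (3, 3) q.2) = -((2 * Real.pi)⁻¹ * Real.log l) := by
    rw [integral_const_mul, i7, mul_one]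
  rw [← e3]
  refine integral_mono i1 (i2.const_mul _) fun q => ?_
  simp only
  by_cases h0 : phi (0, 0) q.1 * psi l (3, 3) q.2 = 0
  · rw [h0, mul_zero, mul_assoc, h0, mul_zero]
  · have h1 := phi_supp (left_ne_zero_of_mul h0)
    have h2 := psi_supp hl0 (right_ne_zero_of_mul h0)
    have hp : 0 ≤ phi (0, 0) q.1 * psi l (3, 3) q.2 :=
      mul_nonneg (phi_nonneg _ _) (psi_nonneg _ _ _)
    rw [mul_assoc]
    refine mul_le_mul_of_nonneg_right ?_ hp
    unfold green
    have h3 : l ≤ Real.sqrt ((q.1.1 - q.2.1) ^ 2 + (q.1.2 - q.2.2) ^ 2) := by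
      refine Real.le_sqrt_of_sq_le ?_
      have a1 := h1.1
      have a2 := h2.1
      simp only [sub_zero] at a1
      rw [abs_lt] at a1 a2
      have h4 : l ≤ q.2.1 - q.1.1 := by linarith only [hl, a2, a1]
      have h5 : l ^ 2 ≤ (q.2.1 - q.1.1) ^ 2 := pow_le_pow_left₀ hl0.le h4 2
      nlinarith only [h5]
    have h6 := Real.log_le_log hl0 h3
    have := mul_le_mul_of_nonneg_left h6 pi_pos'.le
    linarith only [this]

/-- The difference of the bumps. -/
noncomputable def dif (l : ℝ) (x : ℝ × ℝ) : ℝ := phi (0, 0) x - psi l (3, 3) x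

lemma dif_test {l : ℝ} (hl : 0 < l) : Test (dif l) := by
  refine ⟨(phi_smooth _).sub (psi_smooth _ _), (phi_compact _).sub (psi_compact hl _), ?_⟩
  unfold dif
  rw [integral_sub (phi_integrable _) (psi_integrable hl _), phi_int, psi_int hl, sub_self]

theorem cov_dif : ∃ a : ℝ, ∀ l : ℝ, 1 ≤ l →
    a + (2 * Real.pi)⁻¹ * Real.log l ≤ gffCov (dif l) (dif l) := by
  refine ⟨gffCov (phi (0, 0)) (phi (0, 0)) + gffCov (phi (3, 3)) (phi (3, 3)), fun l hl => ?_⟩
  have hl0 : 0 < l := by linarith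
  have e : gffCov (dif l) (dif l) = gffCov (phi (0, 0)) (phi (0, 0)) -
      2 * gffCov (phi (0, 0)) (psi l (3, 3)) + gffCov (psi l (3, 3)) (psi l (3, 3)) :=
    TL.cov_expand (phi_cont _) (psi_smooth _ _).continuous (phi_compact _) (psi_compact hl0 _)
  rw [e]
  have h1 := cov_psi hl (3, 3)
  have h2 := cov_cross hl
  linarith only [h1, h2]

end Vale.Agent.P145.FB.AC
end

section

/-!
P145: paths through a shell. A path which crosses a shell can only use the corridors, so it has to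
pass one of the sparse points of the corridors.
-/

namespace Vale.Agent.P145.X

open Relation

/-- The faces joined by `E`-paths to the box of radius `r` around `x` are in the box of radius `R`
around `x`. -/
def CBox (E : ℤ × ℤ → ℤ × ℤ → Prop) (x : ℤ × ℤ) (r R : ℤ) : Prop :=
  ∀ u v, |u.1 - x.1| ≤ r → |u.2 - x.2| ≤ r → ReflTransGen E u v →
    |v.1 - x.1| ≤ R ∧ |v.2 - x.2| ≤ R

theorem shell_symm {V : Type*} {E : V → V → Prop} (hs : ∀ u v, E u v → E v u) {u v : V}
    (h : ReflTransGen E u v) : ReflTransGen E v u := by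
  induction h with
  | refl => exact ReflTransGen.refl
  | tail _ h ih => exact ReflTransGen.head (hs _ _ h) ih

theorem shell_floor {x y l p q W a : ℝ} (hl : 0 < l) (h : ⌊x / l⌋ = ⌊y / l⌋)
    (hpq : |p - q| ≤ |x - y| + W) (hp : p ≤ a) : q < a + l + W := by
  have h1 := Int.floor_le (x / l)
  have h2 := Int.lt_floor_add_one (x / l)
  have h3 := Int.floor_le (y / l)
  have h4 := Int.lt_floor_add_one (y / l)
  rw [h] at h1 h2
  have h5 : |x / l - y / l| < 1 := by
    rw [abs_lt]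
    constructor <;> linarith only [h1, h4, h2, h3]
  have h6 : |x - y| < l := by
    have : |x - y| = |x / l - y / l| * l := by
      rw [← sub_div, abs_div, abs_of_pos hl]
      field_simp
    rw [this]
    nlinarith only [hl, h5]
  have h7 := (abs_le.1 (hpq.trans (add_le_add_left h6.le W))).1
  have h8 := (abs_le.1 hpq).1
  linarith only [hp, h6, h8]

theorem shell_step {x y l τ : ℝ} (hl : 0 < l) (hxy : |x - y| ≤ τ)
    (h : ∀ k : ℤ, τ < |y - k * l|) : ⌊x / l⌋ = ⌊y / l⌋ := by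
  have h3 := Int.floor_le (y / l)
  have h4 := Int.lt_floor_add_one (y / l)
  rw [le_div_iff₀ hl] at h3
  rw [div_lt_iff₀ hl] at h4
  have h5 := h ⌊y / l⌋
  have h6 := h (⌊y / l⌋ + 1)
  push_cast at h6
  rw [abs_of_nonneg (by linarith only [h3])] at h5
  rw [abs_of_nonpos (by linarith only [h4])] at h6
  have h7 := abs_le.1 hxy
  rw [Int.floor_eq_iff, le_div_iff₀ hl, div_lt_iff₀ hl]
  constructor <;> linarith only [h5, h7, h6]

/-- **Shell lemma, abstract form.** `ρ` is the distance from the inner domain, `K i` the corridors,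
`t i` the coordinate along the corridor `i`. In the shell `a ≤ ρ ≤ b` the clusters of the vertices
off the corridors, and of the vertices of the corridors with `t i` close to a multiple of `l`, do
not change `ρ` by `h`. Then the shell is not crossed. -/
theorem shell_abs {V I : Type*} {E : V → V → Prop} (hs : ∀ u v, E u v → E v u) {ρ : V → ℝ}
    {K : I → Set V} {t : I → V → ℝ} {a b d τ l W h : ℝ} (hl : 0 < l) (hh : 0 < h) (hd : 0 ≤ d)
    (hW : 0 ≤ W) (hab : a + 2 * d + l + W ≤ b)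
    (hρ : ∀ u v, E u v → |ρ u - ρ v| ≤ d)
    (ht : ∀ i u v, E u v → |t i u - t i v| ≤ τ)
    (hK : ∀ i j u v, E u v → u ∈ K i → v ∈ K j → a ≤ ρ u → a ≤ ρ v → i = j)
    (hlip : ∀ i u v, u ∈ K i → v ∈ K i → |ρ u - ρ v| ≤ |t i u - t i v| + W)
    (h1 : ∀ v, a ≤ ρ v → ρ v ≤ b → (∀ i, v ∉ K i) → ∀ w, ReflTransGen E v w → |ρ v - ρ w| < h)
    (h2 : ∀ i v, v ∈ K i → a ≤ ρ v → ρ v ≤ b → (∃ k : ℤ, |t i v - k * l| ≤ τ) →
      ∀ w, ReflTransGen E v w → |ρ v - ρ w| < h)
    {u v : V} (hu : ρ u ≤ a - h) (hv : b ≤ ρ v) : ¬ ReflTransGen E u v := by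
  intro huv
  -- the vertices of the cluster in the shell
  have hC : ∀ x, ReflTransGen E u x → a ≤ ρ x → ρ x ≤ b →
      ∃ i, x ∈ K i ∧ ∀ k : ℤ, τ < |t i x - k * l| := by
    intro x hux hax hxb
    have hfar : ¬ |ρ x - ρ u| < h := by
      intro hlt
      have := (abs_lt.1 hlt).2
      linarith only [hu, hax, this]
    by_cases hx : ∀ i, x ∉ K i
    · exact absurd (h1 x hax hxb hx u (shell_symm hs hux)) hfar
    · push Not at hx
      obtain ⟨i, hi⟩ := hx
      refine ⟨i, hi, fun k => ?_⟩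
      by_contra hk
      push Not at hk
      exact hfar (h2 i x hi hax hxb ⟨k, hk⟩ u (shell_symm hs hux))
  have key : ρ v < a ∨ ∃ i e, e ∈ K i ∧ v ∈ K i ∧ ρ e ≤ a + d ∧ a ≤ ρ v ∧
      ⌊t i e / l⌋ = ⌊t i v / l⌋ := by
    clear hv
    induction huv with
    | refl => exact Or.inl (by linarith only [hh, hu])
    | @tail x y hux hxy ih =>
      by_cases hya : ρ y < a
      · exact Or.inl hya
      push Not at hya
      right
      have h3 := abs_le.1 (hρ x y hxy)
      rcases ih with ih | ⟨i, e, he, hx, hea, hax, hfl⟩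
      · obtain ⟨i, hi, -⟩ := hC y (hux.tail hxy) hya (by linarith only [hl, hW, hab, h3, ih])
        exact ⟨i, y, hi, hi, by linarith only [h3, ih], hya, rfl⟩
      · have h4 : ρ x < a + d + l + W := shell_floor hl hfl (hlip i e x he hx) hea
        obtain ⟨j, hj, hy⟩ := hC y (hux.tail hxy) hya (by linarith only [hab, h3, h4])
        have hij := hK i j x y hxy hx hj hax hya
        subst hij
        refine ⟨i, e, he, hj, hea, hya, hfl.trans ?_⟩
        obtain ⟨i', hi', hx'⟩ := hC x hux hax (by linarith)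
        exact shell_step hl (ht i x y hxy) hy
  rcases key with h | ⟨i, e, he, hx, hea, hax, hfl⟩
  · linarith
  · have h4 : ρ v < a + d + l + W := shell_floor hl hfl (hlip i e v he hx) hea
    linarith

/-! ### Geometry -/

/-- The point of the plane of the face `f` in the mesh `δ`. -/
def fpt (δ : ℝ) (f : ℤ × ℤ) : ℝ × ℝ := (δ * f.1, δ * f.2)

theorem dist_fpt_le {δ : ℝ} (hδ : 0 ≤ δ) {u v : ℤ × ℤ} {R : ℤ} (h1 : |u.1 - v.1| ≤ R)
    (h2 : |u.2 - v.2| ≤ R) : dist (fpt δ u) (fpt δ v) ≤ δ * R := by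
  have key : ∀ x y : ℤ, |x - y| ≤ R → dist (δ * (x : ℝ)) (δ * (y : ℝ)) ≤ δ * R := by
    intro x y hxy
    rw [Real.dist_eq, ← mul_sub, abs_mul, abs_of_nonneg hδ]
    refine mul_le_mul_of_nonneg_left ?_ hδ
    exact_mod_cast hxy
  rw [Prod.dist_eq]
  exact max_le (key _ _ h1) (key _ _ h2)

/-- Coordinates `s`, `d` like `z.1 + z.2` and `z.1 - z.2`. -/
structure Frame (s d : ℝ × ℝ → ℝ) : Prop where
  s_lip : ∀ z z', |s z - s z'| ≤ 2 * dist z z'
  d_lip : ∀ z z', |d z - d z'| ≤ 2 * dist z z'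
  dist_le : ∀ z z', 2 * dist z z' ≤ |s z - s z'| + |d z - d z'|

/-- The corridors: neighbourhoods of the line `s = a₁`, of the half line `d = b₂`, `a₁ ≤ s`, and
of the half line `s = b₁`, `d ≤ b₂`. -/
def cor (s d : ℝ × ℝ → ℝ) (a₁ b₁ b₂ W : ℝ) (i : Fin 3) : Set (ℝ × ℝ) :=
  match i with
  | 0 => {z | |s z - a₁| ≤ W}
  | 1 => {z | |d z - b₂| ≤ W ∧ a₁ - W ≤ s z}
  | 2 => {z | |s z - b₁| ≤ W ∧ d z ≤ b₂ + W}

/-- The coordinate along the corridor. -/
def tc (s d : ℝ × ℝ → ℝ) (i : Fin 3) : ℝ × ℝ → ℝ :=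
  match i with
  | 0 => d
  | 1 => s
  | 2 => d

theorem Frame.tc_lip {s d : ℝ × ℝ → ℝ} (hF : Frame s d) (i : Fin 3) (z z' : ℝ × ℝ) :
    |tc s d i z - tc s d i z'| ≤ 2 * dist z z' := by
  fin_cases i
  · exact hF.d_lip z z'
  · exact hF.s_lip z z'
  · exact hF.d_lip z z'

theorem Frame.cor_dist {s d : ℝ × ℝ → ℝ} (hF : Frame s d) {a₁ b₁ b₂ W : ℝ} (i : Fin 3)
    {z z' : ℝ × ℝ} (hz : z ∈ cor s d a₁ b₁ b₂ W i) (hz' : z' ∈ cor s d a₁ b₁ b₂ W i) :
    2 * dist z z' ≤ 2 * W + |tc s d i z - tc s d i z'| := by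
  have h := hF.dist_le z z'
  have key : ∀ x y c : ℝ, |x - c| ≤ W → |y - c| ≤ W → |x - y| ≤ 2 * W := by
    intro x y c h1 h2
    rw [abs_le] at h1 h2 ⊢
    constructor <;> linarith [h1.1, h1.2, h2.1, h2.2]
  fin_cases i
  · have := key _ _ _ hz hz'
    show 2 * dist z z' ≤ 2 * W + |d z - d z'|
    linarith
  · have := key _ _ _ hz.1 hz'.1
    show 2 * dist z z' ≤ 2 * W + |s z - s z'|
    linarith only [h, this]
  · have := key _ _ _ hz.1 hz'.1
    show 2 * dist z z' ≤ 2 * W + |d z - d z'|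
    linarith

/-- **Shell lemma.** `D` is the inner domain, `p₀`, `p₁` two corners of the cell in `D`, where the
corridors meet. Every face of the shell off the corridors, and every face of a corridor with
coordinate close to a multiple of `l`, is in a box whose clusters stay in the box of three times
the size. Then the shell is not crossed. -/
theorem shell_geo {E : ℤ × ℤ → ℤ × ℤ → Prop} (hs : ∀ u v, E u v → E v u)
    (hE : ∀ u v, E u v → |u.1 - v.1| ≤ 1 ∧ |u.2 - v.2| ≤ 1) {s d : ℝ × ℝ → ℝ} (hF : Frame s d)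
    {D : Set (ℝ × ℝ)} {p₀ p₁ : ℝ × ℝ} (hp₀ : p₀ ∈ D) (hp₁ : p₁ ∈ D) {a₁ b₁ b₂ : ℝ}
    (hs₀ : s p₀ = a₁) (hd₀ : d p₀ = b₂) (hs₁ : s p₁ = b₁) (hd₁ : d p₁ = b₂)
    {δ W l h a b : ℝ} (hδ : 0 ≤ δ) (hW : 0 ≤ W) (hl : 0 < l) (hh : 0 < h)
    (hWc : 2 * W + 2 * δ < b₁ - a₁) (hWa : W + δ < a) (hab : a + 2 * δ + l + W ≤ b)
    (h1 : ∀ f : ℤ × ℤ, a ≤ Metric.infDist (fpt δ f) D → Metric.infDist (fpt δ f) D ≤ b →
      (∀ i, fpt δ f ∉ cor s d a₁ b₁ b₂ W i) → ∃ (x : ℤ × ℤ) (R : ℤ), |f.1 - x.1| ≤ R ∧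
        |f.2 - x.2| ≤ R ∧ CBox E x R (3 * R) ∧ 4 * δ * R < h)
    (h2 : ∀ (i : Fin 3) (f : ℤ × ℤ), fpt δ f ∈ cor s d a₁ b₁ b₂ W i →
      a ≤ Metric.infDist (fpt δ f) D → Metric.infDist (fpt δ f) D ≤ b →
      (∃ k : ℤ, |tc s d i (fpt δ f) - k * l| ≤ 2 * δ) →
      ∃ (x : ℤ × ℤ) (R : ℤ), |f.1 - x.1| ≤ R ∧ |f.2 - x.2| ≤ R ∧ CBox E x R (3 * R) ∧
        4 * δ * R < h)
    {u v : ℤ × ℤ} (hu : Metric.infDist (fpt δ u) D ≤ a - h)
    (hv : b ≤ Metric.infDist (fpt δ v) D) : ¬ ReflTransGen E u v := by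
  have hρ : ∀ z z' : ℝ × ℝ, |Metric.infDist z D - Metric.infDist z' D| ≤ dist z z' := by
    intro z z'
    rw [abs_le]
    constructor
    · have := Metric.infDist_le_infDist_add_dist (s := D) (x := z') (y := z)
      rw [dist_comm] at this
      linarith only [this]
    · have := Metric.infDist_le_infDist_add_dist (s := D) (x := z) (y := z')
      linarith only [this]
  have hstep : ∀ u v, E u v → dist (fpt δ u) (fpt δ v) ≤ δ := by
    intro u v huv
    have := dist_fpt_le hδ (R := 1) (hE u v huv).1 (hE u v huv).2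
    simpa using this
  have hcl : ∀ f : ℤ × ℤ, (∃ (x : ℤ × ℤ) (R : ℤ), |f.1 - x.1| ≤ R ∧ |f.2 - x.2| ≤ R ∧
      CBox E x R (3 * R) ∧ 4 * δ * R < h) → ∀ w, ReflTransGen E f w →
      |Metric.infDist (fpt δ f) D - Metric.infDist (fpt δ w) D| < h := by
    rintro f ⟨x, R, hx1, hx2, hC, hR⟩ w hw
    obtain ⟨h3, h4⟩ := hC f w hx1 hx2 hw
    have h5 : dist (fpt δ f) (fpt δ w) ≤ δ * (4 * R : ℤ) := by
      refine dist_fpt_le hδ ?_ ?_ <;> rw [abs_le] at * <;> constructor <;> linarith only [hx1, h3, hx2, h4]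
    push_cast at h5
    have := hρ (fpt δ f) (fpt δ w)
    linarith
  -- close to the corners
  have hc₀ : ∀ z, |s z - a₁| ≤ W + 2 * δ → |d z - b₂| ≤ W → Metric.infDist z D < a := by
    intro z h3 h4
    have h5 := hF.dist_le z p₀
    rw [hs₀, hd₀] at h5
    have h6 := Metric.infDist_le_dist_of_mem (x := z) hp₀
    linarith
  have hc₀' : ∀ z, |s z - a₁| ≤ W → |d z - b₂| ≤ W + 2 * δ → Metric.infDist z D < a := by
    intro z h3 h4
    have h5 := hF.dist_le z p₀
    rw [hs₀, hd₀] at h5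
    have h6 := Metric.infDist_le_dist_of_mem (x := z) hp₀
    linarith
  have hc₁ : ∀ z, |s z - b₁| ≤ W + 2 * δ → |d z - b₂| ≤ W → Metric.infDist z D < a := by
    intro z h3 h4
    have h5 := hF.dist_le z p₁
    rw [hs₁, hd₁] at h5
    have h6 := Metric.infDist_le_dist_of_mem (x := z) hp₁
    linarith
  have hc₁' : ∀ z, |s z - b₁| ≤ W → |d z - b₂| ≤ W + 2 * δ → Metric.infDist z D < a := by
    intro z h3 h4
    have h5 := hF.dist_le z p₁
    rw [hs₁, hd₁] at h5
    have h6 := Metric.infDist_le_dist_of_mem (x := z) hp₁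
    linarith only [hWa, h3, h4, h5, h6]
  have mv : ∀ {x y c e : ℝ}, |x - c| ≤ e → |x - y| ≤ 2 * δ → |y - c| ≤ e + 2 * δ := by
    intro x y c e h3 h4
    rw [abs_le] at *
    constructor <;> linarith only [h3, h4]
  refine shell_abs (V := ℤ × ℤ) (I := Fin 3) hs (ρ := fun f => Metric.infDist (fpt δ f) D)
    (K := fun i => {f | fpt δ f ∈ cor s d a₁ b₁ b₂ W i}) (t := fun i f => tc s d i (fpt δ f))
    (a := a) (b := b) (d := δ) (τ := 2 * δ) (l := l) (W := W) (h := h) hl hh hδ hW hab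
    (fun u v huv => (hρ _ _).trans (hstep u v huv))
    (fun i u v huv => (hF.tc_lip i _ _).trans (by linarith only [hstep u v huv])) ?_
    (fun i u v hu hv => by
      have h3 := hF.cor_dist i hu hv
      have h4 := hρ (fpt δ u) (fpt δ v)
      have h5 := abs_nonneg (tc s d i (fpt δ u) - tc s d i (fpt δ v))
      linarith only [h3, h4, h5])
    (fun f hfa hfb hf => hcl f (h1 f hfa hfb hf))
    (fun i f hf hfa hfb hk => hcl f (h2 i f hf hfa hfb hk)) hu hv
  intro i j u v huv hi hj hau hav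
  have hsl := (hF.s_lip (fpt δ u) (fpt δ v)).trans (by linarith only [hstep u v huv] :
    2 * dist (fpt δ u) (fpt δ v) ≤ 2 * δ)
  have hdl := (hF.d_lip (fpt δ u) (fpt δ v)).trans (by linarith only [hstep u v huv] :
    2 * dist (fpt δ u) (fpt δ v) ≤ 2 * δ)
  have hsl' : |s (fpt δ v) - s (fpt δ u)| ≤ 2 * δ := by rw [abs_sub_comm]; exact hsl
  have hdl' : |d (fpt δ v) - d (fpt δ u)| ≤ 2 * δ := by rw [abs_sub_comm]; exact hdl
  have far : ∀ {x y : ℝ}, |x - a₁| ≤ W → |y - b₁| ≤ W → |x - y| ≤ 2 * δ → False := by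
    intro x y h3 h4 h5
    rw [abs_le] at *
    linarith only [hWc, h3, h4, h5]
  fin_cases i <;> fin_cases j
  · rfl
  · exact absurd hau (not_le.2 (hc₀' _ hi (mv hj.1 hdl')))
  · exact (far hi hj.1 hsl).elim
  · exact absurd hav (not_le.2 (hc₀' _ hj (mv hi.1 hdl)))
  · rfl
  · exact absurd hau (not_le.2 (hc₁ _ (mv hj.1 hsl') hi.1))
  · exact (far hj hi.1 hsl').elim
  · exact absurd hav (not_le.2 (hc₁ _ (mv hi.1 hsl) hj.1))
  · rfl

end Vale.Agent.P145.X
end

section

/-!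
The Courant-Lebesgue lemma: among the circles `|p - x| = r`, `R₁ < r < R₂`, there is one on which a
function of small energy has small oscillation.
-/

namespace Vale.Agent.P145.PT

open MeasureTheory Set Filter Topology

/-- The point of the circle. -/
noncomputable def cp (x : ℝ × ℝ) (r θ : ℝ) : ℝ × ℝ := (x.1 + r * Real.cos θ, x.2 + r * Real.sin θ)

/-- The angular derivative. -/
noncomputable def GG (ψ : ℝ × ℝ → ℝ) (x : ℝ × ℝ) (r θ : ℝ) : ℝ :=
  dx ψ (cp x r θ) * (-(r * Real.sin θ)) + dy ψ (cp x r θ) * (r * Real.cos θ)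

theorem fderiv_eq_dxdy (ψ : ℝ × ℝ → ℝ) (z v : ℝ × ℝ) :
    fderiv ℝ ψ z v = dx ψ z * v.1 + dy ψ z * v.2 := by
  unfold dx dy
  have : v = v.1 • ((1, 0) : ℝ × ℝ) + v.2 • ((0, 1) : ℝ × ℝ) := by ext <;> simp
  conv_lhs => rw [this]
  rw [map_add, map_smul, map_smul]; simp only [smul_eq_mul]; ring

theorem GG_hasDeriv {ψ : ℝ × ℝ → ℝ} (hψ : Sm ψ) (x : ℝ × ℝ) (r θ : ℝ) :
    HasDerivAt (fun θ => ψ (cp x r θ)) (GG ψ x r θ) θ := by
  have h1 : HasDerivAt (fun θ => cp x r θ) (-(r * Real.sin θ), r * Real.cos θ) θ := by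
    refine HasDerivAt.prodMk ?_ ?_
    · have := ((Real.hasDerivAt_cos θ).const_mul r).const_add x.1
      refine this.congr_deriv ?_; ring
    · have := ((Real.hasDerivAt_sin θ).const_mul r).const_add x.2
      exact this
  have h2 := (hψ.diff (cp x r θ)).hasFDerivAt.comp_hasDerivAt θ h1
  refine h2.congr_deriv ?_
  rw [fderiv_eq_dxdy]; rfl

theorem cp_cont (x : ℝ × ℝ) : Continuous (fun q : ℝ × ℝ => cp x q.1 q.2) := by
  unfold cp; fun_prop

theorem GG_cont {ψ : ℝ × ℝ → ℝ} (hψ : Sm ψ) (x : ℝ × ℝ) :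
    Continuous (fun q : ℝ × ℝ => GG ψ x q.1 q.2) := by
  unfold GG
  have h1 := hψ.dx.continuous.comp (cp_cont x)
  have h2 := hψ.dy.continuous.comp (cp_cont x)
  have h3 : Continuous (fun q : ℝ × ℝ => -(q.1 * Real.sin q.2)) := by fun_prop
  have h4 : Continuous (fun q : ℝ × ℝ => q.1 * Real.cos q.2) := by fun_prop
  exact (h1.mul h3).add (h2.mul h4)

theorem GG_sq_le (ψ : ℝ × ℝ → ℝ) (x : ℝ × ℝ) {r θ : ℝ} (hr : 0 < r) :
    r⁻¹ * GG ψ x r θ ^ 2 ≤ r * (dx ψ (cp x r θ) ^ 2 + dy ψ (cp x r θ) ^ 2) := by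
  unfold GG
  set a := dx ψ (cp x r θ)
  set b := dy ψ (cp x r θ)
  have h := Real.sin_sq_add_cos_sq θ
  have e : (a * (-(r * Real.sin θ)) + b * (r * Real.cos θ)) ^ 2
      = r ^ 2 * ((a ^ 2 + b ^ 2) * (Real.sin θ ^ 2 + Real.cos θ ^ 2)
        - (a * Real.cos θ + b * Real.sin θ) ^ 2) := by ring
  rw [e, h, mul_one]
  have : r⁻¹ * (r ^ 2 * (a ^ 2 + b ^ 2 - (a * Real.cos θ + b * Real.sin θ) ^ 2))
      = r * (a ^ 2 + b ^ 2) - r * (a * Real.cos θ + b * Real.sin θ) ^ 2 := by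
    field_simp
  rw [this]
  have : 0 ≤ r * (a * Real.cos θ + b * Real.sin θ) ^ 2 := by (clear * - hr; positivity)
  linarith only [this]

theorem polar_energy {D : Set (ℝ × ℝ)} {ψ : ℝ × ℝ → ℝ} (hψ : TestOn D ψ) (x : ℝ × ℝ)
    {R₁ R₂ q : ℝ} (h1 : 0 < R₁) (h12 : R₁ < R₂)
    (hq : ∀ r ∈ Ioo R₁ R₂, q ≤ ∫ θ in Ioo (-Real.pi) Real.pi, GG ψ x r θ ^ 2) :
    q * Real.log (R₂ / R₁) ≤ energy ψ := by
  set e : ℝ × ℝ → ℝ := fun z => dx ψ z ^ 2 + dy ψ z ^ 2 with he
  have hec : Continuous e := (hψ.dx.cont.pow 2).add (hψ.dy.cont.pow 2)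
  have hei : Integrable e := hψ.intE
  have e1 : energy ψ = ∫ p, e (x + p) := (integral_add_left_eq_self e x).symm
  have e2 : ∫ p, e (x + p) = ∫ p in polarCoord.target, p.1 • e (x + polarCoord.symm p) :=
    (integral_comp_polarCoord_symm (fun p => e (x + p))).symm
  have hcp : ∀ p : ℝ × ℝ, x + polarCoord.symm p = cp x p.1 p.2 := by
    intro p; rw [polarCoord_symm_apply]; rfl
  have hi0 : IntegrableOn (fun p : ℝ × ℝ => p.1 • e (x + polarCoord.symm p)) polarCoord.target := by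
    have h := (integrableOn_image_iff_integrableOn_abs_det_fderiv_smul volume
      polarCoord.open_target.measurableSet
      (fun p _ => (hasFDerivAt_polarCoord_symm p).hasFDerivWithinAt)
      polarCoord.symm.injOn (fun p => e (x + p))).1 ?_
    · refine h.congr_fun (fun p hp => ?_) polarCoord.open_target.measurableSet
      have : 0 < p.1 := hp.1
      simp only [det_fderivPolarCoordSymm, abs_of_pos this]
    · exact (hei.comp_add_left x).integrableOn
  set S : Set (ℝ × ℝ) := Ioo R₁ R₂ ×ˢ Ioo (-Real.pi) Real.pi with hS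
  have hSsub : S ⊆ polarCoord.target := by
    rintro p ⟨hp1, hp2⟩
    exact ⟨h1.trans hp1.1, hp2⟩
  have hSm : MeasurableSet S := measurableSet_Ioo.prod measurableSet_Ioo
  have e3 : ∫ p in S, p.1 • e (x + polarCoord.symm p)
      ≤ ∫ p in polarCoord.target, p.1 • e (x + polarCoord.symm p) := by
    refine setIntegral_mono_set hi0 ?_ (LE.le.eventuallyLE hSsub)
    refine (ae_restrict_iff' polarCoord.open_target.measurableSet).2 (ae_of_all _ fun p hp => ?_)
    have : 0 < p.1 := hp.1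
    simp only [Pi.zero_apply, smul_eq_mul]
    exact mul_nonneg this.le (by rw [he]; (clear * -; positivity))
  have hcontG : ContinuousOn (fun p : ℝ × ℝ => p.1⁻¹ * GG ψ x p.1 p.2 ^ 2)
      (Icc R₁ R₂ ×ˢ Icc (-Real.pi) Real.pi) := by
    refine ContinuousOn.mul ?_ ((GG_cont hψ.sm x).pow 2).continuousOn
    exact ContinuousOn.inv₀ continuous_fst.continuousOn
      (fun p hp => (lt_of_lt_of_le h1 hp.1.1).ne')
  have hGi : IntegrableOn (fun p : ℝ × ℝ => p.1⁻¹ * GG ψ x p.1 p.2 ^ 2) S :=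
    (hcontG.integrableOn_compact (isCompact_Icc.prod isCompact_Icc)).mono_set
      (prod_mono Ioo_subset_Icc_self Ioo_subset_Icc_self)
  have e4 : ∫ p in S, p.1⁻¹ * GG ψ x p.1 p.2 ^ 2 ≤ ∫ p in S, p.1 • e (x + polarCoord.symm p) := by
    refine setIntegral_mono_on hGi (hi0.mono_set hSsub) hSm fun p hp => ?_
    rw [hcp, smul_eq_mul]
    exact GG_sq_le ψ x (h1.trans hp.1.1)
  have e5 : ∫ p in S, p.1⁻¹ * GG ψ x p.1 p.2 ^ 2
      = ∫ r in Ioo R₁ R₂, ∫ θ in Ioo (-Real.pi) Real.pi, r⁻¹ * GG ψ x r θ ^ 2 := by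
    rw [hS]
    exact setIntegral_prod _ hGi
  have hlogi : IntegrableOn (fun r : ℝ => q * r⁻¹) (Ioo R₁ R₂) := by
    have : ContinuousOn (fun r : ℝ => q * r⁻¹) (Icc R₁ R₂) :=
      continuousOn_const.mul (continuousOn_id.inv₀ fun r hr => (lt_of_lt_of_le h1 hr.1).ne')
    exact this.integrableOn_Icc.mono_set Ioo_subset_Icc_self
  have e6 : ∫ r in Ioo R₁ R₂, q * r⁻¹
      ≤ ∫ r in Ioo R₁ R₂, ∫ θ in Ioo (-Real.pi) Real.pi, r⁻¹ * GG ψ x r θ ^ 2 := by
    refine setIntegral_mono_on hlogi ?_ measurableSet_Ioo fun r hr => ?_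
    · have := hGi
      rw [hS, IntegrableOn, Measure.volume_eq_prod, ← Measure.prod_restrict] at this
      exact this.integral_prod_left
    · rw [integral_const_mul, mul_comm q]
      exact mul_le_mul_of_nonneg_left (hq r hr) (inv_nonneg.2 (h1.trans hr.1).le)
  have e7 : ∫ r in Ioo R₁ R₂, q * r⁻¹ = q * Real.log (R₂ / R₁) := by
    rw [integral_const_mul, ← integral_Ioc_eq_integral_Ioo,
      ← intervalIntegral.integral_of_le h12.le, integral_inv_of_pos h1 (h1.trans h12)]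
  rw [e1, e2, ← e7]
  exact e6.trans (e5.symm.le.trans (e4.trans e3))

/-- Courant-Lebesgue. -/
theorem courant {D : Set (ℝ × ℝ)} {ψ : ℝ × ℝ → ℝ} (hψ : TestOn D ψ) (x : ℝ × ℝ)
    {R₁ R₂ δ : ℝ} (h1 : 0 < R₁) (h12 : R₁ < R₂) (hδ : 0 < δ)
    (hE : energy ψ < δ ^ 2 * Real.log (R₂ / R₁))
    (hz : ∀ r ∈ Ioo R₁ R₂, ∃ θ₀ ∈ Icc (-Real.pi) Real.pi, ψ (cp x r θ₀) = 0) :
    ∃ r ∈ Ioo R₁ R₂, ∀ θ ∈ Icc (-Real.pi) Real.pi, |ψ (cp x r θ)| ≤ 4 * δ := by
  have hex : ∃ r ∈ Ioo R₁ R₂, ∫ θ in Ioo (-Real.pi) Real.pi, GG ψ x r θ ^ 2 < δ ^ 2 := by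
    by_contra hc
    push Not at hc
    have := polar_energy hψ x h1 h12 hc
    linarith
  obtain ⟨r, hr, hlt⟩ := hex
  obtain ⟨θ₀, hθ₀, hz0⟩ := hz r hr
  refine ⟨r, hr, fun θ hθ => ?_⟩
  have hGc : Continuous (fun θ => GG ψ x r θ) :=
    (GG_cont hψ.sm x).comp (continuous_const.prodMk continuous_id)
  have hftc : ∫ t in θ₀..θ, GG ψ x r t = ψ (cp x r θ) := by
    rw [intervalIntegral.integral_eq_sub_of_hasDerivAt (fun t _ => GG_hasDeriv hψ.sm x r t)
      (hGc.intervalIntegrable _ _), hz0, sub_zero]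
  rw [← hftc]
  have hpi := Real.pi_pos
  have hsub : uIoc θ₀ θ ⊆ Ioc (-Real.pi) Real.pi := by
    rw [uIoc]
    exact Ioc_subset_Ioc (le_min hθ₀.1 hθ.1) (max_le hθ₀.2 hθ.2)
  have hi1 : IntegrableOn (fun t => |GG ψ x r t|) (Ioc (-Real.pi) Real.pi) :=
    (hGc.abs.integrableOn_Icc).mono_set Ioc_subset_Icc_self
  have hi2 : IntegrableOn (fun t => GG ψ x r t ^ 2) (Ioc (-Real.pi) Real.pi) :=
    ((hGc.pow 2).integrableOn_Icc).mono_set Ioc_subset_Icc_self
  have hi3 : IntegrableOn (fun t => δ / 2 + (2 * δ)⁻¹ * GG ψ x r t ^ 2)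
      (Ioc (-Real.pi) Real.pi) := by
    refine Integrable.add ?_ (hi2.const_mul _)
    exact integrableOn_const (hs := by simp only [Real.volume_Ioc, sub_neg_eq_add, ne_eq, ENNReal.ofReal_ne_top, not_false_eq_true])
  calc |∫ t in θ₀..θ, GG ψ x r t| ≤ ∫ t in uIoc θ₀ θ, |GG ψ x r t| := by
        have := intervalIntegral.norm_integral_le_integral_norm_uIoc (f := fun t => GG ψ x r t)
          (a := θ₀) (b := θ) (μ := volume)
        simpa only [ge_iff_le, Real.norm_eq_abs] using this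
    _ ≤ ∫ t in Ioc (-Real.pi) Real.pi, |GG ψ x r t| :=
        setIntegral_mono_set hi1 (ae_of_all _ fun t => abs_nonneg _)
          (LE.le.eventuallyLE hsub)
    _ ≤ ∫ t in Ioc (-Real.pi) Real.pi, (δ / 2 + (2 * δ)⁻¹ * GG ψ x r t ^ 2) := by
        refine setIntegral_mono_on hi1 hi3 measurableSet_Ioc fun t _ => ?_
        have h0 : 0 ≤ (2 * δ)⁻¹ * (|GG ψ x r t| - δ) ^ 2 := by (clear * - hδ; positivity)
        have e : (2 * δ)⁻¹ * (|GG ψ x r t| - δ) ^ 2
            = δ / 2 + (2 * δ)⁻¹ * GG ψ x r t ^ 2 - |GG ψ x r t| := by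
          rw [sub_sq, sq_abs]; field_simp; ring
        linarith only [h0, e]
    _ = Real.pi * δ + (2 * δ)⁻¹ * ∫ t in Ioo (-Real.pi) Real.pi, GG ψ x r t ^ 2 := by
        have hi4 : Integrable (fun _ : ℝ => δ / 2)
            (volume.restrict (Ioc (-Real.pi) Real.pi)) := integrable_const _
        rw [integral_add hi4 (hi2.const_mul _),
          setIntegral_const, integral_const_mul, integral_Ioc_eq_integral_Ioo]
        congr 1
        rw [Measure.real, Real.volume_Ioc, ENNReal.toReal_ofReal (by linarith only [hpi]), smul_eq_mul]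
        ring
    _ ≤ Real.pi * δ + (2 * δ)⁻¹ * δ ^ 2 := by
        (clear * - hlt hδ; gcongr)
    _ = (Real.pi + 1 / 2) * δ := by field_simp
    _ ≤ 4 * δ := by
        refine mul_le_mul_of_nonneg_right ?_ hδ.le
        linarith only [Real.pi_lt_d2]

/-- Every point of the circle is `cp x r θ`. -/
theorem exists_angle (x p : ℝ × ℝ) {r : ℝ} (hr : 0 ≤ r) (h : sqn (p - x) = r ^ 2) :
    ∃ θ ∈ Icc (-Real.pi) Real.pi, p = cp x r θ := by
  set z : ℂ := ⟨p.1 - x.1, p.2 - x.2⟩ with hz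
  have hn : ‖z‖ = r := by
    have : ‖z‖ ^ 2 = r ^ 2 := by
      rw [← h, Complex.sq_norm, Complex.normSq_apply]
      simp only [hz, sqn, Prod.fst_sub, Prod.snd_sub]; ring
    exact (pow_left_inj₀ (norm_nonneg _) hr two_ne_zero).1 this
  refine ⟨z.arg, ⟨(Complex.neg_pi_lt_arg z).le, Complex.arg_le_pi z⟩, ?_⟩
  have h1 := Complex.norm_mul_cos_arg z
  have h2 := Complex.norm_mul_sin_arg z
  rw [hn] at h1 h2
  refine Prod.ext ?_ ?_
  · change p.1 = x.1 + r * Real.cos z.arg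
    rw [h1, hz]; ring
  · change p.2 = x.2 + r * Real.sin z.arg
    rw [h2, hz]; ring

end Vale.Agent.P145.PT
end

section

/-!
Stability of the Dirichlet form under shrinking of outer approximations.
-/

namespace Vale.Agent.P145.PT

open MeasureTheory Set Filter Topology

theorem energy_sub {D : Set (ℝ × ℝ)} {f g : ℝ × ℝ → ℝ} (hf : TestOn D f) (hg : TestOn D g)
    (c : ℝ) : energy (fun z => f z + c * g z) = energy f
      + 2 * c * (∫ z, (dx f z * dx g z + dy f z * dy g z)) + c ^ 2 * energy g := by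
  have i1 : Integrable (fun z => dx f z * dx g z + dy f z * dy g z) :=
    (hf.dx.intMul hg.dx.cont).add (hf.dy.intMul hg.dy.cont)
  have hcg : Sm (fun z => c * g z) := contDiff_const.mul hg.sm
  have j2 : Integrable (fun z => 2 * c * (dx f z * dx g z + dy f z * dy g z)) := i1.const_mul _
  have j3 : Integrable (fun z => (dx f z ^ 2 + dy f z ^ 2)
    + 2 * c * (dx f z * dx g z + dy f z * dy g z)) := hf.intE.add j2
  unfold energy
  rw [← integral_const_mul, ← integral_const_mul, ← integral_add hf.intE j2,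
    ← integral_add j3 (hg.intE.const_mul _)]
  congr 1; funext z
  rw [dx_add hf.sm hcg, dy_add hf.sm hcg, dx_smul hg.sm, dy_smul hg.sm]
  ring

/-- Truncation of a near maximiser inside a circle. -/
theorem trunc {D D₀ : Set (ℝ × ℝ)} (hb : Bornology.IsBounded D) {φ ψ : ℝ × ℝ → ℝ}
    (hφ : TestOn D₀ φ) (hψ : TestOn D ψ) {τ : ℝ}
    (hJ : V D φ - τ ≤ (2 * ∫ z, φ z * ψ z) - energy ψ) {x : ℝ × ℝ} {r ε : ℝ} (hε : 0 < ε)
    (hc : ∀ p, sqn (p - x) = r ^ 2 → ψ p < ε) (hφ0 : ∀ p, sqn (p - x) < r ^ 2 → φ p = 0) :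
    ∃ a, TestOn D a ∧ energy a ≤ τ ∧ ∀ p, sqn (p - x) < r ^ 2 → ψ p ≤ a p + 2 * ε := by
  classical
  set a : ℝ × ℝ → ℝ := fun p => if sqn (p - x) < r ^ 2 then FF ε (ψ p) else 0 with ha
  have hcs : Continuous (fun p : ℝ × ℝ => sqn (p - x)) :=
    sqn_smooth.continuous.comp (continuous_id.sub continuous_const)
  -- local form
  have hloc1 : ∀ p, sqn (p - x) < r ^ 2 → a =ᶠ[𝓝 p] fun p => FF ε (ψ p) := by
    intro p hp
    filter_upwards [(isOpen_lt hcs continuous_const).mem_nhds hp] with y hy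
    rw [ha]; simp only; rw [if_pos hy]
  have hloc2 : ∀ p, r ^ 2 < sqn (p - x) → a =ᶠ[𝓝 p] fun _ => 0 := by
    intro p hp
    filter_upwards [(isOpen_lt continuous_const hcs).mem_nhds hp] with y hy
    rw [ha]; simp only; rw [if_neg (not_lt.2 (le_of_lt hy))]
  have hloc3 : ∀ p, sqn (p - x) = r ^ 2 → a =ᶠ[𝓝 p] fun _ => 0 := by
    intro p hp
    filter_upwards [(isOpen_lt hψ.cont continuous_const).mem_nhds (hc p hp)] with y hy
    rw [ha]; simp only
    split_ifs
    · exact FF_zero hε (le_of_lt hy)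
    · rfl
  have hsm : Sm a := by
    refine contDiff_iff_contDiffAt.2 fun p => ?_
    rcases lt_trichotomy (sqn (p - x)) (r ^ 2) with h | h | h
    · exact ((FF_smooth ε).comp hψ.sm).contDiffAt.congr_of_eventuallyEq (hloc1 p h)
    · exact contDiffAt_const.congr_of_eventuallyEq (hloc3 p h)
    · exact contDiffAt_const.congr_of_eventuallyEq (hloc2 p h)
  have hsupp : tsupport a ⊆ tsupport ψ := by
    refine closure_mono fun p hp => ?_
    intro h0
    refine hp ?_
    rw [ha]; simp only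
    split_ifs
    · exact FF_zero hε (by rw [h0]; exact hε.le)
    · rfl
  have hat : TestOn D a := by
    refine ⟨hsm, ?_, hsupp.trans hψ.2.2⟩
    exact hψ.2.1.of_isClosed_subset (isClosed_tsupport _) hsupp
  refine ⟨a, hat, ?_, fun p hp => ?_⟩
  · -- energy
    have hpt : ∀ p v, fderiv ℝ a p v ^ 2 ≤ fderiv ℝ ψ p v * fderiv ℝ a p v := by
      intro p v
      have hz : ∀ c : ℝ × ℝ → ℝ, c =ᶠ[𝓝 p] (fun _ => 0) → fderiv ℝ c p v = 0 := by
        intro c hc'
        rw [hc'.fderiv_eq]; simp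
      rcases lt_trichotomy (sqn (p - x)) (r ^ 2) with h | h | h
      · rw [(hloc1 p h).fderiv_eq, fd_comp (FF_hasDeriv ε) hψ.sm]
        set b := Real.smoothTransition ((ψ p - ε) / ε)
        have hb0 : 0 ≤ b := Real.smoothTransition.nonneg _
        have hb1 : b ≤ 1 := Real.smoothTransition.le_one _
        have : fderiv ℝ ψ p v * (b * fderiv ℝ ψ p v) - (b * fderiv ℝ ψ p v) ^ 2
            = b * (1 - b) * fderiv ℝ ψ p v ^ 2 := by ring
        nlinarith only [mul_nonneg (mul_nonneg hb0 (sub_nonneg.2 hb1)) (sq_nonneg (fderiv ℝ ψ p v))]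
      · rw [hz a (hloc3 p h)]; simp
      · rw [hz a (hloc2 p h)]; simp
    have hE1 : energy a ≤ ∫ z, (dx ψ z * dx a z + dy ψ z * dy a z) := by
      refine integral_mono hat.intE ((hψ.dx.intMul hat.dx.cont).add
        (hψ.dy.intMul hat.dy.cont)) fun z => ?_
      exact add_le_add (hpt z (1, 0)) (hpt z (0, 1))
    have h1 := le_V hb hφ (hψ.add (hat.smul (-1)))
    rw [energy_sub hψ hat (-1)] at h1
    have h2 : ∫ z, φ z * (ψ z + -1 * a z) = ∫ z, φ z * ψ z := by
      congr 1; funext z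
      by_cases hz : sqn (z - x) < r ^ 2
      · rw [hφ0 z hz]; simp
      · have : a z = 0 := by rw [ha]; simp only; rw [if_neg hz]
        rw [this]; simp
    rw [h2] at h1
    linarith only [hJ, hE1, h1]
  · have : a p = FF ε (ψ p) := by rw [ha]; simp only; rw [if_pos hp]
    rw [this]
    linarith only [FF_ge hε (ψ p)]

/-- Cauchy-Schwarz. -/
theorem cs2 {D D' : Set (ℝ × ℝ)} {f g : ℝ × ℝ → ℝ} (hf : TestOn D f) (hg : TestOn D' g) :
    |∫ z, f z * g z| ≤ Real.sqrt (∫ z, f z ^ 2) * Real.sqrt (∫ z, g z ^ 2) := by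
  have h0 : 0 ≤ ∫ z, f z ^ 2 := integral_nonneg fun z => sq_nonneg _
  rw [← Real.sqrt_mul h0, ← Real.sqrt_sq_eq_abs]
  refine Real.sqrt_le_sqrt ?_
  have hfg : Integrable (fun z => f z * g z) := hf.intMul hg.cont
  have h : ∀ t : ℝ, 0 ≤ (∫ z, f z ^ 2) * (t * t) + (-(2 * ∫ z, f z * g z)) * t
      + ∫ z, g z ^ 2 := by
    intro t
    have j1 : Integrable (fun z => (t * t) * f z ^ 2) := hf.intSq.const_mul _
    have j2 : Integrable (fun z => (-(2 * t)) * (f z * g z)) := hfg.const_mul _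
    have j3 : Integrable (fun z => (t * t) * f z ^ 2 + (-(2 * t)) * (f z * g z)) := j1.add j2
    have e2 : (∫ z, f z ^ 2) * (t * t) + (-(2 * ∫ z, f z * g z)) * t + ∫ z, g z ^ 2
        = ∫ z, ((t * t) * f z ^ 2 + (-(2 * t)) * (f z * g z) + g z ^ 2) := by
      rw [integral_add j3 hg.intSq, integral_add j1 j2, integral_const_mul, integral_const_mul]
      ring
    rw [e2]
    refine integral_nonneg fun z => ?_
    have : (t * t) * f z ^ 2 + (-(2 * t)) * (f z * g z) + g z ^ 2 = (t * f z - g z) ^ 2 := by ring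
    simp only [Pi.zero_apply, this]; (clear * -; positivity)
  have := discrim_le_zero h
  unfold discrim at this
  linarith

/-- The exterior condition used for the stability. -/
def Ext (D : Set (ℝ × ℝ)) : Prop :=
  ∀ R : ℝ, 0 < R → ∃ s : ℝ, 0 < s ∧ ∃ ρ : ℝ, 0 < ρ ∧ ∀ x ∈ D, dd D x < ρ → ∀ r : ℝ, R ≤ r →
    ∃ p, sqn (p - x) = r ^ 2 ∧ p ∉ Metric.thickening s D

theorem sqn_le_of_norm (y : ℝ × ℝ) : sqn y ≤ 2 * ‖y‖ ^ 2 := by
  have h1 := norm_fst_le y
  have h2 := norm_snd_le y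
  rw [Real.norm_eq_abs] at h1 h2
  have h3 : y.1 ^ 2 ≤ ‖y‖ ^ 2 := by
    rw [← sq_abs y.1]; exact pow_le_pow_left₀ (abs_nonneg _) h1 2
  have h4 : y.2 ^ 2 ≤ ‖y‖ ^ 2 := by
    rw [← sq_abs y.2]; exact pow_le_pow_left₀ (abs_nonneg _) h2 2
  unfold sqn; linarith only [h3, h4]

theorem norm_sq_le_sqn (y : ℝ × ℝ) : ‖y‖ ^ 2 ≤ sqn y := by
  have h := norm_le_of_sqn (Real.sqrt_nonneg (sqn y)) (y := y)
    (by rw [Real.sq_sqrt (sqn_nonneg y)])
  calc ‖y‖ ^ 2 ≤ Real.sqrt (sqn y) ^ 2 := pow_le_pow_left₀ (norm_nonneg _) h 2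
    _ = sqn y := Real.sq_sqrt (sqn_nonneg y)

theorem stab {D : Set (ℝ × ℝ)} (hD : IsOpen D) (hb : Bornology.IsBounded D) (hext : Ext D)
    {φ : ℝ × ℝ → ℝ} (hφ : TestOn D φ) (hφ0 : ∀ z, 0 ≤ φ z) {η : ℝ} (hη : 0 < η) :
    ∃ s : ℝ, 0 < s ∧ V (Metric.thickening s D) φ ≤ V D φ + η := by
  by_contra hcon
  push Not at hcon
  -- the outer domains
  set s : ℕ → ℝ := fun n => 1 / ((n : ℝ) + 1) with hs
  have hs0 : ∀ n, 0 < s n := fun n => by positivity
  have hs1 : ∀ n, s n ≤ 1 := fun n => by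
    rw [hs]; simp only; rw [div_le_one (by positivity)]
    linarith only []
  have hst : Tendsto s atTop (𝓝 0) := tendsto_one_div_add_atTop_nhds_zero_nat
  set E : ℕ → Set (ℝ × ℝ) := fun n => Metric.thickening (s n) D with hE
  have hEb : ∀ n, Bornology.IsBounded (E n) := fun n => hb.thickening
  have hDE : ∀ n, D ⊆ E n := fun n => Metric.self_subset_thickening (hs0 n) D
  have hE0 : ∀ n, E n ⊆ Metric.thickening 1 D := fun n => Metric.thickening_mono (hs1 n) D
  have hE0b : Bornology.IsBounded (Metric.thickening (1 : ℝ) D) := hb.thickening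
  have hVn : ∀ n, V D φ + η < V (E n) φ := fun n => hcon (s n) (hs0 n)
  set V0 := V (Metric.thickening (1 : ℝ) D) φ with hV0
  have hVn0 : ∀ n, V (E n) φ ≤ V0 := fun n => V_mono hE0b (hE0 n) hφ
  have hVD : 0 ≤ V D φ := V_nonneg hb hφ
  -- near maximisers
  have hψex : ∀ n, ∃ ψ, TestOn (E n) ψ ∧ V (E n) φ - s n ≤ (2 * ∫ z, φ z * ψ z) - energy ψ := by
    intro n
    have : Nonempty {ψ : ℝ × ℝ → ℝ // TestOn (E n) ψ} := ⟨⟨_, TestOn.zero _⟩⟩
    obtain ⟨ψ, hψ⟩ := exists_lt_of_lt_ciSup (f := fun ψ : {ψ : ℝ × ℝ → ℝ // TestOn (E n) ψ} =>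
      (2 * ∫ z, φ z * ψ.1 z) - energy ψ.1) (b := V (E n) φ - s n)
      (by have := hs0 n; unfold V; linarith only [this])
    exact ⟨ψ.1, ψ.2, hψ.le⟩
  choose ψ hψ hJ using hψex
  have hI2 : ∀ n, (∫ z, φ z * ψ n z) ^ 2 ≤ V (E n) φ * energy (ψ n) := fun n =>
    pair_le (hEb n) hφ (hψ n)
  have hen : ∀ n, energy (ψ n) ≤ 2 + 4 * V0 := by
    intro n
    have h1 := hI2 n
    have h2 := hJ n
    have h3 := energy_nonneg (ψ n)
    have h4 := hVn n
    have h5 := hVn0 n
    have h6 := hs1 n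
    by_contra hc
    push Not at hc
    set I := ∫ z, φ z * ψ n z
    set e := energy (ψ n)
    have h7 : e - 1 ≤ 2 * I := by linarith only [hη, hVD, h4, h6, h2]
    have h8 : (e - 1) ^ 2 ≤ 4 * I ^ 2 := by nlinarith only [hη, h4, hc, hVD, h5, h6, h2, h3]
    have h9 : 4 * I ^ 2 ≤ 4 * (V0 * e) := by nlinarith only [h1, h5, h3]
    nlinarith only [h1, h8, h5, h3, hc]
  have hIlow : ∀ n, V (E n) φ - Real.sqrt (s n * V0) ≤ ∫ z, φ z * ψ n z := by
    intro n
    have h1 := hI2 n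
    have h2 := hJ n
    have h4 := hVn n
    have h5 := hVn0 n
    have h6 := hs0 n
    set I := ∫ z, φ z * ψ n z
    set e := energy (ψ n)
    set v := V (E n) φ
    have hv : 0 < v := by linarith only [hη, hVD, h4]
    by_contra hc
    push Not at hc
    have h7 : Real.sqrt (s n * V0) < v - I := by linarith only [hc]
    have h8 : s n * V0 < (v - I) ^ 2 := by
      have h80 : 0 ≤ s n * V0 := mul_nonneg h6.le (by linarith only [hη, hVD, h4, h5])
      calc s n * V0 = Real.sqrt (s n * V0) ^ 2 := (Real.sq_sqrt h80).symm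
        _ < (v - I) ^ 2 := pow_lt_pow_left₀ h7 (Real.sqrt_nonneg _) two_ne_zero
    have h9 : v * (v - s n + e) ≤ v * (2 * I) := mul_le_mul_of_nonneg_left (by linarith only [h2]) hv.le
    nlinarith only [h1, h8, h9, h6, h5]
  -- Poincaré
  obtain ⟨R, hR0, hR⟩ := bdd_fst hE0b
  have hψ2 : ∀ n, ∫ z, ψ n z ^ 2 ≤ 4 * R ^ 2 * (2 + 4 * V0) := by
    intro n
    refine (poincare (fun z hz => hR z (hE0 n hz)) (hψ n)).trans ?_
    exact mul_le_mul_of_nonneg_left ((energy_ge_dx (hψ n)).trans (hen n)) (by positivity)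
  set K := Real.sqrt (4 * R ^ 2 * (2 + 4 * V0)) with hK
  have hpair : ∀ θ, TestOn D θ → ∀ n, |∫ z, θ z * ψ n z| ≤ K * Real.sqrt (∫ z, θ z ^ 2) := by
    intro θ hθ n
    rw [mul_comm]
    refine (cs2 hθ (hψ n)).trans ?_
    exact mul_le_mul_of_nonneg_left (Real.sqrt_le_sqrt (hψ2 n)) (Real.sqrt_nonneg _)
  -- ultrafilter limits
  set 𝒰 : Ultrafilter ℕ := Filter.hyperfilter ℕ with h𝒰
  have h𝒰le : (𝒰 : Filter ℕ) ≤ atTop := Nat.hyperfilter_le_atTop
  set T : (ℝ × ℝ → ℝ) → ℝ := fun θ => limUnder (𝒰 : Filter ℕ) (fun n => ∫ z, θ z * ψ n z) with hT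
  have hlim : ∀ θ, TestOn D θ → Tendsto (fun n => ∫ z, θ z * ψ n z) (𝒰 : Filter ℕ) (𝓝 (T θ)) := by
    intro θ hθ
    refine tendsto_nhds_limUnder ?_
    set B := K * Real.sqrt (∫ z, θ z ^ 2)
    obtain ⟨L, -, hL⟩ := (isCompact_closedBall (0 : ℝ) B).ultrafilter_le_nhds
      (𝒰.map (fun n => ∫ z, θ z * ψ n z)) (by
        rw [Filter.le_principal_iff, Ultrafilter.mem_coe, Ultrafilter.mem_map]
        refine Filter.mem_of_superset Filter.univ_mem fun n _ => ?_
        rw [mem_preimage, mem_closedBall_zero_iff, Real.norm_eq_abs]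
        exact hpair θ hθ n)
    exact ⟨L, hL⟩
  have hneb : (𝒰 : Filter ℕ).NeBot := 𝒰.neBot
  have hTf : L2Fn D T K :=
    { add := fun f g hf hg => by
        refine tendsto_nhds_unique (hlim _ (hf.add hg)) ?_
        refine ((hlim f hf).add (hlim g hg)).congr fun n => ?_
        rw [← integral_add (hf.intMul (hψ n).cont) (hg.intMul (hψ n).cont)]
        congr 1; funext z; ring
      smul := fun c f hf => by
        refine tendsto_nhds_unique (hlim _ (hf.smul c)) ?_
        refine ((hlim f hf).const_mul c).congr fun n => ?_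
        rw [← integral_const_mul]
        congr 1; funext z; ring
      bd := fun f hf => le_of_tendsto (hlim f hf).abs (Eventually.of_forall fun n => hpair f hf n) }
  have hst𝒰 : Tendsto s (𝒰 : Filter ℕ) (𝓝 0) := hst.mono_left h𝒰le
  have hsqrt : ∀ c : ℝ, Tendsto (fun n => Real.sqrt (s n * c)) (𝒰 : Filter ℕ) (𝓝 0) := by
    intro c
    have h1 : Tendsto (fun n => s n * c) (𝒰 : Filter ℕ) (𝓝 (0 * c)) := hst𝒰.mul_const c
    rw [zero_mul] at h1
    have h2 := (Real.continuous_sqrt.tendsto 0).comp h1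
    rwa [Real.sqrt_zero] at h2
  -- the equation
  have heq : ∀ χ, TestOn D χ → T (lap χ) = - ∫ z, χ z * φ z := by
    intro χ hχ
    have hb2 : ∀ n, |(∫ z, φ z * χ z) - ∫ z, (dx (ψ n) z * dx χ z + dy (ψ n) z * dy χ z)|
        ≤ Real.sqrt (s n * energy χ) := by
      intro n
      have hχn : TestOn (E n) χ := hχ.mono (hDE n)
      set b := (∫ z, φ z * χ z) - ∫ z, (dx (ψ n) z * dx χ z + dy (ψ n) z * dy χ z) with hbdef
      have h : ∀ t : ℝ, 0 ≤ energy χ * (t * t) + (-(2 * b)) * t + s n := by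
        intro t
        have h1 := le_V (hEb n) hφ ((hψ n).add (hχn.smul t))
        rw [energy_sub (hψ n) hχn t] at h1
        have h2 : ∫ z, φ z * (ψ n z + t * χ z) = (∫ z, φ z * ψ n z) + t * ∫ z, φ z * χ z := by
          rw [← integral_const_mul, ← integral_add (hφ.intMul (hψ n).cont)
            ((hφ.intMul hχ.cont).const_mul _)]
          congr 1; funext z; ring
        rw [h2] at h1
        have h3 := hJ n
        rw [hbdef]
        linarith
      have hd := discrim_le_zero h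
      unfold discrim at hd
      rw [← Real.sqrt_sq_eq_abs]
      refine Real.sqrt_le_sqrt ?_
      nlinarith only [hd]
    refine tendsto_nhds_unique (hlim _ hχ.lap) ?_
    have h1 : ∀ n, ∫ z, lap χ z * ψ n z
        = ((∫ z, φ z * χ z) - ∫ z, (dx (ψ n) z * dx χ z + dy (ψ n) z * dy χ z))
          - ∫ z, χ z * φ z := by
      intro n
      have h2 : ∫ z, lap χ z * ψ n z = ∫ z, ψ n z * lap χ z := by
        congr 1; funext z; ring
      have h3 : ∫ z, χ z * φ z = ∫ z, φ z * χ z := by congr 1; funext z; ring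
      rw [h2, h3, green_id (hψ n) hχ.sm]; ring
    simp_rw [h1]
    have h4 : Tendsto (fun n => (∫ z, φ z * χ z)
        - ∫ z, (dx (ψ n) z * dx χ z + dy (ψ n) z * dy χ z)) (𝒰 : Filter ℕ) (𝓝 0) :=
      squeeze_zero_norm (fun n => by rw [Real.norm_eq_abs]; exact hb2 n) (hsqrt (energy χ))
    simpa only [zero_sub] using h4.sub_const (∫ z, χ z * φ z)
  -- decay
  have hdec : ∀ ε : ℝ, 0 < ε → ∃ r : ℝ, 0 < r ∧ ∀ x ∈ D, dd D x < r →
      T (bump (dd D x / 2) x) ≤ ε := by
    intro ε hε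
    obtain ⟨rφ, hrφ, hφz⟩ := exists_low hD hb hφ
    set δ : ℝ := ε / 16 with hδ
    have hδ0 : 0 < δ := by (clear * - hε; positivity)
    set E0 : ℝ := 2 + 4 * V0 with hE0'
    set R₂ : ℝ := rφ / 4 with hR₂
    have hR₂0 : 0 < R₂ := by positivity
    set L : ℝ := E0 / δ ^ 2 + 1 with hL
    have hE00 : 0 ≤ E0 := (energy_nonneg (ψ 0)).trans (hen 0)
    have hL1 : 0 < L := by (clear * - hE00 hε; positivity)
    set R₁ : ℝ := R₂ * Real.exp (-L) with hR₁
    have hR₁0 : 0 < R₁ := by positivity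
    have hR₁₂ : R₁ < R₂ := by
      rw [hR₁]
      have : Real.exp (-L) < 1 := by rw [← Real.exp_zero]; exact Real.exp_lt_exp.2 (by linarith only [hL1])
      nlinarith only [hrφ, this, hR₂]
    have hlog : Real.log (R₂ / R₁) = L := by
      rw [hR₁, div_mul_eq_div_div, div_self hR₂0.ne', one_div, ← Real.exp_neg, neg_neg,
        Real.log_exp]
    obtain ⟨s', hs', ρ, hρ, hx⟩ := hext R₁ hR₁0
    refine ⟨min (min ρ R₁) R₂, lt_min (lt_min hρ hR₁0) hR₂0, fun x hxD hxr => ?_⟩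
    have hx1 : dd D x < ρ := lt_of_lt_of_le hxr ((min_le_left _ _).trans (min_le_left _ _))
    have hx2 : dd D x < R₁ := lt_of_lt_of_le hxr ((min_le_left _ _).trans (min_le_right _ _))
    have hx3 : dd D x < R₂ := lt_of_lt_of_le hxr (min_le_right _ _)
    have hxp : 0 < dd D x := (dd_pos hD hb).2 hxD
    have hbt : TestOn D (bump (dd D x / 2) x) :=
      bump_test (by linarith only [hxp]) (ball_sub (by linarith only [hxp]))
    have hbi : ∫ z, bump (dd D x / 2) x z = 1 := bump_int (by linarith only [hxp]) x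
    set β := bump (dd D x / 2) x with hβ
    have hev : ∀ᶠ n in (𝒰 : Filter ℕ), ∫ z, β z * ψ n z
        ≤ ε + Real.sqrt (∫ z, β z ^ 2) * Real.sqrt (s n * (4 * R ^ 2)) := by
      filter_upwards [hst𝒰.eventually (gt_mem_nhds hs')] with n hn
      have hEs : E n ⊆ Metric.thickening s' D := Metric.thickening_mono hn.le D
      have hvan : ∀ p, p ∉ Metric.thickening s' D → ψ n p = 0 := by
        intro p hp
        by_contra h
        exact hp (hEs ((hψ n).2.2 (subset_tsupport _ h)))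
      obtain ⟨r, hr, hrθ⟩ := courant (hψ n) x hR₁0 hR₁₂ hδ0 (by
          refine lt_of_le_of_lt (hen n) ?_
          rw [hlog, hL, mul_add, mul_one, mul_div_cancel₀ _ (by (clear * - hε; positivity))]
          have : 0 < δ ^ 2 := by positivity
          linarith only [this]) (fun r hr => by
          obtain ⟨p, hp1, hp2⟩ := hx x hxD hx1 r hr.1.le
          obtain ⟨θ, hθ, hpθ⟩ := exists_angle x p (hR₁0.trans hr.1).le hp1
          exact ⟨θ, hθ, by rw [← hpθ]; exact hvan p hp2⟩)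
      have hr0 : 0 < r := hR₁0.trans hr.1
      have hnorm : ∀ p, sqn (p - x) < r ^ 2 → ‖p - x‖ < r := by
        intro p hp
        have := (norm_sq_le_sqn (p - x)).trans_lt hp
        exact lt_of_pow_lt_pow_left₀ 2 hr0.le this
      obtain ⟨a, ha, hea, hpa⟩ := trunc (hEb n) hφ (hψ n) (hJ n) (x := x) (r := r)
        (ε := ε / 2) (by (clear * - hε; positivity)) (fun p hp => by
          obtain ⟨θ, hθ, hpθ⟩ := exists_angle x p hr0.le hp
          have := hrθ θ hθ
          rw [← hpθ] at this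
          have h1 := (abs_le.1 this).2
          rw [hδ] at h1
          linarith only [hε, h1]) (fun p hp => by
          refine hφz p ?_
          have h1 := dd_le_add D p x
          have h2 := hnorm p hp
          rw [dist_eq_norm] at h1
          have h3 := hr.2
          linarith only [hR₂, hR₁₂, hx2, hxp, h1, h2, h3])
      have hbp : ∀ z, β z * ψ n z ≤ β z * (a z + ε) := by
        intro z
        by_cases hz : dd D x / 2 < dist z x
        · rw [hβ, bump_zero (by linarith only [hxp]) hz]; simp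
        · push Not at hz
          have h1 : sqn (z - x) < r ^ 2 := by
            rw [dist_eq_norm] at hz
            have h2 := sqn_le_of_norm (z - x)
            have h3 : ‖z - x‖ ^ 2 ≤ (dd D x / 2) ^ 2 :=
              pow_le_pow_left₀ (norm_nonneg _) hz 2
            have h4 : dd D x < r := hx2.trans hr.1
            nlinarith only [h2, h3, hxp, h4]
          have h5 := hpa z h1
          refine mul_le_mul_of_nonneg_left ?_ (bump_nonneg _ _ _)
          linarith only [h5]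
      have hba : ∫ z, β z * a z ≤ Real.sqrt (∫ z, β z ^ 2) * Real.sqrt (s n * (4 * R ^ 2)) := by
        refine (le_abs_self _).trans ((cs2 hbt ha).trans ?_)
        refine mul_le_mul_of_nonneg_left (Real.sqrt_le_sqrt ?_) (Real.sqrt_nonneg _)
        have h1 := poincare (fun z hz => hR z (hE0 n hz)) ha
        have h2 := energy_ge_dx ha
        have h3 : 0 ≤ 4 * R ^ 2 := by positivity
        nlinarith only [h1, hea, h2]
      calc ∫ z, β z * ψ n z ≤ ∫ z, β z * (a z + ε) :=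
            integral_mono (hbt.intMul (hψ n).cont) (hbt.intMul (ha.cont.add continuous_const)) hbp
        _ = (∫ z, β z * a z) + ε := by
            have : ∀ z, β z * (a z + ε) = β z * a z + ε * β z := fun z => by ring
            simp_rw [this]
            rw [integral_add (hbt.intMul ha.cont) (hbt.int.const_mul _), integral_const_mul, hbi,
              mul_one]
        _ ≤ _ := by linarith only [hba]
    have hr1 : Tendsto (fun n => ε + Real.sqrt (∫ z, β z ^ 2) * Real.sqrt (s n * (4 * R ^ 2)))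
        (𝒰 : Filter ℕ) (𝓝 (ε + Real.sqrt (∫ z, β z ^ 2) * 0)) :=
      ((hsqrt (4 * R ^ 2)).const_mul _).const_add _
    rw [mul_zero, add_zero] at hr1
    exact le_of_tendsto_of_tendsto (hlim β hbt) hr1 hev
  -- T φ is large
  have hTφ : V D φ + η ≤ T φ := by
    have h1 : Tendsto (fun n => V D φ + η - Real.sqrt (s n * V0)) (𝒰 : Filter ℕ)
        (𝓝 (V D φ + η - 0)) := (hsqrt V0).const_sub _
    rw [sub_zero] at h1
    refine le_of_tendsto_of_tendsto h1 (hlim φ hφ) (Eventually.of_forall fun n => ?_)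
    have h2 := hIlow n
    have h3 := hVn n
    simp only
    linarith only [h2, h3]
  obtain ⟨χ, hχ, hχE, hχT⟩ := lemB hD hb hTf hφ heq hdec hφ hφ0 (show 0 < η / 4 by linarith only [hη])
  have hfin := le_V hb hφ hχ
  linarith

end Vale.Agent.P145.PT
end

section

/-!
The set enclosed by a closed set `T` (bounded components of the complement), and the geometric
facts on polygonal approximations of a Jordan domain.
-/

namespace Vale.Agent.P145.PT

open Set Filter Topology Metric Bornology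

section enclosed

variable {X : Type*} [PseudoMetricSpace X]

/-- The points enclosed by `T`: the points outside `T` whose connected component in the
complement of `T` is bounded. -/
def enclosed (T : Set X) : Set X :=
  {z | z ∉ T ∧ IsBounded (connectedComponentIn Tᶜ z)}

theorem enclosed_disjoint (T : Set X) : Disjoint (enclosed T) T :=
  Set.disjoint_left.2 fun _ hz hT => hz.1 hT

theorem enclosed_subset_compl (T : Set X) : enclosed T ⊆ Tᶜ := fun _ hz => hz.1

/-- A preconnected set disjoint from `T` is contained in `enclosed T` as soon as it meets it. -/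
theorem subset_enclosed_of_mem {T S : Set X} (hS : IsPreconnected S) (hST : S ⊆ Tᶜ) {z : X}
    (hz : z ∈ S) (hzT : z ∈ enclosed T) : S ⊆ enclosed T := by
  intro x hx
  have h1 : S ⊆ connectedComponentIn Tᶜ z := hS.subset_connectedComponentIn hz hST
  have h2 : connectedComponentIn Tᶜ x = connectedComponentIn Tᶜ z :=
    (connectedComponentIn_eq (h1 hx)).symm
  exact ⟨fun h => hST hx h, by rw [h2]; exact hzT.2⟩

theorem subset_enclosed_or_disjoint {T S : Set X} (hS : IsPreconnected S) (hST : S ⊆ Tᶜ) :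
    S ⊆ enclosed T ∨ Disjoint S (enclosed T) := by
  by_cases h : ∃ z ∈ S, z ∈ enclosed T
  · obtain ⟨z, hz, hzT⟩ := h
    exact Or.inl (subset_enclosed_of_mem hS hST hz hzT)
  · right
    rw [Set.disjoint_left]
    intro z hz hzT
    exact h ⟨z, hz, hzT⟩

/-- A point which can be joined outside `T` to an unbounded preconnected set is not enclosed. -/
theorem not_mem_enclosed {T S : Set X} (hS : IsPreconnected S) (hST : S ⊆ Tᶜ)
    (hb : ¬ IsBounded S) {z : X} (hz : z ∈ S) : z ∉ enclosed T := fun h =>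
  hb (h.2.subset (hS.subset_connectedComponentIn hz hST))

end enclosed

section normed

variable {E : Type*} [NormedAddCommGroup E] [NormedSpace ℝ E]

theorem isOpen_enclosed {T : Set E} (hT : IsClosed T) : IsOpen (enclosed T) := by
  rw [isOpen_iff_mem_nhds]
  intro z hz
  have h1 : connectedComponentIn Tᶜ z ∈ 𝓝 z :=
    (hT.isOpen_compl.connectedComponentIn).mem_nhds (mem_connectedComponentIn hz.1)
  refine Filter.mem_of_superset h1 ?_
  exact subset_enclosed_of_mem isPreconnected_connectedComponentIn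
    (connectedComponentIn_subset _ _) (mem_connectedComponentIn hz.1) hz

/-- The ray `{c • w : 1 ≤ c}`, `w ≠ 0`, is unbounded. -/
theorem not_isBounded_ray {w : E} (hw : w ≠ 0) :
    ¬ IsBounded ((fun c : ℝ => c • w) '' Ici (1 : ℝ)) := by
  intro h
  obtain ⟨R, hR⟩ := h.exists_norm_le
  have hw' : 0 < ‖w‖ := norm_pos_iff.2 hw
  have h0 : 0 ≤ R := by
    have := hR ((1 : ℝ) • w) ⟨1, self_mem_Ici, rfl⟩
    exact (norm_nonneg _).trans this
  have h1 : (1 : ℝ) ≤ R / ‖w‖ + 1 := by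
    have : 0 ≤ R / ‖w‖ := div_nonneg h0 hw'.le
    linarith only [this]
  have h2 := hR ((R / ‖w‖ + 1) • w) ⟨R / ‖w‖ + 1, h1, rfl⟩
  rw [norm_smul, Real.norm_of_nonneg (by linarith only [h1]), add_mul, div_mul_cancel₀ _ hw'.ne'] at h2
  linarith only [hw', h2]

theorem isPreconnected_ray (w : E) : IsPreconnected ((fun c : ℝ => c • w) '' Ici (1 : ℝ)) :=
  isPreconnected_Ici.image _ (by (clear * -; fun_prop))

/-- A set contained in a closed ball encloses only points of this ball. -/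
theorem enclosed_subset_closedBall {T : Set E} {R : ℝ} (hR : 0 ≤ R)
    (hT : T ⊆ closedBall (0 : E) R) : enclosed T ⊆ closedBall (0 : E) R := by
  intro z hz
  by_contra hz'
  rw [mem_closedBall_zero_iff, not_le] at hz'
  have hz0 : z ≠ 0 := by
    rintro rfl
    rw [norm_zero] at hz'
    linarith
  refine not_mem_enclosed (isPreconnected_ray z) ?_ (not_isBounded_ray hz0)
    (⟨1, self_mem_Ici, one_smul _ _⟩ : z ∈ (fun c : ℝ => c • z) '' Ici (1 : ℝ)) hz
  rintro _ ⟨c, hc, rfl⟩ hcT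
  have h1 := mem_closedBall_zero_iff.1 (hT hcT)
  have hc' : (1 : ℝ) ≤ c := hc
  rw [norm_smul, Real.norm_of_nonneg (by linarith only [hc'])] at h1
  nlinarith only [hz', h1, hR, hc']

theorem isBounded_enclosed {T : Set E} (hT : IsBounded T) : IsBounded (enclosed T) := by
  obtain ⟨R, hR⟩ := hT.subset_closedBall (0 : E)
  have h : T ⊆ closedBall (0 : E) (max R 0) :=
    hR.trans (closedBall_subset_closedBall (le_max_left _ _))
  exact isBounded_closedBall.subset (enclosed_subset_closedBall (le_max_right _ _) h)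

/-- `D` is the image of the open unit ball under a homeomorphism of the whole space. -/
theorem frontier_image_ball [Nontrivial E] (Φ : E ≃ₜ E) :
    frontier (Φ '' ball (0 : E) 1) = Φ '' sphere (0 : E) 1 := by
  rw [← Φ.image_frontier, frontier_ball _ one_ne_zero]

variable [ProperSpace E]

/-- **(PT4)** If the closed curve `T` is close to the boundary of the Jordan domain `D` then the
set enclosed by `T` is contained in a small neighbourhood of `D`. -/
theorem enclosed_subset_thickening [Nontrivial E] (Φ : E ≃ₜ E) {s : ℝ} (hs : 0 < s) :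
    ∃ ε : ℝ, 0 < ε ∧ ∀ T : Set E, T ⊆ thickening ε (frontier (Φ '' ball (0 : E) 1)) →
      enclosed T ⊆ thickening s (Φ '' ball (0 : E) 1) := by
  set U : Set E := thickening s (Φ '' ball (0 : E) 1) with hU
  have hUo : IsOpen U := isOpen_thickening
  have hcl : Φ '' closedBall (0 : E) 1 ⊆ U := by
    rw [← closure_ball (0 : E) one_ne_zero, Φ.image_closure]
    exact closure_subset_thickening hs _
  have hcl' : closedBall (0 : E) 1 ⊆ Φ ⁻¹' U := image_subset_iff.1 hcl
  obtain ⟨δ, hδ, hδU⟩ := (isCompact_closedBall (0 : E) 1).exists_thickening_subset_open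
    (hUo.preimage Φ.continuous) hcl'
  rw [thickening_closedBall hδ zero_le_one] at hδU
  set C : Set E := Φ '' (ball (0 : E) (δ + 1))ᶜ with hC
  have hCc : IsClosed C := Φ.isClosedMap _ isOpen_ball.isClosed_compl
  have hF : IsCompact (Φ '' sphere (0 : E) 1) := (isCompact_sphere 0 1).image Φ.continuous
  have hdis : Disjoint (Φ '' sphere (0 : E) 1) C := by
    rw [hC, disjoint_image_iff Φ.injective, Set.disjoint_left]
    intro x hx hx'
    rw [mem_sphere_zero_iff_norm] at hx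
    rw [mem_compl_iff, mem_ball_zero_iff, not_lt] at hx'
    linarith
  obtain ⟨ε, hε, hεd⟩ := hdis.exists_thickenings hF hCc
  refine ⟨ε, hε, fun T hT z hz => ?_⟩
  rw [frontier_image_ball] at hT
  by_contra hzU
  set w : E := Φ.symm z with hw
  have hwz : Φ w = z := Φ.apply_symm_apply z
  have hwn : δ + 1 ≤ ‖w‖ := by
    by_contra h
    rw [not_le] at h
    have : w ∈ Φ ⁻¹' U := hδU (mem_ball_zero_iff.2 h)
    rw [mem_preimage, hwz] at this
    exact hzU this
  have hw0 : w ≠ 0 := by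
    rw [← norm_pos_iff]
    linarith only [hδ, hwn]
  set R : Set E := (fun c : ℝ => c • w) '' Ici (1 : ℝ) with hR
  have hRC : Φ '' R ⊆ C := by
    rw [hC]
    refine image_mono ?_
    rintro _ ⟨c, hc, rfl⟩
    have hc' : (1 : ℝ) ≤ c := hc
    rw [mem_compl_iff, mem_ball_zero_iff, not_lt]
    simp only
    rw [norm_smul, Real.norm_of_nonneg (by linarith only [hc'])]
    nlinarith only [hwn, hc', hδ]
  have hRT : Φ '' R ⊆ Tᶜ := by
    intro x hx hxT
    have h1 : x ∈ thickening ε (Φ '' sphere (0 : E) 1) := hT hxT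
    have h2 : x ∈ thickening ε C := self_subset_thickening hε _ (hRC hx)
    exact Set.disjoint_left.1 hεd h1 h2
  refine not_mem_enclosed ((isPreconnected_ray w).image Φ Φ.continuous.continuousOn) hRT ?_
    (⟨w, ⟨1, self_mem_Ici, one_smul _ _⟩, hwz⟩ : z ∈ Φ '' R) hz
  intro hb
  have h1 : IsCompact (Φ.symm '' closure (Φ '' R)) :=
    (hb.isCompact_closure).image Φ.symm.continuous
  refine not_isBounded_ray hw0 (h1.isBounded.subset ?_)
  intro x hx
  exact ⟨Φ x, subset_closure ⟨x, hx, rfl⟩, Φ.symm_apply_apply x⟩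

/-- Filter version of (PT4). -/
theorem eventually_enclosed_subset_thickening [Nontrivial E] (Φ : E ≃ₜ E) {ι : Type*}
    {l : Filter ι} {T : ι → Set E}
    (hT : ∀ ε : ℝ, 0 < ε → ∀ᶠ i in l, T i ⊆ thickening ε (frontier (Φ '' ball (0 : E) 1)))
    {s : ℝ} (hs : 0 < s) : ∀ᶠ i in l, enclosed (T i) ⊆ thickening s (Φ '' ball (0 : E) 1) := by
  obtain ⟨ε, hε, h⟩ := enclosed_subset_thickening Φ hs
  exact (hT ε hε).mono fun i hi => h _ hi

end normed

end Vale.Agent.P145.PT
end
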