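import Mathlib
import Vale.Agent.P145.Bdl.B2
import Vale.Agent.P152.Bd3.B24
import Vale.Agent.P145.Bdl.B1

set_option linter.all false

section

/-!
Existence and uniqueness of the height function in a polygon.
-/

namespace Vale.Agent.P145.Dom

open Finset Filter Topology MeasureTheory ProbabilityTheory Vale.Agent.P145.FP
  Vale.Agent.P145.PT

/-- Every function on the integers has a primitive. -/
lemma exists_prim (f : ℤ → ℝ) : ∃ G : ℤ → ℝ, ∀ n, G (n + 1) - G n = f n := by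
  refine ⟨fun n => Int.casesOn n (fun k => ∑ i ∈ range k, f i)
    (fun k => - ∑ i ∈ range (k + 1), f (Int.negSucc i)), fun n => ?_⟩
  rcases n with k | k
  · change (∑ i ∈ range (k + 1), f i) - ∑ i ∈ range k, f i = f k
    rw [sum_range_succ]; ring
  · rcases k with _ | k
    · change (∑ i ∈ range 0, f i) - (- ∑ i ∈ range 1, f (Int.negSucc i)) = f (Int.negSucc 0)
      simp only [range_zero, sum_empty, range_one, sum_singleton, Int.reduceNegSucc, Int.reduceNeg, sub_neg_eq_add, zero_add]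
    · change (- ∑ i ∈ range (k + 1), f (Int.negSucc i)) - (- ∑ i ∈ range (k + 2), f (Int.negSucc i))
        = f (Int.negSucc (k + 1))
      rw [sum_range_succ _ (k + 1)]; ring

/-- A curl-free field on the square lattice is a gradient. -/
lemma exists_pot {a b : ℤ → ℤ → ℝ} (h : ∀ x y, a x y + b (x + 1) y = b x y + a x (y + 1)) :
    ∃ H : ℤ → ℤ → ℝ, (∀ x y, H (x + 1) y = H x y + a x y) ∧
      ∀ x y, H x (y + 1) = H x y + b x y := by
  choose G hG using fun x => exists_prim (b x)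
  obtain ⟨K, hK⟩ := exists_prim (fun x => a x 0)
  refine ⟨fun x y => K x + (G x y - G x 0), fun x y => ?_, fun x y => ?_⟩
  · have key : ∀ y : ℤ, (G (x + 1) y - G x y) - a x y = (G (x + 1) 0 - G x 0) - a x 0 := by
      intro y
      induction y using Int.induction_on with
      | zero => rfl
      | succ y ih =>
        have h1 := hG (x + 1) y
        have h2 := hG x y
        have h3 := h x y
        linarith
      | pred y ih =>
        have h1 := hG (x + 1) (-(y : ℤ) - 1)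
        have h2 := hG x (-(y : ℤ) - 1)
        have h3 := h x (-(y : ℤ) - 1)
        rw [sub_add_cancel] at h1 h2 h3
        linarith
    have h1 := key y
    have h2 := hK x
    simp only
    linarith
  · have := hG x y
    simp only
    linarith

lemma ew_ne {t : ℝ} {a b p q : Bool} (h : ew t a b p q ≠ 0) : a = b ∨ p = q := by
  by_contra h1
  exact h (by simp [ew, h1])

/-- If the constraint holds at all edges of the lattice then the height function exists. -/
theorem exists_isHeight {σ : Conf}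
    (hh : ∀ x y : ℤ, σ (Sum.inl (x, y)) = σ (Sum.inl (x + 1, y)) ∨
      σ (Sum.inr (x, y)) = σ (Sum.inr (x, y - 1)))
    (hv : ∀ x y : ℤ, σ (Sum.inl (x, y)) = σ (Sum.inl (x, y + 1)) ∨
      σ (Sum.inr (x, y)) = σ (Sum.inr (x - 1, y))) : ∃ H, IsHeight σ H := by
  set τ : ℤ → ℤ → ℝ := fun x y => sp (σ (Sum.inl (x, y))) with hτ
  set u : ℤ → ℤ → ℝ := fun x y => sp (σ (Sum.inr (x, y))) with hu
  have h1 : ∀ x y, (τ x (y + 1) - τ (x + 1) (y + 1)) * u x (y + 1) =
      (τ x (y + 1) - τ (x + 1) (y + 1)) * u x y := by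
    intro x y
    rcases hh x (y + 1) with h | h
    · simp only [hτ, h, sub_self, zero_mul]
    · rw [add_sub_cancel_right] at h
      simp only [hu, h]
  have h2 : ∀ x y, (τ (x + 1) y - τ (x + 1) (y + 1)) * u (x + 1) y =
      (τ (x + 1) y - τ (x + 1) (y + 1)) * u x y := by
    intro x y
    rcases hv (x + 1) y with h | h
    · simp only [hτ, h, sub_self, zero_mul]
    · rw [add_sub_cancel_right] at h
      simp only [hu, h]
  obtain ⟨H, hHa, hHb⟩ := exists_pot (a := fun x y => 1 / 2 * ((τ x y - τ (x + 1) y) * u x y))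
    (b := fun x y => 1 / 2 * ((τ x y - τ x (y + 1)) * u x y)) (by
      intro x y
      simp only [h1, h2]
      ring)
  refine ⟨Sum.elim (fun v => H v.1 v.2) (fun f => H f.1 f.2 + 1 / 2 * (τ f.1 f.2 * u f.1 f.2)), ?_⟩
  rintro ⟨x, y⟩ a b ha hb
  simp only [Sum.elim_inl, Sum.elim_inr]
  change _ = 1 / 2 * τ (x + a) (y + b) * u x y
  rcases ha with rfl | rfl <;> rcases hb with rfl | rfl
  · simp only [add_zero]; ring
  · simp only [add_zero]
    rw [hHb]; ring
  · simp only [add_zero]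
    rw [hHa]; ring
  · rw [hHa, hHb, h1]; ring

lemma IsPolygon.neZero {n : ℕ} {p : ZMod n → ℤ × ℤ} (h : IsPolygon p) : NeZero n :=
  ⟨by have := h.1; omega⟩

lemma conf_poly {n : ℕ} {p : ZMod n → ℤ × ℤ} {F : Finset (ℤ × ℤ)} {S : Finset Site}
    (hS : S ⊆ free p F) (i : ZMod n) : conf S (Sum.inl (p i)) = true := by
  classical
  rw [conf_eq_true]
  intro h
  have h1 := hS h
  unfold free at h1
  exact (mem_filter.1 (inl_mem_disjSum.1 h1)).2 i rfl

lemma conf_out {n : ℕ} {p : ZMod n → ℤ × ℤ} {F : Finset (ℤ × ℤ)} {S : Finset Site}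
    (hS : S ⊆ free p F) {f : ℤ × ℤ} (hf : f ∉ F) : conf S (Sum.inr f) = true := by
  rw [conf_eq_true]
  intro h
  have h1 := hS h
  unfold free at h1
  exact hf (inr_mem_disjSum.1 h1)

lemma conf_edge {n : ℕ} {p : ZMod n → ℤ × ℤ} {F : Finset (ℤ × ℤ)} {S : Finset Site}
    (hS : S ⊆ free p F) {a b : ℤ × ℤ} (h : IsEdge p a b) :
    conf S (Sum.inl a) = conf S (Sum.inl b) := by
  obtain ⟨i, ⟨h1, h2⟩ | ⟨h1, h2⟩⟩ := h <;> rw [← h1, ← h2, conf_poly hS, conf_poly hS]

/-- In a configuration of positive weight the constraint holds at all horizontal edges. -/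
lemma constr_h {t : ℝ} {n : ℕ} {p : ZMod n → ℤ × ℤ} {F : Finset (ℤ × ℤ)} (hF : Encloses p F)
    {S : Finset Site} (hS : S ⊆ free p F) (h0 : wt t F (conf S) ≠ 0) (x y : ℤ) :
    conf S (Sum.inl (x, y)) = conf S (Sum.inl (x + 1, y)) ∨
      conf S (Sum.inr (x, y)) = conf S (Sum.inr (x, y - 1)) := by
  have e1 : ((x, y) : ℤ × ℤ) - (0, 1) = (x, y - 1) := by simp
  have e2 : ((x, y) : ℤ × ℤ) + (1, 0) = (x + 1, y) := by simp
  have h1 := hF.1 (x, y)
  rw [e1, e2] at h1
  by_cases ha : (x, y) ∈ F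
  · by_cases hb : (x, y - 1) ∈ F
    · have h2 := (mul_ne_zero_iff.1 h0).1
      rw [prod_ne_zero_iff] at h2
      have h3 := h2 (x, y) (mem_filter.2 ⟨ha, by rw [e1]; exact hb⟩)
      exact ew_ne h3
    · exact Or.inl (conf_edge hS (h1.2 (by (clear * - h1 hb ha; tauto))))
  · by_cases hb : (x, y - 1) ∈ F
    · exact Or.inl (conf_edge hS (h1.2 (by (clear * - h1 ha hb; tauto))))
    · right
      rw [conf_out hS ha, conf_out hS hb]

/-- In a configuration of positive weight the constraint holds at all vertical edges. -/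
lemma constr_v {t : ℝ} {n : ℕ} {p : ZMod n → ℤ × ℤ} {F : Finset (ℤ × ℤ)} (hF : Encloses p F)
    {S : Finset Site} (hS : S ⊆ free p F) (h0 : wt t F (conf S) ≠ 0) (x y : ℤ) :
    conf S (Sum.inl (x, y)) = conf S (Sum.inl (x, y + 1)) ∨
      conf S (Sum.inr (x, y)) = conf S (Sum.inr (x - 1, y)) := by
  have e1 : ((x, y) : ℤ × ℤ) - (1, 0) = (x - 1, y) := by simp
  have e2 : ((x, y) : ℤ × ℤ) + (0, 1) = (x, y + 1) := by simp
  have h1 := hF.2 (x, y)
  rw [e1, e2] at h1
  by_cases ha : (x, y) ∈ F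
  · by_cases hb : (x - 1, y) ∈ F
    · have h2 := (mul_ne_zero_iff.1 h0).2
      rw [prod_ne_zero_iff] at h2
      have h3 := h2 (x, y) (mem_filter.2 ⟨ha, by rw [e1]; exact hb⟩)
      exact ew_ne h3
    · exact Or.inl (conf_edge hS (h1.2 (by (clear * - h1 hb ha; tauto))))
  · by_cases hb : (x - 1, y) ∈ F
    · exact Or.inl (conf_edge hS (h1.2 (by (clear * - h1 ha hb; tauto))))
    · right
      rw [conf_out hS ha, conf_out hS hb]

lemma isHeight_corner {σ : Conf} {H : Site → ℝ} (h : IsHeight σ H) {f v : ℤ × ℤ}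
    (h1 : v.1 = f.1 ∨ v.1 = f.1 + 1) (h2 : v.2 = f.2 ∨ v.2 = f.2 + 1) :
    H (Sum.inr f) - H (Sum.inl v) = 1 / 2 * sp (σ (Sum.inl v)) * sp (σ (Sum.inr f)) := by
  have h3 := h f (v.1 - f.1) (v.2 - f.2) (by omega) (by omega)
  simpa only [one_div, add_sub_cancel, Prod.mk.eta] using h3

/-- Two adjacent vertices with equal spins have equal heights. -/
lemma isHeight_adj {σ : Conf} {H : Site → ℝ} (h : IsHeight σ H) {u v : ℤ × ℤ}
    (huv : v - u = (1, 0) ∨ v - u = (-1, 0) ∨ v - u = (0, 1) ∨ v - u = (0, -1))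
    (hs : σ (Sum.inl u) = σ (Sum.inl v)) : H (Sum.inl u) = H (Sum.inl v) := by
  have h4 : ∃ f : ℤ × ℤ, (u.1 = f.1 ∨ u.1 = f.1 + 1) ∧ (u.2 = f.2 ∨ u.2 = f.2 + 1) ∧
      (v.1 = f.1 ∨ v.1 = f.1 + 1) ∧ (v.2 = f.2 ∨ v.2 = f.2 + 1) := by
    simp only [Prod.ext_iff, Prod.fst_sub, Prod.snd_sub] at huv
    refine ⟨(min u.1 v.1, min u.2 v.2), ?_⟩
    simp only
    omega
  obtain ⟨f, h1, h2, h3, h4⟩ := h4
  have e1 := isHeight_corner h h1 h2
  have e2 := isHeight_corner h h3 h4
  rw [hs] at e1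
  linarith only [e1, e2]

/-- The height is constant on the polygon. -/
lemma poly_const {σ : Conf} {H : Site → ℝ} (hH : IsHeight σ H) {n : ℕ} {p : ZMod n → ℤ × ℤ}
    (hp : IsPolygon p) (hσ : ∀ i, σ (Sum.inl (p i)) = true) (i : ZMod n) :
    H (Sum.inl (p i)) = H (Sum.inl (p 0)) := by
  have := hp.neZero
  have h2 : ∀ k : ℕ, H (Sum.inl (p (k : ZMod n))) = H (Sum.inl (p 0)) := by
    intro k
    induction k with
    | zero => simp
    | succ k ih =>
      rw [← ih]
      refine (isHeight_adj hH ?_ ?_).symm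
      · have := hp.2.2 (k : ZMod n)
        push_cast
        exact this
      · rw [hσ, hσ]
  have := h2 i.val
  rwa [ZMod.natCast_zmod_val] at this

/-- **(D2)** In a configuration of positive weight there is a height function vanishing on the
polygon. -/
theorem exists_isHt {t : ℝ} {n : ℕ} {p : ZMod n → ℤ × ℤ} (hp : IsPolygon p)
    {F : Finset (ℤ × ℤ)} (hF : Encloses p F)
    {S : Finset Site} (hS : S ⊆ free p F) (h0 : wt t F (conf S) ≠ 0) :
    ∃ H, IsHeight (conf S) H ∧ ∀ i, H (Sum.inl (p i)) = 0 := by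
  obtain ⟨H, hH⟩ := exists_isHeight (constr_h hF hS h0) (constr_v hF hS h0)
  have h1 := poly_const hH hp (conf_poly hS)
  refine ⟨fun x => H x - H (Sum.inl (p 0)), ?_, fun i => by simp only [h1, sub_self]⟩
  intro f a b ha hb
  have := hH f a b ha hb
  simp only
  linarith only [this]

theorem ae_exists_isHt {t : ℝ} {n : ℕ} {p : ZMod n → ℤ × ℤ} (hp : IsPolygon p)
    {F : Finset (ℤ × ℤ)} (hF : Encloses p F) :
    ∀ᵐ σ ∂law t p F, ∃ H, IsHt p F σ H := by
  refine law_ae fun S hS h0 => ?_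
  obtain ⟨H, h1, h2⟩ := exists_isHt hp hF hS h0
  exact ⟨H, h2, fun f _ a b ha hb => h1 f a b ha hb⟩

lemma IsEdge.left {n : ℕ} {p : ZMod n → ℤ × ℤ} {a b : ℤ × ℤ} (h : IsEdge p a b) :
    ∃ i, p i = a := by
  obtain ⟨i, ⟨h1, h2⟩ | ⟨h1, h2⟩⟩ := h
  · exact ⟨i, h1⟩
  · exact ⟨i + 1, h2⟩

/-- The height function is unique on the enclosed faces. -/
theorem IsHt.unique_face {n : ℕ} {p : ZMod n → ℤ × ℤ} {F : Finset (ℤ × ℤ)} (hF : Encloses p F)
    {σ : Conf} {H H' : Site → ℝ} (h : IsHt p F σ H) (h' : IsHt p F σ H') {f : ℤ × ℤ}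
    (hf : f ∈ F) : H (Sum.inr f) = H' (Sum.inr f) := by
  have key : ∀ k : ℕ, ∀ f ∈ F, (f.1 - k, f.2) ∉ F → H (Sum.inr f) = H' (Sum.inr f) := by
    intro k
    induction k with
    | zero => intro f hf h1; exact absurd (by simpa using hf) h1
    | succ k ih =>
      intro f hf h1
      have h2 := h.2 f hf 0 0 (Or.inl rfl) (Or.inl rfl)
      have h3 := h'.2 f hf 0 0 (Or.inl rfl) (Or.inl rfl)
      simp only [add_zero] at h2 h3
      suffices h5 : H (Sum.inl f) = H' (Sum.inl f) by linarith only [h2, h3, h5]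
      by_cases h4 : (f.1 - 1, f.2) ∈ F
      · have h6 := ih (f.1 - 1, f.2) h4 (by
          have : (f.1 - 1 - (k : ℤ), f.2) = (f.1 - ((k + 1 : ℕ) : ℤ), f.2) := by
            push_cast; congr 1; ring
          simpa only [this] using h1)
        have h7 := h.2 _ h4 1 0 (Or.inr rfl) (Or.inl rfl)
        have h8 := h'.2 _ h4 1 0 (Or.inr rfl) (Or.inl rfl)
        simp only [sub_add_cancel, add_zero] at h7 h8
        (clear * - h6 h7 h8; linarith)
      · have h6 : IsEdge p f (f + (0, 1)) := by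
          rw [hF.2 f]
          have : f - (1, 0) = (f.1 - 1, f.2) := by ext <;> simp
          rw [this]; (clear * - h4 hf; tauto)
        obtain ⟨i, hi⟩ := h6.left
        rw [← hi, h.1, h'.1]
  obtain ⟨k, hk⟩ : ∃ k : ℕ, (f.1 - (k : ℤ), f.2) ∉ F := by
    by_contra hcon
    push Not at hcon
    have h1 : Function.Injective (fun k : ℕ => (f.1 - (k : ℤ), f.2)) := by
      intro a b hab
      simp only [Prod.mk.injEq, and_true] at hab
      omega
    exact Set.infinite_range_of_injective h1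
      (F.finite_toSet.subset (by rintro _ ⟨k, rfl⟩; exact hcon k))
  exact key k f hf hk

lemma mem_verts {F : Finset (ℤ × ℤ)} {v : ℤ × ℤ} : v ∈ verts F ↔
    ∃ f ∈ F, ∃ a b : ℤ, (a = 0 ∨ a = 1) ∧ (b = 0 ∨ b = 1) ∧ v = (f.1 + a, f.2 + b) := by
  unfold verts
  simp only [mem_union, mem_image]
  constructor
  · rintro (((h | ⟨f, hf, rfl⟩) | ⟨f, hf, rfl⟩) | ⟨f, hf, rfl⟩)
    · exact ⟨v, h, 0, 0, by simp⟩
    · exact ⟨f, hf, 1, 0, by simp, by simp, rfl⟩
    · exact ⟨f, hf, 0, 1, by simp, by simp, rfl⟩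
    · exact ⟨f, hf, 1, 1, by simp, by simp, rfl⟩
  · rintro ⟨f, hf, a, b, rfl | rfl, rfl | rfl, rfl⟩
    · left; left; left; simpa using hf
    · left; right; exact ⟨f, hf, rfl⟩
    · left; left; right; exact ⟨f, hf, rfl⟩
    · right; exact ⟨f, hf, rfl⟩

/-- The height function is unique on the vertices. -/
theorem IsHt.unique {n : ℕ} {p : ZMod n → ℤ × ℤ} {F : Finset (ℤ × ℤ)} (hF : Encloses p F)
    {σ : Conf} {H H' : Site → ℝ} (h : IsHt p F σ H) (h' : IsHt p F σ H') {v : ℤ × ℤ}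
    (hv : v ∈ verts F) : H (Sum.inl v) = H' (Sum.inl v) := by
  obtain ⟨f, hf, a, b, ha, hb, rfl⟩ := mem_verts.1 hv
  have h1 := IsHt.unique_face hF h h' hf
  have h2 := h.2 f hf a b ha hb
  have h3 := h'.2 f hf a b ha hb
  linarith only [h1, h2, h3]

theorem IsHt.fldD_eq {n : ℕ} {p : ZMod n → ℤ × ℤ} {F : Finset (ℤ × ℤ)} (hF : Encloses p F)
    {σ : Conf} {H H' : Site → ℝ} (h : IsHt p F σ H) (h' : IsHt p F σ H') (δ : ℝ)
    (φ : ℝ × ℝ → ℝ) : fldD F H δ φ = fldD F H' δ φ := by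
  unfold fldD
  congr 1
  exact sum_congr rfl fun v hv => by rw [h.unique hF h' hv]

end Vale.Agent.P145.Dom
end

section

/-!
The spin law in a polygon and the zero boundary heights.
-/

namespace Vale.Agent.P145.Dom

open Finset Filter Topology MeasureTheory ProbabilityTheory Vale.Agent.P145.FP
  Vale.Agent.P145.PT

/-- Every integer function on the integers has an integer primitive. -/
lemma exists_primZ (f : ℤ → ℤ) : ∃ G : ℤ → ℤ, ∀ n, G (n + 1) - G n = f n := by
  refine ⟨fun n => Int.casesOn n (fun k => ∑ i ∈ range k, f i)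
    (fun k => - ∑ i ∈ range (k + 1), f (Int.negSucc i)), fun n => ?_⟩
  rcases n with k | k
  · change (∑ i ∈ range (k + 1), f i) - ∑ i ∈ range k, f i = f k
    rw [sum_range_succ]; ring
  · rcases k with _ | k
    · change (∑ i ∈ range 0, f i) - (- ∑ i ∈ range 1, f (Int.negSucc i)) = f (Int.negSucc 0)
      simp
    · change (- ∑ i ∈ range (k + 1), f (Int.negSucc i)) - (- ∑ i ∈ range (k + 2), f (Int.negSucc i))
        = f (Int.negSucc (k + 1))
      rw [sum_range_succ _ (k + 1)]; ring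

lemma exists_potZ {a b : ℤ → ℤ → ℤ} (h : ∀ x y, a x y + b (x + 1) y = b x y + a x (y + 1)) :
    ∃ H : ℤ → ℤ → ℤ, (∀ x y, H (x + 1) y = H x y + a x y) ∧
      ∀ x y, H x (y + 1) = H x y + b x y := by
  choose G hG using fun x => exists_primZ (b x)
  obtain ⟨K, hK⟩ := exists_primZ (fun x => a x 0)
  refine ⟨fun x y => K x + (G x y - G x 0), fun x y => ?_, fun x y => ?_⟩
  · have key : ∀ y : ℤ, (G (x + 1) y - G x y) - a x y = (G (x + 1) 0 - G x 0) - a x 0 := by
      intro y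
      induction y using Int.induction_on with
      | zero => rfl
      | succ y ih =>
        have h1 := hG (x + 1) y
        have h2 := hG x y
        have h3 := h x y
        linarith only [ih, h1, h2, h3]
      | pred y ih =>
        have h1 := hG (x + 1) (-(y : ℤ) - 1)
        have h2 := hG x (-(y : ℤ) - 1)
        have h3 := h x (-(y : ℤ) - 1)
        rw [sub_add_cancel] at h1 h2 h3
        linarith
    have h1 := key y
    have h2 := hK x
    simp only
    linarith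
  · have := hG x y
    simp only
    linarith

/-- The integer value of a spin. -/
def si (b : Bool) : ℤ := if b = true then 1 else -1

lemma si_cases (b : Bool) : (b = true ∧ si b = 1) ∨ (b = false ∧ si b = -1) := by
  cases b <;> simp [si]

lemma sp_si (b : Bool) : sp b = (si b : ℝ) := by cases b <;> simp [si, sp]

/-- If the constraint holds at all edges then there are integer heights; they are normalised by
`x = 0` at a vertex `o` with spin `1`. -/
theorem exists_int {σ : Conf} (o : ℤ × ℤ) (ho : σ (Sum.inl o) = true)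
    (hh : ∀ x y : ℤ, σ (Sum.inl (x, y)) = σ (Sum.inl (x + 1, y)) ∨
      σ (Sum.inr (x, y)) = σ (Sum.inr (x, y - 1)))
    (hv : ∀ x y : ℤ, σ (Sum.inl (x, y)) = σ (Sum.inl (x, y + 1)) ∨
      σ (Sum.inr (x, y)) = σ (Sum.inr (x - 1, y))) :
    ∃ x : Site → ℤ, x (Sum.inl o) = 0 ∧ (∀ v, Even (x (Sum.inl v))) ∧ (∀ s, sgn2 (x s) = σ s) ∧
      ∀ f : ℤ × ℤ, ∀ a b : ℤ, (a = 0 ∨ a = 1) → (b = 0 ∨ b = 1) →
        x (Sum.inr f) - x (Sum.inl (f.1 + a, f.2 + b)) =
          si (σ (Sum.inl (f.1 + a, f.2 + b))) * si (σ (Sum.inr f)) := by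
  set τ : ℤ → ℤ → Bool := fun x y => σ (Sum.inl (x, y)) with hτ
  set u : ℤ → ℤ → Bool := fun x y => σ (Sum.inr (x, y)) with hu
  set d : Bool → Bool → Bool → ℤ := fun p q r => if p = q then 0 else si p * si r with hd
  have hd2 : ∀ p q r, 2 * d p q r = (si p - si q) * si r := by
    intro p q r
    cases p <;> cases q <;> cases r <;> simp [hd, si]
  have h1 : ∀ x y, d (τ x (y + 1)) (τ (x + 1) (y + 1)) (u x (y + 1)) =
      d (τ x (y + 1)) (τ (x + 1) (y + 1)) (u x y) := by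
    intro x y
    rcases hh x (y + 1) with h | h
    · simp only [hd, hτ, h, if_true]
    · rw [add_sub_cancel_right] at h
      simp only [hu, h]
  have h2 : ∀ x y, d (τ (x + 1) y) (τ (x + 1) (y + 1)) (u (x + 1) y) =
      d (τ (x + 1) y) (τ (x + 1) (y + 1)) (u x y) := by
    intro x y
    rcases hv (x + 1) y with h | h
    · simp only [hd, hτ, h, if_true]
    · rw [add_sub_cancel_right] at h
      simp only [hu, h]
  obtain ⟨H, hHa, hHb⟩ := exists_potZ (a := fun x y => d (τ x y) (τ (x + 1) y) (u x y))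
    (b := fun x y => d (τ x y) (τ x (y + 1)) (u x y)) (by
      intro x y
      simp only [h1, h2]
      have e1 := hd2 (τ x y) (τ (x + 1) y) (u x y)
      have e2 := hd2 (τ (x + 1) y) (τ (x + 1) (y + 1)) (u x y)
      have e3 := hd2 (τ x y) (τ x (y + 1)) (u x y)
      have e4 := hd2 (τ x (y + 1)) (τ (x + 1) (y + 1)) (u x y)
      have : 2 * (d (τ x y) (τ (x + 1) y) (u x y) + d (τ (x + 1) y) (τ (x + 1) (y + 1)) (u x y)) =
        2 * (d (τ x y) (τ x (y + 1)) (u x y) + d (τ x (y + 1)) (τ (x + 1) (y + 1)) (u x y)) := by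
        rw [mul_add, mul_add, e1, e2, e3, e4]; ring
      omega)
  have hpar : ∀ q : ℤ × ℤ, (H q.1 q.2 - H o.1 o.2) % 2 = 0 ↔ τ q.1 q.2 = true := by
    have hstep : ∀ p q r : Bool, ∀ m : ℤ, ((m + d p q r) % 2 = 0 ↔ q = true) ↔
        (m % 2 = 0 ↔ p = true) := by
      intro p q r m
      cases p <;> cases q <;> cases r <;> simp [hd, si] <;> omega
    have gen : ∀ q : ℤ × ℤ, ((H (o.1 + q.1) (o.2 + q.2) - H o.1 o.2) % 2 = 0 ↔
        τ (o.1 + q.1) (o.2 + q.2) = true) := by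
      refine plane_ind ?_ ?_ ?_
      · simp [hτ, ho]
      · intro x y
        have e1 := hHb (o.1 + x) (o.2 + y - 1)
        rw [sub_add_cancel] at e1
        simp only
        rw [e1, show o.2 + (y - 1) = o.2 + y - 1 by ring]
        have e2 := hstep (τ (o.1 + x) (o.2 + y - 1)) (τ (o.1 + x) (o.2 + y))
          (u (o.1 + x) (o.2 + y - 1)) (H (o.1 + x) (o.2 + y - 1) - H o.1 o.2)
        rw [← e2, add_sub_right_comm (H (o.1 + x) (o.2 + y - 1))]
      · intro x y
        have e1 := hHa (o.1 + x - 1) (o.2 + y)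
        rw [sub_add_cancel] at e1
        simp only
        rw [e1, show o.1 + (x - 1) = o.1 + x - 1 by ring]
        have e2 := hstep (τ (o.1 + x - 1) (o.2 + y)) (τ (o.1 + x) (o.2 + y))
          (u (o.1 + x - 1) (o.2 + y)) (H (o.1 + x - 1) (o.2 + y) - H o.1 o.2)
        rw [← e2, add_sub_right_comm (H (o.1 + x - 1) (o.2 + y))]
    intro q
    have := gen (q.1 - o.1, q.2 - o.2)
    simpa only [EuclideanDomain.mod_eq_zero, add_sub_cancel] using this
  refine ⟨Sum.elim (fun v => 2 * (H v.1 v.2 - H o.1 o.2))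
    (fun f => 2 * (H f.1 f.2 - H o.1 o.2) + si (τ f.1 f.2) * si (u f.1 f.2)), ?_, ?_, ?_, ?_⟩
  · simp
  · intro v; simp only [Sum.elim_inl, even_two, Even.mul_right]
  · rintro (v | f)
    · have e1 := hpar v
      change sgn2 (2 * (H v.1 v.2 - H o.1 o.2)) = τ v.1 v.2
      rw [Bool.eq_iff_iff, ← e1, sgn2, decide_eq_true_eq]
      omega
    · have e1 := hpar f
      change sgn2 (2 * (H f.1 f.2 - H o.1 o.2) + si (τ f.1 f.2) * si (u f.1 f.2)) = u f.1 f.2
      rw [Bool.eq_iff_iff, sgn2, decide_eq_true_eq]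
      rcases si_cases (τ f.1 f.2) with ⟨h, h'⟩ | ⟨h, h'⟩ <;>
        rcases si_cases (u f.1 f.2) with ⟨k, k'⟩ | ⟨k, k'⟩ <;> rw [h', k', k] <;> rw [h] at e1 <;>
        simp at e1 ⊢ <;> omega
  · rintro ⟨x, y⟩ a b ha hb
    simp only [Sum.elim_inl, Sum.elim_inr]
    change _ = si (τ (x + a) (y + b)) * si (u x y)
    rcases ha with rfl | rfl <;> rcases hb with rfl | rfl
    · simp only [add_zero]; ring
    · simp only [add_zero]
      have e1 := hd2 (τ x y) (τ x (y + 1)) (u x y)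
      rw [hHb]; linarith only [e1]
    · simp only [add_zero]
      have e1 := hd2 (τ x y) (τ (x + 1) y) (u x y)
      rw [hHa]; linarith
    · have e1 := hd2 (τ x y) (τ x (y + 1)) (u x y)
      have e2 := hd2 (τ x (y + 1)) (τ (x + 1) (y + 1)) (u x y)
      rw [hHa, hHb, h1]; linarith

end Vale.Agent.P145.Dom
end

section

/-!
The spin law in a polygon and the zero boundary heights: the bijection.
-/

namespace Vale.Agent.P145.Dom

open Finset Filter Topology MeasureTheory ProbabilityTheory Vale.Agent.P145.FP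
  Vale.Agent.P145.PT

/-- The vertex `v` is a corner of the face `f`. -/
def Cor (v f : ℤ × ℤ) : Prop := (v.1 = f.1 ∨ v.1 = f.1 + 1) ∧ (v.2 = f.2 ∨ v.2 = f.2 + 1)

lemma Cor.exists {v f : ℤ × ℤ} (h : Cor v f) : ∃ a b : ℤ, (a = 0 ∨ a = 1) ∧ (b = 0 ∨ b = 1) ∧
    v = (f.1 + a, f.2 + b) := by
  obtain ⟨h1, h2⟩ := h
  refine ⟨v.1 - f.1, v.2 - f.2, by omega, by omega, ?_⟩
  ext <;> simp

lemma mem_verts' {F : Finset (ℤ × ℤ)} {v : ℤ × ℤ} : v ∈ verts F ↔ ∃ f ∈ F, Cor v f := by
  rw [mem_verts]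
  constructor
  · rintro ⟨f, hf, a, b, ha, hb, rfl⟩
    refine ⟨f, hf, ?_, ?_⟩ <;> simp only <;> omega
  · rintro ⟨f, hf, h⟩
    obtain ⟨a, b, ha, hb, h1⟩ := h.exists
    exact ⟨f, hf, a, b, ha, hb, h1⟩

lemma mem_ZH {F : Finset (ℤ × ℤ)} {x : Site → ℤ} : x ∈ ZH F ↔
    (∀ v, Even (x (Sum.inl v))) ∧ (∀ f, f ∉ F → x (Sum.inr f) = 0) ∧
    ∀ v f, Cor v f → (f ∉ F → x (Sum.inl v) = 0) ∧
      (f ∈ F → |x (Sum.inr f) - x (Sum.inl v)| = 1) := by
  unfold ZH
  simp only [Set.mem_ofPred_eq]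
  refine and_congr Iff.rfl (and_congr Iff.rfl ⟨fun h v f hvf => ?_, fun h f a b ha hb => ?_⟩)
  · obtain ⟨a, b, ha, hb, rfl⟩ := hvf.exists
    exact h f a b ha hb
  · refine h _ f ⟨?_, ?_⟩ <;> simp only <;> omega

/-- A vertex which has a face inside and a face outside of `F` lies on the polygon. -/
lemma corner_poly {n : ℕ} {p : ZMod n → ℤ × ℤ} {F : Finset (ℤ × ℤ)} (hF : Encloses p F)
    {v f g : ℤ × ℤ} (hf : f ∈ F) (hg : g ∉ F) (hvf : Cor v f) (hvg : Cor v g) :
    ∃ i, p i = v := by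
  by_contra hcon
  push Not at hcon
  have n1 : ∀ w, ¬ IsEdge p v w := fun w h => by
    obtain ⟨i, hi⟩ := h.left
    exact hcon i hi
  have n2 : ∀ w, ¬ IsEdge p w v := fun w h => by
    obtain ⟨i, ⟨h1, h2⟩ | ⟨h1, h2⟩⟩ := h
    · exact hcon _ h2
    · exact hcon _ h1
  obtain ⟨x, y⟩ := v
  have h1 := hF.1 (x, y)
  have h2 := hF.1 (x - 1, y)
  have h3 := hF.2 (x, y)
  simp only [Prod.mk_add_mk, Prod.mk_sub_mk, sub_zero, add_zero, sub_add_cancel] at h1 h2 h3
  have k1 : (x, y) ∈ F ↔ (x, y - 1) ∈ F := by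
    by_contra h; exact n1 _ (h1.2 h)
  have k2 : (x - 1, y) ∈ F ↔ (x - 1, y - 1) ∈ F := by
    by_contra h; exact n2 _ (h2.2 h)
  have k3 : (x, y) ∈ F ↔ (x - 1, y) ∈ F := by
    by_contra h; exact n1 _ (h3.2 h)
  have key : ∀ f : ℤ × ℤ, Cor (x, y) f → (f ∈ F ↔ (x, y) ∈ F) := by
    rintro ⟨a, b⟩ ⟨h4, h5⟩
    simp only at h4 h5
    rcases h4 with h4 | h4 <;> rcases h5 with h5 | h5
    · rw [← h4, ← h5]
    · rw [← h4, show b = y - 1 by omega, k1]
    · rw [show a = x - 1 by omega, ← h5, k3]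
    · rw [show a = x - 1 by omega, show b = y - 1 by omega, k3, k2]
  exact hg ((key g hvg).2 ((key f hvf).1 hf))

/-- Every vertex of the polygon has a face outside of `F`. -/
lemma poly_face {n : ℕ} {p : ZMod n → ℤ × ℤ} (hp : IsPolygon p) {F : Finset (ℤ × ℤ)}
    (hF : Encloses p F) (i : ZMod n) : ∃ g, g ∉ F ∧ Cor (p i) g := by
  have key : ∀ a b : ℤ × ℤ, ¬ (a ∈ F ↔ b ∈ F) → Cor (p i) a → Cor (p i) b →
      ∃ g, g ∉ F ∧ Cor (p i) g := by
    intro a b h1 h2 h3
    by_cases ha : a ∈ F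
    · exact ⟨b, by tauto, h3⟩
    · exact ⟨a, ha, h2⟩
  rcases hp.2.2 i with h | h | h | h
  · have h1 := (hF.1 (p i)).1 ⟨i, Or.inl ⟨rfl, by rw [← h]; abel⟩⟩
    refine key _ _ h1 ⟨Or.inl rfl, Or.inl rfl⟩ ⟨?_, ?_⟩ <;> simp
  · have h2 : p (i + 1) + (1, 0) = p i := by
      have : p i = p (i + 1) - (p (i + 1) - p i) := by abel
      rw [this, h]
      ext <;> simp
    have h1 := (hF.1 (p (i + 1))).1 ⟨i, Or.inr ⟨h2.symm, rfl⟩⟩
    rw [Prod.ext_iff] at h2
    simp only [Prod.fst_add, Prod.snd_add] at h2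
    refine key _ _ h1 ⟨?_, ?_⟩ ⟨?_, ?_⟩ <;> (try simp only [Prod.fst_sub, Prod.snd_sub]) <;> omega
  · have h1 := (hF.2 (p i)).1 ⟨i, Or.inl ⟨rfl, by rw [← h]; abel⟩⟩
    refine key _ _ h1 ⟨Or.inl rfl, Or.inl rfl⟩ ⟨?_, ?_⟩ <;> simp
  · have h2 : p (i + 1) + (0, 1) = p i := by
      have : p i = p (i + 1) - (p (i + 1) - p i) := by abel
      rw [this, h]
      ext <;> simp
    have h1 := (hF.2 (p (i + 1))).1 ⟨i, Or.inr ⟨h2.symm, rfl⟩⟩
    rw [Prod.ext_iff] at h2
    simp only [Prod.fst_add, Prod.snd_add] at h2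
    refine key _ _ h1 ⟨?_, ?_⟩ ⟨?_, ?_⟩ <;> (try simp only [Prod.fst_sub, Prod.snd_sub]) <;> omega

/-- The spins of integer heights. -/
def cfx (x : Site → ℤ) : Conf := fun s => sgn2 (x s)

lemma zh_zero {n : ℕ} {p : ZMod n → ℤ × ℤ} (hp : IsPolygon p) {F : Finset (ℤ × ℤ)}
    (hF : Encloses p F) {x : Site → ℤ} (hx : x ∈ ZH F) {s : Site} (hs : s ∉ free p F) :
    x s = 0 := by
  classical
  rw [mem_ZH] at hx
  unfold free at hs
  rcases s with v | f
  · by_cases hv : v ∈ verts F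
    · have h1 : ∃ i, p i = v := by
        by_contra h
        push Not at h
        exact hs (inl_mem_disjSum.2 (mem_filter.2 ⟨hv, h⟩))
      obtain ⟨i, rfl⟩ := h1
      obtain ⟨g, hg, hc⟩ := poly_face hp hF i
      exact (hx.2.2 _ g hc).1 hg
    · refine (hx.2.2 v v ⟨Or.inl rfl, Or.inl rfl⟩).1 fun h => hv ?_
      exact mem_verts'.2 ⟨v, h, Or.inl rfl, Or.inl rfl⟩
  · exact hx.2.1 f fun h => hs (inr_mem_disjSum.2 h)

lemma not_free_poly {n : ℕ} {p : ZMod n → ℤ × ℤ} {F : Finset (ℤ × ℤ)} (i : ZMod n) :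
    (Sum.inl (p i) : Site) ∉ free p F := by
  classical
  intro h
  unfold free at h
  exact (mem_filter.1 (inl_mem_disjSum.1 h)).2 i rfl

/-- The set of sites with negative spin. -/
noncomputable def neg {n : ℕ} (p : ZMod n → ℤ × ℤ) (F : Finset (ℤ × ℤ)) (x : Site → ℤ) :
    Finset Site := (free p F).filter fun s => sgn2 (x s) = false

lemma neg_subset {n : ℕ} (p : ZMod n → ℤ × ℤ) (F : Finset (ℤ × ℤ)) (x : Site → ℤ) :
    neg p F x ⊆ free p F := filter_subset _ _

lemma conf_neg {n : ℕ} {p : ZMod n → ℤ × ℤ} (hp : IsPolygon p) {F : Finset (ℤ × ℤ)}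
    (hF : Encloses p F) {x : Site → ℤ} (hx : x ∈ ZH F) : conf (neg p F x) = cfx x := by
  funext s
  rw [Bool.eq_iff_iff, conf_eq_true]
  unfold neg cfx
  rw [mem_filter]
  by_cases hs : s ∈ free p F
  · simp [hs]
  · rw [zh_zero hp hF hx hs]
    simp only [hs, sgn2, EuclideanDomain.zero_div, EuclideanDomain.zero_mod, decide_true, Bool.true_eq_false, and_self, not_false_eq_true]

lemma abs_one {a b : ℤ} (h : |a - b| = 1) : a = b + 1 ∨ a = b - 1 := by
  rcases (abs_eq (by norm_num)).1 h with h | h <;> omega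

lemma ew_sgn {t : ℝ} (ht : t ≠ 0) {a b p q : ℤ} (ha : Even a) (hb : Even b) (h1 : |p - a| = 1)
    (h2 : |p - b| = 1) (h3 : |q - a| = 1) (h4 : |q - b| = 1) :
    ew t (sgn2 a) (sgn2 b) (sgn2 p) (sgn2 q) = t * (if a = b ∧ p = q then 1 / t else 1) := by
  obtain ⟨m, rfl⟩ := ha
  obtain ⟨k, rfl⟩ := hb
  have e1 := abs_one h1
  have e2 := abs_one h2
  have e3 := abs_one h3
  have e4 := abs_one h4
  have i1 : sgn2 (m + m) = sgn2 (k + k) ↔ m + m = k + k := by
    unfold sgn2; rw [decide_eq_decide]; (clear * - e3 e4; omega)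
  have i2 : sgn2 p = sgn2 q ↔ p = q := by
    unfold sgn2; rw [decide_eq_decide]; omega
  have i3 : m + m = k + k ∨ p = q := by omega
  unfold ew
  simp only [i1, i2, i3, if_true]
  by_cases c1 : m + m = k + k <;> by_cases c2 : p = q <;> simp [c1, c2, ht] <;> omega

/-- The number of interior edges. -/
noncomputable def nE (F : Finset (ℤ × ℤ)) : ℕ :=
  (F.filter fun e => e - (0, 1) ∈ F).card + (F.filter fun e => e - (1, 0) ∈ F).card

lemma wt_cfx {t : ℝ} (ht : t ≠ 0) {F : Finset (ℤ × ℤ)} {x : Site → ℤ} (hx : x ∈ ZH F) :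
    wt t F (cfx x) = t ^ nE F * zw (1 / t) F x := by
  rw [mem_ZH] at hx
  obtain ⟨he, -, hc⟩ := hx
  unfold wt zw nE
  rw [pow_add, mul_mul_mul_comm, ← prod_const, ← prod_const, ← prod_mul_distrib,
    ← prod_mul_distrib]
  congr 1
  · refine prod_congr rfl fun e hmem => ?_
    obtain ⟨h1, h2⟩ := mem_filter.1 hmem
    have h3 : e - (0, 1) = (e.1, e.2 - 1) := by ext <;> simp
    rw [h3] at h2
    refine ew_sgn ht (he _) (he _) ((hc _ _ ⟨?_, ?_⟩).2 h1) ((hc _ _ ⟨?_, ?_⟩).2 h1)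
      ((hc _ _ ⟨?_, ?_⟩).2 h2) ((hc _ _ ⟨?_, ?_⟩).2 h2) <;> simp
  · refine prod_congr rfl fun e hmem => ?_
    obtain ⟨h1, h2⟩ := mem_filter.1 hmem
    have h3 : e - (1, 0) = (e.1 - 1, e.2) := by ext <;> simp
    rw [h3] at h2
    refine ew_sgn ht (he _) (he _) ((hc _ _ ⟨?_, ?_⟩).2 h1) ((hc _ _ ⟨?_, ?_⟩).2 h1)
      ((hc _ _ ⟨?_, ?_⟩).2 h2) ((hc _ _ ⟨?_, ?_⟩).2 h2) <;> simp

lemma si_mul {a p : ℤ} (ha : Even a) (h : |p - a| = 1) : p - a = si (sgn2 a) * si (sgn2 p) := by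
  obtain ⟨m, rfl⟩ := ha
  have e1 := abs_one h
  unfold si sgn2
  by_cases c1 : (m + m) / 2 % 2 = 0 <;> by_cases c2 : p / 2 % 2 = 0 <;> simp [c1, c2] <;> omega

lemma isHt_cfx {n : ℕ} {p : ZMod n → ℤ × ℤ} (hp : IsPolygon p) {F : Finset (ℤ × ℤ)}
    (hF : Encloses p F) {x : Site → ℤ} (hx : x ∈ ZH F) :
    IsHt p F (cfx x) (fun s => (x s : ℝ) / 2) := by
  refine ⟨fun i => ?_, fun f hf a b ha hb => ?_⟩
  · simp [zh_zero hp hF hx (not_free_poly i)]
  · have hx' := mem_ZH.1 hx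
    have h1 := (hx'.2.2 (f.1 + a, f.2 + b) f (by constructor <;> simp only <;> omega)).2 hf
    have h2 := si_mul (hx'.1 _) h1
    simp only [cfx, sp_si]
    have h3 : ((x (Sum.inr f) : ℝ) - x (Sum.inl (f.1 + a, f.2 + b))) =
        si (sgn2 (x (Sum.inl (f.1 + a, f.2 + b)))) * si (sgn2 (x (Sum.inr f))) := by
      exact_mod_cast h2
    linarith only [h3]

lemma cfx_inj {n : ℕ} {p : ZMod n → ℤ × ℤ} (hp : IsPolygon p) {F : Finset (ℤ × ℤ)}
    (hF : Encloses p F) {x y : Site → ℤ} (hx : x ∈ ZH F) (hy : y ∈ ZH F) (h : cfx x = cfx y) :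
    x = y := by
  classical
  have h1 := isHt_cfx hp hF hx
  have h2 := isHt_cfx hp hF hy
  rw [← h] at h2
  funext s
  by_cases hs : s ∈ free p F
  · unfold free at hs
    rcases s with v | f
    · have h3 := IsHt.unique hF h1 h2 (mem_filter.1 (inl_mem_disjSum.1 hs)).1
      have h4 : (x (Sum.inl v) : ℝ) = y (Sum.inl v) := by linarith
      exact_mod_cast h4
    · have h3 := IsHt.unique_face hF h1 h2 (inr_mem_disjSum.1 hs)
      have h4 : (x (Sum.inr f) : ℝ) = y (Sum.inr f) := by linarith only [h3]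
      exact_mod_cast h4
  · rw [zh_zero hp hF hx hs, zh_zero hp hF hy hs]

/-- Every configuration of positive weight comes from zero boundary heights. -/
lemma exists_zh {t : ℝ} {n : ℕ} {p : ZMod n → ℤ × ℤ} (hp : IsPolygon p) {F : Finset (ℤ × ℤ)}
    (hF : Encloses p F) {S : Finset Site} (hS : S ⊆ free p F) (h0 : wt t F (conf S) ≠ 0) :
    ∃ x ∈ ZH F, neg p F x = S := by
  classical
  obtain ⟨x, hx0, hev, hsg, hco⟩ := exists_int (p 0) (conf_poly hS 0) (constr_h hF hS h0)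
    (constr_v hF hS h0)
  have hH : IsHeight (conf S) (fun s => (x s : ℝ) / 2) := by
    intro f a b ha hb
    have h1 := hco f a b ha hb
    rw [sp_si, sp_si]
    have h2 : ((x (Sum.inr f) : ℝ) - x (Sum.inl (f.1 + a, f.2 + b))) =
        si (conf S (Sum.inl (f.1 + a, f.2 + b))) * si (conf S (Sum.inr f)) := by
      exact_mod_cast h1
    simp only
    linarith
  have hpoly : ∀ i, x (Sum.inl (p i)) = 0 := by
    intro i
    have h1 := poly_const hH hp (conf_poly hS) i
    simp only [hx0] at h1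
    have h2 : (x (Sum.inl (p i)) : ℝ) = 0 := by
      have : ((0 : ℤ) : ℝ) / 2 = 0 := by norm_num
      rw [this] at h1
      linarith only [h1]
    exact_mod_cast h2
  set y : Site → ℤ := Sum.elim (fun v => if v ∈ verts F then x (Sum.inl v) else 0)
    (fun f => if f ∈ F then x (Sum.inr f) else 0) with hy
  refine ⟨y, ?_, ?_⟩
  · rw [mem_ZH]
    refine ⟨fun v => ?_, fun f hf => ?_, fun v f hvf => ⟨fun hf => ?_, fun hf => ?_⟩⟩
    · simp only [hy, Sum.elim_inl]
      split_ifs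
      · exact hev v
      · exact Even.zero
    · simp [hy, hf]
    · simp only [hy, Sum.elim_inl]
      split_ifs with hv
      · obtain ⟨g, hg, hvg⟩ := mem_verts'.1 hv
        obtain ⟨i, rfl⟩ := corner_poly hF hg hf hvg hvf
        exact hpoly i
      · rfl
    · have hv : v ∈ verts F := mem_verts'.2 ⟨f, hf, hvf⟩
      simp only [hy, Sum.elim_inl, Sum.elim_inr, hf, hv, if_true]
      obtain ⟨a, b, ha, hb, rfl⟩ := hvf.exists
      rw [hco f a b ha hb]
      rcases si_cases (conf S (Sum.inl (f.1 + a, f.2 + b))) with ⟨_, h1⟩ | ⟨_, h1⟩ <;>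
        rcases si_cases (conf S (Sum.inr f)) with ⟨_, h2⟩ | ⟨_, h2⟩ <;> rw [h1, h2] <;> norm_num
  · ext s
    unfold neg
    rw [mem_filter]
    have key : s ∈ free p F → y s = x s := by
      intro hs
      unfold free at hs
      rcases s with v | f
      · have := (mem_filter.1 (inl_mem_disjSum.1 hs)).1
        simp [hy, this]
      · have := inr_mem_disjSum.1 hs
        simp [hy, this]
    constructor
    · rintro ⟨h1, h2⟩
      rw [key h1, hsg] at h2
      by_contra h3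
      rw [conf_eq_true.2 h3] at h2
      exact Bool.noConfusion h2
    · intro h1
      refine ⟨hS h1, ?_⟩
      rw [key (hS h1), hsg]
      have : ¬ conf S s = true := fun h => conf_eq_true.1 h h1
      simpa using this

end Vale.Agent.P145.Dom
end

section

/-!
The spin law in a polygon and the zero boundary heights: expectations.
-/

namespace Vale.Agent.P145.Dom

open Finset Filter Topology MeasureTheory ProbabilityTheory Vale.Agent.P145.FP
  Vale.Agent.P145.PT

lemma cor_self (f : ℤ × ℤ) : Cor f f := ⟨Or.inl rfl, Or.inl rfl⟩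

lemma exists_left (F : Finset (ℤ × ℤ)) : ∃ M : ℕ, ∀ f : ℤ × ℤ, ∃ k : ℕ, k ≤ M ∧
    (f.1 - (k : ℤ), f.2) ∉ F := by
  refine ⟨F.card, fun f => ?_⟩
  by_contra hcon
  push Not at hcon
  have h1 : Set.InjOn (fun k : ℕ => (f.1 - (k : ℤ), f.2)) (range (F.card + 1) : Finset ℕ) := by
    intro a _ b _ hab
    simp only [Prod.mk.injEq, and_true] at hab
    omega
  have h2 := card_le_card_of_injOn (s := range (F.card + 1)) (t := F)
    (fun k : ℕ => (f.1 - (k : ℤ), f.2))
    (fun k hk => hcon k (by have := mem_range.1 hk; omega)) h1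
  rw [card_range] at h2
  omega

lemma ZH_bound {F : Finset (ℤ × ℤ)} {x : Site → ℤ} (hx : x ∈ ZH F) (k : ℕ) :
    ∀ f : ℤ × ℤ, (f.1 - (k : ℤ), f.2) ∉ F → |x (Sum.inr f)| ≤ 2 * k ∧
      |x (Sum.inl f)| ≤ 2 * k := by
  rw [mem_ZH] at hx
  obtain ⟨-, h0, hc⟩ := hx
  induction k with
  | zero =>
    intro f hf
    have hf' : f ∉ F := by simpa using hf
    rw [h0 f hf', (hc f f (cor_self f)).1 hf']
    simp
  | succ k ih =>
    intro f hf
    have h1 : ((f.1 - 1) - (k : ℤ), f.2) ∉ F := by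
      have : ((f.1 - 1) - (k : ℤ), f.2) = (f.1 - ((k + 1 : ℕ) : ℤ), f.2) := by
        push_cast; congr 1; ring
      rwa [this]
    obtain ⟨h2, h3⟩ := ih (f.1 - 1, f.2) h1
    have hcor : Cor f (f.1 - 1, f.2) := ⟨by simp, by simp⟩
    have h4 : |x (Sum.inl f)| ≤ 2 * k + 1 := by
      by_cases hg : (f.1 - 1, f.2) ∈ F
      · have h5 := (hc f _ hcor).2 hg
        rw [abs_le] at h2 ⊢
        rcases abs_one h5 with h6 | h6 <;> constructor <;> omega
      · rw [(hc f _ hcor).1 hg]; simp only [abs_zero]; (clear * -; positivity)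
    refine ⟨?_, by push_cast; omega⟩
    by_cases hf' : f ∈ F
    · have h5 := (hc f f (cor_self f)).2 hf'
      rw [abs_le] at h4 ⊢
      push_cast
      rcases abs_one h5 with h6 | h6 <;> constructor <;> omega
    · rw [h0 f hf']; simp only [abs_zero, Nat.cast_add, Nat.cast_one, Order.lt_two_iff, zero_le_one, mul_nonneg_iff_of_pos_left]; positivity

theorem ZH_finite (F : Finset (ℤ × ℤ)) : (ZH F).Finite := by
  classical
  obtain ⟨M, hM⟩ := exists_left F
  have hb : ∀ x ∈ ZH F, ∀ s, |x s| ≤ 2 * M := by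
    intro x hx s
    rcases s with v | f
    · obtain ⟨k, hk, h⟩ := hM v
      have := (ZH_bound hx k v h).2
      omega
    · obtain ⟨k, hk, h⟩ := hM f
      have := (ZH_bound hx k f h).1
      omega
  set T : Finset Site := (verts F).disjSum F with hT
  have hz : ∀ x ∈ ZH F, ∀ s ∉ T, x s = 0 := by
    intro x hx s hs
    rw [mem_ZH] at hx
    rcases s with v | f
    · have hv : v ∉ verts F := fun h => hs (inl_mem_disjSum.2 h)
      exact (hx.2.2 v v (cor_self v)).1 fun h => hv (mem_verts'.2 ⟨v, h, cor_self v⟩)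
    · exact hx.2.1 f fun h => hs (inr_mem_disjSum.2 h)
  have hfin : (Set.pi Set.univ fun _ : T => Set.Icc (-(2 * (M : ℤ))) (2 * M)).Finite :=
    Set.Finite.pi fun _ => Set.finite_Icc _ _
  refine Set.Finite.of_injOn (f := fun (x : Site → ℤ) (s : T) => x s) ?_ ?_ hfin
  · intro x hx
    simp only [Set.mem_pi, Set.mem_univ, forall_const, Set.mem_Icc]
    intro s
    exact abs_le.1 (hb x hx s)
  · intro x hx y hy hxy
    funext s
    by_cases hs : s ∈ T
    · exact congrFun hxy ⟨s, hs⟩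
    · rw [hz x hx s hs, hz y hy s hs]

/-- The bijection between the spin configurations of positive weight and the zero boundary
heights, as an identity of weighted sums. -/
theorem sum_conf {t : ℝ} (ht : 0 < t) {n : ℕ} {p : ZMod n → ℤ × ℤ} (hp : IsPolygon p)
    {F : Finset (ℤ × ℤ)} (hF : Encloses p F) (Ψ : Conf → ℝ) :
    ∑ S ∈ (free p F).powerset, wt t F (conf S) * Ψ (conf S) =
      t ^ nE F * zs (1 / t) F (fun x => Ψ (cfx x)) := by
  classical
  unfold zs
  rw [finsum_mem_eq_finite_toFinset_sum _ (ZH_finite F), mul_sum]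
  symm
  refine sum_of_injOn (neg p F) ?_ ?_ ?_ ?_
  · intro x hx y hy hxy
    rw [Finset.mem_coe, Set.Finite.mem_toFinset] at hx hy
    refine cfx_inj hp hF hx hy ?_
    rw [← conf_neg hp hF hx, ← conf_neg hp hF hy, hxy]
  · intro x _
    exact mem_coe.2 (mem_powerset.2 (neg_subset p F x))
  · intro S hS hni
    by_contra h
    have h0 : wt t F (conf S) ≠ 0 := fun h0 => h (by rw [h0, zero_mul])
    obtain ⟨x, hx, hxS⟩ := exists_zh hp hF (mem_powerset.1 hS) h0
    exact hni ⟨x, by rw [Finset.mem_coe, Set.Finite.mem_toFinset]; exact hx, hxS⟩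
  · intro x hx
    rw [Set.Finite.mem_toFinset] at hx
    rw [conf_neg hp hF hx, wt_cfx ht.ne' hx]
    ring

/-- **(D3)** Expectations under the law of the height representation are expectations under the
zero boundary law of the heights. -/
theorem law_ze {t : ℝ} (ht : 0 < t) {n : ℕ} {p : ZMod n → ℤ × ℤ} (hp : IsPolygon p)
    {F : Finset (ℤ × ℤ)} (hF : Encloses p F) (Ψ : Conf → ℝ) :
    ∫ σ, Ψ σ ∂law t p F = ze (1 / t) F (fun x => Ψ (cfx x)) := by
  rw [law_integral ht.le]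
  have h1 := sum_conf ht hp hF Ψ
  have h2 := sum_conf ht hp hF (fun _ => 1)
  simp only [mul_one] at h2
  have h3 : ∀ Z : ℝ, ∑ S ∈ (free p F).powerset, (wt t F (conf S) / Z) • Ψ (conf S) =
      (∑ S ∈ (free p F).powerset, wt t F (conf S) * Ψ (conf S)) / Z := by
    intro Z
    rw [sum_div]
    refine sum_congr rfl fun S _ => ?_
    rw [smul_eq_mul]; ring
  rw [h3, h1, h2]
  unfold ze
  rw [mul_div_mul_left _ _ (pow_ne_zero _ ht.ne')]

/-- The zero boundary partition function is positive. -/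
theorem zs_pos {c : ℝ} (hc : 0 < c) {n : ℕ} {p : ZMod n → ℤ × ℤ} (hp : IsPolygon p)
    {F : Finset (ℤ × ℤ)} (hF : Encloses p F) : 0 < zs c F (fun _ => 1) := by
  have h2 := sum_conf (t := 1 / c) (by positivity) hp hF (fun _ => 1)
  simp only [mul_one, one_div_one_div] at h2
  have h3 := Z_pos (t := 1 / c) (by positivity) p F
  rw [h2] at h3
  exact pos_of_mul_pos_right h3 (by positivity)

/-- Moments of the rescaled height function. -/
theorem law_mom {t : ℝ} (ht : 0 < t) {n : ℕ} {p : ZMod n → ℤ × ℤ} (hp : IsPolygon p)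
    {F : Finset (ℤ × ℤ)} (hF : Encloses p F) {H : Conf → Site → ℝ}
    (hH : ∀ᵐ σ ∂law t p F, IsHt p F σ (H σ)) (δ : ℝ) {ι : Type*} (s : Finset ι)
    (φ : ι → ℝ × ℝ → ℝ) :
    ∫ σ, ∏ i ∈ s, fldD F (H σ) δ (φ i) ∂law t p F = ze (1 / t) F (fun x => ∏ i ∈ s, zf F δ (φ i) x) := by
  classical
  have h1 : ∀ x ∈ ZH F, IsHt p F (cfx x) (H (cfx x)) := by
    intro x hx
    rw [← conf_neg hp hF hx]
    refine of_law_ae ht.le hH (neg_subset p F x) ?_
    rw [conf_neg hp hF hx, wt_cfx ht.ne' hx]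
    refine mul_ne_zero (pow_ne_zero _ ht.ne') ?_
    unfold zw
    refine mul_ne_zero (prod_ne_zero_iff.2 fun e _ => ?_) (prod_ne_zero_iff.2 fun e _ => ?_) <;>
      split_ifs <;> positivity
  rw [law_ze ht hp hF]
  unfold ze zs
  congr 1
  refine finsum_mem_congr rfl fun x hx => ?_
  congr 1
  refine prod_congr rfl fun i _ => ?_
  exact IsHt.fldD_eq hF (h1 x hx) (isHt_cfx hp hF hx) δ (φ i)

end Vale.Agent.P145.Dom
end

section

/-!
P145, block F-A: Gaussian localisers and tightness.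
-/

namespace Vale.Agent.P145.FA.Use

open Finset Filter Topology MeasureTheory
open Vale.Agent.P152

/-- Gaussian localiser. -/
noncomputable def gl (φ : (ℤ × ℤ) →₀ ℝ) (K : ℝ) (h : Hgt) : ℝ := Real.exp (-((ev φ h) ^ 2 / K ^ 2))

lemma gl_pos (φ : (ℤ × ℤ) →₀ ℝ) (K : ℝ) (h : Hgt) : 0 < gl φ K h := Real.exp_pos _

lemma gl_le_one (φ : (ℤ × ℤ) →₀ ℝ) (K : ℝ) (h : Hgt) : gl φ K h ≤ 1 := by
  unfold gl
  rw [Real.exp_le_one_iff]
  have : 0 ≤ (ev φ h) ^ 2 / K ^ 2 := by positivity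
  linarith only [this]

lemma measurable_gl (φ : (ℤ × ℤ) →₀ ℝ) (K : ℝ) : Measurable (gl φ K) :=
  Real.measurable_exp.comp (((measurable_ev φ).pow_const 2).div_const _).neg

lemma one_sub_gl (φ : (ℤ × ℤ) →₀ ℝ) (K : ℝ) (h : Hgt) : 1 - gl φ K h ≤ (ev φ h) ^ 2 / K ^ 2 := by
  unfold gl
  have := Real.add_one_le_exp (-((ev φ h) ^ 2 / K ^ 2))
  linarith

theorem lint_gauss : ∃ C : ℝ, 0 ≤ C ∧ ∀ (P : Measure (Ori (ℤ × ℤ))) [IsProbabilityMeasure P]
    (φ : (ℤ × ℤ) →₀ ℝ), mass φ = 1 → ∀ K : ℝ, 1 ≤ K → ∀ G : Hgt → ENNReal, Measurable G →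
    (∀ (ω : Ori (ℤ × ℤ)) (k : ℤ), G (fun q => pth ω q + 2 * k) = G (pth ω)) →
    ∫⁻ h, ENNReal.ofReal (gl φ K h) * G h ∂(mu0 P) ≤
      ENNReal.ofReal (C * K) * ∫⁻ ω, G (pth ω) ∂P := by
  obtain ⟨C, hC, hg⟩ := gauss_sum
  refine ⟨√Real.pi / 2 + C, by positivity, ?_⟩
  intro P _ φ hφ K hK G hG hinv
  have hK0 : 0 < K := by linarith only [hK]
  have hm : Measurable fun h => ENNReal.ofReal (gl φ K h) * G h :=
    (ENNReal.measurable_ofReal.comp (measurable_gl φ K)).mul hG
  rw [lintegral_mu0H hm]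
  have hGp : Measurable fun ω : Ori (ℤ × ℤ) => G (pth ω) := by
    have : Measurable (fun ω : Ori (ℤ × ℤ) => (pth ω : Hgt)) :=
      measurable_pi_lambda _ fun q => measurable_pthq q
    exact hG.comp this
  have h1 : ∀ ω : Ori (ℤ × ℤ), ∑' k : ℤ, ENNReal.ofReal (gl φ K (fun q => pth ω q + 2 * k)) *
      G (fun q => pth ω q + 2 * k) ≤ ENNReal.ofReal ((√Real.pi / 2 + C) * K) * G (pth ω) := by
    intro ω
    have e : ∀ k : ℤ, ev φ (fun q => pth ω q + 2 * k) = ev φ (pth ω) + 2 * k := by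
      intro k
      rw [ev_shift, hφ]
      push_cast
      ring
    simp only [hinv, ENNReal.tsum_mul_right]
    refine mul_le_mul' ?_ le_rfl
    simp only [gl, e]
    obtain ⟨hs, hb⟩ := hg K hK (ev φ (pth ω))
    rw [← ENNReal.ofReal_tsum_of_nonneg (fun k => (Real.exp_pos _).le) hs]
    refine ENNReal.ofReal_le_ofReal ?_
    have h2 := (abs_le.1 hb).2
    have h3 : Real.exp (-K ^ 2) ≤ 1 := by
      rw [Real.exp_le_one_iff]
      nlinarith only []
    have h4 : C * (K * Real.exp (-K ^ 2)) ≤ C * K := by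
      refine mul_le_mul_of_nonneg_left ?_ hC
      nlinarith only [h3, hK]
    linarith
  refine (lintegral_mono h1).trans ?_
  rw [lintegral_const_mul _ hGp]

/-- Tails from characteristic functions. -/
theorem tail {Ω : Type*} [MeasurableSpace Ω] {P : Measure Ω} [IsProbabilityMeasure P]
    {X : ℕ → Ω → ℝ} (hX : ∀ n, Measurable (X n)) {a : ℝ}
    (h : ∀ z : ℝ, Tendsto (fun n => ∫ ω, Complex.exp (Complex.I * ((z * X n ω : ℝ) : ℂ)) ∂P) atTop
      (𝓝 ((Real.exp (-(a * z ^ 2)) : ℝ) : ℂ))) {ε : ℝ} (hε : 0 < ε) :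
    ∃ r : ℝ, 0 < r ∧ ∀ᶠ n in atTop, P.real {ω | r < |X n ω|} ≤ ε := by
  set r : ℝ := 1 + 4 * |a| + 32 * |a| / ε with hr
  have hr1 : 1 ≤ r := by rw [hr]; have : 0 ≤ 4 * |a| + 32 * |a| / ε := by positivity
                         linarith
  have hr0 : 0 < r := by linarith only [hr1]
  have hr2 : r ≤ r ^ 2 := by nlinarith only [hr1]
  have hr3 : 4 * |a| ≤ r ^ 2 := by
    have : 0 ≤ 32 * |a| / ε := by (clear * - hε; positivity)
    linarith only [hr2, this]
  have hr4 : 32 * |a| / ε ≤ r ^ 2 := by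
    have : 0 ≤ 4 * |a| := by positivity
    linarith only [hr2, this]
  have hr5 : 16 * |a| / r ^ 2 ≤ ε / 2 := by
    rw [div_le_iff₀ (by positivity)]
    rw [div_le_iff₀ hε] at hr4
    linarith only [hr4]
  have hmap : ∀ n, IsProbabilityMeasure (P.map (X n)) := fun n =>
    Measure.isProbabilityMeasure_map (hX n).aemeasurable
  have hcf : ∀ (n : ℕ) (t : ℝ), charFun (P.map (X n)) t =
      ∫ ω, Complex.exp (Complex.I * ((t * X n ω : ℝ) : ℂ)) ∂P := by
    intro n t
    rw [charFun_apply_real, integral_map (hX n).aemeasurable]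
    · refine integral_congr_ae (Eventually.of_forall fun ω => ?_)
      simp only
      congr 1
      push_cast
      ring
    · refine Continuous.aestronglyMeasurable ?_
      fun_prop
  have hlim : Tendsto (fun n => ∫ t in (-2 * r⁻¹)..(2 * r⁻¹), (1 : ℂ) - charFun (P.map (X n)) t)
      atTop (𝓝 (∫ t in (-2 * r⁻¹)..(2 * r⁻¹), (1 : ℂ) - ((Real.exp (-(a * t ^ 2)) : ℝ) : ℂ))) := by
    refine intervalIntegral.tendsto_integral_filter_of_dominated_convergence (fun _ => 2) ?_ ?_ ?_ ?_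
    · refine Eventually.of_forall fun n => ?_
      have := hmap n
      have h9 : Continuous (charFun (P.map (X n))) := continuous_charFun
      exact (continuous_const.sub h9).aestronglyMeasurable
    · refine Eventually.of_forall fun n => Eventually.of_forall fun t _ => ?_
      have := hmap n
      refine (norm_sub_le _ _).trans ?_
      have h9 := norm_charFun_le_one (μ := P.map (X n)) t
      rw [norm_one]
      linarith only [h9]
    · exact intervalIntegrable_const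
    · refine Eventually.of_forall fun t _ => ?_
      have h1 := h t
      simp only [← hcf] at h1
      exact tendsto_const_nhds.sub h1
  have hbd : ‖∫ t in (-2 * r⁻¹)..(2 * r⁻¹), (1 : ℂ) - ((Real.exp (-(a * t ^ 2)) : ℝ) : ℂ)‖ ≤
      32 * |a| / r ^ 3 := by
    have h1 : ∀ t ∈ Set.uIoc (-2 * r⁻¹) (2 * r⁻¹),
        ‖(1 : ℂ) - ((Real.exp (-(a * t ^ 2)) : ℝ) : ℂ)‖ ≤ 2 * (|a| * (2 * r⁻¹) ^ 2) := by
      intro t ht
      have hri : 0 < r⁻¹ := by (clear * - hε; positivity)
      rw [Set.uIoc_of_le (by linarith only [hri])] at ht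
      have ht1 : |t| ≤ 2 * r⁻¹ := abs_le.2 ⟨by linarith only [ht.1], ht.2⟩
      have ht2 : t ^ 2 ≤ (2 * r⁻¹) ^ 2 := by rw [← sq_abs t]; exact pow_le_pow_left₀ (abs_nonneg _) ht1 2
      have h5 : |a * t ^ 2| ≤ |a| * (2 * r⁻¹) ^ 2 := by
        rw [abs_mul, abs_of_nonneg (sq_nonneg t)]
        exact mul_le_mul_of_nonneg_left ht2 (abs_nonneg _)
      have h6 : |a| * (2 * r⁻¹) ^ 2 ≤ 1 := by
        have e : |a| * (2 * r⁻¹) ^ 2 = 4 * |a| / r ^ 2 := by field_simp; norm_num
        rw [e, div_le_one (by (clear * - hε; positivity))]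
        exact hr3
      have e : (1 : ℂ) - ((Real.exp (-(a * t ^ 2)) : ℝ) : ℂ) =
          ((1 - Real.exp (-(a * t ^ 2)) : ℝ) : ℂ) := by push_cast; ring
      rw [e, Complex.norm_real, Real.norm_eq_abs, abs_sub_comm]
      have h7 := Real.abs_exp_sub_one_le (x := -(a * t ^ 2)) (by rw [abs_neg]; linarith only [h5, h6])
      rw [abs_neg] at h7
      linarith only [h5, h7]
    have h2 := intervalIntegral.norm_integral_le_of_norm_le_const h1
    refine h2.trans (le_of_eq ?_)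
    have hri : 0 < r⁻¹ := by (clear * - hε; positivity)
    rw [show 2 * r⁻¹ - -2 * r⁻¹ = 4 * r⁻¹ by ring, abs_of_pos (show (0 : ℝ) < 4 * r⁻¹ by (clear * - hε; positivity))]
    field_simp
    ring
  refine ⟨r, hr0, ?_⟩
  have h3 := (hlim.norm.const_mul (2⁻¹ * r))
  have h4 : 2⁻¹ * r * ‖∫ t in (-2 * r⁻¹)..(2 * r⁻¹), (1 : ℂ) - ((Real.exp (-(a * t ^ 2)) : ℝ) : ℂ)‖
      < ε := by
    calc _ ≤ 2⁻¹ * r * (32 * |a| / r ^ 3) := mul_le_mul_of_nonneg_left hbd (by positivity)
      _ = 16 * |a| / r ^ 2 := by field_simp; ring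
      _ ≤ ε / 2 := hr5
      _ < ε := by linarith only [hε]
  filter_upwards [h3.eventually (gt_mem_nhds h4)] with n hn
  have := hmap n
  have h5 := measureReal_abs_gt_le_integral_charFun (μ := P.map (X n)) hr0
  rw [map_measureReal_apply (hX n) (measurableSet_lt measurable_const
    (by (clear * -; fun_prop) : Measurable fun x : ℝ => |x|))] at h5
  exact h5.trans hn.le

variable {P : Measure (Ori (ℤ × ℤ))}

/-- Constant of the Gaussian sums. -/
theorem gl_int : ∃ C : ℝ, 1 ≤ C ∧ ∀ (P : Measure (Ori (ℤ × ℤ))) [IsProbabilityMeasure P]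
    (φ : (ℤ × ℤ) →₀ ℝ), mass φ = 1 → ∀ K : ℝ, 1 ≤ K →
    Integrable (gl φ K) (mu0 P) ∧ ∫ h, gl φ K h ∂(mu0 P) ≤ C * K ∧
    ∀ (v : (ℤ × ℤ) →₀ ℝ), mass v = 0 → ∀ r : ℝ,
      Integrable (fun h => gl φ K h * if r < |ev v h| then (1 : ℝ) else 0) (mu0 P) ∧
      ∫ h, gl φ K h * (if r < |ev v h| then (1 : ℝ) else 0) ∂(mu0 P) ≤
        C * K * P.real {ω | r < |ev v (pth ω)|} := by
  obtain ⟨C, hC, hg⟩ := lint_gauss
  refine ⟨C + 1, by linarith, ?_⟩
  intro P _ φ hφ K hK
  have hK0 : 0 < K := by linarith only [hK]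
  have h0 : Integrable (gl φ K) (mu0 P) := integrable_gauss hφ hK
  have hCK : 0 ≤ C * K := by positivity
  refine ⟨h0, ?_, fun v hv r => ?_⟩
  · rw [integral_eq_lintegral_of_nonneg_ae (Eventually.of_forall fun h => (gl_pos φ K h).le)
      (measurable_gl φ K).aestronglyMeasurable]
    have h1 := hg P φ hφ K hK (fun _ => 1) measurable_const (fun _ _ => rfl)
    simp only [mul_one, lintegral_one, measure_univ] at h1
    refine (ENNReal.toReal_mono ENNReal.ofReal_ne_top h1).trans ?_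
    rw [ENNReal.toReal_ofReal hCK]
    linarith
  · have hme : Measurable fun h : Hgt => (if r < |ev v h| then (1 : ℝ) else 0) := by
      refine Measurable.ite (measurableSet_lt measurable_const ?_) measurable_const measurable_const
      have := measurable_ev v
      fun_prop
    have hi : Integrable (fun h => gl φ K h * if r < |ev v h| then (1 : ℝ) else 0) (mu0 P) := by
      refine h0.mono' ((measurable_gl φ K).mul hme).aestronglyMeasurable
        (Eventually.of_forall fun h => ?_)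
      rw [Real.norm_eq_abs, abs_of_nonneg (mul_nonneg (gl_pos φ K h).le (by split_ifs <;> norm_num))]
      have : (if r < |ev v h| then (1 : ℝ) else 0) ≤ 1 := by split_ifs <;> norm_num
      have h3 := (gl_pos φ K h).le
      nlinarith only [this, h3]
    refine ⟨hi, ?_⟩
    rw [integral_eq_lintegral_of_nonneg_ae (Eventually.of_forall fun h =>
      mul_nonneg (gl_pos φ K h).le (by split_ifs <;> norm_num)) hi.1]
    have hmE : Measurable fun h : Hgt => (if r < |ev v h| then (1 : ENNReal) else 0) := by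
      refine Measurable.ite (measurableSet_lt measurable_const ?_) measurable_const measurable_const
      have := measurable_ev v
      fun_prop
    have h1 := hg P φ hφ K hK (fun h => if r < |ev v h| then (1 : ENNReal) else 0) hmE
      (fun ω k => by
        have e : ev v (fun q => pth ω q + 2 * k) = ev v (pth ω) := by
          rw [ev_shift, hv]; ring
        simp only [e])
    have e1 : ∀ h : Hgt, ENNReal.ofReal (gl φ K h * if r < |ev v h| then (1 : ℝ) else 0) =
        ENNReal.ofReal (gl φ K h) * if r < |ev v h| then (1 : ENNReal) else 0 := by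
      intro h
      split_ifs <;> simp
    have hmp : Measurable (fun ω : Ori (ℤ × ℤ) => (pth ω : Hgt)) :=
      measurable_pi_lambda _ fun q => measurable_pthq q
    have hset : MeasurableSet {ω : Ori (ℤ × ℤ) | r < |ev v (pth ω)|} := by
      refine measurableSet_lt measurable_const ?_
      have := (measurable_ev v).comp hmp
      have e : (fun ω : Ori (ℤ × ℤ) => |ev v (pth ω)|) = fun ω => |(ev v ∘ fun ω => pth ω) ω| := rfl
      rw [e]
      fun_prop
    have e2 : ∫⁻ ω, (if r < |ev v (pth ω)| then (1 : ENNReal) else 0) ∂P =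
        P {ω | r < |ev v (pth ω)|} := by
      have e3 : (fun ω : Ori (ℤ × ℤ) => (if r < |ev v (pth ω)| then (1 : ENNReal) else 0)) =
          Set.indicator {ω | r < |ev v (pth ω)|} 1 := by
        funext ω
        simp only [Set.indicator_apply, Set.mem_ofPred_eq, Pi.one_apply]
      rw [e3, lintegral_indicator_one hset]
    simp only [e1]
    rw [e2] at h1
    refine (ENNReal.toReal_mono (ENNReal.mul_ne_top ENNReal.ofReal_ne_top
      (measure_ne_top _ _)) h1).trans ?_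
    rw [ENNReal.toReal_mul, ENNReal.toReal_ofReal hCK]
    have h4 : 0 ≤ P.real {ω | r < |ev v (pth ω)|} := measureReal_nonneg
    have e5 : (P {ω | r < |ev v (pth ω)|}).toReal = P.real {ω | r < |ev v (pth ω)|} := rfl
    rw [e5]
    nlinarith only [h4, hK]

lemma sq_gl (φ : (ℤ × ℤ) →₀ ℝ) {L : ℝ} (hL : 1 ≤ L) (h : Hgt) :
    gl φ L h * (ev φ h) ^ 2 ≤ 2 * L ^ 2 * gl φ (2 * L) h := by
  have hL0 : 0 < L := by linarith
  set y : ℝ := (ev φ h) ^ 2 / L ^ 2 with hy
  have hy0 : 0 ≤ y := by positivity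
  have e1 : (ev φ h) ^ 2 = L ^ 2 * y := by rw [hy]; (clear * - hL; field_simp)
  have e2 : gl φ L h = Real.exp (-y) := rfl
  have e3 : gl φ (2 * L) h = Real.exp (-(y / 4)) := by
    unfold gl
    congr 1
    rw [hy]
    field_simp
    ring
  rw [e2, e3, e1]
  have h1 : y ≤ 2 * Real.exp (y / 2) := by
    have := Real.add_one_le_exp (y / 2)
    linarith only [this]
  have h2 : Real.exp (-y) * y ≤ 2 * Real.exp (-(y / 4)) := by
    calc Real.exp (-y) * y ≤ Real.exp (-y) * (2 * Real.exp (y / 2)) :=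
          mul_le_mul_of_nonneg_left h1 (Real.exp_pos _).le
      _ = 2 * Real.exp (-y + y / 2) := by rw [Real.exp_add]; ring
      _ ≤ 2 * Real.exp (-(y / 4)) := by
          refine mul_le_mul_of_nonneg_left (Real.exp_le_exp.2 (by linarith only [hy0])) (by norm_num)
  nlinarith only [h2]

/-- Tightness of `ev (φ n)` relative to functionals with a Gaussian localiser. -/
theorem tight_of [IsProbabilityMeasure P] {φ ρ : ℕ → (ℤ × ℤ) →₀ ℝ} (mφ : ∀ n, mass (φ n) = 1)
    (mρ : ∀ n, mass (ρ n) = 1) {a : ℝ}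
    (hchar : ∀ z : ℝ, Tendsto (fun n => ∫ ω, Complex.exp (Complex.I *
      ((z * ev (φ n - ρ n) (pth ω) : ℝ) : ℂ)) ∂P) atTop (𝓝 ((Real.exp (-(a * z ^ 2)) : ℝ) : ℂ)))
    {L : ℝ} (hL : 1 ≤ L) {G : ℕ → Hgt → ℂ} (hG : ∀ n h, ‖G n h‖ ≤ gl (ρ n) L h) :
    Tight P φ G := by
  obtain ⟨C, hC1, hg⟩ := gl_int
  have hL0 : 0 < L := by linarith
  have hmp : Measurable (fun ω : Ori (ℤ × ℤ) => (pth ω : Hgt)) :=
    measurable_pi_lambda _ fun q => measurable_pthq q
  have mv : ∀ n, mass (φ n - ρ n) = 0 := by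
    intro n
    have e : mass (φ n - ρ n) = mass (φ n) - mass (ρ n) := by
      unfold mass
      exact Finsupp.sum_sub_index fun _ _ _ => rfl
    rw [e, mφ, mρ, sub_self]
  intro ε hε
  obtain ⟨r, hr, htail⟩ := tail (P := P) (X := fun n ω => ev (φ n - ρ n) (pth ω))
    (fun n => (measurable_ev _).comp hmp) hchar (ε := ε / (2 * (C * L))) (by (clear * - hε hC1 hL; positivity))
  set B : ℝ := 2 * L ^ 2 * (C * (2 * L)) + r ^ 2 * (C * L) with hB
  have hB0 : 0 < B := by (clear * - hL hC1 hr; positivity)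
  refine ⟨1 + 2 * B / ε, fun K hK => ?_⟩
  have hK1 : 1 ≤ K := le_trans (by have : 0 ≤ 2 * B / ε := by positivity
                                   linarith only [this]) hK
  have hK0 : 0 < K := by linarith only [hK1]
  have hK2 : B / K ^ 2 ≤ ε / 2 := by
    rw [div_le_iff₀ (by (clear * - hK1; positivity))]
    have h1 : 2 * B / ε ≤ K := by linarith only [hK]
    rw [div_le_iff₀ hε] at h1
    nlinarith only [h1, hB0, hK1]
  filter_upwards [htail] with n hn
  obtain ⟨i1, b1, hv⟩ := hg P (ρ n) (mρ n) L hL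
  obtain ⟨i2, b2, -⟩ := hg P (ρ n) (mρ n) (2 * L) (by linarith only [hL])
  obtain ⟨i3, b3⟩ := hv (φ n - ρ n) (mv n) r
  have key : ∀ h : Hgt, ‖G n h‖ * (1 - Real.exp (-((ev (φ n) h) ^ 2 / (2 * K ^ 2)))) ≤
      gl (ρ n) L h * (if r < |ev (φ n - ρ n) h| then (1 : ℝ) else 0) +
      (2 * L ^ 2 / K ^ 2 * gl (ρ n) (2 * L) h + r ^ 2 / K ^ 2 * gl (ρ n) L h) := by
    intro h
    have g0 := gl_pos (ρ n) L h
    have g1 := gl_pos (ρ n) (2 * L) h
    have e0 : 0 ≤ 1 - Real.exp (-((ev (φ n) h) ^ 2 / (2 * K ^ 2))) := by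
      rw [sub_nonneg, Real.exp_le_one_iff]
      have : 0 ≤ (ev (φ n) h) ^ 2 / (2 * K ^ 2) := by (clear * - hK1; positivity)
      linarith only [this]
    have h1 : ‖G n h‖ * (1 - Real.exp (-((ev (φ n) h) ^ 2 / (2 * K ^ 2)))) ≤
        gl (ρ n) L h * (1 - Real.exp (-((ev (φ n) h) ^ 2 / (2 * K ^ 2)))) :=
      mul_le_mul_of_nonneg_right (hG n h) e0
    refine h1.trans ?_
    have hrest : 0 ≤ 2 * L ^ 2 / K ^ 2 * gl (ρ n) (2 * L) h + r ^ 2 / K ^ 2 * gl (ρ n) L h := by
      (clear * - hL hK1 g1 hr g0; positivity)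
    by_cases hcase : r < |ev (φ n - ρ n) h|
    · rw [if_pos hcase, mul_one]
      have h2 := Real.exp_pos (-((ev (φ n) h) ^ 2 / (2 * K ^ 2)))
      nlinarith only [hrest, g0, h2]
    · rw [if_neg hcase, mul_zero, zero_add]
      push Not at hcase
      have h3 : 1 - Real.exp (-((ev (φ n) h) ^ 2 / (2 * K ^ 2))) ≤
          (ev (φ n) h) ^ 2 / (2 * K ^ 2) := by
        have := Real.add_one_le_exp (-((ev (φ n) h) ^ 2 / (2 * K ^ 2)))
        linarith only [this]
      have h4 : (ev (φ n) h) ^ 2 ≤ 2 * (ev (ρ n) h) ^ 2 + 2 * r ^ 2 := by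
        have e : ev (φ n) h = ev (ρ n) h + ev (φ n - ρ n) h := by rw [ev_sub]; ring
        have h5 : (ev (φ n - ρ n) h) ^ 2 ≤ r ^ 2 := by
          rw [← sq_abs]
          exact pow_le_pow_left₀ (abs_nonneg _) hcase 2
        rw [e]
        nlinarith only [h5, sq_nonneg (ev (ρ n) h - ev (φ n - ρ n) h)]
      have h6 : (ev (φ n) h) ^ 2 / (2 * K ^ 2) ≤ ((ev (ρ n) h) ^ 2 + r ^ 2) / K ^ 2 := by
        rw [div_le_div_iff₀ (by positivity) (by positivity)]
        nlinarith only [h4]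
      have h7 := sq_gl (ρ n) hL h
      calc gl (ρ n) L h * (1 - Real.exp (-((ev (φ n) h) ^ 2 / (2 * K ^ 2))))
          ≤ gl (ρ n) L h * (((ev (ρ n) h) ^ 2 + r ^ 2) / K ^ 2) :=
            mul_le_mul_of_nonneg_left (h3.trans h6) g0.le
        _ = (gl (ρ n) L h * (ev (ρ n) h) ^ 2) / K ^ 2 + r ^ 2 / K ^ 2 * gl (ρ n) L h := by
            field_simp
        _ ≤ (2 * L ^ 2 * gl (ρ n) (2 * L) h) / K ^ 2 + r ^ 2 / K ^ 2 * gl (ρ n) L h := by
            (clear * - h7 hK1; gcongr)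
        _ = _ := by ring
  have ib : Integrable (fun h => gl (ρ n) L h * (if r < |ev (φ n - ρ n) h| then (1 : ℝ) else 0) +
      (2 * L ^ 2 / K ^ 2 * gl (ρ n) (2 * L) h + r ^ 2 / K ^ 2 * gl (ρ n) L h)) (mu0 P) :=
    i3.add ((i2.const_mul _).add (i1.const_mul _))
  have i23 : Integrable (fun h => 2 * L ^ 2 / K ^ 2 * gl (ρ n) (2 * L) h +
      r ^ 2 / K ^ 2 * gl (ρ n) L h) (mu0 P) := (i2.const_mul _).add (i1.const_mul _)
  have h5 : ∫ h, ‖G n h‖ * (1 - Real.exp (-((ev (φ n) h) ^ 2 / (2 * K ^ 2)))) ∂(mu0 P) ≤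
      ∫ h, (gl (ρ n) L h * (if r < |ev (φ n - ρ n) h| then (1 : ℝ) else 0) +
      (2 * L ^ 2 / K ^ 2 * gl (ρ n) (2 * L) h + r ^ 2 / K ^ 2 * gl (ρ n) L h)) ∂(mu0 P) := by
    refine integral_mono_of_nonneg (Eventually.of_forall fun h => ?_) ib
      (Eventually.of_forall key)
    refine mul_nonneg (norm_nonneg _) ?_
    rw [sub_nonneg, Real.exp_le_one_iff]
    have : 0 ≤ (ev (φ n) h) ^ 2 / (2 * K ^ 2) := by (clear * - hK1; positivity)
    linarith only [this]
  refine h5.trans ?_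
  rw [integral_add i3 i23, integral_add (i2.const_mul _) (i1.const_mul _), integral_const_mul,
    integral_const_mul]
  have hCL : 0 < C * L := by positivity
  have h6 : C * L * P.real {ω | r < |ev (φ n - ρ n) (pth ω)|} ≤ ε / 2 := by
    have := mul_le_mul_of_nonneg_left hn hCL.le
    refine this.trans (le_of_eq ?_)
    field_simp
  have h7 : 2 * L ^ 2 / K ^ 2 * ∫ h, gl (ρ n) (2 * L) h ∂(mu0 P) +
      r ^ 2 / K ^ 2 * ∫ h, gl (ρ n) L h ∂(mu0 P) ≤ B / K ^ 2 := by
    have a1 : 2 * L ^ 2 / K ^ 2 * ∫ h, gl (ρ n) (2 * L) h ∂(mu0 P) ≤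
        2 * L ^ 2 / K ^ 2 * (C * (2 * L)) := mul_le_mul_of_nonneg_left b2 (by (clear * - hL hK1; positivity))
    have a2 : r ^ 2 / K ^ 2 * ∫ h, gl (ρ n) L h ∂(mu0 P) ≤ r ^ 2 / K ^ 2 * (C * L) :=
      mul_le_mul_of_nonneg_left b1 (by positivity)
    refine (add_le_add a1 a2).trans (le_of_eq ?_)
    rw [hB]
    ring
  linarith only [hK2, b3, h6, h7]

end Vale.Agent.P145.FA.Use
end

section

/-!
P145, block K1: Markov property and exploration from outside.
-/

namespace Vale.Agent.P145.FK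

open Finset
open scoped Classical

namespace Net

variable {V F E : Type*} {K : ℕ}

lemma agOut_mixC (N : Net V F E) (D : Set F) (x y : Cfg V F E K) :
    N.agOut D (N.mixC D x y) x :=
  ⟨fun i hi => by simp [mixC, hi], fun e he => by simp [mixC, he]⟩

lemma agIn_mixC (N : Net V F E) (D : Set F) (x y : Cfg V F E K) :
    N.agIn D (N.mixC D x y) y :=
  ⟨fun i hi => by simp [mixC, hi], fun e he => by simp [mixC, he]⟩

lemma agOut_refl (N : Net V F E) (D : Set F) (x : Cfg V F E K) : N.agOut D x x :=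
  ⟨fun _ _ => rfl, fun _ _ => rfl⟩

lemma agOut_symm {N : Net V F E} {D : Set F} {x y : Cfg V F E K} (h : N.agOut D x y) :
    N.agOut D y x :=
  ⟨fun i hi => (h.1 i hi).symm, fun e he => (h.2 e he).symm⟩

lemma agOut_trans {N : Net V F E} {D : Set F} {x y z : Cfg V F E K} (h : N.agOut D x y)
    (h' : N.agOut D y z) : N.agOut D x z :=
  ⟨fun i hi => (h.1 i hi).trans (h'.1 i hi), fun e he => (h.2 e he).trans (h'.2 e he)⟩

lemma zb_congr {N : Net V F E} {D : Set F} {x y : Cfg V F E K} (h : N.agOut D x y) :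
    N.zb D x ↔ N.zb D y := by
  constructor
  · intro hx
    exact ⟨fun i hi => by rw [← h.1 i hi]; exact hx.1 i hi,
      fun e he => by rw [← h.2 e he]; exact hx.2 e he⟩
  · intro hx
    exact ⟨fun i hi => by rw [h.1 i hi]; exact hx.1 i hi,
      fun e he => by rw [h.2 e he]; exact hx.2 e he⟩

lemma agIn_mono {N : Net V F E} {D D' : Set F} (h : D ⊆ D') {x y : Cfg V F E K}
    (hx : N.agIn D' x y) : N.agIn D x y :=
  ⟨fun i hi => hx.1 i (inD_mono h hi), fun e he => hx.2 e (inE_mono h he)⟩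

section
variable [Fintype V] [Fintype F] [Fintype E]

lemma J_eq_tw (N : Net V F E) (t : ℝ) (κ : V ⊕ F → Fin (K + 1) → ℝ) (β : E → Bool → ℝ)
    (G : Cfg V F E K → (V ⊕ F → Bool) → ℝ) :
    N.J t κ β G = ∑ p : Cfg V F E K × (V ⊕ F → Bool), N.tw t κ β p.1 p.2 * G p.1 p.2 := by
  rw [Fintype.sum_prod_type]
  rfl

lemma tw_nonneg (N : Net V F E) {t : ℝ} (ht0 : 0 ≤ t) {κ : V ⊕ F → Fin (K + 1) → ℝ}
    (hκ : ∀ i z, 0 ≤ κ i z) {β : E → Bool → ℝ} (hβ : ∀ e b, 0 ≤ β e b) (x : Cfg V F E K)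
    (s : V ⊕ F → Bool) : 0 ≤ N.tw t κ β x s :=
  mul_nonneg (N.jw_nonneg ht0 hκ hβ x) (N.cst_nonneg _ s)

/-- Exchange of the insides, as a permutation of pairs of configurations. -/
noncomputable def swapE (N : Net V F E) (D : Set F) :
    Equiv.Perm ((Cfg V F E K × (V ⊕ F → Bool)) × (Cfg V F E K × (V ⊕ F → Bool))) where
  toFun q := ((N.mixC D q.1.1 q.2.1, N.mixS D q.1.2 q.2.2),
    (N.mixC D q.2.1 q.1.1, N.mixS D q.2.2 q.1.2))
  invFun q := ((N.mixC D q.1.1 q.2.1, N.mixS D q.1.2 q.2.2),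
    (N.mixC D q.2.1 q.1.1, N.mixS D q.2.2 q.1.2))
  left_inv q := by
    simp only [mixC_mixC, mixS_mixS]
  right_inv q := by
    simp only [mixC_mixC, mixS_mixS]

/-- Markov property: if `Go` lives on configurations which are blocked at the boundary of `D` and
depends only on the outside, and `Gi` only on the inside, then the inside has the law with zero
boundary condition. -/
theorem markov (N : Net V F E) (t : ℝ) (κ : V ⊕ F → Fin (K + 1) → ℝ) (β : E → Bool → ℝ)
    {D : Set F} {Go Gi : Cfg V F E K → (V ⊕ F → Bool) → ℝ}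
    (hGo : ∀ x s, Go x s ≠ 0 → N.blk D x)
    (hGo' : ∀ x x' s s', N.agOut D x x' → (∀ i, ¬ N.inD D i → s i = s' i) → Go x s = Go x' s')
    (hGi : ∀ x x' s s', N.agIn D x x' → (∀ i, N.inD D i → s i = s' i) → Gi x s = Gi x' s') :
    N.J t κ β (fun x s => Go x s * Gi x s) * N.J t κ β (fun x _ => N.zbi D x)
      = N.J t κ β Go * N.J t κ β (fun x s => N.zbi D x * Gi x s) := by
  rw [J_eq_tw, J_eq_tw, J_eq_tw, J_eq_tw, Finset.sum_mul_sum, Finset.sum_mul_sum]
  rw [← Fintype.sum_prod_type', ← Fintype.sum_prod_type']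
  rw [← Equiv.sum_comp (N.swapE (K := K) D)]
  refine Finset.sum_congr rfl fun q _ => ?_
  obtain ⟨⟨x, s⟩, ⟨y, s'⟩⟩ := q
  show N.tw t κ β (N.mixC D x y) (N.mixS D s s') *
      (Go (N.mixC D x y) (N.mixS D s s') * Gi (N.mixC D x y) (N.mixS D s s')) *
      (N.tw t κ β (N.mixC D y x) (N.mixS D s' s) * N.zbi D (N.mixC D y x))
    = N.tw t κ β x s * Go x s * (N.tw t κ β y s' * (N.zbi D y * Gi y s'))
  have g1 : Go (N.mixC D x y) (N.mixS D s s') = Go x s :=
    hGo' _ _ _ _ (N.agOut_mixC D x y) fun i hi => by simp [mixS, hi]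
  have g2 : Gi (N.mixC D x y) (N.mixS D s s') = Gi y s' :=
    hGi _ _ _ _ (N.agIn_mixC D x y) fun i hi => by simp [mixS, hi]
  have g3 : N.zbi D (N.mixC D y x) = N.zbi D y := by
    unfold zbi
    simp only [zb_congr (N.agOut_mixC D y x)]
  rw [g1, g2, g3]
  by_cases h1 : Go x s = 0
  · rw [h1]; ring
  by_cases h2 : N.zb D y
  · have h := N.tw_swap t κ β (hGo x s h1) (zb_blk h2) s s'
    calc _ = (N.tw t κ β (N.mixC D x y) (N.mixS D s s') *
          N.tw t κ β (N.mixC D y x) (N.mixS D s' s)) * (Go x s * Gi y s' * N.zbi D y) := by ring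
      _ = _ := by rw [← h]; ring
  · have h3 : N.zbi D y = 0 := if_neg h2
    rw [h3]; ring

lemma J_mon_nonneg (N : Net V F E) {t : ℝ} (ht0 : 0 ≤ t) {κ : V ⊕ F → Fin (K + 1) → ℝ}
    (hκ : ∀ i z, 0 ≤ κ i z) {β : E → Bool → ℝ} (hβ : ∀ e b, 0 ≤ β e b) {P : Cfg V F E K → ℝ}
    (hP : ∀ x, 0 ≤ P x) {A : Cfg V F E K → (V ⊕ F → Bool) → ℝ} (hA : Mon A) :
    0 ≤ N.J t κ β (fun x s => P x * A x s) := by
  induction hA with
  | add h1 h2 ih1 ih2 =>
    simp only [mul_add, J_add]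
    exact add_nonneg ih1 ih2
  | @one B hB0 hB φ hφ =>
    have e : N.J t κ β (fun x s => P x * (B x * φ s))
        = ∑ x, P x * B x * N.jw t κ β x * N.Y (act x) φ := by
      rw [← J_mag]
      congr 1
      funext x s
      ring
    rw [e]
    exact Finset.sum_nonneg fun x _ => mul_nonneg (mul_nonneg (mul_nonneg (hP x) (hB0 x))
      (N.jw_nonneg ht0 hκ hβ x)) (N.Y_pos _ hφ)

lemma J_zbi_pos (N : Net V F E) {t : ℝ} (ht0 : 0 ≤ t) {κ : V ⊕ F → Fin (K + 1) → ℝ}
    (hκ : ∀ i z, 0 ≤ κ i z) {β : E → Bool → ℝ} (hβ : ∀ e b, 0 ≤ β e b)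
    (hκ0 : ∀ i, 0 < κ i 0) (hβ0 : ∀ e, 0 < β e false) (D : Set F) :
    0 < N.J t κ β (fun x _ => N.zbi D x) := by
  rw [J_eq_tw]
  have h0 : 0 < N.tw t κ β ((fun _ => 0, fun _ => false) : Cfg V F E K) (fun _ => false) *
      N.zbi D ((fun _ => 0, fun _ => false) : Cfg V F E K) := by
    have z : N.zbi D ((fun _ => 0, fun _ => false) : Cfg V F E K) = 1 :=
      if_pos ⟨fun i _ => by simp, fun e _ => rfl⟩
    have a : N.adm (fun _ => 0 : V ⊕ F → Fin (K + 1)) := fun v f _ => Or.inl rfl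
    rw [z, mul_one]
    unfold tw jw mw wE
    rw [if_pos a, N.cst_false]
    simp only [and_self, if_true, Finset.prod_const_one, one_mul, mul_one]
    exact mul_pos (Finset.prod_pos fun i _ => hκ0 i) (Finset.prod_pos fun e _ => hβ0 e)
  refine lt_of_lt_of_le h0 (Finset.single_le_sum (f := fun p : Cfg V F E K × (V ⊕ F → Bool) =>
    N.tw t κ β p.1 p.2 * N.zbi D p.1) (fun p _ => mul_nonneg (N.tw_nonneg ht0 hκ hβ _ _)
    (N.zbi_nonneg D _)) (Finset.mem_univ (((fun _ => 0, fun _ => false) : Cfg V F E K),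
      fun _ => false)))

end

/-- Blocked medial vertices: both even sites are zero and it is closed. -/
def blocked (N : Net V F E) (x : Cfg V F E K) (e : E) : Prop :=
  (x.1 (.inl (N.u e)) : ℕ) = 0 ∧ (x.1 (.inl (N.v e)) : ℕ) = 0 ∧ x.2 e = false

/-- One step through a medial vertex which is not blocked. -/
def step (N : Net V F E) (x : Cfg V F E K) (f f' : F) : Prop :=
  ∃ e, ¬ N.blocked x e ∧ ((N.f e = f ∧ N.g e = f') ∨ (N.g e = f ∧ N.f e = f'))

/-- The odd sites which are connected to `O`. -/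
def expl (N : Net V F E) (O : Set F) (x : Cfg V F E K) : Set F :=
  {f | ∃ f0 ∈ O, Relation.ReflTransGen (N.step x) f0 f}

/-- Local connectivity of the odd sites around an even site. -/
def Loc (N : Net V F E) : Prop :=
  ∀ (v : V) (D : Set F), (∃ f, N.inc v f ∧ f ∈ D) → (∃ f, N.inc v f ∧ f ∉ D) →
    ∃ e, (N.u e = v ∨ N.v e = v) ∧ ¬ (N.f e ∈ D ↔ N.g e ∈ D)

lemma blocked_anti {N : Net V F E} {x y : Cfg V F E K} (h : x ≤ y) {e : E}
    (hy : N.blocked y e) : N.blocked x e := by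
  have h1 : (x.1 (.inl (N.u e)) : ℕ) ≤ y.1 (.inl (N.u e)) := by exact_mod_cast h.1 _
  have h2 : (x.1 (.inl (N.v e)) : ℕ) ≤ y.1 (.inl (N.v e)) := by exact_mod_cast h.1 _
  have h3 : x.2 e ≤ y.2 e := h.2 e
  refine ⟨by have := hy.1; omega, by have := hy.2.1; omega, ?_⟩
  have := hy.2.2
  rw [this] at h3
  exact Bool.eq_false_of_le_false h3

lemma expl_mono {N : Net V F E} (O : Set F) {x y : Cfg V F E K} (h : x ≤ y) :
    N.expl O x ⊆ N.expl O y := by
  rintro f ⟨f0, hf0, hf⟩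
  refine ⟨f0, hf0, ?_⟩
  induction hf with
  | refl => exact Relation.ReflTransGen.refl
  | tail _ hs ih =>
    obtain ⟨e, he, h'⟩ := hs
    exact ih.tail ⟨e, fun hb => he (blocked_anti h hb), h'⟩

lemma subset_expl (N : Net V F E) (O : Set F) (x : Cfg V F E K) : O ⊆ N.expl O x :=
  fun f hf => ⟨f, hf, Relation.ReflTransGen.refl⟩

lemma expl_blocked {N : Net V F E} {O : Set F} {x : Cfg V F E K} {e : E}
    (h : ¬ (N.f e ∈ N.expl O x ↔ N.g e ∈ N.expl O x)) : N.blocked x e := by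
  by_contra hb
  apply h
  constructor
  · rintro ⟨f0, hf0, hf⟩
    exact ⟨f0, hf0, hf.tail ⟨e, hb, Or.inl ⟨rfl, rfl⟩⟩⟩
  · rintro ⟨f0, hf0, hf⟩
    exact ⟨f0, hf0, hf.tail ⟨e, hb, Or.inr ⟨rfl, rfl⟩⟩⟩

lemma blk_expl {N : Net V F E} (hN : N.Loc) (O : Set F) (x : Cfg V F E K) :
    N.blk (N.expl O x)ᶜ x := by
  constructor
  · intro v hv hf
    have hv' : ∃ f, N.inc v f ∧ f ∉ (N.expl O x)ᶜ := by
      have h : ¬ ∀ f, N.inc v f → f ∈ (N.expl O x)ᶜ := hv
      push Not at h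
      exact h
    obtain ⟨e, he, hne⟩ := hN v _ hf hv'
    have hb : N.blocked x e := by
      apply expl_blocked (O := O)
      intro h
      apply hne
      simp only [Set.mem_compl_iff]
      exact not_congr h
    rcases he with he | he
    · rw [← he]; exact hb.1
    · rw [← he]; exact hb.2.1
  · intro e hne
    have hb : N.blocked x e := by
      apply expl_blocked (O := O)
      intro h
      apply hne
      simp only [Set.mem_compl_iff]
      exact not_congr h
    exact hb.2.2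

lemma blocked_congr {N : Net V F E} {R : Set F} {x y : Cfg V F E K} (h : N.agOut Rᶜ x y) {e : E}
    (he : N.f e ∈ R ∨ N.g e ∈ R) : N.blocked x e ↔ N.blocked y e := by
  have h1 : ¬ N.inE Rᶜ e := by
    rintro ⟨a, b⟩
    rcases he with he | he
    · exact a he
    · exact b he
  have h2 : ¬ N.inD Rᶜ (.inl (N.u e)) := by
    intro h'
    rcases he with he | he
    · exact h' _ (N.huf e) he
    · exact h' _ (N.hug e) he
  have h3 : ¬ N.inD Rᶜ (.inl (N.v e)) := by
    intro h'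
    rcases he with he | he
    · exact h' _ (N.hvf e) he
    · exact h' _ (N.hvg e) he
  unfold blocked
  rw [h.1 _ h2, h.1 _ h3, h.2 _ h1]

lemma expl_congr {N : Net V F E} {O : Set F} {x y : Cfg V F E K}
    (h : N.agOut (N.expl O x)ᶜ x y) : N.expl O y = N.expl O x := by
  ext f
  constructor
  · rintro ⟨f0, hf0, hf⟩
    induction hf with
    | refl => exact N.subset_expl O x hf0
    | tail _ hs ih =>
      obtain ⟨e, hb, hfe⟩ := hs
      by_contra hcon
      have h1 : ¬ (N.f e ∈ N.expl O x ↔ N.g e ∈ N.expl O x) := by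
        rcases hfe with ⟨h1, h2⟩ | ⟨h1, h2⟩
        · rw [h1, h2]; tauto
        · rw [h1, h2]; tauto
      have h2 : N.f e ∈ N.expl O x ∨ N.g e ∈ N.expl O x := by
        rcases hfe with ⟨h1, h2⟩ | ⟨h1, h2⟩
        · left; rw [h1]; exact ih
        · right; rw [h1]; exact ih
      exact hb ((blocked_congr h h2).mp (expl_blocked h1))
  · rintro ⟨f0, hf0, hf⟩
    have key : f ∈ N.expl O x ∧ f ∈ N.expl O y := by
      induction hf with
      | refl => exact ⟨N.subset_expl O x hf0, N.subset_expl O y hf0⟩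
      | tail _ hs ih =>
        obtain ⟨e, hb, hfe⟩ := hs
        have h2 : N.f e ∈ N.expl O x ∨ N.g e ∈ N.expl O x := by
          rcases hfe with ⟨h1, h2⟩ | ⟨h1, h2⟩
          · left; rw [h1]; exact ih.1
          · right; rw [h1]; exact ih.1
        constructor
        · obtain ⟨f1, hf1, hf2⟩ := ih.1
          exact ⟨f1, hf1, hf2.tail ⟨e, hb, hfe⟩⟩
        · obtain ⟨f1, hf1, hf2⟩ := ih.2
          exact ⟨f1, hf1, hf2.tail ⟨e, fun hb' => hb ((blocked_congr h h2).mpr hb'), hfe⟩⟩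
    exact key.2

section
variable [Fintype V] [Fintype F] [Fintype E]

/-- Conditioning on everything outside a blocked boundary: the comparison with a decreasing tilt. -/
lemma class_le (N : Net V F E) {t : ℝ} (ht0 : 0 ≤ t) (ht : t ≤ 1)
    {κ : V ⊕ F → Fin (K + 1) → ℝ} (hκ : ∀ i z, 0 ≤ κ i z) {β : E → Bool → ℝ}
    (hβ : ∀ e b, 0 ≤ β e b) (hκ0 : ∀ i, 0 < κ i 0) (hβ0 : ∀ e, 0 < β e false)
    {D D' : Set F} (hD : D ⊆ D') {η : Cfg V F E K} (hη : N.blk D η)
    {X : Cfg V F E K → ℝ} (hX : ∀ x, 0 ≤ X x) (hXa : Antitone X)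
    {A : Cfg V F E K → (V ⊕ F → Bool) → ℝ} (hA : Mon A)
    (hAI : ∀ x x' s s', N.agIn D x x' → (∀ i, N.inD D i → s i = s' i) → A x s = A x' s') :
    N.J t κ β (fun x s => X x * (if N.agOut D η x then 1 else 0) * A x s) *
        N.J t κ β (fun x _ => N.zbi D' x)
      ≤ N.J t κ β (fun x _ => X x * (if N.agOut D η x then 1 else 0)) *
        N.J t κ β (fun x s => N.zbi D' x * A x s) := by
  set I : Cfg V F E K → ℝ := fun x => if N.agOut D η x then 1 else 0 with hI
  have hI0 : ∀ x, 0 ≤ I x := fun x => by simp only [hI]; split_ifs <;> norm_num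
  -- step 1
  have s1 : N.J t κ β (fun x s => X x * I x * A x s) * N.J t κ β (fun x _ => I x)
      ≤ N.J t κ β (fun x _ => X x * I x) * N.J t κ β (fun x s => I x * A x s) := by
    refine N.masterJ ht0 ht hκ hβ (P := fun x => X x * I x) (Q := I)
      (fun x => mul_nonneg (hX x) (hI0 x)) hI0 ?_ hA
    intro x y _ _
    by_cases hx : N.agOut D η x
    · by_cases hy : N.agOut D η y
      · have h1 : N.agOut D η (x ⊓ y) := by
          refine ⟨fun i hi => ?_, fun e he => ?_⟩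
          · rw [Prod.fst_inf, Pi.inf_apply, ← hx.1 i hi, ← hy.1 i hi, inf_idem]
          · rw [Prod.snd_inf, Pi.inf_apply, ← hx.2 e he, ← hy.2 e he, inf_idem]
        have h2 : N.agOut D η (x ⊔ y) := by
          refine ⟨fun i hi => ?_, fun e he => ?_⟩
          · rw [Prod.fst_sup, Pi.sup_apply, ← hx.1 i hi, ← hy.1 i hi, sup_idem]
          · rw [Prod.snd_sup, Pi.sup_apply, ← hx.2 e he, ← hy.2 e he, sup_idem]
        show X x * I x * I y ≤ X (x ⊓ y) * I (x ⊓ y) * I (x ⊔ y)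
        simp only [hI, if_pos hx, if_pos hy, if_pos h1, if_pos h2, mul_one]
        exact hXa inf_le_left
      · show X x * I x * I y ≤ X (x ⊓ y) * I (x ⊓ y) * I (x ⊔ y)
        have : I y = 0 := if_neg hy
        rw [this, mul_zero]
        exact mul_nonneg (mul_nonneg (hX _) (hI0 _)) (hI0 _)
    · show X x * I x * I y ≤ X (x ⊓ y) * I (x ⊓ y) * I (x ⊔ y)
      have : I x = 0 := if_neg hx
      rw [this, mul_zero, zero_mul]
      exact mul_nonneg (mul_nonneg (hX _) (hI0 _)) (hI0 _)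
  -- step 2
  have s2 : N.J t κ β (fun x s => I x * A x s) * N.J t κ β (fun x _ => N.zbi D x)
      = N.J t κ β (fun x _ => I x) * N.J t κ β (fun x s => N.zbi D x * A x s) := by
    refine N.markov t κ β (Go := fun x _ => I x) (Gi := A) ?_ ?_ hAI
    · intro x _ hx
      have h : N.agOut D η x := by
        by_contra h
        exact hx (if_neg h)
      refine ⟨fun v hv hf => ?_, fun e he => ?_⟩
      · rw [← h.1 _ hv]; exact hη.1 v hv hf
      · rw [← h.2 e fun h' => he ⟨fun _ => h'.2, fun _ => h'.1⟩]; exact hη.2 e he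
    · intro x x' _ _ h _
      have : N.agOut D η x ↔ N.agOut D η x' :=
        ⟨fun h' => agOut_trans h' h, fun h' => agOut_trans h' (agOut_symm h)⟩
      simp only [hI, this]
  -- step 3
  have s3 : N.J t κ β (fun x s => N.zbi D x * A x s) * N.J t κ β (fun x _ => N.zbi D' x)
      ≤ N.J t κ β (fun x _ => N.zbi D x) * N.J t κ β (fun x s => N.zbi D' x * A x s) := by
    have h := N.dom_mono ht0 ht hκ hβ hD (X := fun _ => 1) (fun _ => zero_le_one)
      (fun _ _ _ => le_rfl) hA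
    simpa only [ge_iff_le, one_mul] using h
  have c0 := N.J_zbi_pos ht0 hκ hβ hκ0 hβ0 (D := D)
  have d0 := N.J_zbi_pos ht0 hκ hβ hκ0 hβ0 (D := D')
  have d1 : 0 ≤ N.J t κ β (fun x s => N.zbi D' x * A x s) :=
    N.J_mon_nonneg ht0 hκ hβ (N.zbi_nonneg D') hA
  have a0 : 0 ≤ N.J t κ β (fun x _ => X x * I x) :=
    N.J_nonneg ht0 hκ hβ fun x _ => mul_nonneg (hX x) (hI0 x)
  have b0 : 0 ≤ N.J t κ β (fun x _ => I x) := N.J_nonneg ht0 hκ hβ fun x _ => hI0 x
  rcases b0.eq_or_lt with hb | hb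
  · have ha1 : N.J t κ β (fun x s => X x * I x * A x s) = 0 := by
      rw [J_eq_tw] at hb ⊢
      refine Finset.sum_eq_zero fun p hp => ?_
      have h := (Finset.sum_eq_zero_iff_of_nonneg (fun p _ =>
        mul_nonneg (N.tw_nonneg ht0 hκ hβ _ _) (hI0 _))).mp hb.symm p hp
      calc N.tw t κ β p.1 p.2 * (X p.1 * I p.1 * A p.1 p.2)
          = (N.tw t κ β p.1 p.2 * I p.1) * (X p.1 * A p.1 p.2) := by ring
        _ = 0 := by rw [h, zero_mul]
    rw [ha1, zero_mul]
    exact mul_nonneg a0 d1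
  · set a1 := N.J t κ β (fun x s => X x * I x * A x s)
    set a0' := N.J t κ β (fun x _ => X x * I x)
    set b1 := N.J t κ β (fun x s => I x * A x s)
    set b0' := N.J t κ β (fun x _ => I x)
    set c1 := N.J t κ β (fun x s => N.zbi D x * A x s)
    set c0' := N.J t κ β (fun x _ => N.zbi D x)
    set d1' := N.J t κ β (fun x s => N.zbi D' x * A x s)
    set d0' := N.J t κ β (fun x _ => N.zbi D' x)
    have h1 : a1 * b0' * c0' ≤ a0' * b0' * c1 := by
      calc a1 * b0' * c0' ≤ a0' * b1 * c0' := mul_le_mul_of_nonneg_right s1 c0.le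
        _ = a0' * (b1 * c0') := by ring
        _ = a0' * b0' * c1 := by rw [s2]; ring
    have h2 : a1 * c0' ≤ a0' * c1 := by
      have : (a1 * c0') * b0' ≤ (a0' * c1) * b0' := by linarith
      exact le_of_mul_le_mul_right this hb
    have h3 : (a1 * d0') * c0' ≤ (a0' * d1') * c0' := by
      calc (a1 * d0') * c0' = (a1 * c0') * d0' := by ring
        _ ≤ (a0' * c1) * d0' := mul_le_mul_of_nonneg_right h2 d0.le
        _ = a0' * (c1 * d0') := by ring
        _ ≤ a0' * (c0' * d1') := mul_le_mul_of_nonneg_left s3 a0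
        _ = _ := by ring
    exact le_of_mul_le_mul_right h3 c0

/-- Outside part of a configuration, seen from `O`. -/
noncomputable def rep (N : Net V F E) (O : Set F) (x : Cfg V F E K) : Cfg V F E K :=
  N.mixC (N.expl O x)ᶜ x (fun _ => 0, fun _ => false)

omit [Fintype V] [Fintype F] [Fintype E] in
lemma rep_iff (N : Net V F E) (O : Set F) (x0 x : Cfg V F E K) :
    N.rep O x = N.rep O x0 ↔ N.agOut (N.expl O x0)ᶜ x0 x := by
  constructor
  · intro h
    have h1 : N.agOut (N.expl O x)ᶜ x (N.rep O x) := agOut_symm (N.agOut_mixC _ _ _)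
    have h2 : N.agOut (N.expl O x0)ᶜ x0 (N.rep O x0) := agOut_symm (N.agOut_mixC _ _ _)
    have e1 := expl_congr h1
    have e2 := expl_congr h2
    have e3 : N.expl O x = N.expl O x0 := by rw [← e1, ← e2, h]
    rw [e3] at h1
    rw [← h] at h2
    exact agOut_trans h2 (agOut_symm h1)
  · intro h
    have e := expl_congr h
    unfold rep
    rw [e]
    refine Prod.ext ?_ ?_
    · funext i
      by_cases hi : N.inD (N.expl O x0)ᶜ i
      · simp only [mixC, Bool.if_false_left, hi, ↓reduceIte]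
      · simp only [mixC, hi, if_false]
        exact (h.1 i hi).symm
    · funext j
      by_cases hj : N.inE (N.expl O x0)ᶜ j
      · simp only [mixC, Bool.if_false_left, hj, decide_true, Bool.not_true, Bool.false_and]
      · simp only [mixC, hj, if_false]
        exact (h.2 j hj).symm

/-- Exploration from `O`: on the event that `I` is not reached from `O`, with a decreasing tilt,
the expectation of an observable inside `I` is at most the one with zero boundary condition on the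
complement of `O`. -/
theorem expl_le (N : Net V F E) (hN : N.Loc) {t : ℝ} (ht0 : 0 ≤ t) (ht : t ≤ 1)
    {κ : V ⊕ F → Fin (K + 1) → ℝ} (hκ : ∀ i z, 0 ≤ κ i z) {β : E → Bool → ℝ}
    (hβ : ∀ e b, 0 ≤ β e b) (hκ0 : ∀ i, 0 < κ i 0) (hβ0 : ∀ e, 0 < β e false)
    {O I : Set F} {X : Cfg V F E K → ℝ} (hX : ∀ x, 0 ≤ X x) (hXa : Antitone X)
    {A : Cfg V F E K → (V ⊕ F → Bool) → ℝ} (hA : Mon A)
    (hAI : ∀ x x' s s', N.agIn I x x' → (∀ i, N.inD I i → s i = s' i) → A x s = A x' s') :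
    N.J t κ β (fun x s => X x * (if Disjoint (N.expl O x) I then 1 else 0) * A x s) *
        N.J t κ β (fun x _ => N.zbi Oᶜ x)
      ≤ N.J t κ β (fun x _ => X x * (if Disjoint (N.expl O x) I then 1 else 0)) *
        N.J t κ β (fun x s => N.zbi Oᶜ x * A x s) := by
  -- decomposition of a sum over the classes
  have dec : ∀ G : Cfg V F E K → (V ⊕ F → Bool) → ℝ,
      N.J t κ β (fun x s => X x * (if Disjoint (N.expl O x) I then 1 else 0) * G x s)
        = ∑ η : Cfg V F E K, N.J t κ β (fun x s =>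
          X x * ((if Disjoint (N.expl O x) I then 1 else 0) * (if N.rep O x = η then 1 else 0)) *
            G x s) := by
    intro G
    simp only [J_eq_tw]
    rw [Finset.sum_comm]
    refine Finset.sum_congr rfl fun p _ => ?_
    have h : ∑ η : Cfg V F E K, (if N.rep O p.1 = η then (1 : ℝ) else 0) = 1 := by
      simp only [sum_ite_eq, mem_univ, ↓reduceIte]
    calc N.tw t κ β p.1 p.2 * (X p.1 * (if Disjoint (N.expl O p.1) I then 1 else 0) * G p.1 p.2)
        = N.tw t κ β p.1 p.2 * (X p.1 * (if Disjoint (N.expl O p.1) I then 1 else 0) * G p.1 p.2)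
          * ∑ η : Cfg V F E K, (if N.rep O p.1 = η then (1 : ℝ) else 0) := by rw [h, mul_one]
      _ = _ := by
        rw [Finset.mul_sum]
        refine Finset.sum_congr rfl fun η _ => ?_
        ring
  have dec1 := dec (fun _ _ => 1)
  simp only [mul_one] at dec1
  rw [dec A, dec1, Finset.sum_mul, Finset.sum_mul]
  refine Finset.sum_le_sum fun η _ => ?_
  by_cases hη : ∃ x0 : Cfg V F E K, Disjoint (N.expl O x0) I ∧ N.rep O x0 = η
  · obtain ⟨x0, hd, he⟩ := hη
    have hfun : ∀ x : Cfg V F E K,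
        (if Disjoint (N.expl O x) I then (1 : ℝ) else 0) * (if N.rep O x = η then 1 else 0)
          = if N.agOut (N.expl O x0)ᶜ x0 x then 1 else 0 := by
      intro x
      by_cases h : N.agOut (N.expl O x0)ᶜ x0 x
      · have e := expl_congr h
        have hr := (N.rep_iff O x0 x).mpr h
        rw [if_pos h, e, if_pos hd, hr, if_pos he, mul_one]
      · rw [if_neg h]
        have : ¬ N.rep O x = η := by
          intro h'
          exact h ((N.rep_iff O x0 x).mp (h'.trans he.symm))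
        rw [if_neg this, mul_zero]
    simp only [hfun]
    have hID : I ⊆ (N.expl O x0)ᶜ := fun f hf hf' => (Set.disjoint_left.mp hd) hf' hf
    refine N.class_le ht0 ht hκ hβ hκ0 hβ0 (D := (N.expl O x0)ᶜ) (D' := Oᶜ)
      (Set.compl_subset_compl.mpr (N.subset_expl O x0)) (blk_expl hN O x0) hX hXa hA ?_
    intro x x' s s' h1 h2
    exact hAI x x' s s' (agIn_mono hID h1) fun i hi => h2 i (inD_mono hID hi)
  · have hfun : ∀ x : Cfg V F E K,
        (if Disjoint (N.expl O x) I then (1 : ℝ) else 0) * (if N.rep O x = η then 1 else 0)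
          = 0 := by
      intro x
      by_cases h1 : Disjoint (N.expl O x) I
      · by_cases h2 : N.rep O x = η
        · exact absurd ⟨x, h1, h2⟩ hη
        · rw [if_neg h2, mul_zero]
      · rw [if_neg h1, zero_mul]
    simp only [hfun, mul_zero, zero_mul]
    have : N.J t κ β (fun (_ : Cfg V F E K) (_ : V ⊕ F → Bool) => (0 : ℝ)) = 0 := by
      simp only [J, mul_zero, sum_const_zero]
    rw [this, zero_mul, zero_mul]

end

end Net

end Vale.Agent.P145.FK
end

section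

/-!
P145, block K1: from magnitudes and signs to sums over signed heights with zero boundary
conditions, in the format of `FC.Explore`.
-/

namespace Vale.Agent.P145.FK

open Finset
open scoped Classical

namespace Net

variable {V F E : Type*} {K : ℕ}

/-- The incidence structure in the format of `FC`. -/
def toInc (N : Net V F E) : FC.Inc V F E :=
  ⟨N.u, N.v, N.f, N.g, N.inc, N.huf, N.hug, N.hvf, N.hvg⟩

/-- The sign of a Boolean. -/
def sg (b : Bool) : ℤ := if b then -1 else 1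

/-- Even sites inside `S`. -/
def UU (N : Net V F E) (S : Set F) : Set V := {v | ∀ f, N.inc v f → f ∈ S}

/-- Signed height of a site (zero at the odd sites outside `S`). -/
noncomputable def pv (S : Set F) (i : V ⊕ F) (p : Fin (K + 1) × Bool) : ℤ :=
  Sum.elim (fun _ => sg p.2 * (2 * ((p.1 : ℕ) : ℤ)))
    (fun f => if f ∈ S then sg p.2 * (2 * ((p.1 : ℕ) : ℤ) + 1) else 0) i

/-- Signed configuration. -/
noncomputable def img (N : Net V F E) (S : Set F) (x : Cfg V F E K) (s : V ⊕ F → Bool) :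
    FC.Cf V F E where
  h := fun v => pv (V := V) S (.inl v) (x.1 (.inl v), s (.inl v))
  k := fun f => pv (V := V) S (.inr f) (x.1 (.inr f), s (.inr f))
  w := fun e => decide (N.inE S e ∧ ¬ N.blocked x e)

/-- On-site weights of the six-vertex model. -/
noncomputable def κ6 (i : V ⊕ F) (a : Fin (K + 1)) : ℝ :=
  Sum.elim (fun _ => if (a : ℕ) = 0 then 1 / 2 else 1) (fun _ => 1) i

/-- Weights of closed and open medial vertices. -/
noncomputable def β6 (t : ℝ) (_ : E) (b : Bool) : ℝ := if b then 1 - t else t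

lemma κ6_nonneg (i : V ⊕ F) (a : Fin (K + 1)) : 0 ≤ κ6 i a := by
  rcases i with v | f
  · simp only [κ6, Sum.elim_inl]
    split_ifs <;> norm_num
  · simp only [κ6, Fin.val_eq_zero_iff, one_div, Sum.elim_inr, zero_le_one]

lemma κ6_pos (i : V ⊕ F) (a : Fin (K + 1)) : 0 < κ6 i a := by
  rcases i with v | f
  · simp only [κ6, Sum.elim_inl]
    split_ifs <;> norm_num
  · simp only [κ6, Fin.val_eq_zero_iff, one_div, Sum.elim_inr, zero_lt_one]

lemma β6_nonneg {t : ℝ} (h0 : 0 ≤ t) (h1 : t ≤ 1) (e : E) (b : Bool) : 0 ≤ β6 t e b := by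
  cases b
  · simpa only [β6, Bool.false_eq_true, ↓reduceIte] using h0
  · simpa only [β6, ↓reduceIte, sub_nonneg] using h1

lemma β6_pos {t : ℝ} (h0 : 0 < t) (e : E) : 0 < β6 t e false := by
  simpa [β6] using h0

lemma sg_cases (b : Bool) : sg b = 1 ∨ sg b = -1 := by cases b <;> simp [sg]

/-- Site weights with the zero boundary condition. -/
noncomputable def cS (N : Net V F E) (S : Set F) (i : V ⊕ F) (z : Fin (K + 1) × Bool) : ℝ :=
  κ6 i z.1 * (if N.inD S i then 1 else if (z.1 : ℕ) = 0 then 1 else 0)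

lemma sum_even (y : ℤ) (c : Fin (K + 1) → ℝ) (hc0 : c 0 = 1 / 2)
    (hc : ∀ a : Fin (K + 1), (a : ℕ) ≠ 0 → c a = 1)
    (hy : ∃ z : Fin (K + 1) × Bool, sg z.2 * (2 * ((z.1 : ℕ) : ℤ)) = y) :
    ∑ z ∈ Finset.univ.filter (fun z : Fin (K + 1) × Bool =>
      sg z.2 * (2 * ((z.1 : ℕ) : ℤ)) = y), c z.1 = 1 := by
  obtain ⟨⟨a0, s0⟩, h0⟩ := hy
  simp only at h0
  by_cases ha : (a0 : ℕ) = 0
  · have hy0 : y = 0 := by rw [← h0, ha]; simp
    have : Finset.univ.filter (fun z : Fin (K + 1) × Bool =>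
        sg z.2 * (2 * ((z.1 : ℕ) : ℤ)) = y) = {((0 : Fin (K + 1)), true), ((0 : Fin (K + 1)), false)} := by
      ext ⟨a, s⟩
      simp only [Finset.mem_filter, Finset.mem_univ, true_and, Finset.mem_insert,
        Finset.mem_singleton, Prod.mk.injEq, hy0]
      constructor
      · intro h
        have h1 : (a : ℕ) = 0 := by
          rcases sg_cases s with hs | hs <;> rw [hs] at h <;> omega
        have h2 : a = 0 := Fin.ext (by simpa using h1)
        cases s
        · right; exact ⟨h2, rfl⟩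
        · left; exact ⟨h2, rfl⟩
      · rintro (⟨rfl, rfl⟩ | ⟨rfl, rfl⟩) <;> simp
    rw [this, Finset.sum_pair (by simp)]
    simp only [hc0]
    norm_num
  · have : Finset.univ.filter (fun z : Fin (K + 1) × Bool =>
        sg z.2 * (2 * ((z.1 : ℕ) : ℤ)) = y) = {(a0, s0)} := by
      ext ⟨a, s⟩
      simp only [Finset.mem_filter, Finset.mem_univ, true_and,
        Finset.mem_singleton, Prod.mk.injEq]
      constructor
      · intro h
        rw [← h0] at h
        have h1 : (a : ℕ) = a0 ∧ s = s0 := by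
          cases s <;> cases s0 <;> simp only [sg] at h <;>
            simp only [and_true, reduceCtorEq, and_false] <;> simp at h <;> omega
        exact ⟨Fin.ext h1.1, h1.2⟩
      · rintro ⟨rfl, rfl⟩
        exact h0
    rw [this, Finset.sum_singleton]
    exact hc _ ha

lemma sum_odd (y : ℤ)
    (hy : ∃ z : Fin (K + 1) × Bool, sg z.2 * (2 * ((z.1 : ℕ) : ℤ) + 1) = y) :
    ∑ z ∈ Finset.univ.filter (fun z : Fin (K + 1) × Bool =>
      sg z.2 * (2 * ((z.1 : ℕ) : ℤ) + 1) = y), (1 : ℝ) = 1 := by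
  obtain ⟨⟨a0, s0⟩, h0⟩ := hy
  simp only at h0
  have : Finset.univ.filter (fun z : Fin (K + 1) × Bool =>
      sg z.2 * (2 * ((z.1 : ℕ) : ℤ) + 1) = y) = {(a0, s0)} := by
    ext ⟨a, s⟩
    simp only [Finset.mem_filter, Finset.mem_univ, true_and,
      Finset.mem_singleton, Prod.mk.injEq]
    constructor
    · intro h
      rw [← h0] at h
      have h1 : (a : ℕ) = a0 ∧ s = s0 := by
        cases s <;> cases s0 <;> simp only [sg] at h <;>
          simp only [and_true, reduceCtorEq, and_false] <;> simp at h <;> omega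
      exact ⟨Fin.ext h1.1, h1.2⟩
    · rintro ⟨rfl, rfl⟩
      exact h0
  rw [this, Finset.sum_singleton]

/-- The fibre weights of the sites. -/
lemma d_site (N : Net V F E) (S : Set F) (i : V ⊕ F) (y : ℤ)
    (hy : ∃ z : Fin (K + 1) × Bool, pv S i z = y) (h0 : ¬ N.inD S i → y = 0) :
    ∑ z ∈ Finset.univ.filter (fun z : Fin (K + 1) × Bool => pv S i z = y), N.cS S i z
      = Sum.elim (fun _ => 1) (fun f => if f ∈ S then 1 else 2) i := by
  rcases i with v | f
  · simp only [pv, Sum.elim_inl] at hy ⊢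
    by_cases hv : N.inD S (.inl v)
    · refine Eq.trans (Finset.sum_congr rfl fun z _ => ?_) (sum_even (K := K) y
        (fun a => κ6 (V := V) (F := F) (.inl v) a) (by simp [κ6])
        (fun a ha => by simp only [κ6, Sum.elim_inl, if_neg ha]) hy)
      simp [cS, hv]
    · have hy0 := h0 hv
      refine Eq.trans (Finset.sum_congr rfl fun z hz => ?_) (sum_even (K := K) y
        (fun a => κ6 (V := V) (F := F) (.inl v) a) (by simp only [κ6, Fin.coe_ofNat_eq_mod, Nat.zero_mod, ↓reduceIte, one_div, Sum.elim_inl])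
        (fun a ha => by simp only [κ6, Sum.elim_inl, if_neg ha]) hy)
      have hz' := (Finset.mem_filter.mp hz).2
      rw [hy0] at hz'
      have h1 : (z.1 : ℕ) = 0 := by
        rcases sg_cases z.2 with hs | hs <;> rw [hs] at hz' <;> omega
      simp [cS, h1]
  · simp only [pv, Sum.elim_inr] at hy ⊢
    by_cases hf : f ∈ S
    · have hf' : N.inD S (.inr f) := hf
      simp only [if_pos hf] at hy ⊢
      refine Eq.trans (Finset.sum_congr rfl fun z _ => ?_) (sum_odd (K := K) y hy)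
      simp [cS, κ6, hf']
    · have hf' : ¬ N.inD S (.inr f) := hf
      have hy0 := h0 hf'
      simp only [if_neg hf] at hy ⊢
      have e1 : Finset.univ.filter (fun _ : Fin (K + 1) × Bool => (0 : ℤ) = y) = Finset.univ := by
        ext z; simp [hy0]
      rw [e1, Fintype.sum_prod_type]
      simp only [cS, κ6, Sum.elim_inr, if_neg hf', one_mul, Fintype.sum_bool]
      rw [Fin.sum_univ_succ]
      simp only [Fin.coe_ofNat_eq_mod, Nat.zero_mod, ↓reduceIte, Fin.val_succ, Nat.add_eq_zero_iff, one_ne_zero, and_false, add_zero, sum_const_zero]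
      norm_num

section
variable [Fintype V] [Fintype F] [Fintype E]

/-- Signed configuration from heights and edge variables. -/
def toCf (y : V ⊕ F → ℤ) (w : E → Bool) : FC.Cf V F E := ⟨fun v => y (.inl v), fun f => y (.inr f), w⟩

/-- The edge variable of `FC`. -/
noncomputable def pe (N : Net V F E) (S : Set F) (z0 : E → Prop) (e : E) (b : Bool) : Bool :=
  decide (N.inE S e ∧ ¬ (z0 e ∧ b = false))

omit [Fintype V] [Fintype F] [Fintype E] in
lemma pe_true {N : Net V F E} {S : Set F} {z0 : E → Prop} {e : E} {b : Bool} :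
    N.pe S z0 e b = true ↔ N.inE S e ∧ ¬ (z0 e ∧ b = false) := by
  unfold pe
  exact decide_eq_true_iff

omit [Fintype V] [Fintype F] [Fintype E] in
lemma img_w_true {N : Net V F E} {S : Set F} {x : Cfg V F E K} {s : V ⊕ F → Bool} {e : E} :
    (N.img S x s).w e = true ↔ N.inE S e ∧ ¬ N.blocked x e := by
  unfold img
  exact decide_eq_true_iff

/-- Edge weights with the zero boundary condition. -/
noncomputable def cE (N : Net V F E) (t : ℝ) (S : Set F) (s : V ⊕ F → Bool) (e : E) (b : Bool) : ℝ :=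
  β6 t e b * (if b = true then N.th 0 e s else 1) *
    (if N.inE S e then 1 else if b = false then 1 else 0)

omit [Fintype V] [Fintype F] [Fintype E] in
/-- The fibre weights of the medial vertices. -/
lemma d_edge (N : Net V F E) (t : ℝ) (S : Set F) (z0 : E → Prop) (s : V ⊕ F → Bool) (e : E)
    (b : Bool) :
    ∑ z ∈ Finset.univ.filter (fun z : Bool => N.pe S z0 e z = b), N.cE t S s e z
      = if N.inE S e then
          (if z0 e then (if b = true then (1 - t) * N.th 0 e s else t)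
            else (if b = true then (1 - t) * N.th 0 e s + t else 0))
        else (if b = true then 0 else t) := by
  rw [Finset.sum_filter, Fintype.sum_bool]
  by_cases h1 : N.inE S e
  · by_cases h2 : z0 e
    · cases b <;> simp [pe, cE, β6, h1, h2]
    · cases b <;> simp [pe, cE, β6, h1, h2]
  · cases b <;> simp [pe, cE, β6, h1]

/-- The weight of a signed configuration, zero if it is not admissible. -/
noncomputable def Φ (N : Net V F E) (t : ℝ) (S : Set F) (y : FC.Cf V F E) : ℝ :=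
  if y ∈ FC.Cfg N.toInc (N.UU S) S then FC.wt N.toInc t⁻¹ S y else 0

omit [Fintype V] [Fintype E] in
lemma cv_eq_one {N : Net V F E} {v : V} {s : V ⊕ F → Bool} :
    N.cv v s = 1 ↔ ∀ f, N.inc v f → s (.inl v) = s (.inr f) := by
  constructor
  · intro h f hf
    by_contra hne
    have h0 : N.cv v s = 0 := by
      unfold cv
      refine Finset.prod_eq_zero (i := f) (by simp only [mem_filter, mem_univ, hf, and_self]) ?_
      unfold pr
      revert hne
      cases s (.inl v) <;> cases s (.inr f) <;> norm_num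
    rw [h0] at h
    norm_num at h
  · intro h
    unfold cv
    refine Finset.prod_eq_one fun f hf => ?_
    have h1 := h f (Finset.mem_filter.mp hf).2
    unfold pr
    rw [h1]
    cases s (.inr f) <;> norm_num

omit [Fintype V] [Fintype E] in
/-- The pair constraints in terms of the signed heights. -/
lemma pair_iff (N : Net V F E) (S : Set F) (a : V ⊕ F → Fin (K + 1)) (s : V ⊕ F → Bool)
    (ha : ∀ i, ¬ N.inD S i → (a i : ℕ) = 0) :
    (N.adm a ∧ ∀ v, (a (.inl v) : ℕ) ≠ 0 → N.cv v s = 1) ↔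
      ∀ v f, N.inc v f → f ∈ S →
        |pv (V := V) S (.inl v) (a (.inl v), s (.inl v)) -
          pv (V := V) S (.inr f) (a (.inr f), s (.inr f))| = 1 := by
  constructor
  · rintro ⟨h1, h2⟩ v f hvf hf
    simp only [pv, Sum.elim_inl, Sum.elim_inr, if_pos hf]
    have h3 := h1 v f hvf
    by_cases h0 : (a (.inl v) : ℕ) = 0
    · have h4 : (a (.inr f) : ℕ) = 0 := by omega
      rw [h0, h4]
      rcases sg_cases (s (.inr f)) with hs | hs <;> rw [hs] <;> simp
    · have h4 := cv_eq_one.mp (h2 v h0) f hvf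
      rw [h4]
      rcases sg_cases (s (.inr f)) with hs | hs <;> rw [hs] <;> rcases h3 with h3 | h3 <;>
        rw [abs_eq (by norm_num)] <;> omega
  · intro h
    constructor
    · intro v f hvf
      by_cases hf : f ∈ S
      · have h3 := h v f hvf hf
        simp only [pv, Sum.elim_inl, Sum.elim_inr, if_pos hf] at h3
        rw [abs_eq (by (clear * -; norm_num))] at h3
        rcases sg_cases (s (.inr f)) with hs | hs <;> rcases sg_cases (s (.inl v)) with hs' | hs' <;>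
          rw [hs, hs'] at h3 <;> omega
      · have hv : ¬ N.inD S (.inl v) := fun h' => hf (h' f hvf)
        have h1 := ha _ hv
        have h2 := ha (.inr f) hf
        left
        rw [h1, h2]
    · intro v hv
      rw [cv_eq_one]
      intro f hvf
      have hf : f ∈ S := by
        by_contra hf
        exact hv (ha _ fun h' => hf (h' f hvf))
      have h3 := h v f hvf hf
      simp only [pv, Sum.elim_inl, Sum.elim_inr, if_pos hf] at h3
      rw [abs_eq (by norm_num)] at h3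
      cases hs : s (.inl v) <;> cases hs' : s (.inr f) <;> simp only [sg, hs, hs'] at h3 ⊢ <;>
        simp at h3 <;> omega

omit [Fintype V] [Fintype E] in
/-- The identity at a medial vertex. -/
lemma edge_id (N : Net V F E) {t : ℝ} (ht : 0 < t) (S : Set F) (a : V ⊕ F → Fin (K + 1))
    (s : V ⊕ F → Bool) (ha : ∀ i, ¬ N.inD S i → (a i : ℕ) = 0) (had : N.adm a)
    (hcv : ∀ v, (a (.inl v) : ℕ) ≠ 0 → N.cv v s = 1) (w : E → Bool) (e : E) :
    N.wE t a e * (if N.inE S e then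
          (if (a (.inl (N.u e)) : ℕ) = 0 ∧ (a (.inl (N.v e)) : ℕ) = 0
            then (if w e = true then (1 - t) * N.th 0 e s else t)
            else (if w e = true then (1 - t) * N.th 0 e s + t else 0))
        else (if w e = true then 0 else t))
      = t * (if N.inE S e then
          (if w e = false ∧ ¬ ((a (.inl (N.u e)) : ℕ) = 0 ∧ (a (.inl (N.v e)) : ℕ) = 0) then 0
            else FC.ew N.toInc t⁻¹ (toCf (fun i => pv (V := V) S i (a i, s i)) w) e)
          else (if w e = true then 0 else 1)) := by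
  have m1 := had _ _ (N.huf e)
  have m2 := had _ _ (N.hug e)
  have m3 := had _ _ (N.hvf e)
  have m4 := had _ _ (N.hvg e)
  by_cases hE : N.inE S e
  · rw [if_pos hE, if_pos hE]
    have hfS : N.f e ∈ S := hE.1
    have hgS : N.g e ∈ S := hE.2
    have hew : FC.ew N.toInc t⁻¹ (toCf (fun i => pv (V := V) S i (a i, s i)) w) e
        = if (sg (s (.inl (N.u e))) * (2 * ((a (.inl (N.u e)) : ℕ) : ℤ)) = 0 ∧
            sg (s (.inl (N.v e))) * (2 * ((a (.inl (N.v e)) : ℕ) : ℤ)) = 0) then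
          (if w e = true then (if sg (s (.inr (N.f e))) * (2 * ((a (.inr (N.f e)) : ℕ) : ℤ) + 1)
            = sg (s (.inr (N.g e))) * (2 * ((a (.inr (N.g e)) : ℕ) : ℤ) + 1) then t⁻¹ - 1 else 0)
            else 1)
          else (if sg (s (.inl (N.u e))) * (2 * ((a (.inl (N.u e)) : ℕ) : ℤ)) =
            sg (s (.inl (N.v e))) * (2 * ((a (.inl (N.v e)) : ℕ) : ℤ)) ∧
            sg (s (.inr (N.f e))) * (2 * ((a (.inr (N.f e)) : ℕ) : ℤ) + 1)
            = sg (s (.inr (N.g e))) * (2 * ((a (.inr (N.g e)) : ℕ) : ℤ) + 1) then t⁻¹ else 1) := by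
      simp only [FC.ew, toInc, toCf, pv, Sum.elim_inl, Sum.elim_inr, if_pos hfS, if_pos hgS]
    rw [hew]
    by_cases hz : (a (.inl (N.u e)) : ℕ) = 0 ∧ (a (.inl (N.v e)) : ℕ) = 0
    · have hf0 : (a (.inr (N.f e)) : ℕ) = 0 := by omega
      have hg0 : (a (.inr (N.g e)) : ℕ) = 0 := by omega
      have hwE : N.wE t a e = 1 := by
        unfold wE
        rw [if_pos]
        (clear * - hz hf0 hg0; omega)
      rw [if_pos hz, hwE, hz.1, hz.2, hf0, hg0]
      simp only [not_true_eq_false, and_false, if_false, Nat.cast_zero, mul_zero, and_self,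
        if_true, zero_add, mul_one, one_mul]
      cases hw : w e
      · simp
      · simp only [if_true, th, pr]
        have hti : t * (t⁻¹ - 1) = 1 - t := by
          rw [mul_sub, mul_inv_cancel₀ ht.ne', mul_one]
        cases s (.inr (N.f e)) <;> cases s (.inr (N.g e)) <;> simp [sg, hti] <;> norm_num
    · have hzz : ¬ (sg (s (.inl (N.u e))) * (2 * ((a (.inl (N.u e)) : ℕ) : ℤ)) = 0 ∧
            sg (s (.inl (N.v e))) * (2 * ((a (.inl (N.v e)) : ℕ) : ℤ)) = 0) := by
        intro h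
        apply hz
        rcases sg_cases (s (.inl (N.u e))) with hs | hs <;>
          rcases sg_cases (s (.inl (N.v e))) with hs' | hs' <;> rw [hs, hs'] at h <;> omega
      rw [if_neg hz, if_neg hzz]
      cases hw : w e
      · simp only [Bool.false_eq_true, if_false, true_and, if_pos hz, mul_zero]
      · have hfg : s (.inr (N.f e)) = s (.inr (N.g e)) := by
          by_cases hu : (a (.inl (N.u e)) : ℕ) = 0
          · have hv : (a (.inl (N.v e)) : ℕ) ≠ 0 := fun h => hz ⟨hu, h⟩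
            have h := cv_eq_one.mp (hcv _ hv)
            rw [← h _ (N.hvf e), ← h _ (N.hvg e)]
          · have h := cv_eq_one.mp (hcv _ hu)
            rw [← h _ (N.huf e), ← h _ (N.hug e)]
        have hth : N.th 0 e s = 1 := by
          unfold th pr
          rw [hfg]
          cases s (.inr (N.g e)) <;> norm_num
        have hiff : (sg (s (.inl (N.u e))) * (2 * ((a (.inl (N.u e)) : ℕ) : ℤ)) =
            sg (s (.inl (N.v e))) * (2 * ((a (.inl (N.v e)) : ℕ) : ℤ)) ∧
            sg (s (.inr (N.f e))) * (2 * ((a (.inr (N.f e)) : ℕ) : ℤ) + 1)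
            = sg (s (.inr (N.g e))) * (2 * ((a (.inr (N.g e)) : ℕ) : ℤ) + 1)) ↔
            ((a (.inl (N.u e)) : ℕ) = a (.inl (N.v e)) ∧
              (a (.inr (N.f e)) : ℕ) = a (.inr (N.g e))) := by
          have hu : (a (.inl (N.u e)) : ℕ) ≠ 0 → s (.inl (N.u e)) = s (.inr (N.g e)) := fun h =>
            cv_eq_one.mp (hcv _ h) _ (N.hug e)
          have hv : (a (.inl (N.v e)) : ℕ) ≠ 0 → s (.inl (N.v e)) = s (.inr (N.g e)) := fun h =>
            cv_eq_one.mp (hcv _ h) _ (N.hvg e)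
          rw [hfg]
          constructor
          · rintro ⟨h1, h2⟩
            constructor
            · rcases sg_cases (s (.inl (N.u e))) with hs | hs <;>
                rcases sg_cases (s (.inl (N.v e))) with hs' | hs' <;> rw [hs, hs'] at h1 <;> omega
            · rcases sg_cases (s (.inr (N.g e))) with hs | hs <;> rw [hs] at h2 <;> omega
          · rintro ⟨h1, h2⟩
            constructor
            · by_cases h0 : (a (.inl (N.u e)) : ℕ) = 0
              · rw [← h1, h0]; simp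
              · rw [hu h0, hv (h1 ▸ h0), h1]
            · rw [h2]
        simp only [if_true, Bool.true_eq_false, false_and, if_false, hth, mul_one]
        unfold wE
        by_cases hfl : ((a (.inl (N.u e)) : ℕ) = a (.inl (N.v e)) ∧
              (a (.inr (N.f e)) : ℕ) = a (.inr (N.g e)))
        · rw [if_pos hfl, if_pos (hiff.mpr hfl), mul_inv_cancel₀ ht.ne']
          ring
        · rw [if_neg hfl, if_neg (fun h => hfl (hiff.mp h))]
          ring
  · rw [if_neg hE, if_neg hE]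
    have h0 : (a (.inl (N.u e)) : ℕ) = 0 ∧ (a (.inl (N.v e)) : ℕ) = 0 := by
      by_cases hfS : N.f e ∈ S
      · have hgS : N.g e ∉ S := fun h => hE ⟨hfS, h⟩
        exact ⟨ha _ fun h => hgS (h _ (N.hug e)), ha _ fun h => hgS (h _ (N.hvg e))⟩
      · exact ⟨ha _ fun h => hfS (h _ (N.huf e)), ha _ fun h => hfS (h _ (N.hvf e))⟩
    have hwE : N.wE t a e = 1 := by
      unfold wE
      rw [if_pos]
      omega
    rw [hwE]
    cases w e <;> simp

/-- The product of the pair constraints. -/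
noncomputable def CV (N : Net V F E) (a : V ⊕ F → Fin (K + 1)) (s : V ⊕ F → Bool) : ℝ :=
  ∏ p ∈ Finset.univ.filter (fun p : V × F => N.inc p.1 p.2),
      (if (a (.inl p.1) : ℕ) ≠ 0 then pr (1 / 2) (1 / 2) (.inl p.1) (.inr p.2) s else 1)

omit [Fintype E] in
lemma CV_eq (N : Net V F E) (a : V ⊕ F → Fin (K + 1)) (s : V ⊕ F → Bool) :
    N.CV a s = if (∀ v, (a (.inl v) : ℕ) ≠ 0 → N.cv v s = 1) then 1 else 0 := by
  by_cases h : ∀ v, (a (.inl v) : ℕ) ≠ 0 → N.cv v s = 1
  · rw [if_pos h]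
    unfold CV
    refine Finset.prod_eq_one fun p hp => ?_
    by_cases h0 : (a (.inl p.1) : ℕ) ≠ 0
    · rw [if_pos h0]
      have h1 := cv_eq_one.mp (h _ h0) _ (Finset.mem_filter.mp hp).2
      unfold pr
      rw [h1]
      cases s (.inr p.2) <;> norm_num
    · rw [if_neg h0]
  · rw [if_neg h]
    push Not at h
    obtain ⟨v, hv, hne⟩ := h
    have h1 : ¬ ∀ f, N.inc v f → s (.inl v) = s (.inr f) := fun h' => hne (cv_eq_one.mpr h')
    push Not at h1
    obtain ⟨f, hf, hsf⟩ := h1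
    unfold CV
    refine Finset.prod_eq_zero (i := (v, f)) (by simp only [mem_filter, mem_univ, hf, and_self]) ?_
    rw [if_pos hv]
    unfold pr
    revert hsf
    cases s (.inl v) <;> cases s (.inr f) <;> norm_num

omit [Fintype V] [Fintype F] [Fintype E] in
lemma mem_Cfg (N : Net V F E) (S : Set F) (a : V ⊕ F → Fin (K + 1)) (s : V ⊕ F → Bool)
    (ha : ∀ i, ¬ N.inD S i → (a i : ℕ) = 0) (w : E → Bool) :
    toCf (fun i => pv (V := V) S i (a i, s i)) w ∈ FC.Cfg N.toInc (N.UU S) S ↔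
      (∀ v f, N.inc v f → f ∈ S →
        |pv (V := V) S (.inl v) (a (.inl v), s (.inl v)) -
          pv (V := V) S (.inr f) (a (.inr f), s (.inr f))| = 1) ∧
      (∀ e, ¬ N.inE S e → w e = false) ∧
      (∀ e, N.inE S e → w e = false → (a (.inl (N.u e)) : ℕ) = 0 ∧
        (a (.inl (N.v e)) : ℕ) = 0) := by
  have hz : ∀ v, pv (V := V) S (.inl v) (a (.inl v), s (.inl v)) = 0 ↔
      (a (.inl v) : ℕ) = 0 := by
    intro v
    simp only [pv, Sum.elim_inl]
    rcases sg_cases (s (.inl v)) with hs | hs <;> rw [hs] <;> constructor <;> intro h <;> omega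
  constructor
  · intro h
    refine ⟨h.2.2.2.1, h.2.2.2.2.1, fun e he hw => ?_⟩
    have h1 := h.2.2.2.2.2 e he.1 he.2 hw
    exact ⟨(hz _).mp h1.1, (hz _).mp h1.2⟩
  · rintro ⟨h1, h2, h3⟩
    refine ⟨fun v hv => ?_, fun f hf => ?_, fun v => ?_, h1, h2, fun e he1 he2 hw => ?_⟩
    · exact (hz v).mpr (ha _ hv)
    · simp only [toCf, pv, Sum.elim_inr, if_neg hf]
    · simp only [toCf, pv, Sum.elim_inl]
      rcases sg_cases (s (.inl v)) with hs | hs <;> rw [hs]
      · exact ⟨((a (.inl v) : ℕ) : ℤ), by ring⟩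
      · exact ⟨-((a (.inl v) : ℕ) : ℤ), by ring⟩
    · have h4 := h3 e ⟨he1, he2⟩ hw
      exact ⟨(hz _).mpr h4.1, (hz _).mpr h4.2⟩

/-- The identity for a configuration. -/
lemma Phi_eq (N : Net V F E) {t : ℝ} (ht : 0 < t) (S : Set F) (a : V ⊕ F → Fin (K + 1))
    (s : V ⊕ F → Bool) (ha : ∀ i, ¬ N.inD S i → (a i : ℕ) = 0) (w : E → Bool) :
    (if N.adm a then (1 : ℝ) else 0) * (∏ e, N.wE t a e) * N.CV a s *
      (∏ e, (if N.inE S e then
          (if (a (.inl (N.u e)) : ℕ) = 0 ∧ (a (.inl (N.v e)) : ℕ) = 0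
            then (if w e = true then (1 - t) * N.th 0 e s else t)
            else (if w e = true then (1 - t) * N.th 0 e s + t else 0))
        else (if w e = true then 0 else t)))
      = t ^ Fintype.card E * N.Φ t S (toCf (fun i => pv (V := V) S i (a i, s i)) w) := by
  rw [CV_eq]
  by_cases h : N.adm a ∧ ∀ v, (a (.inl v) : ℕ) ≠ 0 → N.cv v s = 1
  · obtain ⟨had, hcv⟩ := h
    rw [if_pos had, if_pos hcv, one_mul, mul_one, ← Finset.prod_mul_distrib]
    rw [Finset.prod_congr rfl fun e _ => N.edge_id ht S a s ha had hcv w e,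
      Finset.prod_mul_distrib, Finset.prod_const, Finset.card_univ]
    congr 1
    have hice := (N.pair_iff S a s ha).mp ⟨had, hcv⟩
    unfold Φ
    by_cases hC : toCf (fun i => pv (V := V) S i (a i, s i)) w ∈ FC.Cfg N.toInc (N.UU S) S
    · rw [if_pos hC]
      obtain ⟨_, h2, h3⟩ := (N.mem_Cfg S a s ha w).mp hC
      unfold FC.wt
      refine Finset.prod_congr rfl fun e _ => ?_
      by_cases he : N.inE S e
      · have he' : N.toInc.a e ∈ S ∧ N.toInc.b e ∈ S := he
        rw [if_pos he, if_pos he', if_neg]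
        rintro ⟨hw, hn⟩
        exact hn (h3 e he hw)
      · have he' : ¬ (N.toInc.a e ∈ S ∧ N.toInc.b e ∈ S) := he
        rw [if_neg he, if_neg he', if_neg]
        rw [h2 e he]
        simp
    · rw [if_neg hC]
      have hn : ¬ ((∀ e, ¬ N.inE S e → w e = false) ∧
          (∀ e, N.inE S e → w e = false → (a (.inl (N.u e)) : ℕ) = 0 ∧
            (a (.inl (N.v e)) : ℕ) = 0)) := fun h' =>
        hC ((N.mem_Cfg S a s ha w).mpr ⟨hice, h'.1, h'.2⟩)
      by_cases h2 : ∀ e, ¬ N.inE S e → w e = false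
      · have h3 : ¬ ∀ e, N.inE S e → w e = false → (a (.inl (N.u e)) : ℕ) = 0 ∧
            (a (.inl (N.v e)) : ℕ) = 0 := fun h' => hn ⟨h2, h'⟩
        push Not at h3
        obtain ⟨e, he, hw, hz⟩ := h3
        refine Finset.prod_eq_zero (Finset.mem_univ e) ?_
        rw [if_pos he, if_pos]
        exact ⟨hw, fun h' => hz h'.1 h'.2⟩
      · push Not at h2
        obtain ⟨e, he, hw⟩ := h2
        refine Finset.prod_eq_zero (Finset.mem_univ e) ?_
        rw [if_neg he, if_pos]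
        simpa using hw
  · have hC : toCf (fun i => pv (V := V) S i (a i, s i)) w ∉ FC.Cfg N.toInc (N.UU S) S := by
      intro hC
      exact h ((N.pair_iff S a s ha).mpr ((N.mem_Cfg S a s ha w).mp hC).1)
    unfold Φ
    rw [if_neg hC, mul_zero]
    by_cases had : N.adm a
    · have hcv : ¬ ∀ v, (a (.inl v) : ℕ) ≠ 0 → N.cv v s = 1 := fun h' => h ⟨had, h'⟩
      rw [if_neg hcv]
      ring
    · rw [if_neg had]
      ring

end

end Net

end Vale.Agent.P145.FK
end

section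

/-!
P145, block K1: the bridge between the sums over magnitudes, signs and medial vertices and the
sums over signed heights with zero boundary conditions.
-/

namespace Vale.Agent.P145.FK

open Finset
open scoped Classical

namespace Net

variable {V F E : Type*} {K : ℕ}

section
variable [Fintype V] [Fintype F] [Fintype E]

lemma zbi_prod (N : Net V F E) (S : Set F) (x : Cfg V F E K) :
    N.zbi S x = (∏ i, (if N.inD S i then (1 : ℝ) else if (x.1 i : ℕ) = 0 then 1 else 0)) *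
      ∏ e, (if N.inE S e then (1 : ℝ) else if x.2 e = false then 1 else 0) := by
  by_cases h : N.zb S x
  · have h1 : N.zbi S x = 1 := if_pos h
    rw [h1, Finset.prod_eq_one, Finset.prod_eq_one, mul_one]
    · intro e _
      by_cases he : N.inE S e
      · rw [if_pos he]
      · rw [if_neg he, if_pos (h.2 e he)]
    · intro i _
      by_cases hi : N.inD S i
      · rw [if_pos hi]
      · rw [if_neg hi, if_pos (h.1 i hi)]
  · have h1 : N.zbi S x = 0 := if_neg h
    rw [h1]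
    unfold zb at h
    by_cases h2 : ∀ i, ¬ N.inD S i → (x.1 i : ℕ) = 0
    · have h3 : ¬ ∀ e, ¬ N.inE S e → x.2 e = false := fun h' => h ⟨h2, h'⟩
      push Not at h3
      obtain ⟨e, he, hx⟩ := h3
      have : (∏ e, (if N.inE S e then (1 : ℝ) else if x.2 e = false then 1 else 0)) = 0 :=
        Finset.prod_eq_zero (Finset.mem_univ e) (by rw [if_neg he, if_neg hx])
      rw [this, mul_zero]
    · push Not at h2
      obtain ⟨i, hi, hx⟩ := h2
      have : (∏ i, (if N.inD S i then (1 : ℝ) else if (x.1 i : ℕ) = 0 then 1 else 0)) = 0 :=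
        Finset.prod_eq_zero (Finset.mem_univ i) (by rw [if_neg hi, if_neg hx])
      rw [this, zero_mul]

/-- Factorisation of one term. -/
lemma term_eq (N : Net V F E) (t : ℝ) (S : Set F) (a : V ⊕ F → Fin (K + 1)) (ω : E → Bool)
    (s : V ⊕ F → Bool) (g : ℝ) :
    N.jw t κ6 (β6 t) (a, ω) * N.cst (act (a, ω)) s * (N.zbi S (a, ω) * g)
      = (∏ i, N.cS S i (a i, s i)) *
        (((if N.adm a then (1 : ℝ) else 0) * (∏ e, N.wE t a e) * N.CV a s) *
        ((∏ e, N.cE t S s e (ω e)) * g)) := by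
  rw [zbi_prod, cst_act]
  unfold jw mw cS cE CV
  simp only [Finset.prod_mul_distrib]
  ring

omit [Fintype V] [Fintype F] [Fintype E] in
lemma img_eq (N : Net V F E) (S : Set F) (a : V ⊕ F → Fin (K + 1)) (ω : E → Bool)
    (s : V ⊕ F → Bool) :
    N.img S (a, ω) s = toCf (fun i => pv (V := V) S i (a i, s i))
      (fun e => N.pe S (fun e => (a (.inl (N.u e)) : ℕ) = 0 ∧ (a (.inl (N.v e)) : ℕ) = 0) e (ω e))
      := by
  refine FC.Cf.ext rfl rfl ?_
  funext e
  rw [Bool.eq_iff_iff]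
  have h1 := img_w_true (N := N) (S := S) (x := (a, ω)) (s := s) (e := e)
  have h2 := pe_true (N := N) (S := S)
    (z0 := fun e => (a (.inl (N.u e)) : ℕ) = 0 ∧ (a (.inl (N.v e)) : ℕ) = 0) (e := e) (b := ω e)
  refine h1.trans (Iff.trans ?_ h2.symm)
  simp only [blocked, and_assoc]

/-- Possible signed heights. -/
noncomputable def TT (K : ℕ) (S : Set F) (i : V ⊕ F) : Finset ℤ :=
  Finset.univ.image (fun z : Fin (K + 1) × Bool => pv (V := V) S i z)

/-- The bridge, with explicit finite sums. -/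
theorem bridge_sum (N : Net V F E) {t : ℝ} (ht : 0 < t) (S : Set F) (G : FC.Cf V F E → ℝ) :
    N.J (K := K) t κ6 (β6 t) (fun x s => N.zbi S x * G (N.img S x s))
      = (t ^ Fintype.card E * 2 ^ (Finset.univ.filter (fun f => f ∉ S)).card) *
        ∑ y ∈ Fintype.piFinset (TT (V := V) K S), ∑ w : E → Bool,
          N.Φ t S (toCf y w) * G (toCf y w) := by
  have lhs : N.J (K := K) t κ6 (β6 t) (fun x s => N.zbi S x * G (N.img S x s))
      = ∑ p : V ⊕ F → Fin (K + 1) × Bool, (∏ i, N.cS S i (p i)) * (t ^ Fintype.card E *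
        ∑ w : E → Bool, N.Φ t S (toCf (fun i => pv (V := V) S i (p i)) w) *
          G (toCf (fun i => pv (V := V) S i (p i)) w)) := by
    unfold J
    rw [Fintype.sum_prod_type]
    have e1 : ∀ a : V ⊕ F → Fin (K + 1), ∑ ω : E → Bool, ∑ s : V ⊕ F → Bool,
        N.jw t κ6 (β6 t) (a, ω) * N.cst (act (a, ω)) s * (N.zbi S (a, ω) * G (N.img S (a, ω) s))
        = ∑ s : V ⊕ F → Bool, (∏ i, N.cS S i (a i, s i)) * (t ^ Fintype.card E *
        ∑ w : E → Bool, N.Φ t S (toCf (fun i => pv (V := V) S i (a i, s i)) w) *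
          G (toCf (fun i => pv (V := V) S i (a i, s i)) w)) := by
      intro a
      rw [Finset.sum_comm]
      refine Finset.sum_congr rfl fun s _ => ?_
      simp only [term_eq, img_eq]
      rw [← Finset.mul_sum, ← Finset.mul_sum]
      by_cases hc : (∏ i, N.cS S i (a i, s i)) = 0
      · rw [hc, zero_mul, zero_mul]
      have ha : ∀ i, ¬ N.inD S i → (a i : ℕ) = 0 := by
        intro i hi
        by_contra h0
        apply hc
        refine Finset.prod_eq_zero (Finset.mem_univ i) ?_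
        simp only [cS, if_neg hi, if_neg h0, mul_zero]
      congr 1
      have e2 := sum_fiber (fun (e : E) (b : Bool) => N.pe S
        (fun e => (a (.inl (N.u e)) : ℕ) = 0 ∧ (a (.inl (N.v e)) : ℕ) = 0) e b)
        (fun _ => Finset.univ) (fun _ _ => Finset.mem_univ _) (fun e b => N.cE t S s e b)
        (fun w => G (toCf (fun i => pv (V := V) S i (a i, s i)) w))
      rw [e2, Fintype.piFinset_univ, Finset.mul_sum, Finset.mul_sum]
      refine Finset.sum_congr rfl fun w _ => ?_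
      have e3 := N.Phi_eq ht S a s ha w
      simp only [d_edge]
      rw [← mul_assoc, ← mul_assoc]
      congr 1
      refine Eq.trans ?_ e3
      congr 1
      refine Finset.prod_congr rfl fun e _ => ?_
      congr
    rw [Finset.sum_congr rfl fun a _ => e1 a]
    rw [← Equiv.sum_comp (Equiv.arrowProdEquivProdArrow (V ⊕ F) (fun _ => Fin (K + 1))
      (fun _ => Bool)).symm, Fintype.sum_prod_type]
    rfl
  rw [lhs]
  have e4 := sum_fiber (fun (i : V ⊕ F) (z : Fin (K + 1) × Bool) => pv (V := V) S i z)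
    (TT (V := V) K S)
    (fun i z => Finset.mem_image_of_mem _ (Finset.mem_univ z)) (fun i z => N.cS S i z)
    (fun y => t ^ Fintype.card E * ∑ w : E → Bool, N.Φ t S (toCf y w) * G (toCf y w))
  rw [e4, Finset.mul_sum]
  refine Finset.sum_congr rfl fun y hy => ?_
  by_cases hall : ∀ w, N.Φ t S (toCf y w) = 0
  · simp only [Fintype.prod_sum_type, hall, zero_mul, sum_const_zero, mul_zero]
  push Not at hall
  obtain ⟨w, hw⟩ := hall
  have hC : (toCf y w : FC.Cf V F E) ∈ FC.Cfg N.toInc (N.UU S) S := by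
    by_contra h
    exact hw (if_neg h)
  have hy0 : ∀ i, ¬ N.inD S i → y i = 0 := by
    intro i hi
    rcases i with v | f
    · exact hC.1 v hi
    · exact hC.2.1 f hi
  have e5 : ∏ i, ∑ z ∈ Finset.univ.filter (fun z : Fin (K + 1) × Bool =>
      pv (V := V) S i z = y i), N.cS S i z
      = 2 ^ (Finset.univ.filter (fun f => f ∉ S)).card := by
    have e6 : ∀ i : V ⊕ F, ∑ z ∈ Finset.univ.filter (fun z : Fin (K + 1) × Bool =>
        pv (V := V) S i z = y i), N.cS S i z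
        = Sum.elim (fun _ => (1 : ℝ)) (fun f => if f ∈ S then 1 else 2) i := by
      intro i
      refine N.d_site S i (y i) ?_ (hy0 i)
      have := Fintype.mem_piFinset.mp hy i
      rw [TT, Finset.mem_image] at this
      obtain ⟨z, _, hz⟩ := this
      exact ⟨z, hz⟩
    rw [Finset.prod_congr rfl fun i _ => e6 i, Fintype.prod_sum_type]
    simp only [Sum.elim_inl, Sum.elim_inr, Finset.prod_const_one, one_mul]
    rw [Finset.prod_ite]
    simp only [prod_const_one, prod_const, one_mul]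
  rw [e5]
  ring

/-- Membership in `TT` for bounded heights. -/
lemma mem_TT_inl {S : Set F} {v : V} {y : ℤ} (he : Even y) (hb : |y| ≤ 2 * (K : ℤ)) :
    y ∈ TT (V := V) K S (.inl v) := by
  rw [TT, Finset.mem_image]
  simp only [pv, Sum.elim_inl]
  obtain ⟨j, hj⟩ := he
  have hb := abs_le.mp hb
  by_cases h0 : 0 ≤ j
  · refine ⟨(⟨j.toNat, by omega⟩, false), Finset.mem_univ _, ?_⟩
    simp only [sg, Bool.false_eq_true, if_false]
    omega
  · refine ⟨(⟨(-j).toNat, by omega⟩, true), Finset.mem_univ _, ?_⟩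
    simp only [sg, if_true]
    omega

lemma mem_TT_inr {S : Set F} {f : F} {y : ℤ} (hf : f ∈ S) (he : Odd y)
    (hb : |y| ≤ 2 * (K : ℤ) + 1) : y ∈ TT (V := V) K S (.inr f) := by
  rw [TT, Finset.mem_image]
  simp only [pv, Sum.elim_inr, if_pos hf]
  obtain ⟨m, hm⟩ := he
  have hb := abs_le.mp hb
  by_cases h0 : 0 ≤ m
  · refine ⟨(⟨m.toNat, by (clear * - hm hb; omega)⟩, false), Finset.mem_univ _, ?_⟩
    simp only [sg, Bool.false_eq_true, if_false]
    omega
  · refine ⟨(⟨(-m - 1).toNat, by omega⟩, true), Finset.mem_univ _, ?_⟩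
    simp only [sg, if_true]
    omega

lemma mem_TT_out {S : Set F} {f : F} {y : ℤ} (hf : f ∉ S) (he : y = 0) :
    y ∈ TT (V := V) K S (.inr f) := by
  rw [TT, Finset.mem_image]
  simp only [pv, Sum.elim_inr, if_neg hf]
  exact ⟨((0 : Fin (K + 1)), false), Finset.mem_univ _, he.symm⟩

lemma mem_TT_even {S : Set F} {v : V} {y : ℤ} (h : y ∈ TT (V := V) K S (.inl v)) : Even y := by
  rw [TT, Finset.mem_image] at h
  obtain ⟨z, _, rfl⟩ := h
  simp only [pv, Sum.elim_inl]
  rcases sg_cases z.2 with hs | hs <;> rw [hs]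
  · exact ⟨((z.1 : ℕ) : ℤ), by ring⟩
  · exact ⟨-((z.1 : ℕ) : ℤ), by ring⟩

/-- The bridge. -/
theorem bridge (N : Net V F E) {t : ℝ} (ht : 0 < t) (S : Set F)
    (hfin : ∀ y ∈ FC.Cfg N.toInc (N.UU S) S,
      (∀ v, |y.h v| ≤ 2 * (K : ℤ)) ∧ ∀ f, |y.k f| ≤ 2 * (K : ℤ) + 1)
    (hF : ∀ f ∈ S, ∃ v, N.inc v f) (G : FC.Cf V F E → ℝ) :
    N.J (K := K) t κ6 (β6 t) (fun x s => N.zbi S x * G (N.img S x s))
      = (t ^ Fintype.card E * 2 ^ (Finset.univ.filter (fun f => f ∉ S)).card) *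
        ∑ᶠ y ∈ FC.Cfg N.toInc (N.UU S) S, FC.wt N.toInc t⁻¹ S y * G y := by
  rw [bridge_sum N ht S G]
  congr 1
  symm
  rw [finsum_mem_def]
  have hinj : Function.Injective (fun p : (V ⊕ F → ℤ) × (E → Bool) =>
      (toCf p.1 p.2 : FC.Cf V F E)) := by
    rintro ⟨y, w⟩ ⟨y', w'⟩ h
    simp only [toCf, FC.Cf.mk.injEq] at h
    obtain ⟨h1, h2, h3⟩ := h
    refine Prod.ext ?_ h3
    funext i
    rcases i with v | f
    · exact congrFun h1 v
    · exact congrFun h2 f
  rw [finsum_eq_sum_of_support_subset (s := ((Fintype.piFinset (TT (V := V) K S)) ×ˢ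
    (Finset.univ : Finset (E → Bool))).image (fun p => (toCf p.1 p.2 : FC.Cf V F E)))]
  · rw [Finset.sum_image (fun p _ q _ h => hinj h), Finset.sum_product]
    refine Finset.sum_congr rfl fun y _ => Finset.sum_congr rfl fun w _ => ?_
    unfold Φ
    by_cases h : (toCf y w : FC.Cf V F E) ∈ FC.Cfg N.toInc (N.UU S) S
    · rw [Set.indicator_of_mem h, if_pos h]
    · rw [Set.indicator_of_notMem h, if_neg h, zero_mul]
  · intro y hy
    have hyC : y ∈ FC.Cfg N.toInc (N.UU S) S := by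
      by_contra h
      exact hy (Set.indicator_of_notMem h _)
    rw [Finset.coe_image, Set.mem_image]
    refine ⟨(Sum.elim y.h y.k, y.w), ?_, ?_⟩
    · rw [Finset.mem_coe, Finset.mem_product]
      refine ⟨?_, Finset.mem_univ _⟩
      rw [Fintype.mem_piFinset]
      obtain ⟨b1, b2⟩ := hfin y hyC
      intro i
      rcases i with v | f
      · exact mem_TT_inl (hyC.2.2.1 v) (b1 v)
      · by_cases hf : f ∈ S
        · obtain ⟨v, hv⟩ := hF f hf
          have h1 := hyC.2.2.2.1 v f hv hf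
          obtain ⟨j, hj⟩ := hyC.2.2.1 v
          refine mem_TT_inr hf ?_ (b2 f)
          show Odd (y.k f)
          rcases (abs_eq (by norm_num)).mp h1 with h2 | h2
          · exact ⟨j - 1, by (clear * - hj h2; omega)⟩
          · exact ⟨j, by omega⟩
        · exact mem_TT_out hf (hyC.2.1 f hf)
    · rfl

/-- Signed heights with zero boundary condition on `S`. -/
def HS (N : Net V F E) (S : Set F) (y : V ⊕ F → ℤ) : Prop :=
  (∀ v, v ∉ N.UU S → y (.inl v) = 0) ∧ (∀ f, f ∉ S → y (.inr f) = 0) ∧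
    (∀ v, Even (y (.inl v))) ∧ (∀ v f, N.inc v f → f ∈ S → |y (.inl v) - y (.inr f)| = 1)

/-- The weight of signed heights. -/
noncomputable def hw (N : Net V F E) (c : ℝ) (S : Set F) (y : V ⊕ F → ℤ) : ℝ :=
  ∏ e, (if N.inE S e then
    (if y (.inl (N.u e)) = y (.inl (N.v e)) ∧ y (.inr (N.f e)) = y (.inr (N.g e)) then c else 1)
    else 1)

/-- Summation over the edge variables. -/
lemma sum_w (N : Net V F E) (t : ℝ) (S : Set F) (y : V ⊕ F → ℤ) :
    ∑ w : E → Bool, N.Φ t S (toCf y w) = if N.HS S y then N.hw t⁻¹ S y else 0 := by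
  by_cases h : N.HS S y
  · rw [if_pos h]
    have e1 : ∀ w : E → Bool, N.Φ t S (toCf y w) = ∏ e, (if N.inE S e then
        (if w e = false ∧ ¬ (y (.inl (N.u e)) = 0 ∧ y (.inl (N.v e)) = 0) then 0
          else (if y (.inl (N.u e)) = 0 ∧ y (.inl (N.v e)) = 0 then
            (if w e = true then (if y (.inr (N.f e)) = y (.inr (N.g e)) then t⁻¹ - 1 else 0) else 1)
            else (if y (.inl (N.u e)) = y (.inl (N.v e)) ∧ y (.inr (N.f e)) = y (.inr (N.g e))
              then t⁻¹ else 1)))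
        else (if w e = true then 0 else 1)) := by
      intro w
      unfold Φ
      by_cases hC : toCf y w ∈ FC.Cfg N.toInc (N.UU S) S
      · rw [if_pos hC]
        unfold FC.wt
        refine Finset.prod_congr rfl fun e _ => ?_
        by_cases he : N.inE S e
        · have he' : N.toInc.a e ∈ S ∧ N.toInc.b e ∈ S := he
          rw [if_pos he, if_pos he', if_neg]
          · rfl
          · rintro ⟨hw, hn⟩
            exact hn (hC.2.2.2.2.2 e he.1 he.2 hw)
        · have he' : ¬ (N.toInc.a e ∈ S ∧ N.toInc.b e ∈ S) := he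
          have hw : w e = false := hC.2.2.2.2.1 e he
          rw [if_neg he, if_neg he', if_neg]
          rw [hw]
          simp
      · rw [if_neg hC]
        have hn : ¬ ((∀ e, ¬ N.inE S e → w e = false) ∧
            (∀ e, N.inE S e → w e = false → y (.inl (N.u e)) = 0 ∧ y (.inl (N.v e)) = 0)) := by
          intro h'
          exact hC ⟨h.1, h.2.1, h.2.2.1, h.2.2.2, h'.1, fun e h1 h2 => h'.2 e ⟨h1, h2⟩⟩
        symm
        by_cases h2 : ∀ e, ¬ N.inE S e → w e = false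
        · have h3 : ¬ ∀ e, N.inE S e → w e = false → y (.inl (N.u e)) = 0 ∧
              y (.inl (N.v e)) = 0 := fun h' => hn ⟨h2, h'⟩
          push Not at h3
          obtain ⟨e, he, hw, hz⟩ := h3
          refine Finset.prod_eq_zero (Finset.mem_univ e) ?_
          rw [if_pos he, if_pos]
          exact ⟨hw, fun h' => hz h'.1 h'.2⟩
        · push Not at h2
          obtain ⟨e, he, hw⟩ := h2
          refine Finset.prod_eq_zero (Finset.mem_univ e) ?_
          rw [if_neg he, if_pos]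
          simpa using hw
    rw [Finset.sum_congr rfl fun w _ => e1 w]
    have e2 := Finset.prod_univ_sum (fun _ : E => (Finset.univ : Finset Bool))
      (fun (e : E) (b : Bool) => (if N.inE S e then
        (if b = false ∧ ¬ (y (.inl (N.u e)) = 0 ∧ y (.inl (N.v e)) = 0) then 0
          else (if y (.inl (N.u e)) = 0 ∧ y (.inl (N.v e)) = 0 then
            (if b = true then (if y (.inr (N.f e)) = y (.inr (N.g e)) then t⁻¹ - 1 else 0) else 1)
            else (if y (.inl (N.u e)) = y (.inl (N.v e)) ∧ y (.inr (N.f e)) = y (.inr (N.g e))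
              then t⁻¹ else 1)))
        else (if b = true then (0 : ℝ) else 1)))
    rw [Fintype.piFinset_univ] at e2
    rw [← e2]
    unfold hw
    refine Finset.prod_congr rfl fun e _ => ?_
    rw [Fintype.sum_bool]
    by_cases he : N.inE S e
    · simp only [if_pos he]
      by_cases hz : y (.inl (N.u e)) = 0 ∧ y (.inl (N.v e)) = 0
      · have huv : y (.inl (N.u e)) = y (.inl (N.v e)) := hz.1.trans hz.2.symm
        by_cases hk : y (.inr (N.f e)) = y (.inr (N.g e))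
        · simp only [Bool.true_eq_false, hz, and_self, not_true_eq_false, ↓reduceIte, hk, and_false, Bool.false_eq_true, sub_add_cancel]
        · simp only [Bool.true_eq_false, hz, and_self, not_true_eq_false, ↓reduceIte, hk, and_false, Bool.false_eq_true, zero_add]
      · simp [hz]
    · simp [he]
  · rw [if_neg h]
    refine Finset.sum_eq_zero fun w _ => ?_
    unfold Φ
    rw [if_neg]
    intro hC
    exact h ⟨hC.1, hC.2.1, hC.2.2.1, hC.2.2.2.1⟩

/-- Possible signed height functions. -/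
noncomputable def TTs (K : ℕ) (S : Set F) : Finset (V ⊕ F → ℤ) :=
  Fintype.piFinset (TT (V := V) K S)

lemma mem_TTs {S : Set F} {y : V ⊕ F → ℤ} :
    y ∈ TTs (V := V) K S ↔ ∀ i, y i ∈ TT (V := V) K S i := Fintype.mem_piFinset

/-- The bridge for functions of the heights. -/
theorem bridge_h (N : Net V F E) {t : ℝ} (ht : 0 < t) (S : Set F) (G : (V ⊕ F → ℤ) → ℝ) :
    N.J (K := K) t κ6 (β6 t) (fun x s => N.zbi S x *
        G (fun i => pv (V := V) S i (x.1 i, s i)))
      = (t ^ Fintype.card E * 2 ^ (Finset.univ.filter (fun f => f ∉ S)).card) *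
        ∑ y ∈ TTs (V := V) K S, (if N.HS S y then N.hw t⁻¹ S y else 0) * G y := by
  have h := bridge_sum (K := K) N ht S (fun y => G (Sum.elim y.h y.k))
  have e1 : (fun (x : Cfg V F E K) (s : V ⊕ F → Bool) => N.zbi S x *
      G (Sum.elim (N.img S x s).h (N.img S x s).k))
      = fun x s => N.zbi S x * G (fun i => pv (V := V) S i (x.1 i, s i)) := by
    funext x s
    congr 2
    funext i
    rcases i with v | f <;> rfl
  rw [e1] at h
  rw [h]
  congr 1
  refine Finset.sum_congr rfl fun y _ => ?_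
  rw [← sum_w, Finset.sum_mul]
  refine Finset.sum_congr rfl fun w _ => ?_
  congr 2
  funext i
  rcases i with v | f <;> rfl

end

end Net

end Vale.Agent.P145.FK
end

section

/-!
P145, block K1 on the square lattice: the incidence structure of a finite set of faces, and the
zero boundary heights `Dom.ZH`.
-/

namespace Vale.Agent.P145.FK

open Finset Vale.Agent.P145.FP Vale.Agent.P145.Dom
open scoped Classical

/-- `v` is a corner of the face `f`. -/
def Cor (v f : ℤ × ℤ) : Prop :=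
  ∃ a b : ℤ, (a = 0 ∨ a = 1) ∧ (b = 0 ∨ b = 1) ∧ v = (f.1 + a, f.2 + b)

lemma mem_verts {F : Finset (ℤ × ℤ)} {v : ℤ × ℤ} : v ∈ verts F ↔ ∃ f ∈ F, Cor v f := by
  unfold verts Cor
  simp only [Finset.mem_union, Finset.mem_image]
  constructor
  · rintro (((h | ⟨f, hf, rfl⟩) | ⟨f, hf, rfl⟩) | ⟨f, hf, rfl⟩)
    · exact ⟨v, h, 0, 0, Or.inl rfl, Or.inl rfl, by simp⟩
    · exact ⟨f, hf, 1, 0, Or.inr rfl, Or.inl rfl, by ext <;> simp⟩
    · exact ⟨f, hf, 0, 1, Or.inl rfl, Or.inr rfl, by ext <;> simp⟩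
    · exact ⟨f, hf, 1, 1, Or.inr rfl, Or.inr rfl, by ext <;> simp⟩
  · rintro ⟨f, hf, a, b, ha, hb, rfl⟩
    rcases ha with rfl | rfl <;> rcases hb with rfl | rfl
    · left; left; left; simpa using hf
    · left; right; exact ⟨f, hf, by ext <;> simp⟩
    · left; left; right; exact ⟨f, hf, by ext <;> simp⟩
    · right; exact ⟨f, hf, by ext <;> simp⟩

/-- Horizontal edges with both sides in `B`. -/
noncomputable def hE (B : Finset (ℤ × ℤ)) : Finset (ℤ × ℤ) := {e ∈ B | (e.1, e.2 - 1) ∈ B}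

/-- Vertical edges with both sides in `B`. -/
noncomputable def vE (B : Finset (ℤ × ℤ)) : Finset (ℤ × ℤ) := {e ∈ B | (e.1 - 1, e.2) ∈ B}

/-- Vertices, faces and edges of the finite set `B` of faces. -/
abbrev VB (B : Finset (ℤ × ℤ)) := {v // v ∈ verts B}
/-- Faces. -/
abbrev FB (B : Finset (ℤ × ℤ)) := {f // f ∈ B}
/-- Edges. -/
abbrev EB (B : Finset (ℤ × ℤ)) := {e // e ∈ hE B} ⊕ {e // e ∈ vE B}

lemma hE1 {B : Finset (ℤ × ℤ)} (e : {e // e ∈ hE B}) : e.1 ∈ B := (Finset.mem_filter.mp e.2).1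
lemma hE2 {B : Finset (ℤ × ℤ)} (e : {e // e ∈ hE B}) : (e.1.1, e.1.2 - 1) ∈ B :=
  (Finset.mem_filter.mp e.2).2
lemma vE1 {B : Finset (ℤ × ℤ)} (e : {e // e ∈ vE B}) : e.1 ∈ B := (Finset.mem_filter.mp e.2).1
lemma vE2 {B : Finset (ℤ × ℤ)} (e : {e // e ∈ vE B}) : (e.1.1 - 1, e.1.2) ∈ B :=
  (Finset.mem_filter.mp e.2).2

lemma cor00 (e : ℤ × ℤ) : Cor e e := ⟨0, 0, Or.inl rfl, Or.inl rfl, by simp⟩
lemma cor_h1 (e : ℤ × ℤ) : Cor e (e.1, e.2 - 1) := ⟨0, 1, Or.inl rfl, Or.inr rfl, by simp only [add_zero, sub_add_cancel, Prod.mk.eta]⟩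
lemma cor_h2 (e : ℤ × ℤ) : Cor (e.1 + 1, e.2) e := ⟨1, 0, Or.inr rfl, Or.inl rfl, by simp⟩
lemma cor_h3 (e : ℤ × ℤ) : Cor (e.1 + 1, e.2) (e.1, e.2 - 1) :=
  ⟨1, 1, Or.inr rfl, Or.inr rfl, by simp⟩
lemma cor_v1 (e : ℤ × ℤ) : Cor e (e.1 - 1, e.2) := ⟨1, 0, Or.inr rfl, Or.inl rfl, by simp⟩
lemma cor_v2 (e : ℤ × ℤ) : Cor (e.1, e.2 + 1) e := ⟨0, 1, Or.inl rfl, Or.inr rfl, by simp⟩
lemma cor_v3 (e : ℤ × ℤ) : Cor (e.1, e.2 + 1) (e.1 - 1, e.2) :=
  ⟨1, 1, Or.inr rfl, Or.inr rfl, by simp⟩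

/-- The incidence structure of the finite set `B` of faces. -/
def boxN (B : Finset (ℤ × ℤ)) : Net (VB B) (FB B) (EB B) where
  u := Sum.elim (fun e => ⟨e.1, mem_verts.mpr ⟨_, hE1 e, cor00 _⟩⟩)
    (fun e => ⟨e.1, mem_verts.mpr ⟨_, vE1 e, cor00 _⟩⟩)
  v := Sum.elim (fun e => ⟨(e.1.1 + 1, e.1.2), mem_verts.mpr ⟨_, hE1 e, cor_h2 _⟩⟩)
    (fun e => ⟨(e.1.1, e.1.2 + 1), mem_verts.mpr ⟨_, vE1 e, cor_v2 _⟩⟩)
  f := Sum.elim (fun e => ⟨e.1, hE1 e⟩) (fun e => ⟨e.1, vE1 e⟩)
  g := Sum.elim (fun e => ⟨(e.1.1, e.1.2 - 1), hE2 e⟩) (fun e => ⟨(e.1.1 - 1, e.1.2), vE2 e⟩)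
  inc v f := Cor v.1 f.1
  huf := by rintro (e | e) <;> exact cor00 _
  hug := by
    rintro (e | e)
    · exact cor_h1 _
    · exact cor_v1 _
  hvf := by
    rintro (e | e)
    · exact cor_h2 _
    · exact cor_v2 _
  hvg := by
    rintro (e | e)
    · exact cor_h3 _
    · exact cor_v3 _

/-- A set of faces as a set of faces of `B`. -/
def inB (B : Finset (ℤ × ℤ)) (F : Set (ℤ × ℤ)) : Set (FB B) := {f | f.1 ∈ F}

/-- `B` contains `F` and all faces which touch `F`. -/
def Nb (B : Finset (ℤ × ℤ)) (F : Set (ℤ × ℤ)) : Prop :=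
  ∀ f ∈ F, ∀ v, Cor v f → ∀ f', Cor v f' → f' ∈ B

lemma Nb.mem {B : Finset (ℤ × ℤ)} {F : Set (ℤ × ℤ)} (h : Nb B F) {f : ℤ × ℤ} (hf : f ∈ F) :
    f ∈ B := h f hf f (cor00 f) f (cor00 f)

lemma Nb.mono {B : Finset (ℤ × ℤ)} {F F' : Set (ℤ × ℤ)} (h : Nb B F') (hF : F ⊆ F') : Nb B F :=
  fun f hf => h f (hF hf)

/-- Extension by zero. -/
noncomputable def xt {B : Finset (ℤ × ℤ)} (y : VB B ⊕ FB B → ℤ) : Site → ℤ :=
  Sum.elim (fun v => if h : v ∈ verts B then y (.inl ⟨v, h⟩) else 0)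
    (fun f => if h : f ∈ B then y (.inr ⟨f, h⟩) else 0)

lemma xt_inl {B : Finset (ℤ × ℤ)} (y : VB B ⊕ FB B → ℤ) (v : VB B) :
    xt y (.inl v.1) = y (.inl v) := by
  simp only [xt, Sum.elim_inl, dif_pos v.2]

lemma xt_inr {B : Finset (ℤ × ℤ)} (y : VB B ⊕ FB B → ℤ) (f : FB B) :
    xt y (.inr f.1) = y (.inr f) := by
  simp only [xt, Sum.elim_inr, dif_pos f.2]

lemma xt_inj {B : Finset (ℤ × ℤ)} : Function.Injective (xt (B := B)) := by
  intro y y' h
  funext i
  rcases i with v | f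
  · rw [← xt_inl y, ← xt_inl y', h]
  · rw [← xt_inr y, ← xt_inr y', h]

lemma HS_iff {B F : Finset (ℤ × ℤ)} (hB : Nb B F) (y : VB B ⊕ FB B → ℤ) :
    (boxN B).HS (inB B F) y ↔ xt y ∈ ZH F := by
  constructor
  · rintro ⟨h1, h2, h3, h4⟩
    refine ⟨fun v => ?_, fun f hf => ?_, fun f a b ha hb => ⟨fun hf => ?_, fun hf => ?_⟩⟩
    · by_cases hv : v ∈ verts B
      · have := h3 ⟨v, hv⟩
        rwa [← xt_inl y] at this
      · simp only [xt, Sum.elim_inl, dif_neg hv]
        exact Even.zero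
    · by_cases hf' : f ∈ B
      · have := h2 ⟨f, hf'⟩ hf
        rwa [← xt_inr y] at this
      · simp only [xt, Sum.elim_inr, dif_neg hf']
    · have hcor : Cor (f.1 + a, f.2 + b) f := ⟨a, b, ha, hb, rfl⟩
      by_cases hv : ((f.1 + a, f.2 + b) : ℤ × ℤ) ∈ verts B
      · have h5 : (⟨_, hv⟩ : VB B) ∉ (boxN B).UU (inB B F) := by
          intro h'
          obtain ⟨f', hf', hc⟩ := mem_verts.mp hv
          have h6 : f' ∈ F := h' ⟨f', hf'⟩ hc
          have h7 : f ∈ B := hB f' h6 _ hc f hcor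
          exact hf (h' ⟨f, h7⟩ hcor)
        have := h1 _ h5
        rwa [← xt_inl y] at this
      · simp only [xt, Sum.elim_inl, dif_neg hv]
    · have hcor : Cor (f.1 + a, f.2 + b) f := ⟨a, b, ha, hb, rfl⟩
      have hfB : f ∈ B := hB.mem hf
      have hv : ((f.1 + a, f.2 + b) : ℤ × ℤ) ∈ verts B := mem_verts.mpr ⟨f, hfB, hcor⟩
      have := h4 ⟨_, hv⟩ ⟨f, hfB⟩ hcor hf
      rw [← xt_inl y, ← xt_inr y, abs_sub_comm] at this
      exact this
  · rintro ⟨h1, h2, h3⟩
    refine ⟨fun v hv => ?_, fun f hf => ?_, fun v => ?_, fun v f hvf hf => ?_⟩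
    · have h' : ¬ ∀ f, (boxN B).inc v f → f ∈ inB B F := hv
      push Not at h'
      obtain ⟨f, ⟨a, b, ha, hb, hvf⟩, hf⟩ := h'
      have := (h3 f.1 a b ha hb).1 hf
      rw [← hvf, xt_inl] at this
      exact this
    · have := h2 f.1 hf
      rwa [xt_inr] at this
    · have := h1 v.1
      rwa [xt_inl] at this
    · obtain ⟨a, b, ha, hb, hvf⟩ := hvf
      have := (h3 f.1 a b ha hb).2 hf
      rw [← hvf, xt_inl, xt_inr, abs_sub_comm] at this
      exact this

lemma hw_eq {B F : Finset (ℤ × ℤ)} (hFB : F ⊆ B) (c : ℝ) (y : VB B ⊕ FB B → ℤ) :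
    (boxN B).hw c (inB B F) y = zw c F (xt y) := by
  unfold Net.hw zw
  rw [Fintype.prod_sum_type]
  congr 1
  · have e1 : ∀ e : {e // e ∈ hE B}, (if (boxN B).inE (inB B F) (.inl e) then
        (if y (.inl ((boxN B).u (.inl e))) = y (.inl ((boxN B).v (.inl e))) ∧
          y (.inr ((boxN B).f (.inl e))) = y (.inr ((boxN B).g (.inl e))) then c else 1) else 1)
        = (fun e : ℤ × ℤ => if e ∈ F ∧ e - (0, 1) ∈ F then
          (if xt y (.inl e) = xt y (.inl (e.1 + 1, e.2)) ∧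
            xt y (.inr e) = xt y (.inr (e.1, e.2 - 1)) then c else 1) else 1) e.1 := by
      intro e
      have h1 : (boxN B).inE (inB B F) (.inl e) ↔ e.1 ∈ F ∧ e.1 - (0, 1) ∈ F := by
        have : e.1 - (0, 1) = (e.1.1, e.1.2 - 1) := by ext <;> simp
        rw [this]
        exact Iff.rfl
      simp only [← xt_inl, ← xt_inr]
      by_cases h : (boxN B).inE (inB B F) (.inl e)
      · rw [if_pos h, if_pos (h1.mp h)]
        rfl
      · rw [if_neg h, if_neg (fun h' => h (h1.mpr h'))]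
    rw [Finset.prod_congr rfl fun e _ => e1 e]
    rw [Finset.prod_coe_sort (hE B) (fun e : ℤ × ℤ => if e ∈ F ∧ e - (0, 1) ∈ F then
          (if xt y (.inl e) = xt y (.inl (e.1 + 1, e.2)) ∧
            xt y (.inr e) = xt y (.inr (e.1, e.2 - 1)) then c else 1) else 1)]
    rw [← Finset.prod_filter]
    refine Finset.prod_congr ?_ fun e _ => rfl
    ext e
    have : e - (0, 1) = (e.1, e.2 - 1) := by ext <;> simp
    simp only [Finset.mem_filter, hE, this]
    constructor
    · rintro ⟨_, h⟩; exact h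
    · rintro ⟨h1, h2⟩
      exact ⟨⟨hFB h1, hFB h2⟩, h1, h2⟩
  · have e1 : ∀ e : {e // e ∈ vE B}, (if (boxN B).inE (inB B F) (.inr e) then
        (if y (.inl ((boxN B).u (.inr e))) = y (.inl ((boxN B).v (.inr e))) ∧
          y (.inr ((boxN B).f (.inr e))) = y (.inr ((boxN B).g (.inr e))) then c else 1) else 1)
        = (fun e : ℤ × ℤ => if e ∈ F ∧ e - (1, 0) ∈ F then
          (if xt y (.inl e) = xt y (.inl (e.1, e.2 + 1)) ∧
            xt y (.inr e) = xt y (.inr (e.1 - 1, e.2)) then c else 1) else 1) e.1 := by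
      intro e
      have h1 : (boxN B).inE (inB B F) (.inr e) ↔ e.1 ∈ F ∧ e.1 - (1, 0) ∈ F := by
        have : e.1 - (1, 0) = (e.1.1 - 1, e.1.2) := by ext <;> simp
        rw [this]
        exact Iff.rfl
      simp only [← xt_inl, ← xt_inr]
      by_cases h : (boxN B).inE (inB B F) (.inr e)
      · rw [if_pos h, if_pos (h1.mp h)]
        rfl
      · rw [if_neg h, if_neg (fun h' => h (h1.mpr h'))]
    rw [Finset.prod_congr rfl fun e _ => e1 e]
    rw [Finset.prod_coe_sort (vE B) (fun e : ℤ × ℤ => if e ∈ F ∧ e - (1, 0) ∈ F then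
          (if xt y (.inl e) = xt y (.inl (e.1, e.2 + 1)) ∧
            xt y (.inr e) = xt y (.inr (e.1 - 1, e.2)) then c else 1) else 1)]
    rw [← Finset.prod_filter]
    refine Finset.prod_congr ?_ fun e _ => rfl
    ext e
    have : e - (1, 0) = (e.1 - 1, e.2) := by ext <;> simp
    simp only [Finset.mem_filter, vE, this]
    constructor
    · rintro ⟨_, h⟩; exact h
    · rintro ⟨h1, h2⟩
      exact ⟨⟨hFB h1, hFB h2⟩, h1, h2⟩

end Vale.Agent.P145.FK
end

section

/-!
P145, block K1 on the square lattice: bounds for the zero boundary heights, the zero boundary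
expectation `Dom.ze` in terms of `Net.J`, monotonicity in the domain.
-/

namespace Vale.Agent.P145.FK

open Finset Vale.Agent.P145.FP Vale.Agent.P145.Dom
open scoped Classical

/-- Bound for the heights: `|h| ≤ 2 * KF F` at vertices and `2 * KF F + 1` at faces. -/
def KF (F : Finset (ℤ × ℤ)) : ℕ := 2 * F.sup (fun f => f.1.natAbs) + 2

lemma KF_mono {F F' : Finset (ℤ × ℤ)} (h : F ⊆ F') : KF F ≤ KF F' := by
  unfold KF
  have := Finset.sup_mono (f := fun f : ℤ × ℤ => f.1.natAbs) h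
  omega

lemma ZH_face {F : Finset (ℤ × ℤ)} {x : Site → ℤ} (hx : x ∈ ZH F) (n : ℕ) :
    ∀ f : ℤ × ℤ, (f.1 - n, f.2) ∉ F → |x (.inr f)| ≤ 2 * (n : ℤ) + 1 := by
  obtain ⟨h1, h2, h3⟩ := hx
  induction n with
  | zero =>
    intro f hf
    have hf' : f ∉ F := by simpa using hf
    rw [h2 f hf']
    simp only [abs_zero, CharP.cast_eq_zero, mul_zero, zero_add, zero_le_one]
  | succ n ih =>
    intro f hf
    by_cases hfF : f ∈ F
    · have e1 : ((f.1 - 1 - (n : ℤ), f.2) : ℤ × ℤ) ∉ F := by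
        have : f.1 - 1 - (n : ℤ) = f.1 - ((n + 1 : ℕ) : ℤ) := by push_cast; ring
        rw [this]; exact hf
      have e2 := ih (f.1 - 1, f.2) e1
      have e3 := (h3 f 0 0 (Or.inl rfl) (Or.inl rfl)).2 hfF
      have e4 := h3 (f.1 - 1, f.2) 1 0 (Or.inr rfl) (Or.inl rfl)
      have e5 : ((f.1 + 0, f.2 + 0) : ℤ × ℤ) = f := by simp
      have e6 : (((f.1 - 1, f.2) : ℤ × ℤ).1 + 1, ((f.1 - 1, f.2) : ℤ × ℤ).2 + 0) = f := by simp
      rw [e5] at e3
      rw [e6] at e4
      push_cast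
      by_cases hg : ((f.1 - 1, f.2) : ℤ × ℤ) ∈ F
      · have e7 := e4.2 hg
        rw [abs_eq (by norm_num)] at e3 e7
        rw [abs_le] at e2 ⊢
        omega
      · have e7 := e4.1 hg
        rw [e7, sub_zero] at e3
        omega
    · rw [h2 f hfF]
      simp only [abs_zero, Nat.cast_add, Nat.cast_one]
      omega

lemma ZH_bound {F : Finset (ℤ × ℤ)} {x : Site → ℤ} (hx : x ∈ ZH F) :
    (∀ v, |x (.inl v)| ≤ 2 * (KF F : ℤ)) ∧ ∀ f, |x (.inr f)| ≤ 2 * (KF F : ℤ) + 1 := by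
  set m : ℕ := F.sup (fun f => f.1.natAbs) with hm
  have hF : ∀ f ∈ F, f.1.natAbs ≤ m := fun f hf =>
    Finset.le_sup (f := fun f : ℤ × ℤ => f.1.natAbs) hf
  have key : ∀ f ∈ F, |x (.inr f)| ≤ 4 * (m : ℤ) + 3 := by
    intro f hf
    have h1 : ((f.1 - ((2 * m + 1 : ℕ) : ℤ), f.2) : ℤ × ℤ) ∉ F := by
      intro h
      have h2 := hF _ h
      have h3 := hF _ hf
      simp only at h2
      omega
    have := ZH_face hx (2 * m + 1) f h1
    push_cast at this
    linarith only [this]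
  have hK : (KF F : ℤ) = 2 * (m : ℤ) + 2 := by simp only [KF, Nat.cast_add, Nat.cast_mul, Nat.cast_ofNat, hm]
  constructor
  · intro v
    by_cases hv : v ∈ F
    · have h1 := (hx.2.2 v 0 0 (Or.inl rfl) (Or.inl rfl)).2 hv
      have e5 : ((v.1 + 0, v.2 + 0) : ℤ × ℤ) = v := by simp
      rw [e5] at h1
      have h2 := key v hv
      rw [abs_eq (by norm_num)] at h1
      rw [abs_le] at h2 ⊢
      omega
    · have h1 := (hx.2.2 v 0 0 (Or.inl rfl) (Or.inl rfl)).1 hv
      have e5 : ((v.1 + 0, v.2 + 0) : ℤ × ℤ) = v := by simp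
      rw [e5] at h1
      rw [h1]
      simp only [abs_zero, Order.lt_two_iff, zero_le_one, mul_nonneg_iff_of_pos_left, Nat.cast_nonneg]
  · intro f
    by_cases hf : f ∈ F
    · have h2 := key f hf
      (clear * - hK h2; omega)
    · rw [hx.2.1 f hf]
      simp only [abs_zero]
      omega

/-- The sum over the zero boundary heights as a finite sum. -/
lemma zs_eq {B F : Finset (ℤ × ℤ)} (hB : Nb B F) {K : ℕ} (hK : KF F ≤ K) (c : ℝ)
    (Φ : (Site → ℤ) → ℝ) :
    zs c F Φ = ∑ y ∈ Net.TTs (V := VB B) K (inB B F),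
      (if (boxN B).HS (inB B F) y then (boxN B).hw c (inB B F) y else 0) * Φ (xt y) := by
  have hFB : F ⊆ B := fun f hf => hB.mem hf
  unfold zs
  rw [finsum_mem_def, finsum_eq_sum_of_support_subset
    (s := (Net.TTs (V := VB B) K (inB B F)).image xt)]
  · rw [Finset.sum_image (fun p _ q _ h => xt_inj h)]
    refine Finset.sum_congr rfl fun y _ => ?_
    by_cases h : (boxN B).HS (inB B F) y
    · rw [Set.indicator_of_mem ((HS_iff hB y).mp h), if_pos h, hw_eq hFB]
    · rw [Set.indicator_of_notMem (fun h' => h ((HS_iff hB y).mpr h')), if_neg h, zero_mul]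
  · intro x hx
    have hxZ : x ∈ ZH F := by
      by_contra h
      exact hx (Set.indicator_of_notMem h _)
    rw [Finset.coe_image, Set.mem_image]
    set y : VB B ⊕ FB B → ℤ := fun i => x (Sum.map Subtype.val Subtype.val i) with hy
    have hxy : xt y = x := by
      funext s
      rcases s with v | f
      · by_cases hv : v ∈ verts B
        · exact xt_inl y ⟨v, hv⟩
        · simp only [xt, Sum.elim_inl, dif_neg hv]
          have hvB : v ∉ F := fun h => hv (mem_verts.mpr ⟨v, hFB h, cor00 v⟩)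
          have h1 := (hxZ.2.2 v 0 0 (Or.inl rfl) (Or.inl rfl)).1 hvB
          have e5 : ((v.1 + 0, v.2 + 0) : ℤ × ℤ) = v := by simp
          rw [e5] at h1
          exact h1.symm
      · by_cases hf : f ∈ B
        · exact xt_inr y ⟨f, hf⟩
        · simp only [xt, Sum.elim_inr, dif_neg hf]
          exact (hxZ.2.1 f fun h => hf (hFB h)).symm
    refine ⟨y, ?_, hxy⟩
    rw [Finset.mem_coe, Net.mem_TTs]
    obtain ⟨b1, b2⟩ := ZH_bound hxZ
    have hK' : (KF F : ℤ) ≤ K := by exact_mod_cast hK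
    intro i
    rcases i with v | f
    · refine Net.mem_TT_inl (hxZ.1 v.1) ?_
      have := b1 v.1
      show |x (.inl v.1)| ≤ _
      linarith
    · by_cases hf : f.1 ∈ F
      · refine Net.mem_TT_inr (show f ∈ inB B F from hf) ?_ ?_
        · have h1 := (hxZ.2.2 f.1 0 0 (Or.inl rfl) (Or.inl rfl)).2 hf
          obtain ⟨j, hj⟩ := hxZ.1 (f.1.1 + 0, f.1.2 + 0)
          show Odd (x (.inr f.1))
          rcases (abs_eq (by norm_num)).mp h1 with h2 | h2
          · exact ⟨j, by omega⟩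
          · exact ⟨j - 1, by omega⟩
        · have := b2 f.1
          show |x (.inr f.1)| ≤ _
          linarith only [hK, this]
      · exact Net.mem_TT_out (show f ∉ inB B F from hf) (hxZ.2.1 f.1 hf)

/-- Signed heights of a configuration on the box. -/
noncomputable def sgh {B : Finset (ℤ × ℤ)} {K : ℕ} (F : Set (ℤ × ℤ))
    (x : Net.Cfg (VB B) (FB B) (EB B) K) (s : VB B ⊕ FB B → Bool) : Site → ℤ :=
  xt (fun i => Net.pv (V := VB B) (inB B F) i (x.1 i, s i))

/-- The constant in the bridge. -/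
noncomputable def Cst (t : ℝ) (B F : Finset (ℤ × ℤ)) : ℝ :=
  t ^ Fintype.card (EB B) * 2 ^ (Finset.univ.filter (fun f => f ∉ inB B F)).card

lemma Cst_pos {t : ℝ} (ht : 0 < t) (B F : Finset (ℤ × ℤ)) : 0 < Cst t B F := by
  unfold Cst; positivity

/-- The bridge on the square lattice. -/
theorem J_zs {B F : Finset (ℤ × ℤ)} (hB : Nb B F) {K : ℕ} (hK : KF F ≤ K) {t : ℝ} (ht : 0 < t)
    (Φ : (Site → ℤ) → ℝ) :
    (boxN B).J (K := K) t Net.κ6 (Net.β6 t) (fun x s => (boxN B).zbi (inB B F) x * Φ (sgh F x s))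
      = Cst t B F * zs t⁻¹ F Φ := by
  rw [zs_eq hB hK]
  exact (boxN B).bridge_h ht (inB B F) (fun y => Φ (xt y))

lemma zs_one_pos (F : Finset (ℤ × ℤ)) {t : ℝ} (ht : 0 < t) (ht1 : t ≤ 1) :
    0 < zs t⁻¹ F (fun _ => 1) := by
  -- a box around `F`
  set B : Finset (ℤ × ℤ) := (F.biUnion fun f => Finset.Icc (f.1 - 1) (f.1 + 1) ×ˢ
    Finset.Icc (f.2 - 1) (f.2 + 1)) with hBdef
  have hB : Nb B F := by
    rintro f hf v ⟨a, b, ha, hb, rfl⟩ f' ⟨a', b', ha', hb', hv⟩
    rw [hBdef, Finset.mem_biUnion]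
    refine ⟨f, hf, ?_⟩
    rw [Finset.mem_product, Finset.mem_Icc, Finset.mem_Icc]
    simp only [Prod.mk.injEq] at hv
    omega
  have h1 := J_zs hB (le_refl (KF F)) ht (fun _ => 1)
  simp only [mul_one] at h1
  have h2 := (boxN B).J_zbi_pos (K := KF F) ht.le Net.κ6_nonneg (Net.β6_nonneg ht.le ht1)
    (fun i => Net.κ6_pos i 0) (fun e => Net.β6_pos ht e) (inB B F)
  rw [h1] at h2
  exact pos_of_mul_pos_right h2 (Cst_pos ht B F).le

/-- Quotients of `J` are zero boundary expectations. -/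
theorem J_ze {B F : Finset (ℤ × ℤ)} (hB : Nb B F) {K : ℕ} (hK : KF F ≤ K) {t : ℝ} (ht : 0 < t)
    (ht1 : t ≤ 1) (Φ : (Site → ℤ) → ℝ) :
    (boxN B).J (K := K) t Net.κ6 (Net.β6 t) (fun x s => (boxN B).zbi (inB B F) x * Φ (sgh F x s))
      = (boxN B).J (K := K) t Net.κ6 (Net.β6 t) (fun x _ => (boxN B).zbi (inB B F) x) *
        ze t⁻¹ F Φ := by
  have h1 := J_zs hB hK ht Φ
  have h2 := J_zs hB hK ht (fun _ => 1)
  simp only [mul_one] at h2
  have h3 := zs_one_pos F ht ht1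
  rw [h1, h2, ze, mul_assoc, mul_div_cancel₀ _ h3.ne']

end Vale.Agent.P145.FK
end

section

/-!
P145, block K1 on the square lattice: monotonicity of the zero boundary expectations in the
domain, positivity, local connectivity of rectangles.
-/

namespace Vale.Agent.P145.FK

open Finset Vale.Agent.P145.FP Vale.Agent.P145.Dom
open scoped Classical

lemma sg_cast (b : Bool) : ((Net.sg b : ℤ) : ℝ) = sv b := by cases b <;> simp [Net.sg, sv]

/-- Polynomials with nonnegative coefficients in the heights at the vertices. -/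
inductive PosH : ((Site → ℤ) → ℝ) → Prop
  | const (c : ℝ) (hc : 0 ≤ c) : PosH (fun _ => c)
  | ht (v : ℤ × ℤ) : PosH (fun x => (x (.inl v) : ℝ))
  | add {f g : (Site → ℤ) → ℝ} : PosH f → PosH g → PosH (fun x => f x + g x)
  | mul {f g : (Site → ℤ) → ℝ} : PosH f → PosH g → PosH (fun x => f x * g x)

namespace PosH

lemma sum {ι : Type*} (s : Finset ι) (f : ι → (Site → ℤ) → ℝ) (h : ∀ i ∈ s, PosH (f i)) :
    PosH (fun x => ∑ i ∈ s, f i x) := by
  induction s using Finset.induction_on with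
  | empty => simpa using PosH.const 0 le_rfl
  | insert i T hi ih =>
    have h1 := h i (Finset.mem_insert_self i T)
    have h2 := ih (fun j hj => h j (Finset.mem_insert_of_mem hj))
    simpa only [Finset.sum_insert hi] using PosH.add h1 h2

lemma prod {ι : Type*} (s : Finset ι) (f : ι → (Site → ℤ) → ℝ) (h : ∀ i ∈ s, PosH (f i)) :
    PosH (fun x => ∏ i ∈ s, f i x) := by
  induction s using Finset.induction_on with
  | empty => simpa using PosH.const 1 zero_le_one
  | insert i T hi ih =>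
    have h1 := h i (Finset.mem_insert_self i T)
    have h2 := ih (fun j hj => h j (Finset.mem_insert_of_mem hj))
    simpa only [Finset.prod_insert hi] using PosH.mul h1 h2

lemma smul {f : (Site → ℤ) → ℝ} {c : ℝ} (hc : 0 ≤ c) (h : PosH f) : PosH (fun x => c * f x) :=
  PosH.mul (PosH.const c hc) h

/-- Linear forms with nonnegative coefficients. -/
lemma lin (s : Finset (ℤ × ℤ)) (a : ℤ × ℤ → ℝ) (ha : ∀ v ∈ s, 0 ≤ a v) :
    PosH (fun x => ∑ v ∈ s, a v * (x (.inl v) : ℝ)) :=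
  sum s _ fun v hv => smul (ha v hv) (PosH.ht v)

lemma pow {f : (Site → ℤ) → ℝ} (h : PosH f) (n : ℕ) : PosH (fun x => f x ^ n) := by
  induction n with
  | zero => simpa using PosH.const 1 zero_le_one
  | succ n ih => simpa only [pow_succ] using PosH.mul ih h

/-- The observable on the box, in terms of magnitudes and signs. -/
lemma mon {B : Finset (ℤ × ℤ)} {K : ℕ} (F : Set (ℤ × ℤ)) {Φ : (Site → ℤ) → ℝ} (h : PosH Φ) :
    Mon (fun (x : Net.Cfg (VB B) (FB B) (EB B) K) (s : VB B ⊕ FB B → Bool) =>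
      Φ (sgh F x s)) := by
  induction h with
  | const c hc => exact Mon.const hc
  | ht v =>
    by_cases hv : v ∈ verts B
    · have h1 : Mon (fun (x : Net.Cfg (VB B) (FB B) (EB B) K) (s : VB B ⊕ FB B → Bool) =>
          (2 * ((x.1 (.inl ⟨v, hv⟩) : ℕ) : ℝ)) * sv (s (.inl ⟨v, hv⟩))) := by
        refine Mon.one (B := fun x : Net.Cfg (VB B) (FB B) (EB B) K =>
          2 * ((x.1 (.inl ⟨v, hv⟩) : ℕ) : ℝ)) (fun x => by positivity) ?_ (Pos.single _)
        intro x y hxy
        have h2 : (x.1 (.inl ⟨v, hv⟩) : ℕ) ≤ y.1 (.inl ⟨v, hv⟩) := by exact_mod_cast hxy.1 _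
        have h3 : ((x.1 (.inl ⟨v, hv⟩) : ℕ) : ℝ) ≤ ((y.1 (.inl ⟨v, hv⟩) : ℕ) : ℝ) := by
          exact_mod_cast h2
        show 2 * ((x.1 (.inl ⟨v, hv⟩) : ℕ) : ℝ) ≤ 2 * ((y.1 (.inl ⟨v, hv⟩) : ℕ) : ℝ)
        linarith only [h3]
      refine (congrArg Mon ?_).mp h1
      funext x s
      simp only [sgh, xt, Sum.elim_inl, dif_pos hv, Net.pv]
      push_cast
      rw [sg_cast]
      ring
    · have h1 := Mon.const (α := Net.Cfg (VB B) (FB B) (EB B) K) (I := VB B ⊕ FB B) (c := 0) le_rfl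
      refine (congrArg Mon ?_).mp h1
      funext x s
      simp only [sgh, xt, Sum.elim_inl, dif_neg hv]
      simp
  | add h1 h2 ih1 ih2 => exact Mon.add ih1 ih2
  | mul h1 h2 ih1 ih2 => exact Mon.mul ih1 ih2

lemma indep {B : Finset (ℤ × ℤ)} {K : ℕ} (F F' : Set (ℤ × ℤ)) {Φ : (Site → ℤ) → ℝ} (h : PosH Φ)
    (x : Net.Cfg (VB B) (FB B) (EB B) K) (s : VB B ⊕ FB B → Bool) :
    Φ (sgh F x s) = Φ (sgh F' x s) := by
  induction h with
  | const c hc => rfl
  | ht v =>
    by_cases hv : v ∈ verts B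
    · simp only [sgh, xt, Sum.elim_inl, dif_pos hv, Net.pv]
    · simp only [sgh, xt, Sum.elim_inl, dif_neg hv]
  | add h1 h2 ih1 ih2 => simp only [ih1, ih2]
  | mul h1 h2 ih1 ih2 => simp only [ih1, ih2]

end PosH

/-- A rectangle around a finite set of faces. -/
lemma exists_rect (F : Finset (ℤ × ℤ)) : ∃ a b c d : ℤ,
    Nb (Finset.Icc a b ×ˢ Finset.Icc c d) (F : Set (ℤ × ℤ)) := by
  set m : ℕ := F.sup (fun f => f.1.natAbs + f.2.natAbs) with hm
  have hF : ∀ f ∈ F, f.1.natAbs + f.2.natAbs ≤ m := fun f hf =>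
    Finset.le_sup (f := fun f : ℤ × ℤ => f.1.natAbs + f.2.natAbs) hf
  refine ⟨-(m : ℤ) - 1, m + 1, -(m : ℤ) - 1, m + 1, ?_⟩
  rintro f hf v ⟨a, b, ha, hb, rfl⟩ f' ⟨a', b', ha', hb', hv⟩
  rw [Finset.mem_product, Finset.mem_Icc, Finset.mem_Icc]
  simp only [Prod.mk.injEq] at hv
  have := hF f hf
  (clear * - ha hb ha' hb' hv this; omega)

/-- K1: the zero boundary expectations of polynomials with nonnegative coefficients in the heights
increase with the domain. -/
theorem ze_mono {c : ℝ} (hc : 1 ≤ c) {F F' : Finset (ℤ × ℤ)} (hF : F ⊆ F')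
    {A : (Site → ℤ) → ℝ} (hA : PosH A) : ze c F A ≤ ze c F' A := by
  have hc0 : 0 < c := by linarith
  have ht : 0 < c⁻¹ := inv_pos.mpr hc0
  have ht1 : c⁻¹ ≤ 1 := inv_le_one_of_one_le₀ hc
  obtain ⟨a, b, a', b', hB⟩ := exists_rect F'
  set B := Finset.Icc a b ×ˢ Finset.Icc a' b'
  have hBF : Nb B (F : Set (ℤ × ℤ)) := hB.mono (by exact_mod_cast hF)
  have e1 := J_ze hBF (KF_mono hF) ht ht1 A
  have e2 := J_ze hB (le_refl (KF F')) ht ht1 A
  rw [inv_inv] at e1 e2
  have hD : inB B (F : Set (ℤ × ℤ)) ⊆ inB B (F' : Set (ℤ × ℤ)) := fun f hf => hF hf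
  have h := (boxN B).dom_mono (K := KF F') ht.le ht1 Net.κ6_nonneg (Net.β6_nonneg ht.le ht1) hD
    (X := fun _ => 1) (fun _ => zero_le_one) (fun _ _ _ => le_rfl) (hA.mon (F := (F' : Set (ℤ × ℤ))))
  simp only [one_mul] at h
  have e3 : (boxN B).J (K := KF F') c⁻¹ Net.κ6 (Net.β6 c⁻¹)
      (fun x s => (boxN B).zbi (inB B F) x * A (sgh (F' : Set (ℤ × ℤ)) x s))
      = (boxN B).J (K := KF F') c⁻¹ Net.κ6 (Net.β6 c⁻¹)
      (fun x s => (boxN B).zbi (inB B F) x * A (sgh (F : Set (ℤ × ℤ)) x s)) := by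
    congr 1
    funext x s
    rw [hA.indep (F : Set (ℤ × ℤ)) (F' : Set (ℤ × ℤ)) x s]
  rw [e3, e1, e2] at h
  have p1 := (boxN B).J_zbi_pos (K := KF F') ht.le Net.κ6_nonneg (Net.β6_nonneg ht.le ht1)
    (fun i => Net.κ6_pos i 0) (fun e => Net.β6_pos ht e) (inB B (F : Set (ℤ × ℤ)))
  have p2 := (boxN B).J_zbi_pos (K := KF F') ht.le Net.κ6_nonneg (Net.β6_nonneg ht.le ht1)
    (fun i => Net.κ6_pos i 0) (fun e => Net.β6_pos ht e) (inB B (F' : Set (ℤ × ℤ)))
  set j1 := (boxN B).J (K := KF F') c⁻¹ Net.κ6 (Net.β6 c⁻¹)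
    (fun x _ => (boxN B).zbi (inB B (F : Set (ℤ × ℤ))) x)
  set j2 := (boxN B).J (K := KF F') c⁻¹ Net.κ6 (Net.β6 c⁻¹)
    (fun x _ => (boxN B).zbi (inB B (F' : Set (ℤ × ℤ))) x)
  have h' : (j1 * j2) * ze c F A ≤ (j1 * j2) * ze c F' A := by
    calc (j1 * j2) * ze c F A = j1 * ze c F A * j2 := by ring
      _ ≤ j1 * (j2 * ze c F' A) := h
      _ = _ := by ring
  exact le_of_mul_le_mul_left h' (mul_pos p1 p2)

/-- Positivity. -/
theorem ze_nonneg {c : ℝ} (hc : 1 ≤ c) (F : Finset (ℤ × ℤ)) {A : (Site → ℤ) → ℝ}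
    (hA : PosH A) : 0 ≤ ze c F A := by
  have hc0 : 0 < c := by linarith only [hc]
  have ht : 0 < c⁻¹ := inv_pos.mpr hc0
  have ht1 : c⁻¹ ≤ 1 := inv_le_one_of_one_le₀ hc
  obtain ⟨a, b, a', b', hB⟩ := exists_rect F
  set B := Finset.Icc a b ×ˢ Finset.Icc a' b'
  have e2 := J_ze hB (le_refl (KF F)) ht ht1 A
  rw [inv_inv] at e2
  have h := (boxN B).J_mon_nonneg (K := KF F) ht.le Net.κ6_nonneg (Net.β6_nonneg ht.le ht1)
    (P := (boxN B).zbi (inB B F)) ((boxN B).zbi_nonneg _) (hA.mon (F := (F : Set (ℤ × ℤ))))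
  rw [e2] at h
  have p1 := (boxN B).J_zbi_pos (K := KF F) ht.le Net.κ6_nonneg (Net.β6_nonneg ht.le ht1)
    (fun i => Net.κ6_pos i 0) (fun e => Net.β6_pos ht e) (inB B (F : Set (ℤ × ℤ)))
  exact nonneg_of_mul_nonneg_right h p1

/-- Rectangles are locally connected. -/
lemma boxN_loc {B : Finset (ℤ × ℤ)} (hB : ∀ f ∈ B, ∀ f' ∈ B, (f'.1, f.2) ∈ B) :
    (boxN B).Loc := by
  intro v D h1 h2
  -- two faces at `v` which differ in one coordinate
  have key : ∀ f f' : FB B, Cor v.1 f.1 → Cor v.1 f'.1 → f ∈ D → f' ∉ D →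
      (f.1.1 = f'.1.1 ∨ f.1.2 = f'.1.2) →
      ∃ e, ((boxN B).u e = v ∨ (boxN B).v e = v) ∧
        ¬ ((boxN B).f e ∈ D ↔ (boxN B).g e ∈ D) := by
    rintro ⟨⟨x, y⟩, hf⟩ ⟨⟨x', y'⟩, hf'⟩ ⟨a, b, ha, hb, hv⟩ ⟨a', b', ha', hb', hv'⟩ hfD hfD' hor
    simp only at hv hv' hor
    obtain ⟨⟨v1, v2⟩, hvB⟩ := v
    simp only [Prod.mk.injEq] at hv hv'
    have hne : ¬ (x = x' ∧ y = y') := by
      rintro ⟨rfl, rfl⟩
      exact hfD' hfD
    by_cases hxx : x = x'
    · subst hxx
      have hyy : y ≠ y' := fun h => hne ⟨rfl, h⟩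
      -- horizontal edge
      have hm : (x, v2) ∈ hE B := by
        refine Finset.mem_filter.mpr ⟨?_, ?_⟩
        · have : v2 = y ∨ v2 = y' := by (clear * - hb ha' hb' hv hor hv' hne hyy; omega)
          rcases this with h | h
          · rw [h]; exact hf
          · rw [h]; exact hf'
        · show (x, v2 - 1) ∈ B
          have : v2 - 1 = y ∨ v2 - 1 = y' := by omega
          rcases this with h | h
          · rw [h]; exact hf
          · rw [h]; exact hf'
      refine ⟨.inl ⟨(x, v2), hm⟩, ?_, ?_⟩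
      · have : v1 = x ∨ v1 = x + 1 := by (clear * - ha' hb' hv hor hv' hne hyy; omega)
        rcases this with h | h
        · left
          apply Subtype.ext
          show (x, v2) = (v1, v2)
          rw [h]
        · right
          apply Subtype.ext
          show (x + 1, v2) = (v1, v2)
          rw [h]
      · intro hiff
        have hy : (y = v2 ∧ y' = v2 - 1) ∨ (y = v2 - 1 ∧ y' = v2) := by omega
        rcases hy with ⟨h3, h4⟩ | ⟨h3, h4⟩
        · have q1 : (boxN B).f (.inl ⟨(x, v2), hm⟩) = ⟨(x, y), hf⟩ := by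
            apply Subtype.ext; show (x, v2) = (x, y); rw [h3]
          have q2 : (boxN B).g (.inl ⟨(x, v2), hm⟩) = ⟨(x, y'), hf'⟩ := by
            apply Subtype.ext; show (x, v2 - 1) = (x, y'); rw [h4]
          rw [q1, q2] at hiff
          exact hfD' (hiff.mp hfD)
        · have q1 : (boxN B).f (.inl ⟨(x, v2), hm⟩) = ⟨(x, y'), hf'⟩ := by
            apply Subtype.ext; show (x, v2) = (x, y'); rw [h4]
          have q2 : (boxN B).g (.inl ⟨(x, v2), hm⟩) = ⟨(x, y), hf⟩ := by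
            apply Subtype.ext; show (x, v2 - 1) = (x, y); rw [h3]
          rw [q1, q2] at hiff
          exact hfD' (hiff.mpr hfD)
    · have hyy : y = y' := by
        rcases hor with h | h
        · exact absurd h hxx
        · exact h
      subst hyy
      have hm : (v1, y) ∈ vE B := by
        refine Finset.mem_filter.mpr ⟨?_, ?_⟩
        · have : v1 = x ∨ v1 = x' := by omega
          rcases this with h | h
          · rw [h]; exact hf
          · rw [h]; exact hf'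
        · show (v1 - 1, y) ∈ B
          have : v1 - 1 = x ∨ v1 - 1 = x' := by omega
          rcases this with h | h
          · rw [h]; exact hf
          · rw [h]; exact hf'
      refine ⟨.inr ⟨(v1, y), hm⟩, ?_, ?_⟩
      · have : v2 = y ∨ v2 = y + 1 := by omega
        rcases this with h | h
        · left
          apply Subtype.ext
          show (v1, y) = (v1, v2)
          rw [h]
        · right
          apply Subtype.ext
          show (v1, y + 1) = (v1, v2)
          rw [h]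
      · intro hiff
        have hx : (x = v1 ∧ x' = v1 - 1) ∨ (x = v1 - 1 ∧ x' = v1) := by omega
        rcases hx with ⟨h3, h4⟩ | ⟨h3, h4⟩
        · have q1 : (boxN B).f (.inr ⟨(v1, y), hm⟩) = ⟨(x, y), hf⟩ := by
            apply Subtype.ext; show (v1, y) = (x, y); rw [h3]
          have q2 : (boxN B).g (.inr ⟨(v1, y), hm⟩) = ⟨(x', y), hf'⟩ := by
            apply Subtype.ext; show (v1 - 1, y) = (x', y); rw [h4]
          rw [q1, q2] at hiff
          exact hfD' (hiff.mp hfD)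
        · have q1 : (boxN B).f (.inr ⟨(v1, y), hm⟩) = ⟨(x', y), hf'⟩ := by
            apply Subtype.ext; show (v1, y) = (x', y); rw [h4]
          have q2 : (boxN B).g (.inr ⟨(v1, y), hm⟩) = ⟨(x, y), hf⟩ := by
            apply Subtype.ext; show (v1 - 1, y) = (x, y); rw [h3]
          rw [q1, q2] at hiff
          exact hfD' (hiff.mpr hfD)
  obtain ⟨f, hf, hfD⟩ := h1
  obtain ⟨f', hf', hfD'⟩ := h2
  have hm : (f'.1.1, f.1.2) ∈ B := hB f.1 f.2 f'.1 f'.2
  have hc : Cor v.1 (f'.1.1, f.1.2) := by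
    obtain ⟨a, b, ha, hb, hv⟩ := hf
    obtain ⟨a', b', ha', hb', hv'⟩ := hf'
    refine ⟨a', b, ha', hb, ?_⟩
    rw [Prod.ext_iff] at hv hv' ⊢
    exact ⟨hv'.1, hv.2⟩
  by_cases hD : (⟨(f'.1.1, f.1.2), hm⟩ : FB B) ∈ D
  · exact key ⟨_, hm⟩ f' hc hf' hD hfD' (Or.inl rfl)
  · exact key f ⟨_, hm⟩ hf hc hfD hD (Or.inr rfl)

lemma boxN_loc_rect (a b c d : ℤ) : (boxN (Finset.Icc a b ×ˢ Finset.Icc c d)).Loc := by
  refine boxN_loc ?_
  intro f hf f' hf'
  rw [Finset.mem_product] at hf hf' ⊢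
  exact ⟨hf'.1, hf.2⟩

end Vale.Agent.P145.FK
end

section

/-!
P145, block F-C: the sandwich. `O` is a set of odd sites (the faces outside of the larger domain),
`I` the faces of the smaller domain. The tilt consists of a function `Ξ` of the configuration
outside of `Oᶜ`, signs included (boundary values, densities), of the event that `I` is not
connected to `O` through medial vertices which are not blocked, and of a function `X` which is
decreasing and does not depend on the inside of `I`. Under the tilted law the expectation of an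
observable of `Mon` inside `I` is between the one of `I` and the one of `Oᶜ` with zero boundary
condition.
-/

namespace Vale.Agent.P145.FK

open Finset
open scoped Classical

namespace Net

variable {V F E : Type*} {K : ℕ}

/-- Outside part of a configuration with signs, seen from `O`. -/
noncomputable def repS (N : Net V F E) (O : Set F) (p : Cfg V F E K × (V ⊕ F → Bool)) :
    Cfg V F E K × (V ⊕ F → Bool) :=
  (N.mixC (N.expl O p.1)ᶜ p.1 (fun _ => 0, fun _ => false),
    N.mixS (N.expl O p.1)ᶜ p.2 (fun _ => false))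

/-- Agreement outside `D`, signs included. -/
def agS (N : Net V F E) (D : Set F) (p q : Cfg V F E K × (V ⊕ F → Bool)) : Prop :=
  N.agOut D p.1 q.1 ∧ ∀ i, ¬ N.inD D i → p.2 i = q.2 i

lemma agS_symm {N : Net V F E} {D : Set F} {p q : Cfg V F E K × (V ⊕ F → Bool)}
    (h : N.agS D p q) : N.agS D q p := ⟨agOut_symm h.1, fun i hi => (h.2 i hi).symm⟩

lemma agS_trans {N : Net V F E} {D : Set F} {p q r : Cfg V F E K × (V ⊕ F → Bool)}
    (h : N.agS D p q) (h' : N.agS D q r) : N.agS D p r :=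
  ⟨agOut_trans h.1 h'.1, fun i hi => (h.2 i hi).trans (h'.2 i hi)⟩

lemma repS_iff (N : Net V F E) (O : Set F) (p q : Cfg V F E K × (V ⊕ F → Bool)) :
    N.repS O q = N.repS O p ↔ N.agS (N.expl O p.1)ᶜ p q := by
  constructor
  · intro h
    have h1 : N.agOut (N.expl O q.1)ᶜ q.1 (N.repS O q).1 := agOut_symm (N.agOut_mixC _ _ _)
    have h2 : N.agOut (N.expl O p.1)ᶜ p.1 (N.repS O p).1 := agOut_symm (N.agOut_mixC _ _ _)
    have e1 := expl_congr h1
    have e2 := expl_congr h2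
    have e3 : N.expl O q.1 = N.expl O p.1 := by rw [← e1, ← e2, h]
    rw [e3] at h1
    rw [← h] at h2
    refine ⟨agOut_trans h2 (agOut_symm h1), fun i hi => ?_⟩
    have h3 := congrFun (congrArg Prod.snd h) i
    unfold repS at h3
    simp only [mixS, e3, if_neg hi] at h3
    exact h3.symm
  · rintro ⟨h, hs⟩
    have e := expl_congr h
    unfold repS
    rw [e]
    refine Prod.ext (Prod.ext ?_ ?_) ?_
    · funext i
      by_cases hi : N.inD (N.expl O p.1)ᶜ i
      · simp [mixC, hi]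
      · simp only [mixC, hi, if_false]
        exact (h.1 i hi).symm
    · funext j
      by_cases hj : N.inE (N.expl O p.1)ᶜ j
      · simp [mixC, hj]
      · simp only [mixC, hj, if_false]
        exact (h.2 j hj).symm
    · funext i
      by_cases hi : N.inD (N.expl O p.1)ᶜ i
      · simp [mixS, hi]
      · simp only [mixS, hi, if_false]
        exact (hs i hi).symm

lemma mixC_mono_right (N : Net V F E) (D : Set F) (x : Cfg V F E K) {y z : Cfg V F E K}
    (h : y ≤ z) : N.mixC D x y ≤ N.mixC D x z := by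
  refine ⟨fun i => ?_, fun e => ?_⟩
  · by_cases hi : N.inD D i
    · simp only [mixC, hi, if_true]; exact h.1 i
    · simp only [mixC, hi, if_false]; exact le_rfl
  · by_cases he : N.inE D e
    · simp only [mixC, he, if_true]; exact h.2 e
    · simp only [mixC, he, if_false]; exact le_rfl

lemma mixC_eq_of_agOut {N : Net V F E} {D : Set F} {x y : Cfg V F E K} (h : N.agOut D x y) :
    N.mixC D x y = y := by
  refine Prod.ext ?_ ?_
  · funext i
    by_cases hi : N.inD D i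
    · simp [mixC, hi]
    · simp only [mixC, hi, if_false]; exact h.1 i hi
  · funext e
    by_cases he : N.inE D e
    · simp [mixC, he]
    · simp only [mixC, he, if_false]; exact h.2 e he

lemma mixC_congr {N : Net V F E} {D : Set F} {x y z : Cfg V F E K} (h : N.agIn D y z) :
    N.mixC D x y = N.mixC D x z := by
  refine Prod.ext ?_ ?_
  · funext i
    by_cases hi : N.inD D i
    · simp only [mixC, hi, if_true]; exact h.1 i hi
    · simp [mixC, hi]
  · funext e
    by_cases he : N.inE D e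
    · simp only [mixC, he, if_true]; exact h.2 e he
    · simp [mixC, he]

lemma agOut_mixC_congr {N : Net V F E} {D I : Set F} {x y z : Cfg V F E K} (h : N.agOut I y z) :
    N.agOut I (N.mixC D x y) (N.mixC D x z) := by
  refine ⟨fun i hi => ?_, fun e he => ?_⟩
  · by_cases hD : N.inD D i
    · simp only [mixC, hD, if_true]; exact h.1 i hi
    · simp [mixC, hD]
  · by_cases hD : N.inE D e
    · simp only [mixC, hD, if_true]; exact h.2 e he
    · simp [mixC, hD]

lemma agOut_mono {N : Net V F E} {D D' : Set F} (h : D ⊆ D') {x y : Cfg V F E K}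
    (hx : N.agOut D x y) : N.agOut D' x y :=
  ⟨fun i hi => hx.1 i fun h' => hi (inD_mono h h'), fun e he => hx.2 e fun h' => he (inE_mono h h')⟩

section
variable [Fintype V] [Fintype F] [Fintype E]

/-- Both bounds on one class of the exploration. -/
lemma class_both (N : Net V F E) {t : ℝ} (ht0 : 0 ≤ t) (ht : t ≤ 1)
    {κ : V ⊕ F → Fin (K + 1) → ℝ} (hκ : ∀ i z, 0 ≤ κ i z) {β : E → Bool → ℝ}
    (hβ : ∀ e b, 0 ≤ β e b) (hκ0 : ∀ i, 0 < κ i 0) (hβ0 : ∀ e, 0 < β e false)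
    {I D D' : Set F} (hID : I ⊆ D) (hD : D ⊆ D') {p0 : Cfg V F E K × (V ⊕ F → Bool)}
    (hp : N.blk D p0.1) {X : Cfg V F E K → ℝ} (hX : ∀ x, 0 ≤ X x) (hXa : Antitone X)
    (hXI : ∀ x y, N.agOut I x y → X x = X y)
    {A : Cfg V F E K → (V ⊕ F → Bool) → ℝ} (hA : Mon A)
    (hAI : ∀ x x' s s', N.agIn I x x' → (∀ i, N.inD I i → s i = s' i) → A x s = A x' s') :
    N.J t κ β (fun x s => (if N.agS D p0 (x, s) then 1 else 0) * X x * A x s) *
        N.J t κ β (fun x _ => N.zbi D' x)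
      ≤ N.J t κ β (fun x s => (if N.agS D p0 (x, s) then 1 else 0) * X x) *
        N.J t κ β (fun x s => N.zbi D' x * A x s) ∧
    N.J t κ β (fun x s => (if N.agS D p0 (x, s) then 1 else 0) * X x) *
        N.J t κ β (fun x s => N.zbi I x * A x s)
      ≤ N.J t κ β (fun x s => (if N.agS D p0 (x, s) then 1 else 0) * X x * A x s) *
        N.J t κ β (fun x _ => N.zbi I x) := by
  set Go : Cfg V F E K → (V ⊕ F → Bool) → ℝ := fun x s => if N.agS D p0 (x, s) then 1 else 0
    with hGo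
  set Y : Cfg V F E K → ℝ := fun x => X (N.mixC D p0.1 x) with hY
  have hY0 : ∀ x, 0 ≤ Y x := fun x => hX _
  have hYa : Antitone Y := fun x y h => hXa (N.mixC_mono_right D p0.1 h)
  have hYI : ∀ x y, N.agOut I x y → Y x = Y y := fun x y h => hXI _ _ (agOut_mixC_congr h)
  have hGo0 : ∀ x s, 0 ≤ Go x s := fun x s => by simp only [hGo]; split_ifs <;> norm_num
  have e1 : ∀ x s, Go x s * X x = Go x s * Y x := by
    intro x s
    by_cases h : N.agS D p0 (x, s)
    · have h1 : N.mixC D p0.1 x = x := mixC_eq_of_agOut h.1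
      simp only [hY, h1]
    · have h1 : Go x s = 0 := if_neg h
      rw [h1, zero_mul, zero_mul]
  have g1 : ∀ x s, Go x s ≠ 0 → N.blk D x := by
    intro x s hx
    have h : N.agS D p0 (x, s) := by
      by_contra h
      exact hx (if_neg h)
    refine ⟨fun v hv hf => ?_, fun e he => ?_⟩
    · rw [← h.1.1 _ hv]; exact hp.1 v hv hf
    · rw [← h.1.2 e fun h' => he ⟨fun _ => h'.2, fun _ => h'.1⟩]; exact hp.2 e he
  have g2 : ∀ x x' s s', N.agOut D x x' → (∀ i, ¬ N.inD D i → s i = s' i) →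
      Go x s = Go x' s' := by
    intro x x' s s' h hs
    have h1 : N.agS D (x, s) (x', s') := ⟨h, hs⟩
    have : N.agS D p0 (x, s) ↔ N.agS D p0 (x', s') :=
      ⟨fun h' => agS_trans h' h1, fun h' => agS_trans h' (agS_symm h1)⟩
    simp only [hGo, this]
  have m1 := N.markov t κ β (Go := Go) (Gi := fun x s => Y x * A x s) g1 g2 (by
    intro x x' s s' h hs
    have h1 : Y x = Y x' := by
      simp only [hY, mixC_congr h]
    have h2 : A x s = A x' s' := hAI _ _ _ _ (agIn_mono hID h) fun i hi => hs i (inD_mono hID hi)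
    rw [h1, h2])
  have m2 := N.markov t κ β (Go := Go) (Gi := fun x _ => Y x) g1 g2 (by
    intro x x' s s' h hs
    simp only [hY, mixC_congr h])
  have z0 := N.J_zbi_pos ht0 hκ hβ hκ0 hβ0 (D := D)
  have d1 := N.dom_mono ht0 ht hκ hβ hD hY0 hYa hA
  have d2 := N.zero_le_out ht0 ht hκ hβ I (X := fun _ => 1) (Θ := fun x => N.zbi D x * Y x)
    (C := fun _ => 1) (fun _ => zero_le_one) (fun _ _ _ => le_rfl)
    (fun x => mul_nonneg (N.zbi_nonneg D x) (hY0 x))
    (fun x y h => by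
      have h1 : N.zbi D x = N.zbi D y := by
        unfold zbi
        simp only [zb_congr (agOut_mono hID h)]
      rw [h1, hYI x y h]) (fun _ => zero_le_one) (fun _ _ _ => le_rfl) hA
  simp only [one_mul, mul_one] at d2
  have r1 : N.J t κ β (fun x s => Go x s * X x * A x s)
      = N.J t κ β (fun x s => Go x s * (Y x * A x s)) := by
    congr 1
    funext x s
    rw [e1, mul_assoc]
  have r2 : N.J t κ β (fun x s => Go x s * X x) = N.J t κ β (fun x s => Go x s * Y x) := by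
    congr 1
    funext x s
    rw [e1]
  have r3 : N.J t κ β (fun x s => N.zbi D x * (Y x * A x s))
      = N.J t κ β (fun x s => Y x * N.zbi D x * A x s) := by
    congr 1
    funext x s
    ring
  have r4 : N.J t κ β (fun x _ => N.zbi D x * Y x)
      = N.J t κ β (fun x _ => Y x * N.zbi D x) := by
    congr 1
    funext x s
    ring
  have r5 : N.J t κ β (fun x s => N.zbi D x * Y x * A x s)
      = N.J t κ β (fun x s => Y x * N.zbi D x * A x s) := by
    congr 1
    funext x s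
    ring
  have b0 : 0 ≤ N.J t κ β Go := N.J_nonneg ht0 hκ hβ hGo0
  rw [r1, r2]
  rw [r3] at m1
  rw [r4] at m2
  rw [r5, r4] at d2
  set a1 := N.J t κ β (fun x s => Go x s * (Y x * A x s))
  set a2 := N.J t κ β (fun x s => Go x s * Y x)
  set g := N.J t κ β Go
  set c1 := N.J t κ β (fun x s => Y x * N.zbi D x * A x s)
  set c2 := N.J t κ β (fun x _ => Y x * N.zbi D x)
  set z := N.J t κ β (fun x _ => N.zbi D x)
  constructor
  · refine le_of_mul_le_mul_right ?_ z0
    calc a1 * N.J t κ β (fun x _ => N.zbi D' x) * z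
        = (a1 * z) * N.J t κ β (fun x _ => N.zbi D' x) := by ring
      _ = g * (c1 * N.J t κ β (fun x _ => N.zbi D' x)) := by rw [m1]; ring
      _ ≤ g * (c2 * N.J t κ β (fun x s => N.zbi D' x * A x s)) := mul_le_mul_of_nonneg_left d1 b0
      _ = (a2 * z) * N.J t κ β (fun x s => N.zbi D' x * A x s) := by rw [m2]; ring
      _ = _ := by ring
  · refine le_of_mul_le_mul_right ?_ z0
    calc a2 * N.J t κ β (fun x s => N.zbi I x * A x s) * z
        = (a2 * z) * N.J t κ β (fun x s => N.zbi I x * A x s) := by ring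
      _ = g * (N.J t κ β (fun x s => N.zbi I x * A x s) * c2) := by rw [m2]; ring
      _ ≤ g * (N.J t κ β (fun x _ => N.zbi I x) * c1) := mul_le_mul_of_nonneg_left d2 b0
      _ = (a1 * z) * N.J t κ β (fun x _ => N.zbi I x) := by rw [m1]; ring
      _ = _ := by ring

/-- The sandwich. -/
theorem sandwich (N : Net V F E) (hN : N.Loc) {t : ℝ} (ht0 : 0 ≤ t) (ht : t ≤ 1)
    {κ : V ⊕ F → Fin (K + 1) → ℝ} (hκ : ∀ i z, 0 ≤ κ i z) {β : E → Bool → ℝ}
    (hβ : ∀ e b, 0 ≤ β e b) (hκ0 : ∀ i, 0 < κ i 0) (hβ0 : ∀ e, 0 < β e false)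
    {O I : Set F} {Ξ : Cfg V F E K → (V ⊕ F → Bool) → ℝ} (hΞ : ∀ x s, 0 ≤ Ξ x s)
    (hΞO : ∀ x x' s s', N.agOut Oᶜ x x' → (∀ i, ¬ N.inD Oᶜ i → s i = s' i) → Ξ x s = Ξ x' s')
    {X : Cfg V F E K → ℝ} (hX : ∀ x, 0 ≤ X x) (hXa : Antitone X)
    (hXI : ∀ x y, N.agOut I x y → X x = X y)
    {A : Cfg V F E K → (V ⊕ F → Bool) → ℝ} (hA : Mon A)
    (hAI : ∀ x x' s s', N.agIn I x x' → (∀ i, N.inD I i → s i = s' i) → A x s = A x' s') :
    N.J t κ β (fun x s => Ξ x s * X x * (if Disjoint (N.expl O x) I then 1 else 0) * A x s) *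
        N.J t κ β (fun x _ => N.zbi Oᶜ x)
      ≤ N.J t κ β (fun x s => Ξ x s * X x * (if Disjoint (N.expl O x) I then 1 else 0)) *
        N.J t κ β (fun x s => N.zbi Oᶜ x * A x s) ∧
    N.J t κ β (fun x s => Ξ x s * X x * (if Disjoint (N.expl O x) I then 1 else 0)) *
        N.J t κ β (fun x s => N.zbi I x * A x s)
      ≤ N.J t κ β (fun x s => Ξ x s * X x * (if Disjoint (N.expl O x) I then 1 else 0) * A x s) *
        N.J t κ β (fun x _ => N.zbi I x) := by
  -- decomposition of a sum over the classes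
  have dec : ∀ G : Cfg V F E K → (V ⊕ F → Bool) → ℝ,
      N.J t κ β (fun x s => Ξ x s * X x * (if Disjoint (N.expl O x) I then 1 else 0) * G x s)
        = ∑ c : Cfg V F E K × (V ⊕ F → Bool), N.J t κ β (fun x s =>
          Ξ x s * X x * ((if Disjoint (N.expl O x) I then 1 else 0) *
            (if N.repS O (x, s) = c then 1 else 0)) * G x s) := by
    intro G
    simp only [J_eq_tw]
    rw [Finset.sum_comm]
    refine Finset.sum_congr rfl fun p _ => ?_
    have h : ∑ c : Cfg V F E K × (V ⊕ F → Bool), (if N.repS O (p.1, p.2) = c then (1 : ℝ) else 0)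
        = 1 := by
      simp
    calc N.tw t κ β p.1 p.2 * (Ξ p.1 p.2 * X p.1 * (if Disjoint (N.expl O p.1) I then 1 else 0) *
          G p.1 p.2)
        = N.tw t κ β p.1 p.2 * (Ξ p.1 p.2 * X p.1 * (if Disjoint (N.expl O p.1) I then 1 else 0) *
          G p.1 p.2) * ∑ c : Cfg V F E K × (V ⊕ F → Bool),
            (if N.repS O (p.1, p.2) = c then (1 : ℝ) else 0) := by rw [h, mul_one]
      _ = _ := by
        rw [Finset.mul_sum]
        refine Finset.sum_congr rfl fun η _ => ?_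
        ring
  have dec1 := dec (fun _ _ => 1)
  simp only [mul_one] at dec1
  -- each class
  have cls : ∀ c : Cfg V F E K × (V ⊕ F → Bool),
      N.J t κ β (fun x s => Ξ x s * X x * ((if Disjoint (N.expl O x) I then 1 else 0) *
            (if N.repS O (x, s) = c then 1 else 0)) * A x s) *
          N.J t κ β (fun x _ => N.zbi Oᶜ x)
        ≤ N.J t κ β (fun x s => Ξ x s * X x * ((if Disjoint (N.expl O x) I then 1 else 0) *
            (if N.repS O (x, s) = c then 1 else 0))) *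
          N.J t κ β (fun x s => N.zbi Oᶜ x * A x s) ∧
      N.J t κ β (fun x s => Ξ x s * X x * ((if Disjoint (N.expl O x) I then 1 else 0) *
            (if N.repS O (x, s) = c then 1 else 0))) *
          N.J t κ β (fun x s => N.zbi I x * A x s)
        ≤ N.J t κ β (fun x s => Ξ x s * X x * ((if Disjoint (N.expl O x) I then 1 else 0) *
            (if N.repS O (x, s) = c then 1 else 0)) * A x s) *
          N.J t κ β (fun x _ => N.zbi I x) := by
    intro c
    by_cases hc : ∃ p0 : Cfg V F E K × (V ⊕ F → Bool), Disjoint (N.expl O p0.1) I ∧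
        N.repS O p0 = c
    · obtain ⟨p0, hd, he⟩ := hc
      have hfun : ∀ x s, Ξ x s * X x * ((if Disjoint (N.expl O x) I then (1 : ℝ) else 0) *
          (if N.repS O (x, s) = c then 1 else 0))
            = Ξ p0.1 p0.2 * ((if N.agS (N.expl O p0.1)ᶜ p0 (x, s) then 1 else 0) * X x) := by
        intro x s
        by_cases h : N.agS (N.expl O p0.1)ᶜ p0 (x, s)
        · have e := expl_congr h.1
          have hr := (N.repS_iff O p0 (x, s)).mpr h
          have hO : N.agOut Oᶜ p0.1 x :=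
            agOut_mono (Set.compl_subset_compl.mpr (N.subset_expl O p0.1)) h.1
          have hΞ1 : Ξ x s = Ξ p0.1 p0.2 := by
            refine (hΞO _ _ _ _ hO fun i hi => h.2 i fun h' => hi ?_).symm
            exact inD_mono (Set.compl_subset_compl.mpr (N.subset_expl O p0.1)) h'
          have e' : N.expl O x = N.expl O p0.1 := e
          rw [if_pos h, e', if_pos hd, hr, if_pos he, hΞ1]
          ring
        · rw [if_neg h]
          have : ¬ N.repS O (x, s) = c := by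
            intro h'
            exact h ((N.repS_iff O p0 (x, s)).mp (h'.trans he.symm))
          rw [if_neg this]
          ring
      have hID : I ⊆ (N.expl O p0.1)ᶜ := fun f hf hf' => (Set.disjoint_left.mp hd) hf' hf
      have key := N.class_both ht0 ht hκ hβ hκ0 hβ0 (D := (N.expl O p0.1)ᶜ) (D' := Oᶜ) hID
        (Set.compl_subset_compl.mpr (N.subset_expl O p0.1)) (blk_expl hN O p0.1) hX hXa hXI hA hAI
      have hm : ∀ G : Cfg V F E K → (V ⊕ F → Bool) → ℝ,
          N.J t κ β (fun x s => Ξ p0.1 p0.2 * G x s) = Ξ p0.1 p0.2 * N.J t κ β G := by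
        intro G
        rw [J_eq_tw, J_eq_tw, Finset.mul_sum]
        refine Finset.sum_congr rfl fun p _ => ?_
        ring
      have f1 : N.J t κ β (fun x s => Ξ x s * X x * ((if Disjoint (N.expl O x) I then 1 else 0) *
            (if N.repS O (x, s) = c then 1 else 0)))
          = Ξ p0.1 p0.2 * N.J t κ β (fun x s =>
            (if N.agS (N.expl O p0.1)ᶜ p0 (x, s) then 1 else 0) * X x) := by
        rw [← hm]
        congr 1
        funext x s
        exact hfun x s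
      have f2 : N.J t κ β (fun x s => Ξ x s * X x * ((if Disjoint (N.expl O x) I then 1 else 0) *
            (if N.repS O (x, s) = c then 1 else 0)) * A x s)
          = Ξ p0.1 p0.2 * N.J t κ β (fun x s =>
            (if N.agS (N.expl O p0.1)ᶜ p0 (x, s) then 1 else 0) * X x * A x s) := by
        rw [← hm]
        congr 1
        funext x s
        rw [hfun x s]
        ring
      rw [f1, f2]
      constructor
      · calc _ = Ξ p0.1 p0.2 * (N.J t κ β (fun x s =>
            (if N.agS (N.expl O p0.1)ᶜ p0 (x, s) then 1 else 0) * X x * A x s) *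
            N.J t κ β (fun x _ => N.zbi Oᶜ x)) := by ring
          _ ≤ _ := mul_le_mul_of_nonneg_left key.1 (hΞ _ _)
          _ = _ := by ring
      · calc _ = Ξ p0.1 p0.2 * (N.J t κ β (fun x s =>
            (if N.agS (N.expl O p0.1)ᶜ p0 (x, s) then 1 else 0) * X x) *
            N.J t κ β (fun x s => N.zbi I x * A x s)) := by ring
          _ ≤ _ := mul_le_mul_of_nonneg_left key.2 (hΞ _ _)
          _ = _ := by ring
    · have hfun : ∀ x s, (if Disjoint (N.expl O x) I then (1 : ℝ) else 0) *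
          (if N.repS O (x, s) = c then 1 else 0) = 0 := by
        intro x s
        by_cases h1 : Disjoint (N.expl O x) I
        · by_cases h2 : N.repS O (x, s) = c
          · exact absurd ⟨(x, s), h1, h2⟩ hc
          · rw [if_neg h2, mul_zero]
        · rw [if_neg h1, zero_mul]
      simp only [hfun, mul_zero, zero_mul]
      have : N.J t κ β (fun (_ : Cfg V F E K) (_ : V ⊕ F → Bool) => (0 : ℝ)) = 0 := by
        simp only [J, mul_zero, sum_const_zero]
      simp only [this, zero_mul, le_refl, and_self]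
  rw [dec A, dec1]
  constructor
  · rw [Finset.sum_mul, Finset.sum_mul]
    exact Finset.sum_le_sum fun c _ => (cls c).1
  · rw [Finset.sum_mul, Finset.sum_mul]
    exact Finset.sum_le_sum fun c _ => (cls c).2

end

end Net

end Vale.Agent.P145.FK
end

section

/-!
P145, block F-C: the sandwich for finite sums over signed heights on a rectangle with frozen
boundary values, in terms of the zero boundary expectations `Dom.ze`.
-/

namespace Vale.Agent.P145.FK

open Finset Vale.Agent.P145.FP Vale.Agent.P145.Dom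
open scoped Classical

namespace Net

variable {V F E : Type*} {K : ℕ}

/-- One step through an edge with `w e = true`. -/
def stepW (N : Net V F E) (w : E → Bool) (f f' : F) : Prop :=
  ∃ e, w e = true ∧ ((N.f e = f ∧ N.g e = f') ∨ (N.g e = f ∧ N.f e = f'))

/-- The odd sites which are connected to `O` through the edges with `w e = true`. -/
def rch (N : Net V F E) (O : Set F) (w : E → Bool) : Set F :=
  {f | ∃ f0 ∈ O, Relation.ReflTransGen (N.stepW w) f0 f}

/-- The edge variables of a configuration: not blocked. -/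
noncomputable def wx (N : Net V F E) (x : Cfg V F E K) : E → Bool := fun e => decide (¬ N.blocked x e)

lemma wx_true {N : Net V F E} {x : Cfg V F E K} {e : E} : N.wx x e = true ↔ ¬ N.blocked x e := by
  unfold wx
  exact decide_eq_true_iff

lemma rch_wx (N : Net V F E) (O : Set F) (x : Cfg V F E K) : N.rch O (N.wx x) = N.expl O x := by
  have h : N.stepW (N.wx x) = N.step x := by
    funext f f'
    refine propext ⟨?_, ?_⟩
    · rintro ⟨e, he, h⟩
      exact ⟨e, wx_true.1 he, h⟩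
    · rintro ⟨e, he, h⟩
      exact ⟨e, wx_true.2 he, h⟩
  unfold rch expl
  rw [h]

lemma wx_mono {N : Net V F E} {x y : Cfg V F E K} (h : x ≤ y) : N.wx x ≤ N.wx y := by
  intro e
  by_cases hy : N.wx y e = true
  · rw [hy]; exact le_top
  · have h1 : N.blocked y e := by
      by_contra h2
      exact hy (wx_true.2 h2)
    have h2 : N.wx x e = false := by
      rw [← Bool.not_eq_true, wx_true]
      exact not_not.2 (blocked_anti h h1)
    rw [h2]
    exact bot_le

lemma wx_congr {N : Net V F E} {I : Set F} {x y : Cfg V F E K} (h : N.agOut I x y) {e : E}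
    (he : ¬ N.inE I e) : N.wx x e = N.wx y e := by
  have hu : ¬ N.inD I (.inl (N.u e)) := fun h' => he ⟨h' _ (N.huf e), h' _ (N.hug e)⟩
  have hv : ¬ N.inD I (.inl (N.v e)) := fun h' => he ⟨h' _ (N.hvf e), h' _ (N.hvg e)⟩
  unfold wx blocked
  rw [h.1 _ hu, h.1 _ hv, h.2 _ he]

end Net

/-- `A` depends only on the heights at the vertices all of whose faces are in `F`. -/
def Dep (F : Finset (ℤ × ℤ)) (A : (Site → ℤ) → ℝ) : Prop :=
  ∀ x x' : Site → ℤ, (∀ v, (∀ f, Cor v f → f ∈ F) → x (.inl v) = x' (.inl v)) → A x = A x'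

/-- The weighted sum over the signed heights on `B`. -/
noncomputable def SS {B : Finset (ℤ × ℤ)} (K : ℕ) (t : ℝ) (Γ : (EB B → Bool) → ℝ)
    (G : (VB B ⊕ FB B → ℤ) → ℝ) : ℝ :=
  ∑ y ∈ Net.TTs (V := VB B) K (Set.univ : Set (FB B)),
    G y * ∑ w : EB B → Bool, (boxN B).Φ t Set.univ (Net.toCf y w) * Γ w

/-- The sandwich on a box. -/
theorem box_sandwich {B F₁ F₂ : Finset (ℤ × ℤ)} (hL : (boxN B).Loc) (hB : Nb B F₂) (hF : F₁ ⊆ F₂)
    {t : ℝ} (ht0 : 0 < t) (ht1 : t ≤ 1) {K : ℕ} (hK : KF F₂ ≤ K)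
    {Ξ : (VB B ⊕ FB B → ℤ) → ℝ} (hΞ0 : ∀ y, 0 ≤ Ξ y)
    (hΞO : ∀ y y', (∀ i, ¬ (boxN B).inD (inB B F₂) i → y i = y' i) → Ξ y = Ξ y')
    {Γ : (EB B → Bool) → ℝ} (hΓ0 : ∀ w, 0 ≤ Γ w) (hΓa : Antitone Γ)
    (hΓI : ∀ w w', (∀ e, ¬ (boxN B).inE (inB B F₁) e → w e = w' e) → Γ w = Γ w')
    (hΓZ : ∀ w, Γ w ≠ 0 → Disjoint ((boxN B).rch (inB B (F₂ : Set (ℤ × ℤ)))ᶜ w)
      (inB B (F₁ : Set (ℤ × ℤ))))
    {A : (Site → ℤ) → ℝ} (hA : PosH A) (hAI : Dep F₁ A) :
    SS K t Γ (fun y => Ξ y * A (xt y)) ≤ ze t⁻¹ F₂ A * SS K t Γ Ξ ∧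
    ze t⁻¹ F₁ A * SS K t Γ Ξ ≤ SS K t Γ (fun y => Ξ y * A (xt y)) := by
  set N := boxN B with hNdef
  have hB1 : Nb B (F₁ : Set (ℤ × ℤ)) := hB.mono (by exact_mod_cast hF)
  have hK1 : KF F₁ ≤ K := (KF_mono hF).trans hK
  set pu : Net.Cfg (VB B) (FB B) (EB B) K → (VB B ⊕ FB B → Bool) → (VB B ⊕ FB B → ℤ) :=
    fun x s i => Net.pv (V := VB B) (Set.univ : Set (FB B)) i (x.1 i, s i) with hpu
  have hAu : ∀ (F' : Set (ℤ × ℤ)) (x : Net.Cfg (VB B) (FB B) (EB B) K) (s : VB B ⊕ FB B → Bool),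
      A (sgh F' x s) = A (xt (pu x s)) := by
    intro F' x s
    rw [hA.indep F' Set.univ x s]
    have : inB B Set.univ = (Set.univ : Set (FB B)) := rfl
    unfold sgh
    rw [this]
  have key := N.sandwich (K := K) hL ht0.le ht1 (κ := Net.κ6) Net.κ6_nonneg (β := Net.β6 t)
    (Net.β6_nonneg ht0.le ht1) (fun i => Net.κ6_pos i 0) (Net.β6_pos ht0)
    (O := (inB B (F₂ : Set (ℤ × ℤ)))ᶜ) (I := inB B (F₁ : Set (ℤ × ℤ)))
    (Ξ := fun x s => Ξ (pu x s)) (fun x s => hΞ0 _)
    (by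
      intro x x' s s' h hs
      rw [compl_compl] at h hs
      refine hΞO _ _ fun i hi => ?_
      simp only [hpu]
      rw [h.1 _ hi, hs _ hi])
    (X := fun x => Γ (N.wx x)) (fun x => hΓ0 _) (fun x y h => hΓa (Net.wx_mono h))
    (fun x y h => hΓI _ _ fun e he => Net.wx_congr h he)
    (A := fun x s => A (sgh (F₁ : Set (ℤ × ℤ)) x s)) (hA.mon (F := (F₁ : Set (ℤ × ℤ))))
    (by
      intro x x' s s' h hs
      refine hAI _ _ fun v hv => ?_
      by_cases hvB : v ∈ verts B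
      · have hD : N.inD (inB B (F₁ : Set (ℤ × ℤ))) (.inl ⟨v, hvB⟩) := fun f hf => hv f.1 hf
        have e1 := h.1 _ hD
        have e2 := hs _ hD
        simp only [sgh, xt, Sum.elim_inl, dif_pos hvB]
        rw [e1, e2]
      · simp only [sgh, xt, Sum.elim_inl, dif_neg hvB])
  rw [compl_compl] at key
  have hZ : ∀ x : Net.Cfg (VB B) (FB B) (EB B) K, Γ (N.wx x) *
      (if Disjoint (N.expl (inB B (F₂ : Set (ℤ × ℤ)))ᶜ x) (inB B (F₁ : Set (ℤ × ℤ))) then 1 else 0)
      = Γ (N.wx x) := by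
    intro x
    by_cases h : Γ (N.wx x) = 0
    · rw [h, zero_mul]
    · have := hΓZ _ h
      rw [Net.rch_wx] at this
      rw [if_pos this, mul_one]
  have j1 : ∀ G : Net.Cfg (VB B) (FB B) (EB B) K → (VB B ⊕ FB B → Bool) → ℝ,
      N.J t Net.κ6 (Net.β6 t) (fun x s => Ξ (pu x s) * Γ (N.wx x) *
        (if Disjoint (N.expl (inB B (F₂ : Set (ℤ × ℤ)))ᶜ x) (inB B (F₁ : Set (ℤ × ℤ))) then 1
          else 0) * G x s) =
      N.J t Net.κ6 (Net.β6 t) (fun x s => Ξ (pu x s) * Γ (N.wx x) * G x s) := by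
    intro G
    congr 1
    funext x s
    rw [mul_assoc (Ξ (pu x s)), hZ]
  have j1' : N.J t Net.κ6 (Net.β6 t) (fun x s => Ξ (pu x s) * Γ (N.wx x) *
        (if Disjoint (N.expl (inB B (F₂ : Set (ℤ × ℤ)))ᶜ x) (inB B (F₁ : Set (ℤ × ℤ))) then 1
          else 0)) =
      N.J t Net.κ6 (Net.β6 t) (fun x s => Ξ (pu x s) * Γ (N.wx x)) := by
    congr 1
    funext x s
    rw [mul_assoc (Ξ (pu x s)), hZ]
  rw [j1, j1'] at key
  -- the bridge
  have hzu : ∀ x : Net.Cfg (VB B) (FB B) (EB B) K, N.zbi Set.univ x = 1 := by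
    intro x
    refine if_pos ⟨fun i hi => absurd ?_ hi, fun e he => absurd ⟨Set.mem_univ _, Set.mem_univ _⟩ he⟩
    rcases i with v | f
    · exact fun f _ => Set.mem_univ f
    · exact Set.mem_univ f
  set C : ℝ := t ^ Fintype.card (EB B) *
    2 ^ (Finset.univ.filter (fun f : FB B => f ∉ (Set.univ : Set (FB B)))).card with hC
  have hC0 : 0 < C := by rw [hC]; positivity
  have b1 : ∀ Θ : (VB B ⊕ FB B → ℤ) → ℝ,
      N.J (K := K) t Net.κ6 (Net.β6 t) (fun x s => Ξ (pu x s) * Γ (N.wx x) * Θ (pu x s)) =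
      C * SS K t Γ (fun y => Ξ y * Θ y) := by
    intro Θ
    have h1 := Net.bridge_sum (K := K) N ht0 Set.univ
      (fun y => Ξ (Sum.elim y.h y.k) * Γ y.w * Θ (Sum.elim y.h y.k))
    have e1 : (fun (x : Net.Cfg (VB B) (FB B) (EB B) K) (s : VB B ⊕ FB B → Bool) =>
        N.zbi Set.univ x * (Ξ (Sum.elim (N.img Set.univ x s).h (N.img Set.univ x s).k) *
          Γ (N.img Set.univ x s).w * Θ (Sum.elim (N.img Set.univ x s).h (N.img Set.univ x s).k)))
        = fun x s => Ξ (pu x s) * Γ (N.wx x) * Θ (pu x s) := by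
      funext x s
      have e2 : (Sum.elim (N.img Set.univ x s).h (N.img Set.univ x s).k : VB B ⊕ FB B → ℤ)
          = pu x s := by
        funext i
        rcases i with v | f <;> rfl
      have e3 : (N.img Set.univ x s).w = N.wx x := by
        funext e
        rw [Bool.eq_iff_iff, Net.img_w_true, Net.wx_true]
        exact ⟨fun h => h.2, fun h => ⟨⟨Set.mem_univ _, Set.mem_univ _⟩, h⟩⟩
      rw [hzu, one_mul, e2, e3]
    rw [e1] at h1
    rw [h1]
    have e5 : (t ^ Fintype.card (EB B) * 2 ^ (Finset.univ.filter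
        (fun f : FB B => f ∉ (Set.univ : Set (FB B)))).card : ℝ) = C := by
      rw [hC]
    refine congrArg₂ (· * ·) (by rw [← e5]; congr) ?_
    unfold SS Net.TTs
    refine Finset.sum_congr rfl fun y _ => ?_
    rw [Finset.mul_sum]
    refine Finset.sum_congr (Finset.ext fun _ => by simp) fun w _ => ?_
    have e4 : (Sum.elim (Net.toCf y w : FC.Cf (VB B) (FB B) (EB B)).h (Net.toCf y w).k :
        VB B ⊕ FB B → ℤ) = y := by
      funext i
      rcases i with v | f <;> rfl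
    rw [e4]
    show N.Φ t Set.univ (Net.toCf y w) * (Ξ y * Γ w * Θ y) =
      Ξ y * Θ y * (N.Φ t Set.univ (Net.toCf y w) * Γ w)
    ring
  have b2 : N.J (K := K) t Net.κ6 (Net.β6 t) (fun x s => Ξ (pu x s) * Γ (N.wx x)) =
      C * SS K t Γ Ξ := by
    have h1 := b1 (fun _ => 1)
    simp only [mul_one] at h1
    exact h1
  have b3 : N.J (K := K) t Net.κ6 (Net.β6 t) (fun x s => Ξ (pu x s) * Γ (N.wx x) *
      A (sgh (F₁ : Set (ℤ × ℤ)) x s)) = C * SS K t Γ (fun y => Ξ y * A (xt y)) := by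
    simp only [hAu]
    exact b1 (fun y => A (xt y))
  have b4 := J_ze hB hK ht0 ht1 A
  have b5 := J_ze hB1 hK1 ht0 ht1 A
  have b4' : N.J (K := K) t Net.κ6 (Net.β6 t) (fun x s => N.zbi (inB B (F₂ : Set (ℤ × ℤ))) x *
      A (sgh (F₁ : Set (ℤ × ℤ)) x s)) =
      N.J (K := K) t Net.κ6 (Net.β6 t) (fun x s => N.zbi (inB B (F₂ : Set (ℤ × ℤ))) x *
      A (sgh (F₂ : Set (ℤ × ℤ)) x s)) := by
    simp only [hAu]
  have p1 := N.J_zbi_pos (K := K) ht0.le Net.κ6_nonneg (Net.β6_nonneg ht0.le ht1)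
    (fun i => Net.κ6_pos i 0) (fun e => Net.β6_pos ht0 e) (inB B (F₁ : Set (ℤ × ℤ)))
  have p2 := N.J_zbi_pos (K := K) ht0.le Net.κ6_nonneg (Net.β6_nonneg ht0.le ht1)
    (fun i => Net.κ6_pos i 0) (fun e => Net.β6_pos ht0 e) (inB B (F₂ : Set (ℤ × ℤ)))
  rw [b3, b2, b4', b4, b5] at key
  set j1 := N.J (K := K) t Net.κ6 (Net.β6 t)
    (fun x _ => N.zbi (inB B (F₁ : Set (ℤ × ℤ))) x) with hj1
  set j2 := N.J (K := K) t Net.κ6 (Net.β6 t)
    (fun x _ => N.zbi (inB B (F₂ : Set (ℤ × ℤ))) x) with hj2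
  set s1 := SS K t Γ (fun y => Ξ y * A (xt y)) with hs1
  set s0 := SS K t Γ Ξ with hs0
  constructor
  · refine le_of_mul_le_mul_left ?_ (mul_pos hC0 p2)
    calc C * j2 * s1 = C * s1 * j2 := by ring
      _ ≤ C * s0 * (j2 * ze t⁻¹ F₂ A) := key.1
      _ = _ := by ring
  · refine le_of_mul_le_mul_left ?_ (mul_pos hC0 p1)
    calc C * j1 * (ze t⁻¹ F₁ A * s0) = C * s0 * (j1 * ze t⁻¹ F₁ A) := by ring
      _ ≤ C * s1 * j1 := key.2
      _ = _ := by ring

end Vale.Agent.P145.FK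
end

section

/-!
P145: zero boundary expectations of functions of the heights and of the blocked edges.

The blocked edges are indexed by the vertices of the six-vertex lattice, as in `FB.Space`: the edge
`w` joins the even faces `e1 w`, `e2 w` and separates the odd faces `o1 w`, `o2 w`. It is blocked if
both even faces have height `0` and the odd heights differ or the mark is `true`.
-/

namespace Vale.Agent.P145.FK

open Finset MeasureTheory Vale.Agent.P145.FP Vale.Agent.P145.Dom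
open scoped Classical

lemma fcM_l (v : ℤ × ℤ) : fc (.inl v) = (v.1 - v.2, v.1 + v.2) := rfl
lemma fcM_r (f : ℤ × ℤ) : fc (.inr f) = (f.1 - f.2, f.1 + f.2 + 1) := rfl

/-! ### Finitely many coins -/

lemma mkm_fin {E : Type*} [Fintype E] {t : ℝ} (h0 : 0 ≤ t) (h1 : t ≤ 1) {g : E → ℤ × ℤ}
    (hg : Function.Injective g) (H : (E → Bool) → ℝ) :
    ∫ ξ, H (fun e => ξ (g e)) ∂(FB.mkm t) =
      ∑ η : E → Bool, (∏ e, (if η e = true then t else 1 - t)) * H η := by
  have hm : Measurable (fun (ξ : FB.Mk) (e : E) => ξ (g e)) :=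
    measurable_pi_lambda _ fun e => measurable_pi_apply _
  have hH : Measurable H := measurable_of_finite H
  have : IsProbabilityMeasure ((FB.mkm t).map (fun (ξ : FB.Mk) (e : E) => ξ (g e))) :=
    Measure.isProbabilityMeasure_map hm.aemeasurable
  have e1 : ∫ ξ, H (fun e => ξ (g e)) ∂(FB.mkm t) =
      ∫ η, H η ∂((FB.mkm t).map (fun (ξ : FB.Mk) (e : E) => ξ (g e))) :=
    (integral_map hm.aemeasurable hH.aestronglyMeasurable).symm
  rw [e1, integral_fintype (Integrable.of_finite)]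
  refine Finset.sum_congr rfl fun η _ => ?_
  rw [smul_eq_mul]
  congr 1
  have hpre : (fun (ξ : FB.Mk) (e : E) => ξ (g e)) ⁻¹' {η} =
      Set.pi ((Finset.univ.image g : Finset (ℤ × ℤ)) : Set (ℤ × ℤ))
        fun w => {b : Bool | ∀ e, g e = w → b = η e} := by
    ext ξ
    simp only [Set.mem_preimage, Set.mem_singleton_iff, Set.mem_pi, Finset.mem_coe,
      Finset.mem_image, Finset.mem_univ, true_and, forall_exists_index, forall_apply_eq_imp_iff,
      Set.mem_ofPred_eq]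
    constructor
    · rintro rfl a e he
      show ξ (g a) = ξ (g e)
      rw [he]
    · intro h
      funext e
      exact h e e rfl
  rw [Measure.real, Measure.map_apply hm (measurableSet_singleton _), hpre, FB.mkm,
    Measure.infinitePi_pi _ (fun w _ => by measurability), ENNReal.toReal_prod,
    Finset.prod_image (fun a _ b _ h => hg h)]
  refine Finset.prod_congr rfl fun e _ => ?_
  have h3 : {b : Bool | ∀ e', g e' = g e → b = η e'} = {η e} := by
    ext b
    simp only [Set.mem_ofPred_eq, Set.mem_singleton_iff]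
    exact ⟨fun h => h e rfl, fun h e' he' => by rw [hg he', h]⟩
  have h4 := FB.bern_real t {η e}
  rw [Measure.real] at h4
  rw [h3, h4, FB.cl_eq h0 h1]
  cases h5 : η e <;> simp

/-! ### Edges of the box and vertices of the six-vertex lattice -/

/-- The vertex of the six-vertex lattice at an edge of the box. -/
def we {B : Finset (ℤ × ℤ)} : EB B → ℤ × ℤ :=
  Sum.elim (fun e => (e.1.1 - e.1.2 + 1, e.1.1 + e.1.2 + 1))
    (fun e => (e.1.1 - e.1.2, e.1.1 + e.1.2 + 1))

lemma we_inj {B : Finset (ℤ × ℤ)} : Function.Injective (we (B := B)) := by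
  intro a b h
  rcases a with ⟨a, ha⟩ | ⟨a, ha⟩ <;> rcases b with ⟨b, hb⟩ | ⟨b, hb⟩ <;>
    simp only [we, Sum.elim_inl, Sum.elim_inr, Prod.mk.injEq] at h
  · have : a = b := by ext <;> omega
    subst this; rfl
  · omega
  · omega
  · have : a = b := by ext <;> omega
    subst this; rfl

lemma e1_we {B : Finset (ℤ × ℤ)} (e : EB B) : FB.e1 (we e) = fc (.inl ((boxN B).v e).1) := by
  rcases e with ⟨e, he⟩ | ⟨e, he⟩
  · have h : Even (e.1 - e.2 + 1 + (e.1 + e.2 + 1)) := ⟨e.1 + 1, by ring⟩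
    refine (if_pos h : FB.e1 (e.1 - e.2 + 1, e.1 + e.2 + 1) = _).trans ?_
    show _ = fc (.inl (e.1 + 1, e.2))
    rw [fcM_l]
    ext <;> dsimp only <;> ring
  · have h : ¬ Even (e.1 - e.2 + (e.1 + e.2 + 1)) := by
      rw [Int.not_even_iff_odd]; exact ⟨e.1, by ring⟩
    refine (if_neg h : FB.e1 (e.1 - e.2, e.1 + e.2 + 1) = _).trans ?_
    show _ = fc (.inl (e.1, e.2 + 1))
    rw [fcM_l]
    ext <;> dsimp only <;> ring

lemma e2_we {B : Finset (ℤ × ℤ)} (e : EB B) : FB.e2 (we e) = fc (.inl ((boxN B).u e).1) := by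
  rcases e with ⟨e, he⟩ | ⟨e, he⟩
  · have h : Even (e.1 - e.2 + 1 + (e.1 + e.2 + 1)) := ⟨e.1 + 1, by ring⟩
    refine (if_pos h : FB.e2 (e.1 - e.2 + 1, e.1 + e.2 + 1) = _).trans ?_
    show _ = fc (.inl e)
    rw [fcM_l]
    ext <;> dsimp only <;> ring
  · have h : ¬ Even (e.1 - e.2 + (e.1 + e.2 + 1)) := by
      rw [Int.not_even_iff_odd]; exact ⟨e.1, by ring⟩
    refine (if_neg h : FB.e2 (e.1 - e.2, e.1 + e.2 + 1) = _).trans ?_
    show _ = fc (.inl e)
    rw [fcM_l]
    ext <;> dsimp only <;> ring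

lemma o1_we {B : Finset (ℤ × ℤ)} (e : EB B) : FB.o1 (we e) = fc (.inr ((boxN B).f e).1) := by
  rcases e with ⟨e, he⟩ | ⟨e, he⟩
  · have h : Even (e.1 - e.2 + 1 + (e.1 + e.2 + 1)) := ⟨e.1 + 1, by ring⟩
    refine (if_pos h : FB.o1 (e.1 - e.2 + 1, e.1 + e.2 + 1) = _).trans ?_
    show _ = fc (.inr e)
    rw [fcM_r]
    ext <;> dsimp only <;> ring
  · have h : ¬ Even (e.1 - e.2 + (e.1 + e.2 + 1)) := by
      rw [Int.not_even_iff_odd]; exact ⟨e.1, by ring⟩
    refine (if_neg h : FB.o1 (e.1 - e.2, e.1 + e.2 + 1) = _).trans ?_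
    show _ = fc (.inr e)
    rw [fcM_r]

lemma o2_we {B : Finset (ℤ × ℤ)} (e : EB B) : FB.o2 (we e) = fc (.inr ((boxN B).g e).1) := by
  rcases e with ⟨e, he⟩ | ⟨e, he⟩
  · have h : Even (e.1 - e.2 + 1 + (e.1 + e.2 + 1)) := ⟨e.1 + 1, by ring⟩
    refine (if_pos h : FB.o2 (e.1 - e.2 + 1, e.1 + e.2 + 1) = _).trans ?_
    show _ = fc (.inr (e.1, e.2 - 1))
    rw [fcM_r]
    ext <;> dsimp only <;> ring
  · have h : ¬ Even (e.1 - e.2 + (e.1 + e.2 + 1)) := by
      rw [Int.not_even_iff_odd]; exact ⟨e.1, by ring⟩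
    refine (if_neg h : FB.o2 (e.1 - e.2, e.1 + e.2 + 1) = _).trans ?_
    show _ = fc (.inr (e.1 - 1, e.2))
    rw [fcM_r]
    ext <;> dsimp only <;> ring

lemma fc_injM : Function.Injective fc := fun a b h => by rw [← cf_fc a, ← cf_fc b, h]

/-- Edges with both faces in `F`. -/
def intE (F : Set (ℤ × ℤ)) (w : ℤ × ℤ) : Prop :=
  (∃ f ∈ F, FB.o1 w = fc (.inr f)) ∧ ∃ f ∈ F, FB.o2 w = fc (.inr f)

lemma intE_we {B : Finset (ℤ × ℤ)} {F : Set (ℤ × ℤ)} (e : EB B) :
    intE F (we e) ↔ (boxN B).inE (inB B F) e := by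
  unfold intE
  rw [o1_we, o2_we]
  constructor
  · rintro ⟨⟨f, hf, h1⟩, ⟨g, hg, h2⟩⟩
    have h1 := Sum.inr_injective (fc_injM h1)
    have h2 := Sum.inr_injective (fc_injM h2)
    exact ⟨by show _ ∈ F; rw [h1]; exact hf, by show _ ∈ F; rw [h2]; exact hg⟩
  · rintro ⟨h1, h2⟩
    exact ⟨⟨_, h1, rfl⟩, ⟨_, h2, rfl⟩⟩

/-- The blocked edges of the heights `x` with zero boundary condition outside `F`, given the marks
`ξ`. The edges which are not interior to `F` are blocked. -/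
noncomputable def blM (F : Set (ℤ × ℤ)) (x : Site → ℤ) (ξ : FB.Mk) : FB.Mk := fun w =>
  if intE F w then decide (x (cf (FB.e1 w)) = 0 ∧ x (cf (FB.e2 w)) = 0 ∧
    (x (cf (FB.o1 w)) ≠ x (cf (FB.o2 w)) ∨ ξ w = true)) else true

/-- Zero boundary expectation of a function of the heights and the blocked edges. -/
noncomputable def zeM (c : ℝ) (F : Finset (ℤ × ℤ)) (A : (Site → ℤ) → FB.Mk → ℝ) : ℝ :=
  ze c F fun x => ∫ ξ, A x (blM F x ξ) ∂(FB.mkm c⁻¹)

/-- The edges of the box as a set of vertices of the six-vertex lattice: `w` is mapped to the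
negation of the edge variable, all other vertices are blocked. -/
noncomputable def bwM {B : Finset (ℤ × ℤ)} (u : EB B → Bool) : FB.Mk := fun w =>
  if h : ∃ e : EB B, we e = w then !(u h.choose) else true

lemma bwM_we {B : Finset (ℤ × ℤ)} (u : EB B → Bool) (e : EB B) : bwM u (we e) = !(u e) := by
  have h : ∃ e' : EB B, we e' = we e := ⟨e, rfl⟩
  unfold bwM
  rw [dif_pos h, we_inj h.choose_spec]

lemma bwM_out {B : Finset (ℤ × ℤ)} (u : EB B → Bool) {w : ℤ × ℤ} (h : ¬ ∃ e : EB B, we e = w) :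
    bwM u w = true := by
  unfold bwM
  rw [dif_neg h]

/-- Every interior edge of `F` is an edge of the box. -/
lemma exists_we {B F : Finset (ℤ × ℤ)} (hF : F ⊆ B) {w : ℤ × ℤ} (h : intE (F : Set (ℤ × ℤ)) w) :
    ∃ e : EB B, we e = w := by
  obtain ⟨⟨f, hf, h1⟩, ⟨g, hg, h2⟩⟩ := h
  have hf : f ∈ B := hF hf
  have hg : g ∈ B := hF hg
  by_cases hw : Even (w.1 + w.2)
  · have e1 : g = (f.1, f.2 - 1) := by
      simp only [FB.o1, FB.o2, if_pos hw, fcM_l, fcM_r, Prod.mk.injEq] at h1 h2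
      ext <;> dsimp only <;> omega
    refine ⟨.inl ⟨f, Finset.mem_filter.2 ⟨hf, by rw [← e1]; exact hg⟩⟩, ?_⟩
    simp only [FB.o1, if_pos hw, fcM_l, fcM_r, Prod.mk.injEq] at h1
    simp only [we, Sum.elim_inl]
    ext <;> dsimp only <;> omega
  · have e1 : g = (f.1 - 1, f.2) := by
      simp only [FB.o1, FB.o2, if_neg hw, fcM_l, fcM_r, Prod.ext_iff] at h1 h2
      ext <;> dsimp only <;> omega
    refine ⟨.inr ⟨f, Finset.mem_filter.2 ⟨hf, by rw [← e1]; exact hg⟩⟩, ?_⟩
    simp only [FB.o1, if_neg hw, fcM_l, fcM_r, Prod.ext_iff] at h1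
    simp only [we, Sum.elim_inr]
    ext <;> dsimp only <;> omega

/-- The blocked edges given by marks are a function of the edges of the box. -/
lemma bwM_blM {B F : Finset (ℤ × ℤ)} (hF : F ⊆ B) (x : Site → ℤ) (ξ : FB.Mk) :
    bwM (B := B) (fun e => !(blM F x ξ (we e))) = blM F x ξ := by
  funext w
  by_cases h : ∃ e : EB B, we e = w
  · obtain ⟨e, rfl⟩ := h
    rw [bwM_we, Bool.not_not]
  · rw [bwM_out _ h]
    have h2 : ¬ intE (F : Set (ℤ × ℤ)) w := fun h' => h (exists_we hF h')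
    unfold blM
    rw [if_neg h2]

/-! ### Summation over the edge variables -/

/-- The probability of the value `b` of the edge variable. -/
noncomputable def mue (t : ℝ) {B : Finset (ℤ × ℤ)} (S : Set (FB B)) (y : VB B ⊕ FB B → ℤ)
    (e : EB B) (b : Bool) : ℝ :=
  if (boxN B).inE S e then
    (if y (.inl ((boxN B).u e)) = 0 ∧ y (.inl ((boxN B).v e)) = 0 then
      (if y (.inr ((boxN B).f e)) = y (.inr ((boxN B).g e)) then (if b = true then 1 - t else t)
        else (if b = true then 0 else 1))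
      else (if b = true then 1 else 0))
  else (if b = true then 0 else 1)

/-- The edge variable as a function of the mark. -/
noncomputable def rve {B : Finset (ℤ × ℤ)} (S : Set (FB B)) (y : VB B ⊕ FB B → ℤ)
    (e : EB B) (b : Bool) : Bool :=
  if (boxN B).inE S e then
    (if y (.inl ((boxN B).u e)) = 0 ∧ y (.inl ((boxN B).v e)) = 0 then
      (if y (.inr ((boxN B).f e)) = y (.inr ((boxN B).g e)) then !b else false) else true)
  else false

lemma rve_eq {B F : Finset (ℤ × ℤ)} (y : VB B ⊕ FB B → ℤ) (ξ : FB.Mk) (e : EB B) :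
    (!(blM F (xt y) ξ (we e))) = rve (inB B F) y e (ξ (we e)) := by
  unfold blM rve
  rw [e1_we, e2_we, o1_we, o2_we, cf_fc, cf_fc, cf_fc, cf_fc, xt_inl, xt_inl, xt_inr, xt_inr]
  by_cases h : (boxN B).inE (inB B F) e
  · rw [if_pos ((intE_we e).2 h), if_pos h]
    by_cases h1 : y (.inl ((boxN B).u e)) = 0
    · by_cases h2 : y (.inl ((boxN B).v e)) = 0
      · by_cases h3 : y (.inr ((boxN B).f e)) = y (.inr ((boxN B).g e))
        · cases h4 : ξ (we e) <;> simp [h1, h2, h3]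
        · simp [h1, h2, h3]
      · simp [h2]
    · simp [h1]
  · rw [if_neg (fun h' => h ((intE_we e).1 h')), if_neg h]
    rfl

lemma sum_rve (t : ℝ) {B : Finset (ℤ × ℤ)} (S : Set (FB B)) (y : VB B ⊕ FB B → ℤ) (e : EB B)
    (w : Bool) :
    ∑ z ∈ Finset.univ.filter (fun z => rve S y e z = w), (if z = true then t else 1 - t) =
      mue t S y e w := by
  rw [Finset.sum_filter, Fintype.sum_bool]
  unfold rve mue
  by_cases h : (boxN B).inE S e
  · by_cases h1 : y (.inl ((boxN B).u e)) = 0 ∧ y (.inl ((boxN B).v e)) = 0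
    · by_cases h3 : y (.inr ((boxN B).f e)) = y (.inr ((boxN B).g e))
      · cases w <;> simp [h, h1, h3]
      · cases w <;> simp [h, h1, h3]
    · cases w <;> simp [h, h1]
  · cases w <;> simp [h]

lemma Phi_prod {t : ℝ} (ht : 0 < t) {B : Finset (ℤ × ℤ)} {S : Set (FB B)}
    {y : VB B ⊕ FB B → ℤ} (h : (boxN B).HS S y) (w : EB B → Bool) :
    (boxN B).Φ t S (Net.toCf y w) = (boxN B).hw t⁻¹ S y * ∏ e, mue t S y e (w e) := by
  set N := boxN B with hN
  unfold Net.hw
  rw [← Finset.prod_mul_distrib]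
  have e1 : N.Φ t S (Net.toCf y w) = ∏ e, (if N.inE S e then
      (if w e = false ∧ ¬ (y (.inl (N.u e)) = 0 ∧ y (.inl (N.v e)) = 0) then 0
        else (if y (.inl (N.u e)) = 0 ∧ y (.inl (N.v e)) = 0 then
          (if w e = true then (if y (.inr (N.f e)) = y (.inr (N.g e)) then t⁻¹ - 1 else 0) else 1)
          else (if y (.inl (N.u e)) = y (.inl (N.v e)) ∧ y (.inr (N.f e)) = y (.inr (N.g e))
            then t⁻¹ else 1)))
      else (if w e = true then 0 else 1)) := by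
    unfold Net.Φ
    by_cases hC : Net.toCf y w ∈ FC.Cfg N.toInc (N.UU S) S
    · rw [if_pos hC]
      unfold FC.wt
      refine Finset.prod_congr rfl fun e _ => ?_
      by_cases he : N.inE S e
      · have he' : N.toInc.a e ∈ S ∧ N.toInc.b e ∈ S := he
        rw [if_pos he, if_pos he', if_neg]
        · rfl
        · rintro ⟨hw, hn⟩
          exact hn (hC.2.2.2.2.2 e he.1 he.2 hw)
      · have he' : ¬ (N.toInc.a e ∈ S ∧ N.toInc.b e ∈ S) := he
        have hw : w e = false := hC.2.2.2.2.1 e he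
        rw [if_neg he, if_neg he', if_neg]
        rw [hw]
        simp
    · rw [if_neg hC]
      have hn : ¬ ((∀ e, ¬ N.inE S e → w e = false) ∧
          (∀ e, N.inE S e → w e = false → y (.inl (N.u e)) = 0 ∧ y (.inl (N.v e)) = 0)) := by
        intro h'
        exact hC ⟨h.1, h.2.1, h.2.2.1, h.2.2.2, h'.1, fun e h1 h2 => h'.2 e ⟨h1, h2⟩⟩
      symm
      by_cases h2 : ∀ e, ¬ N.inE S e → w e = false
      · have h3 : ¬ ∀ e, N.inE S e → w e = false → y (.inl (N.u e)) = 0 ∧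
            y (.inl (N.v e)) = 0 := fun h' => hn ⟨h2, h'⟩
        push Not at h3
        obtain ⟨e, he, hw, hz⟩ := h3
        refine Finset.prod_eq_zero (Finset.mem_univ e) ?_
        rw [if_pos he, if_pos]
        exact ⟨hw, fun h' => hz h'.1 h'.2⟩
      · push Not at h2
        obtain ⟨e, he, hw⟩ := h2
        refine Finset.prod_eq_zero (Finset.mem_univ e) ?_
        rw [if_neg he, if_pos]
        simpa using hw
  rw [e1]
  refine Finset.prod_congr rfl fun e _ => ?_
  unfold mue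
  simp only [← hN]
  have ht' : t⁻¹ * t = 1 := inv_mul_cancel₀ ht.ne'
  by_cases he : N.inE S e
  · simp only [if_pos he]
    by_cases hz : y (.inl (N.u e)) = 0 ∧ y (.inl (N.v e)) = 0
    · have huv : y (.inl (N.u e)) = y (.inl (N.v e)) := hz.1.trans hz.2.symm
      by_cases hk : y (.inr (N.f e)) = y (.inr (N.g e))
      · cases hw : w e
        · simp [hz, hk, ht']
        · simp only [Bool.true_eq_false, hz, and_self, not_true_eq_false, ↓reduceIte, hk, mul_sub, mul_one, ht']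
      · cases hw : w e <;> simp [hz, hk]
    · cases hw : w e <;> simp [hz]
  · simp [he]

/-- Summation over the edge variables: the marks. -/
theorem sum_coin {t : ℝ} (ht : 0 < t) (ht1 : t ≤ 1) {B F : Finset (ℤ × ℤ)}
    {y : VB B ⊕ FB B → ℤ} (h : (boxN B).HS (inB B F) y) (H : (EB B → Bool) → ℝ) :
    ∑ w : EB B → Bool, (boxN B).Φ t (inB B F) (Net.toCf y w) * H w =
      (boxN B).hw t⁻¹ (inB B F) y *
        ∫ ξ, H (fun e => !(blM F (xt y) ξ (we e))) ∂(FB.mkm t) := by
  have e1 : ∀ ξ : FB.Mk, (fun e : EB B => !(blM F (xt y) ξ (we e))) =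
      fun e => rve (inB B F) y e (ξ (we e)) := fun ξ => funext fun e => rve_eq y ξ e
  simp only [e1]
  have e2 := mkm_fin ht.le ht1 (we_inj (B := B)) (fun η => H (fun e => rve (inB B F) y e (η e)))
  have e3 := sum_fiber (fun e b => rve (inB B F) y e b) (fun _ => Finset.univ)
    (fun _ _ => Finset.mem_univ _) (fun _ b => if b = true then t else 1 - t) H
  rw [Fintype.piFinset_univ] at e3
  have e4 : ∑ η : EB B → Bool, (∏ e, (if η e = true then t else 1 - t)) *
      H (fun e => rve (inB B F) y e (η e)) =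
      ∑ w : EB B → Bool, (∏ e, mue t (inB B F) y e (w e)) * H w := by
    refine Eq.trans ?_ (e3.trans ?_)
    · exact Finset.sum_congr (Finset.ext fun _ => by simp) fun _ _ => rfl
    · refine Finset.sum_congr (Finset.ext fun _ => by simp) fun w _ => ?_
      congr 1
      refine Finset.prod_congr rfl fun e _ => ?_
      rw [← sum_rve]
  have e5 := e2.trans (Eq.trans (Finset.sum_congr (Finset.ext fun _ => by simp)
    fun _ _ => rfl) e4)
  refine Eq.trans ?_ (congrArg (fun z => (boxN B).hw t⁻¹ (inB B F) y * z) e5).symm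
  rw [Finset.mul_sum]
  refine Finset.sum_congr (Finset.ext fun _ => by simp) fun w _ => ?_
  rw [Phi_prod ht h, mul_assoc]

/-- The bridge for functions of the heights and the blocked edges. -/
theorem J_zsM {B F : Finset (ℤ × ℤ)} (hB : Nb B F) {K : ℕ} (hK : KF F ≤ K) {t : ℝ} (ht : 0 < t)
    (ht1 : t ≤ 1) (A : (Site → ℤ) → FB.Mk → ℝ) :
    (boxN B).J (K := K) t Net.κ6 (Net.β6 t) (fun x s => (boxN B).zbi (inB B F) x *
        A (sgh F x s) (bwM ((boxN B).wx x)))
      = Cst t B F * zs t⁻¹ F (fun x => ∫ ξ, A x (blM F x ξ) ∂(FB.mkm t)) := by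
  have hFB : F ⊆ B := fun f hf => hB.mem hf
  rw [zs_eq hB hK]
  set N := boxN B with hN
  have h1 := Net.bridge_sum (K := K) N ht (inB B F)
    (fun y => A (xt (Sum.elim y.h y.k)) (bwM y.w))
  have e1 : (fun (x : Net.Cfg (VB B) (FB B) (EB B) K) (s : VB B ⊕ FB B → Bool) =>
      N.zbi (inB B F) x * A (xt (Sum.elim (N.img (inB B F) x s).h (N.img (inB B F) x s).k))
        (bwM (N.img (inB B F) x s).w)) =
      fun x s => N.zbi (inB B F) x * A (sgh F x s) (bwM (N.wx x)) := by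
    funext x s
    by_cases hz : N.zb (inB B F) x
    · have e2 : (Sum.elim (N.img (inB B F) x s).h (N.img (inB B F) x s).k : VB B ⊕ FB B → ℤ) =
          fun i => Net.pv (V := VB B) (inB B F) i (x.1 i, s i) := by
        funext i
        rcases i with v | f <;> rfl
      have e3 : (N.img (inB B F) x s).w = N.wx x := by
        funext e
        rw [Bool.eq_iff_iff, Net.img_w_true, Net.wx_true]
        refine ⟨fun h => h.2, fun h => ⟨?_, h⟩⟩
        by_contra he
        apply h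
        have hu : ¬ N.inD (inB B F) (.inl (N.u e)) := fun h' =>
          he ⟨h' _ (N.huf e), h' _ (N.hug e)⟩
        have hv : ¬ N.inD (inB B F) (.inl (N.v e)) := fun h' =>
          he ⟨h' _ (N.hvf e), h' _ (N.hvg e)⟩
        exact ⟨hz.1 _ hu, hz.1 _ hv, hz.2 e he⟩
      rw [e2, e3]
      rfl
    · have h0 : N.zbi (inB B F) x = 0 := if_neg hz
      rw [h0, zero_mul, zero_mul]
  rw [e1] at h1
  rw [h1]
  have e5 : (t ^ Fintype.card (EB B) * 2 ^ (Finset.univ.filter
      (fun f : FB B => f ∉ inB B F)).card : ℝ) = Cst t B F := rfl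
  refine congrArg₂ (· * ·) e5 ?_
  unfold Net.TTs
  refine Finset.sum_congr rfl fun y _ => ?_
  by_cases hy : N.HS (inB B F) y
  · rw [if_pos hy]
    have e6 := sum_coin (F := F) ht ht1 hy (fun w => A (xt y) (bwM w))
    have e7 : ∀ ξ : FB.Mk, (bwM (B := B) fun e => !(blM F (xt y) ξ (we e))) =
        blM F (xt y) ξ := fun ξ => bwM_blM hFB (xt y) ξ
    simp only [e7] at e6
    rw [← e6]
    refine Finset.sum_congr (Finset.ext fun _ => by simp) fun w _ => ?_
    have e4 : (Sum.elim (Net.toCf y w : FC.Cf (VB B) (FB B) (EB B)).h (Net.toCf y w).k :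
        VB B ⊕ FB B → ℤ) = y := by
      funext i
      rcases i with v | f <;> rfl
    rw [e4]
    rfl
  · rw [if_neg hy, zero_mul]
    refine Finset.sum_eq_zero fun w _ => ?_
    have h0 : N.Φ t (inB B F) (Net.toCf y w) = 0 := by
      unfold Net.Φ
      rw [if_neg]
      intro hC
      exact hy ⟨hC.1, hC.2.1, hC.2.2.1, hC.2.2.2.1⟩
    rw [h0, zero_mul]

/-- Quotients of `J` are zero boundary expectations, functions of the heights and the blocked
edges. -/
theorem J_zeM {B F : Finset (ℤ × ℤ)} (hB : Nb B F) {K : ℕ} (hK : KF F ≤ K) {t : ℝ} (ht : 0 < t)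
    (ht1 : t ≤ 1) (A : (Site → ℤ) → FB.Mk → ℝ) :
    (boxN B).J (K := K) t Net.κ6 (Net.β6 t) (fun x s => (boxN B).zbi (inB B F) x *
        A (sgh F x s) (bwM ((boxN B).wx x)))
      = (boxN B).J (K := K) t Net.κ6 (Net.β6 t) (fun x _ => (boxN B).zbi (inB B F) x) *
        zeM t⁻¹ F A := by
  have h1 := J_zsM hB hK ht ht1 A
  have h2 := J_zs hB hK ht (fun _ => 1)
  simp only [mul_one] at h2
  have h3 := zs_one_pos F ht ht1
  rw [h1, h2, zeM, inv_inv, ze, mul_assoc, mul_div_cancel₀ _ h3.ne']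

end Vale.Agent.P145.FK
end

section

/-!
P145, block F-C: the Gibbs property of the law of the absolute heights in a finite connected set of
faces, from the swap identity for the arrows.
-/

namespace Vale.Agent.P145.FC

open Finset Filter Topology MeasureTheory
open Vale.Agent.P152 (Edge Ori Ice sgb pth pth_isHeight cyl IsHeight)
open Vale.Agent.P145.FA (Hgt mu0 Pl)
open Vale.Agent.P145.FB (Swap)

/-- `η` is a height function on the set `B` of faces. -/
def Hon (B : Finset (ℤ × ℤ)) (η : Hgt) : Prop :=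
  (∀ q ∈ B, (2 : ℤ) ∣ η q - (q.1 + q.2)) ∧
  (∀ x y, (x, y) ∈ B → (x, y - 1) ∈ B → |η (x, y) - η (x, y - 1)| = 1) ∧
  ∀ x y, (x, y) ∈ B → (x - 1, y) ∈ B → |η (x - 1, y) - η (x, y)| = 1

/-- The arrows of a height function. -/
def ow (η : Hgt) : Ori (ℤ × ℤ)
  | Sum.inl v => decide (η v - η (v.1, v.2 - 1) = 1)
  | Sum.inr v => decide (η (v.1 - 1, v.2) - η v = 1)

/-- The arrows between faces of `B`. -/
def EB (B : Finset (ℤ × ℤ)) : Finset (Edge (ℤ × ℤ)) :=
  (B.filter fun v => (v.1, v.2 - 1) ∈ B).disjSum (B.filter fun v => (v.1 - 1, v.2) ∈ B)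

/-- The vertices all four faces of which are in `B`. -/
def VB (B : Finset (ℤ × ℤ)) : Finset (ℤ × ℤ) :=
  B.filter fun v => (v.1 - 1, v.2) ∈ B ∧ (v.1, v.2 - 1) ∈ B ∧ (v.1 - 1, v.2 - 1) ∈ B

/-- `B` is connected and contains the origin. -/
def Con (B : Finset (ℤ × ℤ)) : Prop :=
  0 ∈ B ∧ ∀ p : ℤ × ℤ → Prop, p 0 →
    (∀ x y, (x, y) ∈ B → (x, y - 1) ∈ B → (p (x, y) ↔ p (x, y - 1))) →
    (∀ x y, (x, y) ∈ B → (x - 1, y) ∈ B → (p (x - 1, y) ↔ p (x, y))) → ∀ q ∈ B, p q

/-- The weight of a vertex. -/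
noncomputable def fw (c : ℝ) (η : Hgt) (v : ℤ × ℤ) : ℝ :=
  if η v = η (v.1 - 1, v.2 - 1) ∧ η (v.1 - 1, v.2) = η (v.1, v.2 - 1) then c else 1

/-- Height functions equal to `η` on `B`. -/
def Cy (B : Finset (ℤ × ℤ)) (η : Hgt) : Set Hgt := {h | ∀ q ∈ B, h q = η q}

/-- The inner boundary of `B`. -/
def Fr (B : Finset (ℤ × ℤ)) (q : ℤ × ℤ) : Prop :=
  ∃ r : ℤ × ℤ, r ∉ B ∧ |q.1 - r.1| ≤ 1 ∧ |q.2 - r.2| ≤ 1

theorem mem_EB_inl {B : Finset (ℤ × ℤ)} {x y : ℤ} :
    (Sum.inl (x, y) : Edge (ℤ × ℤ)) ∈ EB B ↔ (x, y) ∈ B ∧ (x, y - 1) ∈ B := by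
  simp [EB]

theorem mem_EB_inr {B : Finset (ℤ × ℤ)} {x y : ℤ} :
    (Sum.inr (x, y) : Edge (ℤ × ℤ)) ∈ EB B ↔ (x, y) ∈ B ∧ (x - 1, y) ∈ B := by
  simp [EB]

theorem sgb_eq_one {b : Bool} {z : ℤ} (hz : |z| = 1) : b = decide (z = 1) ↔ sgb b = z := by
  rcases (abs_eq (by norm_num)).1 hz with h | h <;> subst h <;> cases b <;> simp [sgb]

theorem heights_iff {B : Finset (ℤ × ℤ)} (hB : Con B) {η : Hgt} (hη : Hon B η)
    {ω : Ori (ℤ × ℤ)} (hω : ∀ x y, Ice ω x y) (k : ℤ) :
    (∀ q ∈ B, pth ω q + 2 * k = η q) ↔ (2 * k = η 0 ∧ ω ∈ cyl (EB B) (ow η)) := by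
  have hv : ∀ x y, pth ω (x, y) - pth ω (x, y - 1) = sgb (ω (Sum.inl (x, y))) := fun x y =>
    (pth_isHeight hω x y).1
  have hh : ∀ x y, pth ω (x - 1, y) - pth ω (x, y) = sgb (ω (Sum.inr (x, y))) := fun x y =>
    (pth_isHeight hω x y).2
  constructor
  · intro h
    refine ⟨?_, ?_⟩
    · have := h 0 hB.1
      rw [P152.pth_zero, zero_add] at this
      exact this
    · rintro (⟨x, y⟩ | ⟨x, y⟩) he
      · rw [mem_EB_inl] at he
        have h1 := h _ he.1
        have h2 := h _ he.2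
        have h3 := hv x y
        show ω (Sum.inl (x, y)) = decide (η (x, y) - η (x, y - 1) = 1)
        rw [sgb_eq_one (hη.2.1 x y he.1 he.2)]
        omega
      · rw [mem_EB_inr] at he
        have h1 := h _ he.1
        have h2 := h _ he.2
        have h3 := hh x y
        show ω (Sum.inr (x, y)) = decide (η (x - 1, y) - η (x, y) = 1)
        rw [sgb_eq_one (hη.2.2 x y he.1 he.2)]
        (clear * - h1 h2 h3; omega)
  · rintro ⟨h0, hc⟩
    refine hB.2 (fun q => pth ω q + 2 * k = η q) ?_ ?_ ?_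
    · show pth ω 0 + 2 * k = η 0
      rw [P152.pth_zero, zero_add]
      exact h0
    · intro x y h1 h2
      have h3 : ω (Sum.inl (x, y)) = decide (η (x, y) - η (x, y - 1) = 1) :=
        hc (Sum.inl (x, y)) (mem_EB_inl.2 ⟨h1, h2⟩)
      rw [sgb_eq_one (hη.2.1 x y h1 h2)] at h3
      have h4 := hv x y
      constructor <;> intro h5 <;> omega
    · intro x y h1 h2
      have h3 : ω (Sum.inr (x, y)) = decide (η (x - 1, y) - η (x, y) = 1) :=
        hc (Sum.inr (x, y)) (mem_EB_inr.2 ⟨h1, h2⟩)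
      rw [sgb_eq_one (hη.2.2 x y h1 h2)] at h3
      have h4 := hh x y
      constructor <;> intro h5 <;> omega

theorem measurableSet_Cy (B : Finset (ℤ × ℤ)) (η : Hgt) : MeasurableSet (Cy B η) := by
  have : Cy B η = ⋂ q ∈ B, {h : Hgt | h q = η q} := by
    ext h
    simp only [Cy, Prod.forall, Set.mem_ofPred_eq, Set.mem_iInter]
  rw [this]
  refine Finset.measurableSet_biInter _ fun q _ => ?_
  have h1 : Measurable fun h : Hgt => h q := measurable_pi_apply q
  exact h1 (measurableSet_singleton (η q))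

/-- The probability of a height configuration in `B`. -/
theorem mu0_Cy {c : ℝ} {P : Measure (Ori (ℤ × ℤ))} (hP : Pl c P) {B : Finset (ℤ × ℤ)}
    (hB : Con B) {η : Hgt} (hη : Hon B η) : mu0 P (Cy B η) = P (cyl (EB B) (ow η)) := by
  unfold mu0
  rw [Measure.sum_apply _ (measurableSet_Cy B η)]
  have h0 : (2 : ℤ) ∣ η 0 := by
    have := hη.1 0 hB.1
    simpa only [Prod.fst_zero, Prod.snd_zero, add_zero, sub_zero] using this
  obtain ⟨k0, hk0⟩ := h0
  have e1 : ∀ k : ℤ, (P.map (fun ω q => pth ω q + 2 * k)) (Cy B η) =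
      if k = k0 then P (cyl (EB B) (ow η)) else 0 := by
    intro k
    rw [Measure.map_apply (FA.measurable_hgt k) (measurableSet_Cy B η)]
    have e2 : ∀ᵐ ω ∂P, ω ∈ (fun ω : Ori (ℤ × ℤ) => (fun q => pth ω q + 2 * k : Hgt)) ⁻¹' (Cy B η) ↔
        ω ∈ (if k = k0 then cyl (EB B) (ow η) else ∅) := by
      filter_upwards [hP.ice] with ω hω
      have h1 := heights_iff hB hη hω k
      have h2 : ω ∈ (fun ω : Ori (ℤ × ℤ) => (fun q => pth ω q + 2 * k : Hgt)) ⁻¹' (Cy B η) ↔
        (∀ q ∈ B, pth ω q + 2 * k = η q) := Iff.rfl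
      rw [h2, h1]
      by_cases hk : k = k0
      · rw [if_pos hk]
        constructor
        · exact fun h => h.2
        · exact fun h => ⟨by rw [hk, hk0], h⟩
      · rw [if_neg hk]
        constructor
        · rintro ⟨h3, _⟩
          exact absurd (by omega) hk
        · exact fun h => absurd h (Set.notMem_empty _)
    rw [measure_congr (Filter.eventuallyEq_set.2 e2)]
    split_ifs
    · rfl
    · exact measure_empty
  rw [tsum_congr e1, tsum_ite_eq]

theorem vw_pure (c : ℝ) (A B C D : ℤ) (a1 : |D - B| = 1) (a2 : |C - A| = 1) (a3 : |C - D| = 1)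
    (a4 : |A - B| = 1) :
    P152.vw c (decide (C - A = 1)) (decide (D - B = 1)) (decide (A - B = 1)) (decide (C - D = 1)) =
      if D = A ∧ C = B then c else 1 := by
  by_cases hf : D = A ∧ C = B
  · rw [if_pos hf]
    obtain ⟨rfl, rfl⟩ := hf
    rcases (abs_eq (by norm_num)).1 a1 with a1 | a1
    · have a2 : C - D = -1 := by omega
      rw [a1, a2]
      simp [P152.vw]
    · have a2 : C - D = 1 := by omega
      rw [a1, a2]
      simp [P152.vw]
  · rw [if_neg hf]
    rcases (abs_eq (by norm_num)).1 a1 with a1 | a1 <;>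
      rcases (abs_eq (by norm_num)).1 a2 with a2 | a2 <;>
      rcases (abs_eq (by norm_num)).1 a3 with a3 | a3 <;>
      rcases (abs_eq (by norm_num)).1 a4 with a4 | a4 <;>
      first | (exfalso; omega) | (rw [a1, a2, a3, a4]; simp [P152.vw])

theorem vwt_ow {c : ℝ} {B : Finset (ℤ × ℤ)} {η : Hgt} (hη : Hon B η) {v : ℤ × ℤ}
    (hv : v ∈ VB B) : FP.vwt c (ow η) v = fw c η v := by
  obtain ⟨x, y⟩ := v
  simp only [VB, Finset.mem_filter] at hv
  obtain ⟨h1, h2, h3, h4⟩ := hv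
  have a1 := hη.2.1 x y h1 h3
  have a2 := hη.2.1 (x - 1) y h2 h4
  have a3 := hη.2.2 x y h1 h2
  have a4 := hη.2.2 x (y - 1) h3 h4
  exact vw_pure c _ _ _ _ a1 a2 a3 a4

theorem Fr_of {B : Finset (ℤ × ℤ)} {q r : ℤ × ℤ} (hr : r ∉ B) (h1 : |q.1 - r.1| ≤ 1)
    (h2 : |q.2 - r.2| ≤ 1) : Fr B q := ⟨r, hr, h1, h2⟩

/-- The Gibbs property: the probabilities of two height configurations in `B` which agree on the
inner boundary of `B` are proportional to the weights. -/
theorem mu0_swap {c : ℝ} {P : Measure (Ori (ℤ × ℤ))} (hP : Pl c P) (hS : Swap c P)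
    {B : Finset (ℤ × ℤ)} (hB : Con B) {η η' : Hgt} (hη : Hon B η) (hη' : Hon B η')
    (hFr : ∀ q ∈ B, Fr B q → η q = η' q) :
    (mu0 P).real (Cy B η) * ∏ v ∈ VB B, fw c η' v =
      (mu0 P).real (Cy B η') * ∏ v ∈ VB B, fw c η v := by
  have h1 := hS (EB B) (VB B) (ow η) (ow η')
    (by
      rintro ⟨x, y⟩ hv e he
      simp only [VB, Finset.mem_filter] at hv
      obtain ⟨h1, h2, h3, h4⟩ := hv
      simp only [FP.star, Finset.mem_insert, Finset.mem_singleton] at he
      rcases he with rfl | rfl | rfl | rfl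
      · exact mem_EB_inl.2 ⟨h2, h4⟩
      · exact mem_EB_inl.2 ⟨h1, h3⟩
      · exact mem_EB_inr.2 ⟨h3, h4⟩
      · exact mem_EB_inr.2 ⟨h1, h2⟩)
    (by
      rintro (⟨x, y⟩ | ⟨x, y⟩) he hne
      · rw [mem_EB_inl] at he
        by_contra hcon
        apply hne
        have hq : Fr B (x, y) ∧ Fr B (x, y - 1) := by
          by_contra hF
          apply hcon
          have hall : ∀ r : ℤ × ℤ, |x - r.1| ≤ 1 → |y - r.2| ≤ 1 → |y - 1 - r.2| ≤ 1 → r ∈ B := by
            intro r h1 h2 h3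
            by_contra hr
            exact hF ⟨⟨r, hr, h1, h2⟩, ⟨r, hr, h1, h3⟩⟩
          have b1 : (x - 1, y) ∈ B := hall _ (by norm_num) (by norm_num) (by norm_num)
          have b2 : (x - 1, y - 1) ∈ B := hall _ (by norm_num) (by norm_num) (by norm_num)
          have b3 : (x + 1, y) ∈ B := hall _ (by norm_num) (by norm_num) (by norm_num)
          have b4 : (x + 1, y - 1) ∈ B := hall _ (by norm_num) (by norm_num) (by norm_num)
          refine ⟨?_, ?_⟩
          · simp only [VB, Finset.mem_filter]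
            exact ⟨he.1, b1, he.2, b2⟩
          · simp only [VB, Finset.mem_filter, add_sub_cancel_right]
            exact ⟨b3, he.1, b4, he.2⟩
        have e1 := hFr _ he.1 hq.1
        have e2 := hFr _ he.2 hq.2
        show decide (η (x, y) - η (x, y - 1) = 1) = decide (η' (x, y) - η' (x, y - 1) = 1)
        rw [e1, e2]
      · rw [mem_EB_inr] at he
        by_contra hcon
        apply hne
        have hq : Fr B (x, y) ∧ Fr B (x - 1, y) := by
          by_contra hF
          apply hcon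
          have hall : ∀ r : ℤ × ℤ, |x - r.1| ≤ 1 → |x - 1 - r.1| ≤ 1 → |y - r.2| ≤ 1 → r ∈ B := by
            intro r h1 h2 h3
            by_contra hr
            exact hF ⟨⟨r, hr, h1, h3⟩, ⟨r, hr, h2, h3⟩⟩
          have b1 : (x, y - 1) ∈ B := hall _ (by norm_num) (by norm_num) (by norm_num)
          have b2 : (x - 1, y - 1) ∈ B := hall _ (by norm_num) (by norm_num) (by norm_num)
          have b3 : (x, y + 1) ∈ B := hall _ (by norm_num) (by norm_num) (by norm_num)
          have b4 : (x - 1, y + 1) ∈ B := hall _ (by norm_num) (by norm_num) (by norm_num)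
          refine ⟨?_, ?_⟩
          · simp only [VB, Finset.mem_filter]
            exact ⟨he.1, he.2, b1, b2⟩
          · simp only [VB, Finset.mem_filter, add_sub_cancel_right]
            exact ⟨b3, b4, he.1, he.2⟩
        have e1 := hFr _ he.1 hq.1
        have e2 := hFr _ he.2 hq.2
        show decide (η (x - 1, y) - η (x, y) = 1) = decide (η' (x - 1, y) - η' (x, y) = 1)
        rw [e1, e2])
  have h2 : ∀ η : Hgt, Hon B η → (mu0 P).real (Cy B η) = P.real (cyl (EB B) (ow η)) := by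
    intro η hη
    unfold Measure.real
    rw [mu0_Cy hP hB hη]
  rw [h2 η hη, h2 η' hη', Finset.prod_congr rfl fun v hv => (vwt_ow (c := c) hη' hv).symm,
    Finset.prod_congr rfl fun v hv => (vwt_ow (c := c) hη hv).symm]
  exact h1

end Vale.Agent.P145.FC
end

section

/-!
P145, block F-C: integrals of local functionals of the absolute heights as sums over the frozen
boundary values of finite sums over the heights in a finite connected set of faces.
-/

namespace Vale.Agent.P145.FC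

open Finset Filter Topology MeasureTheory
open Vale.Agent.P152 (Edge Ori Ice sgb pth pth_isHeight cyl IsHeight)
open Vale.Agent.P145.FA (Hgt mu0 Pl)
open Vale.Agent.P145.FB (Swap)
open scoped Classical

/-- Extension by zero. -/
noncomputable def ext0 {B : Finset (ℤ × ℤ)} (x : B → ℤ) : Hgt := fun q =>
  if h : q ∈ B then x ⟨q, h⟩ else 0

/-- Restriction. -/
def res0 (B : Finset (ℤ × ℤ)) (h : Hgt) : B → ℤ := fun q => h q

theorem ext0_of_mem {B : Finset (ℤ × ℤ)} (x : B → ℤ) {q : ℤ × ℤ} (h : q ∈ B) :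
    ext0 x q = x ⟨q, h⟩ := dif_pos h

theorem ext0_res0 {B : Finset (ℤ × ℤ)} (h : Hgt) {q : ℤ × ℤ} (hq : q ∈ B) :
    ext0 (res0 B h) q = h q := dif_pos hq

/-- Heights on `B` with the boundary values of `η₀`. -/
def cls (B : Finset (ℤ × ℤ)) (η₀ : Hgt) : Set (B → ℤ) :=
  {x | Hon B (ext0 x) ∧ ∀ q ∈ B, Fr B q → ext0 x q = η₀ q}

/-- The weight of a height configuration on `B`. -/
noncomputable def WB (c : ℝ) (B : Finset (ℤ × ℤ)) (η : Hgt) : ℝ := ∏ v ∈ VB B, fw c η v

theorem WB_pos {c : ℝ} (hc : 0 < c) (B : Finset (ℤ × ℤ)) (η : Hgt) : 0 < WB c B η :=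
  Finset.prod_pos fun v _ => by unfold fw; split_ifs <;> linarith

theorem Hon.congr {B : Finset (ℤ × ℤ)} {η η' : Hgt} (h : ∀ q ∈ B, η q = η' q) (hη : Hon B η) :
    Hon B η' := by
  refine ⟨fun q hq => ?_, fun x y h1 h2 => ?_, fun x y h1 h2 => ?_⟩
  · rw [← h q hq]; exact hη.1 q hq
  · rw [← h _ h1, ← h _ h2]; exact hη.2.1 x y h1 h2
  · rw [← h _ h1, ← h _ h2]; exact hη.2.2 x y h1 h2

theorem exists_bound {B : Finset (ℤ × ℤ)} (hB : Con B) : ∃ R : ℤ, ∀ η : Hgt, Hon B η →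
    ∀ q ∈ B, |η q - η 0| ≤ R := by
  have h1 : ∀ q ∈ B, ∃ R : ℤ, ∀ η : Hgt, Hon B η → |η q - η 0| ≤ R := by
    refine hB.2 _ ?_ ?_ ?_
    · exact ⟨0, fun η _ => by simp⟩
    · intro x y h1 h2
      constructor
      · rintro ⟨R, hR⟩
        refine ⟨R + 1, fun η hη => ?_⟩
        have h3 := hR η hη
        have h4 := hη.2.1 x y h1 h2
        rw [abs_le] at h3 ⊢
        rcases (abs_eq (by norm_num)).1 h4 with h4 | h4 <;> omega
      · rintro ⟨R, hR⟩
        refine ⟨R + 1, fun η hη => ?_⟩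
        have h3 := hR η hη
        have h4 := hη.2.1 x y h1 h2
        rw [abs_le] at h3 ⊢
        rcases (abs_eq (by norm_num)).1 h4 with h4 | h4 <;> omega
    · intro x y h1 h2
      constructor
      · rintro ⟨R, hR⟩
        refine ⟨R + 1, fun η hη => ?_⟩
        have h3 := hR η hη
        have h4 := hη.2.2 x y h1 h2
        rw [abs_le] at h3 ⊢
        rcases (abs_eq (by norm_num)).1 h4 with h4 | h4 <;> omega
      · rintro ⟨R, hR⟩
        refine ⟨R + 1, fun η hη => ?_⟩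
        have h3 := hR η hη
        have h4 := hη.2.2 x y h1 h2
        rw [abs_le] at h3 ⊢
        rcases (abs_eq (by norm_num)).1 h4 with h4 | h4 <;> omega
  choose! R hR using h1
  refine ⟨∑ q ∈ B, |R q|, fun η hη q hq => ?_⟩
  refine (hR q hq η hη).trans ((le_abs_self _).trans ?_)
  exact Finset.single_le_sum (f := fun q => |R q|) (fun q _ => abs_nonneg _) hq

theorem exists_Fr {B : Finset (ℤ × ℤ)} (hB : Con B) : ∃ q ∈ B, Fr B q := by
  obtain ⟨q, hq, hm⟩ := Finset.exists_max_image B (fun q => q.1) ⟨0, hB.1⟩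
  refine ⟨q, hq, (q.1 + 1, q.2), fun h => ?_, by norm_num, by norm_num⟩
  have := hm _ h
  simp only [add_le_iff_nonpos_right, Int.reduceLE] at this

theorem cls_finite {B : Finset (ℤ × ℤ)} (hB : Con B) (η₀ : Hgt) : (cls B η₀).Finite := by
  obtain ⟨R, hR⟩ := exists_bound hB
  obtain ⟨b, hb, hbF⟩ := exists_Fr hB
  refine Set.Finite.subset (Fintype.piFinset fun _ : B =>
    Finset.Icc (-(|η₀ b| + 2 * R)) (|η₀ b| + 2 * R)).finite_toSet ?_
  rintro x ⟨hx, hx'⟩
  rw [Finset.mem_coe, Fintype.mem_piFinset]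
  intro q
  have h1 := hR _ hx q q.2
  have h2 := hR _ hx b hb
  have h3 := hx' b hb hbF
  rw [ext0_of_mem x q.2] at h1
  rw [h3] at h2
  rw [Finset.mem_Icc]
  rw [abs_le] at h1 h2
  have h4 : -|η₀ b| ≤ η₀ b ∧ η₀ b ≤ |η₀ b| := ⟨neg_abs_le _, le_abs_self _⟩
  have h5 : x ⟨(q : ℤ × ℤ), q.2⟩ = x q := rfl
  rw [h5] at h1
  constructor <;> linarith only [h1, h2, h4]

theorem measurable_res0 (B : Finset (ℤ × ℤ)) : Measurable (res0 B) :=
  measurable_pi_lambda _ fun _ => measurable_pi_apply _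

theorem ae_Hon {c : ℝ} {P : Measure (Ori (ℤ × ℤ))} (hP : Pl c P) (B : Finset (ℤ × ℤ)) :
    ∀ᵐ h ∂(mu0 P), Hon B h := by
  filter_upwards [FA.s_lip c P hP] with h hh
  refine ⟨fun q _ => (hh q).1, fun x y _ _ => ?_, fun x y _ _ => ?_⟩
  · have := (hh (x, y - 1)).2.2
    have e1 : ((x, y - 1) + (0, 1) : ℤ × ℤ) = (x, y) := by ext <;> simp
    rwa [e1] at this
  · have := (hh (x - 1, y)).2.1
    have e1 : ((x - 1, y) + (1, 0) : ℤ × ℤ) = (x, y) := by ext <;> simp
    rw [e1, abs_sub_comm] at this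
    exact this

theorem Cy_eq (B : Finset (ℤ × ℤ)) (x : B → ℤ) : Cy B (ext0 x) = res0 B ⁻¹' {x} := by
  ext h
  simp only [Cy, Set.mem_ofPred_eq, Set.mem_preimage, Set.mem_singleton_iff]
  constructor
  · intro h1
    funext q
    have := h1 q q.2
    rw [ext0_of_mem x q.2] at this
    exact this
  · intro h1 q hq
    rw [ext0_of_mem x hq, ← h1]
    rfl

theorem real_Cy_eq_zero {c : ℝ} {P : Measure (Ori (ℤ × ℤ))} (hP : Pl c P)
    (B : Finset (ℤ × ℤ)) {x : B → ℤ} (hx : ¬ Hon B (ext0 x)) : (mu0 P).real (Cy B (ext0 x)) = 0 := by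
  have h1 : (mu0 P) (Cy B (ext0 x)) = 0 := by
    refine measure_mono_null ?_ (ae_iff.1 (ae_Hon hP B))
    intro h hh hHon
    exact hx (hHon.congr hh)
  unfold Measure.real
  rw [h1]
  rfl

/-- If all the finite sums with frozen boundary values are nonnegative, the integral is. -/
theorem integral_nonneg_of_cls {c : ℝ} (hc : 0 < c) {P : Measure (Ori (ℤ × ℤ))} (hP : Pl c P)
    (hS : Swap c P) {B : Finset (ℤ × ℤ)} (hB : Con B) {F : Hgt → ℝ}
    (hF : ∀ h h' : Hgt, (∀ q ∈ B, h q = h' q) → F h = F h') (hi : Integrable F (mu0 P))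
    (hcl : ∀ η₀ : Hgt, Hon B η₀ → 0 ≤ ∑ᶠ x ∈ cls B η₀, WB c B (ext0 x) * F (ext0 x)) :
    0 ≤ ∫ h, F h ∂(mu0 P) := by
  have hFe : ∀ h, F h = F (ext0 (res0 B h)) := fun h => hF _ _ fun q hq => (ext0_res0 h hq).symm
  have hm : AEMeasurable (res0 B) (mu0 P) := (measurable_res0 B).aemeasurable
  -- the integral over the countable space
  have hi' : Integrable (fun x : B → ℤ => F (ext0 x)) ((mu0 P).map (res0 B)) := by
    rw [integrable_map_measure (measurable_of_countable _).aestronglyMeasurable hm]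
    exact hi.congr (Filter.Eventually.of_forall hFe)
  have e1 : ∫ h, F h ∂(mu0 P) = ∫ x, F (ext0 x) ∂((mu0 P).map (res0 B)) := by
    rw [integral_map hm (measurable_of_countable _).aestronglyMeasurable]
    exact integral_congr_ae (Filter.Eventually.of_forall hFe)
  have e0 : HasSum (fun x : B → ℤ => (mu0 P).real (Cy B (ext0 x)) * F (ext0 x))
      (∫ x, F (ext0 x) ∂((mu0 P).map (res0 B))) := by
    have h1 := hasSum_integral_measure (f := fun x : B → ℤ => F (ext0 x))
      (μ := fun x : B → ℤ => ((mu0 P).map (res0 B)) {x} • Measure.dirac x)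
      (by rw [Measure.sum_smul_dirac]; exact hi')
    rw [Measure.sum_smul_dirac] at h1
    refine h1.congr_fun ?_
    intro x
    rw [integral_smul_measure, integral_dirac, Measure.map_apply (measurable_res0 B)
      (measurableSet_singleton x), ← Cy_eq]
    rfl
  have hs := e0.summable
  have e2 := e0.tsum_eq.symm
  rw [e1, e2]
  -- boundary values
  set bd : (B → ℤ) → ({q : B // Fr B q} → ℤ) := fun x q => x q with hbd
  have hs2 := (Equiv.sigmaFiberEquiv bd).summable_iff.2 hs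
  have e5 := hs2.tsum_sigma' (fun b => hs2.sigma_factor b)
  rw [← (Equiv.sigmaFiberEquiv bd).tsum_eq]
  refine le_of_le_of_eq ?_ e5.symm
  refine tsum_nonneg fun b => ?_
  change 0 ≤ ∑' x : {x // bd x = b}, (mu0 P).real (Cy B (ext0 x.1)) * F (ext0 x.1)
  by_cases hb : ∃ x0 : B → ℤ, bd x0 = b ∧ Hon B (ext0 x0)
  · obtain ⟨x0, hx0, hH0⟩ := hb
    have hmem : ∀ x : B → ℤ, (bd x = b ∧ Hon B (ext0 x)) ↔ x ∈ cls B (ext0 x0) := by
      intro x
      constructor
      · rintro ⟨h1, h2⟩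
        refine ⟨h2, fun q hq hF => ?_⟩
        rw [ext0_of_mem x hq, ext0_of_mem x0 hq]
        exact congrFun (h1.trans hx0.symm) ⟨⟨q, hq⟩, hF⟩
      · rintro ⟨h1, h2⟩
        refine ⟨?_, h1⟩
        rw [← hx0]
        funext q
        have := h2 q.1 q.1.2 q.2
        rw [ext0_of_mem x q.1.2, ext0_of_mem x0 q.1.2] at this
        exact this
    set ρ : ℝ := (mu0 P).real (Cy B (ext0 x0)) / WB c B (ext0 x0) with hρ
    have hρ0 : 0 ≤ ρ := div_nonneg measureReal_nonneg (WB_pos hc B _).le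
    have hterm : ∀ x : {x // bd x = b}, (mu0 P).real (Cy B (ext0 x.1)) * F (ext0 x.1) =
        (if x.1 ∈ cls B (ext0 x0) then ρ * (WB c B (ext0 x.1) * F (ext0 x.1)) else 0) := by
      rintro ⟨x, hx⟩
      by_cases hH : x ∈ cls B (ext0 x0)
      · rw [if_pos hH]
        have h1 := mu0_swap hP hS hB hH.1 hH0 hH.2
        have h2 : (mu0 P).real (Cy B (ext0 x)) = ρ * WB c B (ext0 x) := by
          rw [hρ, div_mul_eq_mul_div, eq_div_iff (WB_pos hc B _).ne']
          exact h1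
        simp only
        rw [h2]
        ring
      · rw [if_neg hH]
        have h1 : ¬ Hon B (ext0 x) := fun h => hH ((hmem x).1 ⟨hx, h⟩)
        simp only
        rw [real_Cy_eq_zero hP B h1, zero_mul]
    have hfin := cls_finite hB (ext0 x0)
    have e3 : ∑' x : {x // bd x = b}, (mu0 P).real (Cy B (ext0 x.1)) * F (ext0 x.1) =
        ρ * ∑ᶠ x ∈ cls B (ext0 x0), WB c B (ext0 x) * F (ext0 x) := by
      rw [tsum_congr hterm]
      have e4 : ∑' x : {x // bd x = b}, (if x.1 ∈ cls B (ext0 x0) then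
          ρ * (WB c B (ext0 x.1) * F (ext0 x.1)) else 0) =
          ∑' x : B → ℤ, (if x ∈ cls B (ext0 x0) then ρ * (WB c B (ext0 x) * F (ext0 x)) else 0) := by
        refine tsum_subtype_eq_of_support_subset (f := fun x : B → ℤ =>
          (if x ∈ cls B (ext0 x0) then ρ * (WB c B (ext0 x) * F (ext0 x)) else 0))
          (s := {x | bd x = b}) ?_
        intro x hx
        have hx' : x ∈ cls B (ext0 x0) := by
          by_contra h
          exact hx (if_neg h)
        exact ((hmem x).2 hx').1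
      rw [e4, finsum_mem_eq_finite_toFinset_sum _ hfin, Finset.mul_sum,
        tsum_eq_sum (s := hfin.toFinset) (fun x hx => by
          rw [Set.Finite.mem_toFinset] at hx
          exact if_neg hx)]
      refine Finset.sum_congr rfl fun x hx => ?_
      rw [Set.Finite.mem_toFinset] at hx
      exact if_pos hx
    rw [e3]
    exact mul_nonneg hρ0 (hcl _ hH0)
  · have h0 : ∀ x : {x // bd x = b}, (mu0 P).real (Cy B (ext0 x.1)) * F (ext0 x.1) = 0 := by
      rintro ⟨x, hx⟩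
      have h1 : ¬ Hon B (ext0 x) := fun h => hb ⟨x, hx, h⟩
      simp only
      rw [real_Cy_eq_zero hP B h1, zero_mul]
    rw [tsum_congr h0, tsum_zero]

end Vale.Agent.P145.FC
end

section

/-!
P145, block K1: the incidence structure of a finite set of faces of the six-vertex lattice and its
zero boundary heights.
-/

namespace Vale.Agent.P145.FK

open Finset Vale.Agent.P145.FP Vale.Agent.P145.Dom
open Vale.Agent.P145.FA (Hgt)
open scoped Classical

/-- Even faces of `B`. -/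
noncomputable def ev6 (B : Finset (ℤ × ℤ)) : Finset (ℤ × ℤ) := B.filter fun q => Even (q.1 + q.2)
/-- Odd faces of `B`. -/
noncomputable def od6 (B : Finset (ℤ × ℤ)) : Finset (ℤ × ℤ) := B.filter fun q => ¬ Even (q.1 + q.2)

/-- Even faces of `B`. -/
abbrev V6 (B : Finset (ℤ × ℤ)) := {q // q ∈ ev6 B}
/-- Odd faces of `B`. -/
abbrev F6 (B : Finset (ℤ × ℤ)) := {q // q ∈ od6 B}
/-- Vertices with all their faces in `B`. -/
abbrev E6 (B : Finset (ℤ × ℤ)) := {w // w ∈ FC.VB B}

/-- Neighbouring faces. -/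
def Adj (v f : ℤ × ℤ) : Prop :=
  (v.1 = f.1 ∧ (v.2 = f.2 + 1 ∨ f.2 = v.2 + 1)) ∨ (v.2 = f.2 ∧ (v.1 = f.1 + 1 ∨ f.1 = v.1 + 1))

lemma e1_mem {B : Finset (ℤ × ℤ)} {w : ℤ × ℤ} (h : w ∈ FC.VB B) : FB.e1 w ∈ ev6 B := by
  simp only [FC.VB, Finset.mem_filter] at h
  unfold FB.e1 ev6
  split_ifs with hp
  · exact Finset.mem_filter.2 ⟨h.1, hp⟩
  · refine Finset.mem_filter.2 ⟨h.2.1, ?_⟩
    rw [Int.not_even_iff_odd] at hp
    show Even (w.1 - 1 + w.2)
    obtain ⟨k, hk⟩ := hp
    exact ⟨k, by omega⟩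

lemma e2_mem {B : Finset (ℤ × ℤ)} {w : ℤ × ℤ} (h : w ∈ FC.VB B) : FB.e2 w ∈ ev6 B := by
  simp only [FC.VB, Finset.mem_filter] at h
  unfold FB.e2 ev6
  split_ifs with hp
  · refine Finset.mem_filter.2 ⟨h.2.2.2, ?_⟩
    show Even (w.1 - 1 + (w.2 - 1))
    obtain ⟨k, hk⟩ := hp
    exact ⟨k - 1, by omega⟩
  · refine Finset.mem_filter.2 ⟨h.2.2.1, ?_⟩
    rw [Int.not_even_iff_odd] at hp
    show Even (w.1 + (w.2 - 1))
    obtain ⟨k, hk⟩ := hp
    exact ⟨k, by (clear * - hk; omega)⟩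

lemma o1_mem {B : Finset (ℤ × ℤ)} {w : ℤ × ℤ} (h : w ∈ FC.VB B) : FB.o1 w ∈ od6 B := by
  simp only [FC.VB, Finset.mem_filter] at h
  unfold FB.o1 od6
  split_ifs with hp
  · refine Finset.mem_filter.2 ⟨h.2.1, ?_⟩
    rw [Int.not_even_iff_odd]
    show Odd (w.1 - 1 + w.2)
    obtain ⟨k, hk⟩ := hp
    exact ⟨k - 1, by omega⟩
  · exact Finset.mem_filter.2 ⟨h.1, hp⟩

lemma o2_mem {B : Finset (ℤ × ℤ)} {w : ℤ × ℤ} (h : w ∈ FC.VB B) : FB.o2 w ∈ od6 B := by
  simp only [FC.VB, Finset.mem_filter] at h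
  unfold FB.o2 od6
  split_ifs with hp
  · refine Finset.mem_filter.2 ⟨h.2.2.1, ?_⟩
    rw [Int.not_even_iff_odd]
    show Odd (w.1 + (w.2 - 1))
    obtain ⟨k, hk⟩ := hp
    exact ⟨k - 1, by omega⟩
  · refine Finset.mem_filter.2 ⟨h.2.2.2, ?_⟩
    show ¬ Even (w.1 - 1 + (w.2 - 1))
    rw [Int.not_even_iff_odd] at hp ⊢
    obtain ⟨k, hk⟩ := hp
    exact ⟨k - 1, by (clear * - hk; omega)⟩

lemma adj_e1_o1 (w : ℤ × ℤ) : Adj (FB.e1 w) (FB.o1 w) := by
  unfold Adj FB.e1 FB.o1; split_ifs <;> simp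
lemma adj_e1_o2 (w : ℤ × ℤ) : Adj (FB.e1 w) (FB.o2 w) := by
  unfold Adj FB.e1 FB.o2; split_ifs <;> simp
lemma adj_e2_o1 (w : ℤ × ℤ) : Adj (FB.e2 w) (FB.o1 w) := by
  unfold Adj FB.e2 FB.o1; split_ifs <;> simp
lemma adj_e2_o2 (w : ℤ × ℤ) : Adj (FB.e2 w) (FB.o2 w) := by
  unfold Adj FB.e2 FB.o2; split_ifs <;> simp

/-- The incidence structure of the finite set `B` of faces. -/
noncomputable def n6 (B : Finset (ℤ × ℤ)) : Net (V6 B) (F6 B) (E6 B) where
  u w := ⟨FB.e1 w.1, e1_mem w.2⟩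
  v w := ⟨FB.e2 w.1, e2_mem w.2⟩
  f w := ⟨FB.o1 w.1, o1_mem w.2⟩
  g w := ⟨FB.o2 w.1, o2_mem w.2⟩
  inc v f := Adj v.1 f.1
  huf w := adj_e1_o1 w.1
  hug w := adj_e1_o2 w.1
  hvf w := adj_e2_o1 w.1
  hvg w := adj_e2_o2 w.1

/-- Extension by zero to all faces. -/
noncomputable def ex6 {B : Finset (ℤ × ℤ)} (y : V6 B ⊕ F6 B → ℤ) : Hgt := fun q =>
  if h : q ∈ ev6 B then y (.inl ⟨q, h⟩) else if h' : q ∈ od6 B then y (.inr ⟨q, h'⟩) else 0

lemma not_ev_of_od {B : Finset (ℤ × ℤ)} {q : ℤ × ℤ} (h : q ∈ od6 B) : q ∉ ev6 B := by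
  intro h'
  exact (Finset.mem_filter.1 h).2 (Finset.mem_filter.1 h').2

lemma ex6_inl {B : Finset (ℤ × ℤ)} (y : V6 B ⊕ F6 B → ℤ) (v : V6 B) : ex6 y v.1 = y (.inl v) := by
  unfold ex6
  rw [dif_pos v.2]

lemma ex6_inr {B : Finset (ℤ × ℤ)} (y : V6 B ⊕ F6 B → ℤ) (f : F6 B) : ex6 y f.1 = y (.inr f) := by
  unfold ex6
  rw [dif_neg (not_ev_of_od f.2), dif_pos f.2]

lemma mem_ev6 {B : Finset (ℤ × ℤ)} {q : ℤ × ℤ} : q ∈ ev6 B ↔ q ∈ B ∧ Even (q.1 + q.2) :=
  Finset.mem_filter
lemma mem_od6 {B : Finset (ℤ × ℤ)} {q : ℤ × ℤ} : q ∈ od6 B ↔ q ∈ B ∧ ¬ Even (q.1 + q.2) :=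
  Finset.mem_filter

lemma ex6_of_not {B : Finset (ℤ × ℤ)} (y : V6 B ⊕ F6 B → ℤ) {q : ℤ × ℤ} (h : q ∉ B) :
    ex6 y q = 0 := by
  unfold ex6
  rw [dif_neg fun h' => h (mem_ev6.1 h').1, dif_neg fun h' => h (mem_od6.1 h').1]

lemma ex6_inj {B : Finset (ℤ × ℤ)} : Function.Injective (ex6 (B := B)) := by
  intro y y' h
  funext i
  rcases i with v | f
  · rw [← ex6_inl y, ← ex6_inl y', h]
  · rw [← ex6_inr y, ← ex6_inr y', h]

/-! ### The faces of the square lattice -/

lemma fc6_l (v : ℤ × ℤ) : fc (.inl v) = (v.1 - v.2, v.1 + v.2) := rfl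
lemma fc6_r (f : ℤ × ℤ) : fc (.inr f) = (f.1 - f.2, f.1 + f.2 + 1) := rfl

lemma fc_inl_even (v : ℤ × ℤ) : Even ((fc (.inl v)).1 + (fc (.inl v)).2) := ⟨v.1, by
  simp only [fc6_l]; ring⟩

lemma fc_inr_odd (f : ℤ × ℤ) : ¬ Even ((fc (.inr f)).1 + (fc (.inr f)).2) := by
  rw [Int.not_even_iff_odd]
  exact ⟨f.1, by simp only [fc6_r]; ring⟩

lemma fc_inj : Function.Injective fc := fun x y h => by rw [← cf_fc x, ← cf_fc y, h]

lemma adj_fc {v f : ℤ × ℤ} : Adj (fc (.inl v)) (fc (.inr f)) ↔ Cor v f := by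
  unfold Adj Cor
  simp only [fc6_l, fc6_r]
  constructor
  · intro h
    refine ⟨v.1 - f.1, v.2 - f.2, by (clear * - h; omega), by omega, by ext <;> simp⟩
  · rintro ⟨a, b, ha, hb, rfl⟩
    simp only
    (clear * - ha hb; omega)

/-- Faces of the square lattice as odd faces of `B`. -/
def in6 (B : Finset (ℤ × ℤ)) (F : Set (ℤ × ℤ)) : Set (F6 B) := {f | ∃ g ∈ F, fc (.inr g) = f.1}

/-- `B` contains `F` and all faces which touch `F`. -/
def Nb6 (B : Finset (ℤ × ℤ)) (F : Set (ℤ × ℤ)) : Prop :=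
  ∀ f ∈ F, ∀ v, Cor v f → fc (.inl v) ∈ B ∧ ∀ f', Cor v f' → fc (.inr f') ∈ B

lemma Nb6.mem {B : Finset (ℤ × ℤ)} {F : Set (ℤ × ℤ)} (h : Nb6 B F) {f : ℤ × ℤ} (hf : f ∈ F) :
    fc (.inr f) ∈ B := (h f hf f (cor00 f)).2 f (cor00 f)

lemma Nb6.mono {B : Finset (ℤ × ℤ)} {F F' : Set (ℤ × ℤ)} (h : Nb6 B F') (hF : F ⊆ F') : Nb6 B F :=
  fun f hf => h f (hF hf)

lemma mem_in6 {B : Finset (ℤ × ℤ)} {F : Set (ℤ × ℤ)} {f : ℤ × ℤ} (h : fc (.inr f) ∈ od6 B) :
    (⟨_, h⟩ : F6 B) ∈ in6 B F ↔ f ∈ F := by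
  constructor
  · rintro ⟨g, hg, he⟩
    have he' : fc (.inr g) = fc (.inr f) := he
    have := fc_inj he'
    simp only [Sum.inr.injEq] at this
    rwa [← this]
  · intro hf
    exact ⟨f, hf, rfl⟩

lemma od6_fc {B : Finset (ℤ × ℤ)} {f : ℤ × ℤ} (h : fc (.inr f) ∈ B) : fc (.inr f) ∈ od6 B :=
  mem_od6.2 ⟨h, fc_inr_odd f⟩

lemma ev6_fc {B : Finset (ℤ × ℤ)} {v : ℤ × ℤ} (h : fc (.inl v) ∈ B) : fc (.inl v) ∈ ev6 B :=
  mem_ev6.2 ⟨h, fc_inl_even v⟩

lemma exists_od {B : Finset (ℤ × ℤ)} (f : F6 B) : ∃ g, fc (.inr g) = f.1 := by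
  have h := (mem_od6.1 f.2).2
  rw [Int.not_even_iff_odd] at h
  have h2 := fc_cf f.1
  rcases hc : cf f.1 with v | g
  · rw [hc] at h2
    exfalso
    rw [← h2] at h
    rw [← Int.not_even_iff_odd] at h
    exact h (fc_inl_even v)
  · rw [hc] at h2
    exact ⟨g, h2⟩

lemma exists_ev {B : Finset (ℤ × ℤ)} (f : V6 B) : ∃ g, fc (.inl g) = f.1 := by
  have h := (mem_ev6.1 f.2).2
  have h2 := fc_cf f.1
  rcases hc : cf f.1 with v | g
  · rw [hc] at h2
    exact ⟨v, h2⟩
  · rw [hc] at h2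
    exfalso
    rw [← h2] at h
    exact fc_inr_odd g h

/-- Zero boundary heights. -/
lemma HS6_iff {B F : Finset (ℤ × ℤ)} (hI : ∀ v : V6 B, ∃ f : F6 B, Adj v.1 f.1) (hB : Nb6 B F)
    (y : V6 B ⊕ F6 B → ℤ) :
    (n6 B).HS (in6 B F) y ↔ (fun s => ex6 y (fc s)) ∈ ZH F := by
  constructor
  · rintro ⟨h1, h2, h3, h4⟩
    refine ⟨fun v => ?_, fun f hf => ?_, fun f a b ha hb => ⟨fun hf => ?_, fun hf => ?_⟩⟩
    · show Even (ex6 y (fc (.inl v)))
      by_cases hv : fc (.inl v) ∈ B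
      · have := h3 ⟨_, ev6_fc hv⟩
        rwa [← ex6_inl y] at this
      · rw [ex6_of_not y hv]
        exact Even.zero
    · show ex6 y (fc (.inr f)) = 0
      by_cases hf' : fc (.inr f) ∈ B
      · have := h2 ⟨_, od6_fc hf'⟩ (fun h => hf ((mem_in6 (od6_fc hf')).1 h))
        rwa [← ex6_inr y] at this
      · exact ex6_of_not y hf'
    · show ex6 y (fc (.inl (f.1 + a, f.2 + b))) = 0
      have hcor : Cor (f.1 + a, f.2 + b) f := ⟨a, b, ha, hb, rfl⟩
      by_cases hv : fc (.inl (f.1 + a, f.2 + b)) ∈ B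
      · have h5 : (⟨_, ev6_fc hv⟩ : V6 B) ∉ (n6 B).UU (in6 B F) := by
          intro h'
          obtain ⟨f', hf'⟩ := hI ⟨_, ev6_fc hv⟩
          obtain ⟨g, hgF, hg⟩ := h' f' hf'
          have hc : Cor (f.1 + a, f.2 + b) g := by
            rw [← adj_fc, hg]
            exact hf'
          have h6 : fc (.inr f) ∈ B := (hB g hgF _ hc).2 f hcor
          exact hf ((mem_in6 (od6_fc h6)).1 (h' ⟨_, od6_fc h6⟩ (adj_fc.2 hcor)))
        have := h1 _ h5
        rwa [← ex6_inl y] at this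
      · exact ex6_of_not y hv
    · have hcor : Cor (f.1 + a, f.2 + b) f := ⟨a, b, ha, hb, rfl⟩
      have hfB : fc (.inr f) ∈ B := hB.mem hf
      have hv : fc (.inl (f.1 + a, f.2 + b)) ∈ B := (hB f hf _ hcor).1
      have := h4 ⟨_, ev6_fc hv⟩ ⟨_, od6_fc hfB⟩ (adj_fc.2 hcor) ((mem_in6 (od6_fc hfB)).2 hf)
      rw [← ex6_inl y, ← ex6_inr y, abs_sub_comm] at this
      exact this
  · rintro ⟨h1, h2, h3⟩
    refine ⟨fun v hv => ?_, fun f hf => ?_, fun v => ?_, fun v f hvf hf => ?_⟩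
    · have h' : ¬ ∀ f, (n6 B).inc v f → f ∈ in6 B F := hv
      push Not at h'
      obtain ⟨f, hvf, hf⟩ := h'
      obtain ⟨g, hg⟩ := exists_od f
      obtain ⟨v', hv'⟩ := exists_ev v
      have hvf' : Adj v.1 f.1 := hvf
      rw [← hv', ← hg, adj_fc] at hvf'
      obtain ⟨a, b, ha, hb, hvv⟩ := hvf'
      have := (h3 g a b ha hb).1 (fun h => hf ⟨g, h, hg⟩)
      rw [← hvv] at this
      change ex6 y (fc (.inl v')) = 0 at this
      rw [hv', ex6_inl] at this
      exact this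
    · obtain ⟨g, hg⟩ := exists_od f
      have := h2 g (fun h => hf ⟨g, h, hg⟩)
      change ex6 y (fc (.inr g)) = 0 at this
      rw [hg, ex6_inr] at this
      exact this
    · obtain ⟨v', hv'⟩ := exists_ev v
      have := h1 v'
      change Even (ex6 y (fc (.inl v'))) at this
      rw [hv', ex6_inl] at this
      exact this
    · obtain ⟨g, hgF, hg⟩ := hf
      obtain ⟨v', hv'⟩ := exists_ev v
      have hvf' : Adj v.1 f.1 := hvf
      rw [← hv', ← hg, adj_fc] at hvf'
      obtain ⟨a, b, ha, hb, hvv⟩ := hvf'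
      have := (h3 g a b ha hb).2 hgF
      rw [← hvv] at this
      change |ex6 y (fc (.inr g)) - ex6 y (fc (.inl v'))| = 1 at this
      rw [hv', hg, ex6_inl, ex6_inr, abs_sub_comm] at this
      exact this


/-- The vertex of the six-vertex lattice in the middle of a horizontal edge. -/
def Hm (e : ℤ × ℤ) : ℤ × ℤ := (e.1 - e.2 + 1, e.1 + e.2 + 1)
/-- The vertex of the six-vertex lattice in the middle of a vertical edge. -/
def Vm (e : ℤ × ℤ) : ℤ × ℤ := (e.1 - e.2, e.1 + e.2 + 1)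

lemma Hm_even (e : ℤ × ℤ) : Even ((Hm e).1 + (Hm e).2) := ⟨e.1 + 1, by simp only [Hm]; ring⟩
lemma Vm_odd (e : ℤ × ℤ) : ¬ Even ((Vm e).1 + (Vm e).2) := by
  rw [Int.not_even_iff_odd]; exact ⟨e.1, by simp only [Vm]; ring⟩

lemma e1_Hm (e : ℤ × ℤ) : FB.e1 (Hm e) = fc (.inl (e.1 + 1, e.2)) := by
  rw [FB.e1, if_pos (Hm_even e)]
  simp only [Hm, fc6_l, fc6_r]; ext <;> simp only <;> ring
lemma e2_Hm (e : ℤ × ℤ) : FB.e2 (Hm e) = fc (.inl e) := by
  rw [FB.e2, if_pos (Hm_even e)]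
  simp only [Hm, fc6_l, fc6_r]; ext <;> simp only <;> ring
lemma o1_Hm (e : ℤ × ℤ) : FB.o1 (Hm e) = fc (.inr e) := by
  rw [FB.o1, if_pos (Hm_even e)]
  simp only [Hm, fc6_l, fc6_r]; ext <;> simp only <;> ring
lemma o2_Hm (e : ℤ × ℤ) : FB.o2 (Hm e) = fc (.inr (e.1, e.2 - 1)) := by
  rw [FB.o2, if_pos (Hm_even e)]
  simp only [Hm, fc6_l, fc6_r]; ext <;> simp only <;> ring
lemma e1_Vm (e : ℤ × ℤ) : FB.e1 (Vm e) = fc (.inl (e.1, e.2 + 1)) := by
  rw [FB.e1, if_neg (Vm_odd e)]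
  simp only [Vm, fc6_l, fc6_r]; ext <;> simp only <;> ring
lemma e2_Vm (e : ℤ × ℤ) : FB.e2 (Vm e) = fc (.inl e) := by
  rw [FB.e2, if_neg (Vm_odd e)]
  simp only [Vm, fc6_l, fc6_r]; ext <;> simp only <;> ring
lemma o1_Vm (e : ℤ × ℤ) : FB.o1 (Vm e) = fc (.inr e) := by
  rw [FB.o1, if_neg (Vm_odd e)]
  simp only [Vm, fc6_l, fc6_r]
lemma o2_Vm (e : ℤ × ℤ) : FB.o2 (Vm e) = fc (.inr (e.1 - 1, e.2)) := by
  rw [FB.o2, if_neg (Vm_odd e)]
  simp only [Vm, fc6_l, fc6_r]; ext <;> simp only <;> ring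

lemma mem_VB {B : Finset (ℤ × ℤ)} {w : ℤ × ℤ} : w ∈ FC.VB B ↔
    FB.e1 w ∈ B ∧ FB.e2 w ∈ B ∧ FB.o1 w ∈ B ∧ FB.o2 w ∈ B := by
  simp only [FC.VB, Finset.mem_filter, FB.e1, FB.e2, FB.o1, FB.o2]
  split_ifs <;> (clear * -; tauto)

/-- Interior vertices. -/
def In6 (F : Set (ℤ × ℤ)) (w : ℤ × ℤ) : Prop :=
  (∃ g ∈ F, fc (.inr g) = FB.o1 w) ∧ ∃ g ∈ F, fc (.inr g) = FB.o2 w

lemma In6_iff {F : Set (ℤ × ℤ)} {w : ℤ × ℤ} : In6 F w ↔
    (∃ e, w = Hm e ∧ e ∈ F ∧ (e.1, e.2 - 1) ∈ F) ∨ ∃ e, w = Vm e ∧ e ∈ F ∧ (e.1 - 1, e.2) ∈ F := by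
  constructor
  · rintro ⟨⟨g, hg, h1⟩, ⟨g', hg', h2⟩⟩
    by_cases hp : Even (w.1 + w.2)
    · left
      rw [FB.o1, if_pos hp] at h1
      rw [FB.o2, if_pos hp] at h2
      simp only [fc6_l, fc6_r, Prod.mk.injEq] at h1 h2
      refine ⟨g, ?_, hg, ?_⟩
      · ext <;> simp only [Hm] <;> omega
      · have : g' = (g.1, g.2 - 1) := by ext <;> simp only <;> omega
        rwa [← this]
    · right
      rw [FB.o1, if_neg hp] at h1
      rw [FB.o2, if_neg hp] at h2
      simp only [fc6_l, fc6_r, Prod.ext_iff] at h1 h2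
      refine ⟨g, ?_, hg, ?_⟩
      · ext <;> simp only [Vm] <;> omega
      · have : g' = (g.1 - 1, g.2) := by ext <;> simp only <;> omega
        rwa [← this]
  · rintro (⟨e, rfl, h1, h2⟩ | ⟨e, rfl, h1, h2⟩)
    · exact ⟨⟨e, h1, (o1_Hm e).symm⟩, ⟨_, h2, (o2_Hm e).symm⟩⟩
    · exact ⟨⟨e, h1, (o1_Vm e).symm⟩, ⟨_, h2, (o2_Vm e).symm⟩⟩

lemma inE_iff {B : Finset (ℤ × ℤ)} {F : Set (ℤ × ℤ)} (w : E6 B) :
    (n6 B).inE (in6 B F) w ↔ In6 F w.1 := Iff.rfl

lemma Hm_mem {B : Finset (ℤ × ℤ)} {F : Set (ℤ × ℤ)} (hB : Nb6 B F) {e : ℤ × ℤ} (he : e ∈ F) :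
    Hm e ∈ FC.VB B := by
  rw [mem_VB, e1_Hm, e2_Hm, o1_Hm, o2_Hm]
  exact ⟨(hB e he _ (cor_h2 e)).1, (hB e he _ (cor00 e)).1, hB.mem he,
    (hB e he _ (cor00 e)).2 _ (cor_h1 e)⟩

lemma Vm_mem {B : Finset (ℤ × ℤ)} {F : Set (ℤ × ℤ)} (hB : Nb6 B F) {e : ℤ × ℤ} (he : e ∈ F) :
    Vm e ∈ FC.VB B := by
  rw [mem_VB, e1_Vm, e2_Vm, o1_Vm, o2_Vm]
  exact ⟨(hB e he _ (cor_v2 e)).1, (hB e he _ (cor00 e)).1, hB.mem he,
    (hB e he _ (cor00 e)).2 _ (cor_v1 e)⟩

lemma In6_mem {B : Finset (ℤ × ℤ)} {F : Set (ℤ × ℤ)} (hB : Nb6 B F) {w : ℤ × ℤ} (hw : In6 F w) :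
    w ∈ FC.VB B := by
  rcases In6_iff.1 hw with ⟨e, rfl, h, _⟩ | ⟨e, rfl, h, _⟩
  · exact Hm_mem hB h
  · exact Vm_mem hB h

lemma Hm_inj : Function.Injective Hm := by
  intro e e' h
  simp only [Hm, Prod.mk.injEq] at h
  ext <;> omega

lemma Vm_inj : Function.Injective Vm := by
  intro e e' h
  simp only [Vm, Prod.mk.injEq] at h
  ext <;> omega

/-- A product over the interior vertices. -/
lemma prod_In6 {B F : Finset (ℤ × ℤ)} (hB : Nb6 B F) (ψ : ℤ × ℤ → ℝ)
    (hψ : ∀ w, ¬ In6 (F : Set (ℤ × ℤ)) w → ψ w = 1) :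
    ∏ w : E6 B, ψ w.1 = (∏ e ∈ F with e - (0, 1) ∈ F, ψ (Hm e)) *
      ∏ e ∈ F with e - (1, 0) ∈ F, ψ (Vm e) := by
  rw [Finset.prod_coe_sort (FC.VB B) ψ]
  have h01 : ∀ e : ℤ × ℤ, e - (0, 1) = (e.1, e.2 - 1) := fun e => by ext <;> simp
  have h10 : ∀ e : ℤ × ℤ, e - (1, 0) = (e.1 - 1, e.2) := fun e => by ext <;> simp
  have hd : Disjoint ((F.filter fun e => e - (0, 1) ∈ F).image Hm)
      ((F.filter fun e => e - (1, 0) ∈ F).image Vm) := by
    rw [Finset.disjoint_left]
    intro w h1 h2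
    obtain ⟨e, _, rfl⟩ := Finset.mem_image.1 h1
    obtain ⟨e', _, he'⟩ := Finset.mem_image.1 h2
    exact Vm_odd e' (he' ▸ Hm_even e)
  rw [← Finset.prod_image (f := ψ) (g := Hm) (fun x _ y _ h => Hm_inj h),
    ← Finset.prod_image (f := ψ) (g := Vm) (fun x _ y _ h => Vm_inj h), ← Finset.prod_union hd]
  symm
  refine Finset.prod_subset ?_ ?_
  · intro w hw
    rcases Finset.mem_union.1 hw with h | h
    · obtain ⟨e, he, rfl⟩ := Finset.mem_image.1 h
      exact Hm_mem hB (Finset.mem_filter.1 he).1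
    · obtain ⟨e, he, rfl⟩ := Finset.mem_image.1 h
      exact Vm_mem hB (Finset.mem_filter.1 he).1
  · intro w _ hw
    refine hψ w fun h => hw ?_
    rcases In6_iff.1 h with ⟨e, rfl, h1, h2⟩ | ⟨e, rfl, h1, h2⟩
    · refine Finset.mem_union_left _ (Finset.mem_image_of_mem _ (Finset.mem_filter.2 ⟨h1, ?_⟩))
      rw [h01]; exact h2
    · refine Finset.mem_union_right _ (Finset.mem_image_of_mem _ (Finset.mem_filter.2 ⟨h1, ?_⟩))
      rw [h10]; exact h2

/-- The vertex weight. -/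
noncomputable def vw6 (c : ℝ) (η : Hgt) (w : ℤ × ℤ) : ℝ :=
  if η (FB.e1 w) = η (FB.e2 w) ∧ η (FB.o1 w) = η (FB.o2 w) then c else 1

lemma hw6_eq' {B : Finset (ℤ × ℤ)} (c : ℝ) (S : Set (F6 B)) (y : V6 B ⊕ F6 B → ℤ) :
    (n6 B).hw c S y = ∏ w : E6 B, if (n6 B).inE S w then vw6 c (ex6 y) w.1 else 1 := by
  unfold Net.hw vw6
  refine Finset.prod_congr rfl fun w _ => ?_
  rw [← ex6_inl y ((n6 B).u w), ← ex6_inl y ((n6 B).v w), ← ex6_inr y ((n6 B).f w),
    ← ex6_inr y ((n6 B).g w)]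
  rfl

lemma hw6_eq {B F : Finset (ℤ × ℤ)} (hB : Nb6 B F) (c : ℝ) (y : V6 B ⊕ F6 B → ℤ) :
    (n6 B).hw c (in6 B F) y = zw c F (fun s => ex6 y (fc s)) := by
  rw [hw6_eq']
  have e1 : ∏ w : E6 B, (if (n6 B).inE (in6 B F) w then vw6 c (ex6 y) w.1 else 1)
      = ∏ w : E6 B, (fun w : ℤ × ℤ => if In6 (F : Set (ℤ × ℤ)) w then vw6 c (ex6 y) w else 1) w.1 :=
    rfl
  rw [e1, prod_In6 hB _ (fun w hw => if_neg hw)]
  have h01 : ∀ e : ℤ × ℤ, e - (0, 1) = (e.1, e.2 - 1) := fun e => by ext <;> simp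
  have h10 : ∀ e : ℤ × ℤ, e - (1, 0) = (e.1 - 1, e.2) := fun e => by ext <;> simp
  unfold zw
  congr 1
  · refine Finset.prod_congr rfl fun e he => ?_
    obtain ⟨h1, h2⟩ := Finset.mem_filter.1 he
    rw [h01] at h2
    simp only
    rw [if_pos (In6_iff.2 (Or.inl ⟨e, rfl, h1, h2⟩)), vw6, e1_Hm, e2_Hm, o1_Hm, o2_Hm]
    simp only [eq_comm]
  · refine Finset.prod_congr rfl fun e he => ?_
    obtain ⟨h1, h2⟩ := Finset.mem_filter.1 he
    rw [h10] at h2
    simp only
    rw [if_pos (In6_iff.2 (Or.inr ⟨e, rfl, h1, h2⟩)), vw6, e1_Vm, e2_Vm, o1_Vm, o2_Vm]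
    simp only [eq_comm]

/-- `B` is a domain in which every even face has a neighbour. -/
def NI (B : Finset (ℤ × ℤ)) : Prop := ∀ v : V6 B, ∃ f : F6 B, Adj v.1 f.1

/-- The sum over the zero boundary heights as a finite sum. -/
lemma zs6_eq {B F : Finset (ℤ × ℤ)} (hI : NI B) (hB : Nb6 B F) {K : ℕ} (hK : KF F ≤ K) (c : ℝ)
    (Φ : (Site → ℤ) → ℝ) :
    zs c F Φ = ∑ y ∈ Net.TTs (V := V6 B) K (in6 B F),
      (if (n6 B).HS (in6 B F) y then (n6 B).hw c (in6 B F) y else 0) *
        Φ (fun s => ex6 y (fc s)) := by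
  have hinj : Function.Injective (fun (y : V6 B ⊕ F6 B → ℤ) (s : Site) => ex6 y (fc s)) := by
    intro y y' h
    apply ex6_inj
    funext q
    have := congrFun h (cf q)
    simpa only [fc_cf] using this
  unfold zs
  rw [finsum_mem_def, finsum_eq_sum_of_support_subset
    (s := (Net.TTs (V := V6 B) K (in6 B F)).image fun (y : V6 B ⊕ F6 B → ℤ) (s : Site) =>
      ex6 y (fc s))]
  · rw [Finset.sum_image (fun p _ q _ h => hinj h)]
    refine Finset.sum_congr rfl fun y _ => ?_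
    by_cases h : (n6 B).HS (in6 B F) y
    · rw [Set.indicator_of_mem ((HS6_iff hI hB y).mp h), if_pos h, hw6_eq hB]
    · rw [Set.indicator_of_notMem (fun h' => h ((HS6_iff hI hB y).mpr h')), if_neg h, zero_mul]
  · intro x hx
    have hxZ : x ∈ ZH F := by
      by_contra h
      exact hx (Set.indicator_of_notMem h _)
    rw [Finset.coe_image, Set.mem_image]
    set y : V6 B ⊕ F6 B → ℤ := Sum.elim (fun q => x (cf q.1)) (fun q => x (cf q.1)) with hy
    have hxy : (fun s => ex6 y (fc s)) = x := by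
      funext s
      by_cases hs : fc s ∈ B
      · rcases s with v | f
        · have := ex6_inl y ⟨_, ev6_fc hs⟩
          rw [this]
          show x (cf (fc (.inl v))) = _
          rw [cf_fc]
        · have := ex6_inr y ⟨_, od6_fc hs⟩
          rw [this]
          show x (cf (fc (.inr f))) = _
          rw [cf_fc]
      · rw [ex6_of_not y hs]
        rcases s with v | f
        · have hvB : v ∉ F := fun h => hs (hB v h v (cor00 v)).1
          have h1 := (hxZ.2.2 v 0 0 (Or.inl rfl) (Or.inl rfl)).1 hvB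
          have e5 : ((v.1 + 0, v.2 + 0) : ℤ × ℤ) = v := by simp
          rw [e5] at h1
          exact h1.symm
        · exact (hxZ.2.1 f fun h => hs (hB.mem h)).symm
    refine ⟨y, ?_, hxy⟩
    rw [Finset.mem_coe, Net.mem_TTs]
    obtain ⟨b1, b2⟩ := ZH_bound hxZ
    have hK' : (KF F : ℤ) ≤ K := by exact_mod_cast hK
    intro i
    rcases i with q | q
    · obtain ⟨v, hv⟩ := exists_ev q
      have e1 : y (.inl q) = x (.inl v) := by
        show x (cf q.1) = _
        rw [← hv, cf_fc]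
      rw [e1]
      refine Net.mem_TT_inl (hxZ.1 v) ?_
      have := b1 v
      linarith only [hK, this]
    · obtain ⟨f, hf⟩ := exists_od q
      have e1 : y (.inr q) = x (.inr f) := by
        show x (cf q.1) = _
        rw [← hf, cf_fc]
      rw [e1]
      by_cases hfF : f ∈ F
      · refine Net.mem_TT_inr (show q ∈ in6 B F from ⟨f, hfF, hf⟩) ?_ ?_
        · have h1 := (hxZ.2.2 f 0 0 (Or.inl rfl) (Or.inl rfl)).2 hfF
          obtain ⟨j, hj⟩ := hxZ.1 (f.1 + 0, f.2 + 0)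
          rcases (abs_eq (by norm_num)).mp h1 with h2 | h2
          · exact ⟨j, by omega⟩
          · exact ⟨j - 1, by (clear * - hj h2; omega)⟩
        · have := b2 f
          linarith only [hK, this]
      · refine Net.mem_TT_out (fun h => hfF ?_) (hxZ.2.1 f hfF)
        obtain ⟨g, hg, hge⟩ := h
        rw [← hf] at hge
        have := fc_inj hge
        simp only [Sum.inr.injEq] at this
        rwa [← this]

/-- The square of faces. -/
noncomputable def Sq (n : ℕ) : Finset (ℤ × ℤ) := Finset.Icc (-(n : ℤ)) n ×ˢ Finset.Icc (-(n : ℤ)) n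

lemma mem_Sq {n : ℕ} {q : ℤ × ℤ} : q ∈ Sq n ↔ |q.1| ≤ n ∧ |q.2| ≤ n := by
  unfold Sq
  rw [Finset.mem_product, Finset.mem_Icc, Finset.mem_Icc, abs_le, abs_le]

end Vale.Agent.P145.FK
end

section

/-!
P145, block F-C: the height functions on a square of faces with value zero at the origin are the ice
configurations of the box with free arrows; convergence of the height sums to the plane measure.
-/

namespace Vale.Agent.P145.FC

open Finset Filter Topology MeasureTheory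
open Vale.Agent.P152 (Edge Ori Ice sgb pth pth_step_h cyl vw w6 w6_val wc Pairing anti anti_zero
  anti_step sgb_eq)
open Vale.Agent.P152.GFF.B3 (BE boxNet rd Net)
open Vale.Agent.P145.FA (Hgt)

/-- The square of faces `[-N, N]²`. -/
noncomputable def SqF (N : ℕ) : Finset (ℤ × ℤ) := Finset.Icc (-(N : ℤ)) N ×ˢ Finset.Icc (-(N : ℤ)) N

theorem mem_SqF {N : ℕ} {v : ℤ × ℤ} :
    v ∈ SqF N ↔ (-(N : ℤ) ≤ v.1 ∧ v.1 ≤ N) ∧ -(N : ℤ) ≤ v.2 ∧ v.2 ≤ N := by
  simp only [SqF, mem_product, mem_Icc]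

theorem mem_VB_SqF {N : ℕ} {v : ℤ × ℤ} :
    v ∈ VB (SqF N) ↔ (-(N : ℤ) < v.1 ∧ v.1 ≤ N) ∧ -(N : ℤ) < v.2 ∧ v.2 ≤ N := by
  simp only [VB, Finset.mem_filter, mem_SqF]
  (clear * -; omega)

theorem con_SqF (N : ℕ) : Con (SqF N) := by
  refine ⟨mem_SqF.2 ⟨⟨by simp only [Prod.fst_zero, Left.neg_nonpos_iff, Nat.cast_nonneg], by simp only [Prod.fst_zero, Nat.cast_nonneg]⟩, by simp only [Prod.snd_zero, Left.neg_nonpos_iff, Nat.cast_nonneg], by simp only [Prod.snd_zero, Nat.cast_nonneg]⟩, fun p h0 h1 h2 => ?_⟩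
  have a : ∀ m : ℕ, m ≤ N → p (0, (m : ℤ)) ∧ p (0, -(m : ℤ)) := by
    intro m
    induction m with
    | zero =>
      intro _
      have e0 : ((0, ((0 : ℕ) : ℤ)) : ℤ × ℤ) = 0 := rfl
      have e1 : ((0, -((0 : ℕ) : ℤ)) : ℤ × ℤ) = 0 := rfl
      rw [e0, e1]
      exact ⟨h0, h0⟩
    | succ m ih =>
      intro hm
      obtain ⟨i1, i2⟩ := ih (by omega)
      constructor
      · have e : ((0, ((m + 1 : ℕ) : ℤ) - 1) : ℤ × ℤ) = (0, (m : ℤ)) := by push_cast; simp
        refine (h1 0 ((m + 1 : ℕ) : ℤ) ?_ ?_).2 ?_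
        · rw [mem_SqF]; push_cast; omega
        · rw [mem_SqF]; push_cast; omega
        · rw [e]; exact i1
      · have e : ((0, -(m : ℤ) - 1) : ℤ × ℤ) = (0, -((m + 1 : ℕ) : ℤ)) := by
          push_cast; ext <;> simp; ring
        rw [← e]
        refine (h1 0 (-(m : ℤ)) ?_ ?_).1 i2
        · rw [mem_SqF]; omega
        · rw [mem_SqF]; omega
  have b : ∀ y : ℤ, -(N : ℤ) ≤ y → y ≤ N → p (0, y) := by
    intro y hy1 hy2
    rcases le_total 0 y with h | h
    · have := (a y.toNat (by omega)).1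
      rwa [Int.toNat_of_nonneg h] at this
    · have := (a (-y).toNat (by omega)).2
      rwa [Int.toNat_of_nonneg (by omega), neg_neg] at this
  have d : ∀ y : ℤ, -(N : ℤ) ≤ y → y ≤ N → ∀ m : ℕ, m ≤ N → p ((m : ℤ), y) ∧ p (-(m : ℤ), y) := by
    intro y hy1 hy2 m
    induction m with
    | zero => intro _; exact ⟨by simpa using b y hy1 hy2, by simpa using b y hy1 hy2⟩
    | succ m ih =>
      intro hm
      obtain ⟨i1, i2⟩ := ih (by omega)
      constructor
      · have e : ((((m + 1 : ℕ) : ℤ) - 1, y) : ℤ × ℤ) = ((m : ℤ), y) := by push_cast; simp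
        refine (h2 ((m + 1 : ℕ) : ℤ) y ?_ ?_).1 ?_
        · rw [mem_SqF]; push_cast; omega
        · rw [mem_SqF]; push_cast; omega
        · rw [e]; exact i1
      · have e : ((-(m : ℤ) - 1, y) : ℤ × ℤ) = (-((m + 1 : ℕ) : ℤ), y) := by
          push_cast; ext <;> simp; ring
        rw [← e]
        refine (h2 (-(m : ℤ)) y ?_ ?_).2 i2
        · rw [mem_SqF]; omega
        · rw [mem_SqF]; omega
  rintro ⟨x, y⟩ hq
  rw [mem_SqF] at hq
  simp only at hq
  rcases le_total 0 x with h | h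
  · have := (d y hq.2.1 hq.2.2 x.toNat (by omega)).1
    rwa [Int.toNat_of_nonneg h] at this
  · have := (d y hq.2.1 hq.2.2 (-x).toNat (by omega)).2
    rwa [Int.toNat_of_nonneg (by omega), neg_neg] at this

/-- The arrows of the box as arrows of the plane. -/
def un (N n : ℕ) (k : BE n n → ZMod 2) : Ori (ℤ × ℤ)
  | Sum.inl v => if h : (v.1 + N).toNat < n + 1 ∧ (v.2 + N - 1).toNat < n then
      decide (k (Sum.inl (⟨(v.1 + N).toNat, h.1⟩, ⟨(v.2 + N - 1).toNat, h.2⟩)) = 0) else false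
  | Sum.inr v => if h : (v.1 + N - 1).toNat < n ∧ (v.2 + N).toNat < n + 1 then
      decide (k (Sum.inr (⟨(v.1 + N - 1).toNat, h.1⟩, ⟨(v.2 + N).toNat, h.2⟩)) = 0) else false

theorem z01 (x : ZMod 2) : (if decide (x = 0) = true then (0 : ZMod 2) else 1) = x := by
  revert x; decide

theorem rd_un {N n : ℕ} (k : BE n n → ZMod 2) :
    rd n n (1 - (N : ℤ)) (1 - (N : ℤ)) (un N n k) = k := by
  funext e
  rcases e with ⟨i, j⟩ | ⟨i, j⟩
  · have h1 : (1 - (N : ℤ) + i - 1 + N).toNat = i := by omega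
    have h2 : (1 - (N : ℤ) + j + N - 1).toNat = j := by omega
    show (if un N n k (Sum.inl (1 - (N : ℤ) + i - 1, 1 - (N : ℤ) + j)) = true then (0 : ZMod 2)
      else 1) = _
    have h3 : un N n k (Sum.inl (1 - (N : ℤ) + i - 1, 1 - (N : ℤ) + j)) =
        decide (k (Sum.inl (i, j)) = 0) := by
      show (if h : _ then _ else _) = _
      rw [dif_pos ⟨by omega, by omega⟩]
      congr 5 <;> exact Fin.ext (by assumption)
    rw [h3, z01]
  · have h1 : (1 - (N : ℤ) + i + N - 1).toNat = i := by omega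
    have h2 : (1 - (N : ℤ) + j - 1 + N).toNat = j := by omega
    show (if un N n k (Sum.inr (1 - (N : ℤ) + i, 1 - (N : ℤ) + j - 1)) = true then (0 : ZMod 2)
      else 1) = _
    have h3 : un N n k (Sum.inr (1 - (N : ℤ) + i, 1 - (N : ℤ) + j - 1)) =
        decide (k (Sum.inr (i, j)) = 0) := by
      show (if h : _ then _ else _) = _
      rw [dif_pos ⟨by omega, by omega⟩]
      congr 5 <;> exact Fin.ext (by assumption)
    rw [h3, z01]

theorem dec01 (b : Bool) : decide ((if b = true then (0 : ZMod 2) else 1) = 0) = b := by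
  cases b <;> decide

theorem un_rd {N n : ℕ} (hn : n = 2 * N) (ω : Ori (ℤ × ℤ)) {e : Edge (ℤ × ℤ)}
    (he : e ∈ EB (SqF N)) : un N n (rd n n (1 - (N : ℤ)) (1 - (N : ℤ)) ω) e = ω e := by
  rcases e with ⟨x, y⟩ | ⟨x, y⟩
  · rw [mem_EB_inl, mem_SqF, mem_SqF] at he
    simp only at he
    show (if h : (x + N).toNat < n + 1 ∧ (y + N - 1).toNat < n then
      decide (rd n n (1 - (N : ℤ)) (1 - (N : ℤ)) ω
        (Sum.inl (⟨(x + N).toNat, h.1⟩, ⟨(y + N - 1).toNat, h.2⟩)) = 0) else false) = _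
    rw [dif_pos ⟨by omega, by omega⟩]
    show decide ((if ω (Sum.inl (1 - (N : ℤ) + ((x + N).toNat : ℕ) - 1,
      1 - (N : ℤ) + ((y + N - 1).toNat : ℕ))) = true then (0 : ZMod 2) else 1) = 0) = _
    rw [dec01]
    congr 3 <;> omega
  · rw [mem_EB_inr, mem_SqF, mem_SqF] at he
    simp only at he
    show (if h : (x + N - 1).toNat < n ∧ (y + N).toNat < n + 1 then
      decide (rd n n (1 - (N : ℤ)) (1 - (N : ℤ)) ω
        (Sum.inr (⟨(x + N - 1).toNat, h.1⟩, ⟨(y + N).toNat, h.2⟩)) = 0) else false) = _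
    rw [dif_pos ⟨by omega, by omega⟩]
    show decide ((if ω (Sum.inr (1 - (N : ℤ) + ((x + N - 1).toNat : ℕ),
      1 - (N : ℤ) + ((y + N).toNat : ℕ) - 1)) = true then (0 : ZMod 2) else 1) = 0) = _
    rw [dec01]
    congr 3 <;> omega

theorem w6_vw (c : ℝ) (l r b a : Bool) :
    w6 (wc c) (if l = true then 0 else 1) (if r = true then 0 else 1) (if b = true then 0 else 1)
      (if a = true then 0 else 1) = vw c l r b a := by
  have e1 : ((0 : ZMod 2) = 1 + 1) = True := by decide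
  have e2 : ((1 : ZMod 2) = 0) = False := by decide
  have e3 : ((0 : ZMod 2) = 1) = False := by decide
  have e4 : ((1 : ZMod 2) = 1 + 1) = False := by decide
  rw [w6_val]
  cases l <;> cases r <;> cases b <;> cases a <;>
    simp only [wc, vw, e1, e2, e3, e4, zero_add, if_true, if_false, Bool.false_eq_true, and_self,
      and_true, and_false, true_and, false_and, Bool.toNat_true, Bool.toNat_false, reduceCtorEq,
      Nat.reduceAdd, Nat.reduceEqDiff, Nat.add_zero, Nat.zero_add] <;> first | ring | norm_num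

/-- The weight of the box. -/
theorem W6_rd {N n : ℕ} (hn : n = 2 * N) (c : ℝ) (ω : Ori (ℤ × ℤ)) :
    (boxNet n n).W6 (wc c) (rd n n (1 - (N : ℤ)) (1 - (N : ℤ)) ω) =
      ∏ v ∈ VB (SqF N), FP.vwt c ω v := by
  unfold Net.W6
  refine Finset.prod_bij (fun v _ => (1 - (N : ℤ) + (v.1 : ℕ), 1 - (N : ℤ) + (v.2 : ℕ))) ?_ ?_ ?_ ?_
  · rintro ⟨i, j⟩ _
    rw [mem_VB_SqF]
    have := i.2
    have := j.2
    simp only
    omega
  · rintro ⟨i, j⟩ _ ⟨i', j'⟩ _ h
    simp only [Prod.mk.injEq] at h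
    exact Prod.ext (Fin.ext (by simp only; omega)) (Fin.ext (by simp only; omega))
  · rintro ⟨x, y⟩ h
    rw [mem_VB_SqF] at h
    simp only at h
    refine ⟨(⟨(x + N - 1).toNat, by omega⟩, ⟨(y + N - 1).toNat, by omega⟩), Finset.mem_univ _, ?_⟩
    simp only [Prod.mk.injEq]
    omega
  · rintro ⟨i, j⟩ _
    unfold FP.vwt
    rw [← w6_vw]
    show w6 (wc c) (if ω (Sum.inl (1 - (N : ℤ) + ((i.castSucc : Fin (n + 1)) : ℕ) - 1,
        1 - (N : ℤ) + (j : ℕ))) = true then 0 else 1)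
      (if ω (Sum.inl (1 - (N : ℤ) + ((i.succ : Fin (n + 1)) : ℕ) - 1,
        1 - (N : ℤ) + (j : ℕ))) = true then 0 else 1)
      (if ω (Sum.inr (1 - (N : ℤ) + (i : ℕ),
        1 - (N : ℤ) + ((j.castSucc : Fin (n + 1)) : ℕ) - 1)) = true then 0 else 1)
      (if ω (Sum.inr (1 - (N : ℤ) + (i : ℕ),
        1 - (N : ℤ) + ((j.succ : Fin (n + 1)) : ℕ) - 1)) = true then 0 else 1) = _
    have e1 : 1 - (N : ℤ) + ((i.castSucc : Fin (n + 1)) : ℕ) - 1 = 1 - (N : ℤ) + (i : ℕ) - 1 := by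
      simp only [Fin.val_castSucc]
    have e2 : 1 - (N : ℤ) + ((i.succ : Fin (n + 1)) : ℕ) - 1 = 1 - (N : ℤ) + (i : ℕ) := by
      simp only [Fin.val_succ]; push_cast; ring
    have e3 : 1 - (N : ℤ) + ((j.castSucc : Fin (n + 1)) : ℕ) - 1 = 1 - (N : ℤ) + (j : ℕ) - 1 := by
      simp only [Fin.val_castSucc]
    have e4 : 1 - (N : ℤ) + ((j.succ : Fin (n + 1)) : ℕ) - 1 = 1 - (N : ℤ) + (j : ℕ) := by
      simp only [Fin.val_succ]; push_cast; ring
    rw [e1, e2, e3, e4]

/-- `ow` inverts the gradient. -/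
theorem ow_eq {B : Finset (ℤ × ℤ)} {η : Hgt} {ω : Ori (ℤ × ℤ)}
    (h1 : ∀ x y, (x, y) ∈ B → (x, y - 1) ∈ B → η (x, y) - η (x, y - 1) = sgb (ω (Sum.inl (x, y))))
    (h2 : ∀ x y, (x, y) ∈ B → (x - 1, y) ∈ B → η (x - 1, y) - η (x, y) = sgb (ω (Sum.inr (x, y))))
    {e : Edge (ℤ × ℤ)} (he : e ∈ EB B) : ow η e = ω e := by
  rcases e with ⟨x, y⟩ | ⟨x, y⟩
  · rw [mem_EB_inl] at he
    show decide (η (x, y) - η (x, y - 1) = 1) = _
    rw [h1 x y he.1 he.2]
    cases ω (Sum.inl (x, y)) <;> decide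
  · rw [mem_EB_inr] at he
    show decide (η (x - 1, y) - η (x, y) = 1) = _
    rw [h2 x y he.1 he.2]
    cases ω (Sum.inr (x, y)) <;> decide

/-- Local existence of the heights. -/
theorem pth_local {N : ℕ} {ω : Ori (ℤ × ℤ)} (h : ∀ v ∈ VB (SqF N), Ice ω v.1 v.2) {x y : ℤ}
    (h1 : (x, y) ∈ SqF N) (h2 : (x, y - 1) ∈ SqF N) :
    pth ω (x, y) - pth ω (x, y - 1) = sgb (ω (Sum.inl (x, y))) := by
  rw [mem_SqF] at h1 h2
  simp only at h1 h2
  have hstep : ∀ x : ℤ, -(N : ℤ) < x → x ≤ N →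
      (pth ω (x, y) - pth ω (x, y - 1) - sgb (ω (Sum.inl (x, y))))
        = (pth ω (x - 1, y) - pth ω (x - 1, y - 1) - sgb (ω (Sum.inl (x - 1, y)))) := by
    intro x hx1 hx2
    have a1 := pth_step_h ω x y
    have a2 := pth_step_h ω x (y - 1)
    have a3 := h (x, y) (mem_VB_SqF.2 ⟨⟨hx1, hx2⟩, by simp only; omega⟩)
    unfold Ice at a3
    simp only at a3
    rw [sgb_eq] at a1 a2
    rw [sgb_eq, sgb_eq]
    omega
  have h0 : pth ω (0, y) - pth ω (0, y - 1) - sgb (ω (Sum.inl (0, y))) = 0 := by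
    simp only [pth, anti_zero, sub_zero]
    rw [anti_step]
    ring
  have hall : ∀ m : ℕ, m ≤ N →
      pth ω ((m : ℤ), y) - pth ω ((m : ℤ), y - 1) - sgb (ω (Sum.inl ((m : ℤ), y))) = 0 ∧
      pth ω (-(m : ℤ), y) - pth ω (-(m : ℤ), y - 1) - sgb (ω (Sum.inl (-(m : ℤ), y))) = 0 := by
    intro m
    induction m with
    | zero => intro _; simpa only [CharP.cast_eq_zero, neg_zero, and_self] using h0
    | succ m ih =>
      intro hm
      obtain ⟨i1, i2⟩ := ih (by omega)
      constructor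
      · have a := hstep ((m + 1 : ℕ) : ℤ) (by omega) (by omega)
        have e : ((m + 1 : ℕ) : ℤ) - 1 = (m : ℤ) := by push_cast; ring
        rw [e, i1] at a
        exact a
      · have a := hstep (-(m : ℤ)) (by omega) (by omega)
        have e : -(m : ℤ) - 1 = -((m + 1 : ℕ) : ℤ) := by push_cast; ring
        rw [e, i2] at a
        exact a.symm
  have : pth ω (x, y) - pth ω (x, y - 1) - sgb (ω (Sum.inl (x, y))) = 0 := by
    rcases le_total 0 x with hx | hx
    · have a := (hall x.toNat (by omega)).1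
      rwa [Int.toNat_of_nonneg hx] at a
    · have a := (hall (-x).toNat (by omega)).2
      rwa [Int.toNat_of_nonneg (by omega), neg_neg] at a
  linarith only [this]

theorem abs_sgb (b : Bool) : |sgb b| = 1 := by cases b <;> decide

/-- The heights on the square with value zero at the origin. -/
def HZ (N : ℕ) : Set (SqF N → ℤ) := {x | Hon (SqF N) (ext0 x) ∧ ext0 x 0 = 0}

/-- The height sum. -/
noncomputable def ZA (c : ℝ) (N : ℕ) (f : Ori (ℤ × ℤ) → ℝ) : ℝ :=
  ∑ᶠ x ∈ HZ N, WB c (SqF N) (ext0 x) * f (ow (ext0 x))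

/-- Heights with value zero at the origin are ice configurations. -/
theorem bijOn_HZ {N n : ℕ} (hn : n = 2 * N) {c : ℝ} (hc : 0 < c) :
    Set.BijOn (fun x : SqF N → ℤ => rd n n (1 - (N : ℤ)) (1 - (N : ℤ)) (ow (ext0 x))) (HZ N)
      {k | (boxNet n n).W6 (wc c) k ≠ 0} := by
  refine ⟨?_, ?_, ?_⟩
  · rintro x ⟨hx, _⟩
    show (boxNet n n).W6 (wc c) _ ≠ 0
    rw [W6_rd hn, Finset.prod_congr rfl fun v hv => vwt_ow hx hv]
    exact (WB_pos hc _ _).ne'
  · rintro x ⟨hx, hx0⟩ x' ⟨hx', hx0'⟩ h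
    have h1 : ∀ e ∈ EB (SqF N), ow (ext0 x) e = ow (ext0 x') e := by
      intro e he
      have := congrArg (fun k => un N n k e) h
      simp only at this
      rwa [un_rd hn _ he, un_rd hn _ he] at this
    have h2 : ∀ q ∈ SqF N, ext0 x q = ext0 x' q := by
      refine (con_SqF N).2 (fun q => ext0 x q = ext0 x' q) (by rw [hx0, hx0']) ?_ ?_
      · intro a b ha hb
        have e1 := h1 (Sum.inl (a, b)) (mem_EB_inl.2 ⟨ha, hb⟩)
        have e2 := hx.2.1 a b ha hb
        have e3 := hx'.2.1 a b ha hb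
        have e4 : (ext0 x (a, b) - ext0 x (a, b - 1) = 1) ↔
            (ext0 x' (a, b) - ext0 x' (a, b - 1) = 1) := by
          have : decide (ext0 x (a, b) - ext0 x (a, b - 1) = 1) =
            decide (ext0 x' (a, b) - ext0 x' (a, b - 1) = 1) := e1
          simpa using this
        rcases (abs_eq (by norm_num)).1 e2 with e2 | e2 <;>
          rcases (abs_eq (by norm_num)).1 e3 with e3 | e3 <;>
          (rw [e2, e3] at e4; constructor <;> intro h5 <;> omega)
      · intro a b ha hb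
        have e1 := h1 (Sum.inr (a, b)) (mem_EB_inr.2 ⟨ha, hb⟩)
        have e2 := hx.2.2 a b ha hb
        have e3 := hx'.2.2 a b ha hb
        have e4 : (ext0 x (a - 1, b) - ext0 x (a, b) = 1) ↔
            (ext0 x' (a - 1, b) - ext0 x' (a, b) = 1) := by
          have : decide (ext0 x (a - 1, b) - ext0 x (a, b) = 1) =
            decide (ext0 x' (a - 1, b) - ext0 x' (a, b) = 1) := e1
          simpa using this
        rcases (abs_eq (by norm_num)).1 e2 with e2 | e2 <;>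
          rcases (abs_eq (by norm_num)).1 e3 with e3 | e3 <;>
          (rw [e2, e3] at e4; constructor <;> intro h5 <;> omega)
    funext q
    have := h2 q q.2
    rwa [ext0_of_mem x q.2, ext0_of_mem x' q.2] at this
  · intro k hk
    have hk' : (boxNet n n).W6 (wc c) k ≠ 0 := hk
    rw [← rd_un (N := N) k, W6_rd hn, Finset.prod_ne_zero_iff] at hk'
    set ω := un N n k with hω
    have hice : ∀ v ∈ VB (SqF N), Ice ω v.1 v.2 := by
      intro v hv
      have h1 := hk' v hv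
      unfold FP.vwt vw at h1
      by_contra h2
      exact h1 (if_neg h2)
    have a1 : ∀ x y, (x, y) ∈ SqF N → (x, y - 1) ∈ SqF N →
        pth ω (x, y) - pth ω (x, y - 1) = sgb (ω (Sum.inl (x, y))) :=
      fun x y h1 h2 => pth_local hice h1 h2
    have a2 : ∀ x y, (x, y) ∈ SqF N → (x - 1, y) ∈ SqF N →
        pth ω (x - 1, y) - pth ω (x, y) = sgb (ω (Sum.inr (x, y))) :=
      fun x y _ _ => pth_step_h ω x y
    have hη : Hon (SqF N) (pth ω) :=
      ⟨fun q _ => FA.pth_parity ω q, fun x y h1 h2 => by rw [a1 x y h1 h2]; exact abs_sgb _,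
        fun x y h1 h2 => by rw [a2 x y h1 h2]; exact abs_sgb _⟩
    have hE : ∀ q ∈ SqF N, ext0 (res0 (SqF N) (pth ω)) q = pth ω q := fun q hq => ext0_res0 _ hq
    refine ⟨res0 (SqF N) (pth ω), ⟨hη.congr fun q hq => (hE q hq).symm, ?_⟩, ?_⟩
    · rw [hE 0 (con_SqF N).1]
      exact P152.pth_zero ω
    · show rd n n (1 - (N : ℤ)) (1 - (N : ℤ)) (ow (ext0 (res0 (SqF N) (pth ω)))) = k
      have h1 : ∀ e ∈ EB (SqF N), ow (ext0 (res0 (SqF N) (pth ω))) e = ω e := by
        intro e he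
        refine ow_eq (B := SqF N) (fun x y h1 h2 => ?_) (fun x y h1 h2 => ?_) he
        · rw [hE _ h1, hE _ h2]; exact a1 x y h1 h2
        · rw [hE _ h1, hE _ h2]; exact a2 x y h1 h2
      rw [← rd_un (N := N) k]
      funext e
      rcases e with ⟨i, j⟩ | ⟨i, j⟩
      · show (if _ = true then (0 : ZMod 2) else 1) = (if _ = true then (0 : ZMod 2) else 1)
        rw [h1 _ (mem_EB_inl.2 ⟨?_, ?_⟩)]
        · rw [mem_SqF]; have := i.2; have := j.2; simp only; omega
        · rw [mem_SqF]; have := i.2; have := j.2; simp only; omega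
      · show (if _ = true then (0 : ZMod 2) else 1) = (if _ = true then (0 : ZMod 2) else 1)
        rw [h1 _ (mem_EB_inr.2 ⟨?_, ?_⟩)]
        · rw [mem_SqF]; have := i.2; have := j.2; simp only; (clear c hc k hk ω hk' hω hice a1 a2 hη hE h1; omega)
        · rw [mem_SqF]; have := i.2; have := j.2; simp only; omega

theorem ZA_eq {N n : ℕ} (hn : n = 2 * N) {c : ℝ} (hc : 0 < c) {f : Ori (ℤ × ℤ) → ℝ}
    (hf : ∀ ω ω', (∀ e ∈ EB (SqF N), ω e = ω' e) → f ω = f ω') :
    ZA c N f = (boxNet n n).ar (wc c) (fun k => f (un N n k)) := by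
  unfold ZA Net.ar
  rw [finsum_mem_eq_of_bijOn _ (bijOn_HZ hn hc)
    (g := fun k => f (un N n k) * (boxNet n n).W6 (wc c) k)]
  · rw [finsum_mem_def, finsum_eq_sum_of_fintype]
    refine Finset.sum_congr rfl fun k _ => ?_
    by_cases h : (boxNet n n).W6 (wc c) k = 0
    · rw [h, mul_zero]
      exact Set.indicator_of_notMem
        (show k ∉ {k | (boxNet n n).W6 (wc c) k ≠ 0} from fun h' => absurd h h') _
    · exact Set.indicator_of_mem (show k ∈ {k | (boxNet n n).W6 (wc c) k ≠ 0} from h) _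
  · rintro x ⟨hx, _⟩
    rw [W6_rd hn, Finset.prod_congr rfl fun v hv => vwt_ow hx hv, mul_comm]
    congr 1
    exact hf _ _ fun e he => (un_rd hn _ he).symm

end Vale.Agent.P145.FC
end

section

/-!
P145, block K1: large squares contain all faces which touch a finite set; every even face of a
square has a neighbour in the square.
-/

namespace Vale.Agent.P145.FK

open Finset Vale.Agent.P145.FP Vale.Agent.P145.Dom
open scoped Classical

/-- Large squares contain all faces which touch `F`. -/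
theorem exists_Nb6 (F : Finset (ℤ × ℤ)) : ∃ n0 : ℕ, ∀ n, n0 ≤ n → Nb6 (Sq n) (F : Set (ℤ × ℤ)) := by
  set m : ℕ := F.sup (fun f => f.1.natAbs + f.2.natAbs) with hm
  have hF : ∀ f ∈ F, f.1.natAbs + f.2.natAbs ≤ m := fun f hf =>
    Finset.le_sup (f := fun f : ℤ × ℤ => f.1.natAbs + f.2.natAbs) hf
  refine ⟨m + 5, fun n hn => ?_⟩
  rintro f hf v ⟨a, b, ha, hb, rfl⟩
  have h := hF f hf
  refine ⟨?_, ?_⟩
  · rw [mem_Sq, abs_le, abs_le]
    simp only [fc6_l, fc6_r]
    omega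
  · rintro f' ⟨a', b', ha', hb', hv⟩
    rw [mem_Sq, abs_le, abs_le]
    simp only [Prod.mk.injEq] at hv
    simp only [fc6_l, fc6_r]
    omega

/-- Every even face of a square has a neighbour in the square. -/
theorem NI_Sq {n : ℕ} (hn : 1 ≤ n) : NI (Sq n) := by
  rintro ⟨q, hq⟩
  obtain ⟨h1, h2⟩ := mem_ev6.1 hq
  rw [mem_Sq, abs_le, abs_le] at h1
  rcases le_or_gt (q.1 + 1) n with h | h
  · refine ⟨⟨(q.1 + 1, q.2), mem_od6.2 ⟨?_, ?_⟩⟩, ?_⟩
    · rw [mem_Sq, abs_le, abs_le]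
      simp only
      omega
    · rw [Int.not_even_iff_odd]
      obtain ⟨k, hk⟩ := h2
      exact ⟨k, by simp only; omega⟩
    · right
      exact ⟨rfl, Or.inr rfl⟩
  · refine ⟨⟨(q.1 - 1, q.2), mem_od6.2 ⟨?_, ?_⟩⟩, ?_⟩
    · rw [mem_Sq, abs_le, abs_le]
      simp only
      omega
    · rw [Int.not_even_iff_odd]
      obtain ⟨k, hk⟩ := h2
      exact ⟨k - 1, by simp only; omega⟩
    · right
      exact ⟨rfl, Or.inl (by simp only; (clear * -; omega))⟩

end Vale.Agent.P145.FK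
end

section

/-!
The exterior condition holds for the image of the unit disc under a homeomorphism of the plane, and
the stability theorem for Jordan domains.
-/

namespace Vale.Agent.P145.PT

open MeasureTheory Set Filter Topology

/-- Euclidean norm. -/
noncomputable def en (w : ℝ × ℝ) : ℝ := Real.sqrt (sqn w)

theorem en_cont : Continuous en := Real.continuous_sqrt.comp sqn_smooth.continuous

theorem en_nonneg (w : ℝ × ℝ) : 0 ≤ en w := Real.sqrt_nonneg _

theorem norm_le_en (w : ℝ × ℝ) : ‖w‖ ≤ en w :=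
  norm_le_of_sqn (en_nonneg w) (by unfold en; rw [Real.sq_sqrt (sqn_nonneg w)])

theorem en_smul {c : ℝ} (hc : 0 ≤ c) (w : ℝ × ℝ) : en (c • w) = c * en w := by
  unfold en
  have : sqn (c • w) = c ^ 2 * sqn w := by
    unfold sqn; simp only [Prod.smul_fst, Prod.smul_snd, smul_eq_mul]; ring
  rw [this, Real.sqrt_mul (sq_nonneg c), Real.sqrt_sq hc]

theorem isCompact_en (r : ℝ) : IsCompact {w : ℝ × ℝ | en w ≤ r} := by
  refine (isCompact_closedBall (0 : ℝ × ℝ) r).of_isClosed_subset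
    (isClosed_le en_cont continuous_const) fun w hw => ?_
  rw [mem_closedBall_zero_iff]
  exact (norm_le_en w).trans hw

/-- The open unit disc. -/
def disc : Set (ℝ × ℝ) := {z | z.1 ^ 2 + z.2 ^ 2 < 1}

theorem mem_disc (w : ℝ × ℝ) : w ∈ disc ↔ en w < 1 := by
  unfold disc en
  rw [Real.sqrt_lt' one_pos, one_pow]
  rfl

theorem isOpen_disc : IsOpen disc := by
  have : disc = {w | en w < 1} := Set.ext mem_disc
  rw [this]; exact isOpen_lt en_cont continuous_const

theorem jordan_isOpen (Φ : (ℝ × ℝ) ≃ₜ (ℝ × ℝ)) : IsOpen (Φ '' disc) :=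
  Φ.isOpenMap _ isOpen_disc

theorem jordan_isBounded (Φ : (ℝ × ℝ) ≃ₜ (ℝ × ℝ)) : Bornology.IsBounded (Φ '' disc) := by
  refine ((isCompact_en 1).image Φ.continuous).isBounded.subset (image_mono fun w hw => ?_)
  exact ((mem_disc w).1 hw).le

theorem jordan_ext (Φ : (ℝ × ℝ) ≃ₜ (ℝ × ℝ)) : Ext (Φ '' disc) := by
  intro R hR
  -- uniform continuity on the disc of radius 2
  have huc : UniformContinuousOn Φ {w : ℝ × ℝ | en w ≤ 2} :=
    (isCompact_en 2).uniformContinuousOn_of_continuous Φ.continuous.continuousOn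
  rw [Metric.uniformContinuousOn_iff] at huc
  obtain ⟨δ₀, hδ₀, hδ⟩ := huc (R / 4) (by positivity)
  set δ := min δ₀ 1 with hδd
  have hδ0 : 0 < δ := lt_min hδ₀ one_pos
  -- the thickening
  set U : Set (ℝ × ℝ) := Φ '' {w | en w < 1 + δ} with hU
  have hUo : IsOpen U := Φ.isOpenMap _ (isOpen_lt en_cont continuous_const)
  have hK : IsCompact (Φ '' {w : ℝ × ℝ | en w ≤ 1}) := (isCompact_en 1).image Φ.continuous
  obtain ⟨s, hs, hsU⟩ := hK.exists_thickening_subset_open hUo
    (image_mono fun w hw => by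
      have h : en w ≤ 1 := hw
      change en w < 1 + δ
      linarith only [hδ0, h])
  have hsD : Metric.thickening s (Φ '' disc) ⊆ U := by
    refine (Metric.thickening_subset_of_subset s (image_mono fun w hw => ?_)).trans hsU
    exact ((mem_disc w).1 hw).le
  refine ⟨s, hs, R / 8, by positivity, fun x hx hxd r hr => ?_⟩
  -- a point of the complement
  have hne : ((Φ '' disc)ᶜ).Nonempty := compl_ne (jordan_isBounded Φ)
  obtain ⟨z, hz, hxz⟩ := (Metric.infDist_lt_iff hne).1 hxd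
  set w := Φ.symm z with hw
  have hwz : Φ w = z := Φ.apply_symm_apply z
  have hw1 : 1 ≤ en w := by
    by_contra h
    push Not at h
    exact hz ⟨w, (mem_disc w).2 h, hwz⟩
  -- the path to infinity
  set f : ℝ → ℝ := fun c => sqn (Φ (c • w) - x) with hf
  have hfc : Continuous f := sqn_smooth.continuous.comp
    ((Φ.continuous.comp (continuous_id.smul continuous_const)).sub continuous_const)
  have hf1 : f 1 ≤ r ^ 2 := by
    rw [hf]; simp only [one_smul]; rw [hwz]
    have h1 := sqn_le_of_norm (z - x)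
    rw [← dist_eq_norm, dist_comm] at h1
    have h2 : dist x z ^ 2 ≤ (R / 8) ^ 2 := pow_le_pow_left₀ dist_nonneg hxz.le 2
    nlinarith only [h1, h2, hR, hr]
  obtain ⟨c₁, hc₁, hfc₁⟩ : ∃ c : ℝ, 1 ≤ c ∧ r ^ 2 ≤ f c := by
    by_contra hcon
    push Not at hcon
    have hr0 : 0 ≤ r := hR.le.trans hr
    -- then the ray stays in a compact set
    have hcomp : IsCompact (Φ.symm '' Metric.closedBall x r) :=
      (isCompact_closedBall x r).image Φ.symm.continuous
    obtain ⟨B, hB⟩ := hcomp.isBounded.exists_norm_le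
    have hmem : ∀ c : ℝ, 1 ≤ c → ‖c • w‖ ≤ B := by
      intro c hc
      refine hB _ ⟨Φ (c • w), ?_, Φ.symm_apply_apply _⟩
      rw [Metric.mem_closedBall, dist_eq_norm]
      have h1 := hcon c hc
      have h2 := (norm_sq_le_sqn (Φ (c • w) - x)).trans_lt h1
      exact (lt_of_pow_lt_pow_left₀ 2 hr0 h2).le
    have hwn : 0 < ‖w‖ := by
      rw [norm_pos_iff]
      rintro h0
      rw [h0] at hw1
      unfold en sqn at hw1
      simp only [Prod.fst_zero, ne_eq, OfNat.ofNat_ne_zero, not_false_eq_true, zero_pow, Prod.snd_zero, add_zero, Real.sqrt_zero] at hw1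
      linarith only [hw1]
    have hB0 : 0 ≤ B := (norm_nonneg _).trans (hmem 1 le_rfl)
    have h1 := hmem (B / ‖w‖ + 1) (by
      have : 0 ≤ B / ‖w‖ := div_nonneg hB0 hwn.le
      linarith only [this])
    rw [norm_smul, Real.norm_of_nonneg (by
      have : 0 ≤ B / ‖w‖ := div_nonneg hB0 hwn.le
      linarith only [this]), add_mul, div_mul_cancel₀ _ hwn.ne'] at h1
    linarith only [hwn, h1]
  obtain ⟨c, hc, hcr⟩ := intermediate_value_Icc hc₁ hfc.continuousOn ⟨hf1, hfc₁⟩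
  refine ⟨Φ (c • w), hcr, fun hp => ?_⟩
  have hc0 : 0 ≤ c := by linarith only [hc.1]
  obtain ⟨w', hw', hww'⟩ := hsD hp
  have hcw : en (c • w) < 1 + δ := by
    have : w' = c • w := Φ.injective hww'
    rw [← this]; exact hw'
  rw [en_smul hc0] at hcw
  have hδ1 : δ ≤ 1 := min_le_right _ _
  have hdist : dist (c • w) w < δ₀ := by
    rw [dist_eq_norm]
    have : c • w - w = (c - 1) • w := by rw [sub_smul, one_smul]
    rw [this, norm_smul, Real.norm_of_nonneg (by linarith only [hc.1])]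
    have h1 := norm_le_en w
    have h2 : (c - 1) * ‖w‖ ≤ (c - 1) * en w :=
      mul_le_mul_of_nonneg_left h1 (by linarith only [hc.1])
    have h3 : δ ≤ δ₀ := min_le_left _ _
    nlinarith only [hw1, hcw, h2, h3]
  have h1 := hδ (c • w) (by
      rw [mem_ofPred_eq, en_smul hc0]; linarith only [hcw, hδ1]) w (by
      rw [mem_ofPred_eq]
      have : en w ≤ c * en w := by nlinarith only [hw1, hc.1]
      linarith only [hcw, hδ1, this]) hdist
  rw [hwz] at h1
  -- contradiction: far from x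
  have h2 : R / 2 ≤ ‖Φ (c • w) - x‖ := by
    have h3 := sqn_le_of_norm (Φ (c • w) - x)
    have h4 : r ^ 2 ≤ 2 * ‖Φ (c • w) - x‖ ^ 2 := by
      have : f c = r ^ 2 := hcr
      rw [← this]; exact h3
    by_contra h
    push Not at h
    have h5 : ‖Φ (c • w) - x‖ ^ 2 < (R / 2) ^ 2 :=
      pow_lt_pow_left₀ h (norm_nonneg _) two_ne_zero
    nlinarith only [hcr, h3, h5, hR, hr]
  rw [← dist_eq_norm] at h2
  have h6 := dist_triangle (Φ (c • w)) z x
  rw [dist_comm z x] at h6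
  linarith only [hR, hxz, h1, h2, h6]

/-- Stability of Jordan domains. -/
theorem jordan_stab (Φ : (ℝ × ℝ) ≃ₜ (ℝ × ℝ)) {φ : ℝ × ℝ → ℝ} (hφ : TestOn (Φ '' disc) φ)
    (hφ0 : ∀ z, 0 ≤ φ z) {η : ℝ} (hη : 0 < η) :
    ∃ s : ℝ, 0 < s ∧ V (Metric.thickening s (Φ '' disc)) φ ≤ V (Φ '' disc) φ + η :=
  stab (jordan_isOpen Φ) (jordan_isBounded Φ) (jordan_ext Φ) hφ hφ0 hη

end Vale.Agent.P145.PT
end

section

/-!
Lattice polygons as subsets of the plane: the squares enclosed by a polygon are enclosed by its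
trace in the topological sense.
-/

namespace Vale.Agent.P145.Dom

open Set Filter Topology Metric Vale.Agent.P145.PT

/-- The closed square of mesh `δ` with bottom-left corner `δ f`. -/
def sq (δ : ℝ) (f : ℤ × ℤ) : Set (ℝ × ℝ) :=
  {z | (δ * f.1 ≤ z.1 ∧ z.1 ≤ δ * (f.1 + 1)) ∧ (δ * f.2 ≤ z.2 ∧ z.2 ≤ δ * (f.2 + 1))}

/-- The lattice point of mesh `δ`. -/
def pt (δ : ℝ) (v : ℤ × ℤ) : ℝ × ℝ := (δ * v.1, δ * v.2)

/-- The polygon as a subset of the plane. -/
def trace (δ : ℝ) {n : ℕ} (p : ZMod n → ℤ × ℤ) : Set (ℝ × ℝ) :=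
  ⋃ i, segment ℝ (pt δ (p i)) (pt δ (p (i + 1)))

/-- The points all whose squares belong to `F`. -/
def inn (δ : ℝ) (F : Finset (ℤ × ℤ)) : Set (ℝ × ℝ) := {z | ∀ g, z ∈ sq δ g → g ∈ F}

/-- The points none of whose squares belongs to `F`. -/
def out (δ : ℝ) (F : Finset (ℤ × ℤ)) : Set (ℝ × ℝ) := {z | ∀ g, z ∈ sq δ g → g ∉ F}

lemma mem_sq_floor {δ : ℝ} (hδ : 0 < δ) (z : ℝ × ℝ) : z ∈ sq δ (⌊z.1 / δ⌋, ⌊z.2 / δ⌋) := by
  have h1 := Int.floor_le (z.1 / δ)
  have h2 := (Int.lt_floor_add_one (z.1 / δ)).le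
  have h3 := Int.floor_le (z.2 / δ)
  have h4 := (Int.lt_floor_add_one (z.2 / δ)).le
  rw [le_div_iff₀ hδ] at h1 h3
  rw [div_le_iff₀ hδ] at h2 h4
  refine ⟨⟨?_, ?_⟩, ?_, ?_⟩ <;> simp only <;> linarith only [h1, h2, h3, h4]

lemma near_one {δ : ℝ} (hδ : 0 < δ) (x : ℝ) : ∃ ρ > 0, ∀ y, |y - x| < ρ → ∀ m : ℤ,
    δ * m ≤ y → y ≤ δ * (m + 1) → δ * m ≤ x ∧ x ≤ δ * (m + 1) := by
  set a := ⌊x / δ⌋ with ha
  set b := ⌈x / δ⌉ with hb
  have a1 : δ * a ≤ x := by
    have := Int.floor_le (x / δ)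
    rw [le_div_iff₀ hδ] at this
    linarith only [this]
  have a2 : x < δ * (a + 1) := by
    have := Int.lt_floor_add_one (x / δ)
    rw [div_lt_iff₀ hδ] at this
    linarith only [this]
  have b1 : x ≤ δ * b := by
    have := Int.le_ceil (x / δ)
    rw [div_le_iff₀ hδ] at this
    linarith only [this]
  have b2 : δ * (b - 1) < x := by
    have := Int.ceil_lt_add_one (x / δ)
    have h : (b : ℝ) - 1 < x / δ := by linarith only [this]
    rw [lt_div_iff₀ hδ] at h
    linarith only [h]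
  refine ⟨min (δ * (a + 1) - x) (x - δ * (b - 1)), lt_min (by linarith only [a2]) (by (clear * - b2; linarith)), ?_⟩
  intro y hy m h1 h2
  rw [lt_min_iff, abs_lt, abs_lt] at hy
  obtain ⟨⟨-, h3⟩, h4, -⟩ := hy
  constructor
  · have h5 : δ * m < δ * (a + 1) := by linarith only [h1, h3]
    have h6 : (m : ℝ) < a + 1 := lt_of_mul_lt_mul_left h5 hδ.le
    have h7 : m ≤ a := by
      have : m < a + 1 := by exact_mod_cast h6
      omega
    have h8 : (m : ℝ) ≤ a := by exact_mod_cast h7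
    nlinarith only [a1, hδ, h8]
  · have h5 : δ * (b - 1) < δ * (m + 1) := by linarith only [h2, h4]
    have h6 : (b : ℝ) - 1 < m + 1 := lt_of_mul_lt_mul_left h5 hδ.le
    have h7 : b ≤ m + 1 := by
      have : b - 1 < m + 1 := by exact_mod_cast h6
      omega
    have h8 : (b : ℝ) ≤ m + 1 := by exact_mod_cast h7
    nlinarith only [b1, hδ, h8]

lemma near_sq {δ : ℝ} (hδ : 0 < δ) (z : ℝ × ℝ) : ∃ ρ > 0, ∀ w, dist w z < ρ →
    ∀ g, w ∈ sq δ g → z ∈ sq δ g := by
  obtain ⟨ρ₁, h1, h2⟩ := near_one hδ z.1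
  obtain ⟨ρ₂, h3, h4⟩ := near_one hδ z.2
  refine ⟨min ρ₁ ρ₂, lt_min h1 h3, fun w hw g hg => ?_⟩
  rw [Prod.dist_eq, max_lt_iff, Real.dist_eq, Real.dist_eq, lt_min_iff, lt_min_iff] at hw
  exact ⟨h2 _ hw.1.1 _ hg.1.1 hg.1.2, h4 _ hw.2.2 _ hg.2.1 hg.2.2⟩

lemma isOpen_inn {δ : ℝ} (hδ : 0 < δ) (F : Finset (ℤ × ℤ)) : IsOpen (inn δ F) := by
  rw [Metric.isOpen_iff]
  intro z hz
  obtain ⟨ρ, hρ, h⟩ := near_sq hδ z
  exact ⟨ρ, hρ, fun w hw g hg => hz g (h w hw g hg)⟩

lemma isOpen_out {δ : ℝ} (hδ : 0 < δ) (F : Finset (ℤ × ℤ)) : IsOpen (out δ F) := by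
  rw [Metric.isOpen_iff]
  intro z hz
  obtain ⟨ρ, hρ, h⟩ := near_sq hδ z
  exact ⟨ρ, hρ, fun w hw g hg => hz g (h w hw g hg)⟩

lemma disjoint_inn_out {δ : ℝ} (hδ : 0 < δ) (F : Finset (ℤ × ℤ)) :
    Disjoint (inn δ F) (out δ F) := by
  rw [Set.disjoint_left]
  intro z h1 h2
  exact h2 _ (mem_sq_floor hδ z) (h1 _ (mem_sq_floor hδ z))

variable {n : ℕ} {p : ZMod n → ℤ × ℤ} {F : Finset (ℤ × ℤ)} {δ : ℝ} {z : ℝ × ℝ}

lemma trace_of_edge {a b : ℤ × ℤ} (h : IsEdge p a b) (hz : z ∈ segment ℝ (pt δ a) (pt δ b)) :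
    z ∈ trace δ p := by
  obtain ⟨i, ⟨h1, h2⟩ | ⟨h1, h2⟩⟩ := h
  · exact mem_iUnion.2 ⟨i, by rw [h1, h2]; exact hz⟩
  · exact mem_iUnion.2 ⟨i, by rw [h1, h2, segment_symm]; exact hz⟩

lemma mem_seg_h (hδ : 0 < δ) {e : ℤ × ℤ} (h1 : z.2 = δ * e.2) (h2 : δ * e.1 ≤ z.1)
    (h3 : z.1 ≤ δ * (e.1 + 1)) : z ∈ segment ℝ (pt δ e) (pt δ (e + (1, 0))) := by
  refine ⟨1 - (z.1 / δ - e.1), z.1 / δ - e.1, ?_, ?_, by ring, ?_⟩
  · have : z.1 / δ ≤ e.1 + 1 := by rw [div_le_iff₀ hδ]; linarith only [h3]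
    linarith only [this]
  · have : (e.1 : ℝ) ≤ z.1 / δ := by rw [le_div_iff₀ hδ]; linarith only [h2]
    linarith only [this]
  · refine Prod.ext ?_ ?_
    · simp only [pt, Prod.fst_add, Prod.smul_fst, smul_eq_mul]
      push_cast
      field_simp
      ring
    · simp only [pt, Prod.snd_add, Prod.smul_snd, smul_eq_mul, add_zero]
      rw [h1]; ring

lemma mem_seg_v (hδ : 0 < δ) {e : ℤ × ℤ} (h1 : z.1 = δ * e.1) (h2 : δ * e.2 ≤ z.2)
    (h3 : z.2 ≤ δ * (e.2 + 1)) : z ∈ segment ℝ (pt δ e) (pt δ (e + (0, 1))) := by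
  refine ⟨1 - (z.2 / δ - e.2), z.2 / δ - e.2, ?_, ?_, by ring, ?_⟩
  · have : z.2 / δ ≤ e.2 + 1 := by rw [div_le_iff₀ hδ]; linarith only [h3]
    linarith only [this]
  · have : (e.2 : ℝ) ≤ z.2 / δ := by rw [le_div_iff₀ hδ]; linarith
    linarith only [this]
  · refine Prod.ext ?_ ?_
    · simp only [pt, Prod.fst_add, Prod.smul_fst, smul_eq_mul, add_zero]
      rw [h1]; ring
    · simp only [pt, Prod.snd_add, Prod.smul_snd, smul_eq_mul]
      push_cast
      field_simp
      ring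

/-- A point which lies in an inner and in an outer square lies on the polygon. -/
lemma mem_trace (hδ : 0 < δ) (hF : Encloses p F) {f g : ℤ × ℤ} (hf : f ∈ F) (hg : g ∉ F)
    (hzf : z ∈ sq δ f) (hzg : z ∈ sq δ g) : z ∈ trace δ p := by
  obtain ⟨f1, f2⟩ := f
  obtain ⟨g1, g2⟩ := g
  obtain ⟨⟨a1, a2⟩, a3, a4⟩ := hzf
  obtain ⟨⟨b1, b2⟩, b3, b4⟩ := hzg
  simp only at a1 a2 a3 a4 b1 b2 b3 b4
  have le : ∀ {m k : ℤ} {x : ℝ}, δ * m ≤ x → x ≤ δ * (k + 1) → m ≤ k + 1 := by
    intro m k x h1 h2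
    have h3 : (m : ℝ) ≤ k + 1 := le_of_mul_le_mul_left (h1.trans h2) hδ
    exact_mod_cast h3
  have e1 := le a1 b2
  have e2 := le b1 a2
  have e3 := le a3 b4
  have e4 := le b3 a4
  have hh := fun e => hF.1 e
  have hv := fun e => hF.2 e
  have c1 : f1 = g1 ∨ f1 = g1 + 1 ∨ g1 = f1 + 1 := by omega
  have c2 : f2 = g2 ∨ f2 = g2 + 1 ∨ g2 = f2 + 1 := by omega
  -- the corner case
  have corner : ∀ v : ℤ × ℤ, Cor v (f1, f2) → Cor v (g1, g2) → z = pt δ v → z ∈ trace δ p := by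
    intro v h1 h2 h3
    obtain ⟨i, hi⟩ := corner_poly hF hf hg h1 h2
    refine mem_iUnion.2 ⟨i, ?_⟩
    rw [h3, ← hi]
    exact left_mem_segment ℝ _ _
  rcases c1 with rfl | rfl | rfl <;> rcases c2 with rfl | rfl | rfl
  · exact absurd hf hg
  · refine trace_of_edge ((hh (f1, g2 + 1)).2 ?_) (mem_seg_h hδ ?_ a1 a2)
    · simp only [Prod.mk_sub_mk, sub_zero, add_sub_cancel_right]; (clear * - hg hf; tauto)
    · push_cast at *; linarith only [a3, b4]
  · refine trace_of_edge ((hh (f1, f2 + 1)).2 ?_) (mem_seg_h hδ ?_ a1 a2)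
    · simp only [Prod.mk_sub_mk, sub_zero, add_sub_cancel_right]; (clear * - hg hf; tauto)
    · push_cast at *; linarith only [b3, a4]
  · refine trace_of_edge ((hv (g1 + 1, f2)).2 ?_) (mem_seg_v hδ ?_ a3 a4)
    · simp only [Prod.mk_sub_mk, sub_zero, add_sub_cancel_right]; (clear * - hg hf; tauto)
    · push_cast at *; linarith only [a1, b2]
  · refine corner (g1 + 1, g2 + 1) ⟨Or.inl rfl, Or.inl rfl⟩ ⟨Or.inr rfl, Or.inr rfl⟩ ?_
    refine Prod.ext ?_ ?_ <;> simp only [pt] <;> push_cast at * <;> linarith only [a1, b2, a3, b4]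
  · refine corner (g1 + 1, f2 + 1) ⟨Or.inl rfl, Or.inr rfl⟩ ⟨Or.inr rfl, Or.inl rfl⟩ ?_
    refine Prod.ext ?_ ?_ <;> simp only [pt] <;> push_cast at * <;> linarith only [a1, b2, b3, a4]
  · refine trace_of_edge ((hv (f1 + 1, f2)).2 ?_) (mem_seg_v hδ ?_ a3 a4)
    · simp only [Prod.mk_sub_mk, sub_zero, add_sub_cancel_right]; (clear * - hg hf; tauto)
    · push_cast at *; linarith only [b1, a2]
  · refine corner (f1 + 1, g2 + 1) ⟨Or.inr rfl, Or.inl rfl⟩ ⟨Or.inl rfl, Or.inr rfl⟩ ?_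
    refine Prod.ext ?_ ?_ <;> simp only [pt] <;> push_cast at * <;> linarith
  · refine corner (f1 + 1, f2 + 1) ⟨Or.inr rfl, Or.inr rfl⟩ ⟨Or.inl rfl, Or.inl rfl⟩ ?_
    refine Prod.ext ?_ ?_ <;> simp only [pt] <;> push_cast at * <;> linarith

lemma two_faces {a b : ℤ × ℤ} (h : ¬ (a ∈ F ↔ b ∈ F)) (ha : z ∈ sq δ a) (hb : z ∈ sq δ b) :
    (∃ f ∈ F, z ∈ sq δ f) ∧ ∃ g, g ∉ F ∧ z ∈ sq δ g := by
  by_cases h1 : a ∈ F
  · exact ⟨⟨a, h1, ha⟩, b, by tauto, hb⟩
  · exact ⟨⟨b, by (clear * - h h1; tauto), hb⟩, a, h1, ha⟩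

lemma seg_h (hδ : 0 < δ) {e : ℤ × ℤ} (hz : z ∈ segment ℝ (pt δ e) (pt δ (e + (1, 0)))) :
    z ∈ sq δ e ∧ z ∈ sq δ (e - (0, 1)) := by
  obtain ⟨s, t, hs, ht, hst, rfl⟩ := hz
  obtain rfl : s = 1 - t := by linarith only [hst]
  have h1 : 0 ≤ δ * t := by positivity
  have h2 : 0 ≤ δ * (1 - t) := by positivity
  constructor <;> refine ⟨⟨?_, ?_⟩, ?_, ?_⟩ <;>
    simp only [pt, Prod.fst_add, Prod.snd_add, Prod.fst_sub, Prod.snd_sub, Prod.smul_fst,
      Prod.smul_snd, smul_eq_mul] <;> push_cast <;> nlinarith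

lemma seg_v (hδ : 0 < δ) {e : ℤ × ℤ} (hz : z ∈ segment ℝ (pt δ e) (pt δ (e + (0, 1)))) :
    z ∈ sq δ e ∧ z ∈ sq δ (e - (1, 0)) := by
  obtain ⟨s, t, hs, ht, hst, rfl⟩ := hz
  obtain rfl : s = 1 - t := by linarith only [hst]
  have h1 : 0 ≤ δ * t := by positivity
  have h2 : 0 ≤ δ * (1 - t) := by positivity
  constructor <;> refine ⟨⟨?_, ?_⟩, ?_, ?_⟩ <;>
    simp only [pt, Prod.fst_add, Prod.snd_add, Prod.fst_sub, Prod.snd_sub, Prod.smul_fst,
      Prod.smul_snd, smul_eq_mul] <;> push_cast <;> nlinarith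

/-- Every point of the polygon lies in an inner and in an outer square. -/
lemma trace_faces (hδ : 0 < δ) (hp : IsPolygon p) (hF : Encloses p F) {i : ZMod n}
    (hz : z ∈ segment ℝ (pt δ (p i)) (pt δ (p (i + 1)))) :
    (∃ f ∈ F, z ∈ sq δ f) ∧ ∃ g, g ∉ F ∧ z ∈ sq δ g := by
  rcases hp.2.2 i with h | h | h | h
  · have h2 : p (i + 1) = p i + (1, 0) := by rw [← h]; abel
    rw [h2] at hz
    obtain ⟨k1, k2⟩ := seg_h hδ hz
    exact two_faces ((hF.1 (p i)).1 ⟨i, Or.inl ⟨rfl, h2⟩⟩) k1 k2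
  · have h2 : p i = p (i + 1) + (1, 0) := by
      have : p i = p (i + 1) - (p (i + 1) - p i) := by abel
      rw [this, h]
      ext <;> simp
    rw [h2, segment_symm] at hz
    obtain ⟨k1, k2⟩ := seg_h hδ hz
    exact two_faces ((hF.1 (p (i + 1))).1 ⟨i, Or.inr ⟨h2, rfl⟩⟩) k1 k2
  · have h2 : p (i + 1) = p i + (0, 1) := by rw [← h]; abel
    rw [h2] at hz
    obtain ⟨k1, k2⟩ := seg_v hδ hz
    exact two_faces ((hF.2 (p i)).1 ⟨i, Or.inl ⟨rfl, h2⟩⟩) k1 k2
  · have h2 : p i = p (i + 1) + (0, 1) := by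
      have : p i = p (i + 1) - (p (i + 1) - p i) := by abel
      rw [this, h]
      ext <;> simp
    rw [h2, segment_symm] at hz
    obtain ⟨k1, k2⟩ := seg_v hδ hz
    exact two_faces ((hF.2 (p (i + 1))).1 ⟨i, Or.inr ⟨h2, rfl⟩⟩) k1 k2

lemma inn_subset_compl (hδ : 0 < δ) (hp : IsPolygon p) (hF : Encloses p F) :
    inn δ F ⊆ (trace δ p)ᶜ := by
  intro z hz hzT
  obtain ⟨i, hi⟩ := mem_iUnion.1 hzT
  obtain ⟨-, g, hg, hzg⟩ := trace_faces hδ hp hF hi
  exact hg (hz g hzg)

lemma inn_subset (hδ : 0 < δ) : inn δ F ⊆ ⋃ f ∈ F, sq δ f := by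
  intro z hz
  exact mem_biUnion (hz _ (mem_sq_floor hδ z)) (mem_sq_floor hδ z)

lemma isBounded_sq (δ : ℝ) (f : ℤ × ℤ) : Bornology.IsBounded (sq δ f) := by
  refine (Metric.isBounded_Icc (pt δ f) (δ * (f.1 + 1), δ * (f.2 + 1))).subset fun z hz => ?_
  exact ⟨⟨hz.1.1, hz.2.1⟩, ⟨hz.1.2, hz.2.2⟩⟩

/-- The inner points are enclosed by the polygon. -/
theorem inn_subset_enclosed (hδ : 0 < δ) (hp : IsPolygon p) (hF : Encloses p F) :
    inn δ F ⊆ enclosed (trace δ p) := by
  intro z hz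
  refine ⟨inn_subset_compl hδ hp hF hz, ?_⟩
  have h1 : connectedComponentIn (trace δ p)ᶜ z ⊆ inn δ F := by
    refine IsPreconnected.subset_left_of_subset_union (isOpen_inn hδ F) (isOpen_out hδ F)
      (disjoint_inn_out hδ F) ?_ ?_ isPreconnected_connectedComponentIn
    · intro w hw
      have hwT := connectedComponentIn_subset _ _ hw
      by_contra hcon
      rw [mem_union, not_or] at hcon
      obtain ⟨h1, h2⟩ := hcon
      unfold inn at h1
      unfold out at h2
      rw [Set.mem_ofPred_eq] at h1 h2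
      push Not at h1 h2
      obtain ⟨g, hg, hgF⟩ := h1
      obtain ⟨f, hf, hfF⟩ := h2
      exact hwT (mem_trace hδ hF hfF hgF hf hg)
    · exact ⟨z, mem_connectedComponentIn (inn_subset_compl hδ hp hF hz), hz⟩
  refine ((Bornology.isBounded_biUnion_finset F).2 fun f _ => isBounded_sq δ f).subset
    (h1.trans (inn_subset hδ))

/-- Every inner square is contained in the closure of the inner points. -/
theorem sq_subset_closure (hδ : 0 < δ) {f : ℤ × ℤ} (hf : f ∈ F) :
    sq δ f ⊆ closure (inn δ F) := by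
  have h1 : Ioo (δ * f.1) (δ * (f.1 + 1)) ×ˢ Ioo (δ * f.2) (δ * (f.2 + 1)) ⊆ inn δ F := by
    rintro z ⟨⟨h1, h2⟩, h3, h4⟩ g hg
    have le : ∀ {m k : ℤ} {x : ℝ}, δ * m < x → x ≤ δ * (k + 1) → m ≤ k := by
      intro m k x h1 h2
      have h3 : (m : ℝ) < k + 1 := lt_of_mul_lt_mul_left (h1.trans_le h2) hδ.le
      have h4 : m < k + 1 := by exact_mod_cast h3
      omega
    have le' : ∀ {m k : ℤ} {x : ℝ}, δ * m ≤ x → x < δ * (k + 1) → m ≤ k := by
      intro m k x h1 h2
      have h3 : (m : ℝ) < k + 1 := lt_of_mul_lt_mul_left (h1.trans_lt h2) hδ.le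
      have h4 : m < k + 1 := by exact_mod_cast h3
      omega
    have : g = f := Prod.ext (le_antisymm (le' hg.1.1 h2) (le h1 hg.1.2))
      (le_antisymm (le' hg.2.1 h4) (le h3 hg.2.2))
    rw [this]; exact hf
  refine subset_trans ?_ (closure_mono h1)
  rw [closure_prod_eq, closure_Ioo (by linarith), closure_Ioo (by nlinarith only [hδ])]
  intro z hz
  exact ⟨hz.1, hz.2⟩

end Vale.Agent.P145.Dom
end

section

/-!
**(D4)** Approximations of a Jordan domain: eventually all squares near a given compact subset of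
the domain are enclosed, and all enclosed squares are in a given neighbourhood of the domain.
-/

namespace Vale.Agent.P145.Dom

open Set Filter Topology Metric Vale.Agent.P145.PT

/-- (PT4) for the image of the unit ball under a homeomorphism between two normed spaces. -/
theorem enclosed_thickening {E₁ E : Type*} [NormedAddCommGroup E₁] [NormedSpace ℝ E₁]
    [NormedAddCommGroup E] [NormedSpace ℝ E] [ProperSpace E₁] [ProperSpace E]
    (Φ : E₁ ≃ₜ E) {s : ℝ} (hs : 0 < s) :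
    ∃ ε : ℝ, 0 < ε ∧ ∀ T : Set E, T ⊆ thickening ε (frontier (Φ '' ball (0 : E₁) 1)) →
      enclosed T ⊆ thickening s (Φ '' ball (0 : E₁) 1) := by
  set U : Set E := thickening s (Φ '' ball (0 : E₁) 1) with hU
  have hUo : IsOpen U := isOpen_thickening
  have hcl : Φ '' closedBall (0 : E₁) 1 ⊆ U := by
    rw [← closure_ball (0 : E₁) one_ne_zero, Φ.image_closure]
    exact closure_subset_thickening hs _
  have hcl' : closedBall (0 : E₁) 1 ⊆ Φ ⁻¹' U := image_subset_iff.1 hcl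
  obtain ⟨δ, hδ, hδU⟩ := (isCompact_closedBall (0 : E₁) 1).exists_thickening_subset_open
    (hUo.preimage Φ.continuous) hcl'
  rw [thickening_closedBall hδ zero_le_one] at hδU
  set C : Set E := Φ '' (ball (0 : E₁) (δ + 1))ᶜ with hC
  have hCc : IsClosed C := Φ.isClosedMap _ isOpen_ball.isClosed_compl
  have hF : IsCompact (Φ '' sphere (0 : E₁) 1) := (isCompact_sphere 0 1).image Φ.continuous
  have hfr : frontier (Φ '' ball (0 : E₁) 1) = Φ '' sphere (0 : E₁) 1 := by
    rw [← Φ.image_frontier, frontier_ball _ one_ne_zero]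
  have hdis : Disjoint (Φ '' sphere (0 : E₁) 1) C := by
    rw [hC, disjoint_image_iff Φ.injective, Set.disjoint_left]
    intro x hx hx'
    rw [mem_sphere_zero_iff_norm] at hx
    rw [mem_compl_iff, mem_ball_zero_iff, not_lt] at hx'
    linarith only [hδ, hx, hx']
  obtain ⟨ε, hε, hεd⟩ := hdis.exists_thickenings hF hCc
  refine ⟨ε, hε, fun T hT z hz => ?_⟩
  rw [hfr] at hT
  by_contra hzU
  set w : E₁ := Φ.symm z with hw
  have hwz : Φ w = z := Φ.apply_symm_apply z
  have hwn : δ + 1 ≤ ‖w‖ := by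
    by_contra h
    rw [not_le] at h
    have : w ∈ Φ ⁻¹' U := hδU (mem_ball_zero_iff.2 h)
    rw [mem_preimage, hwz] at this
    exact hzU this
  have hw0 : w ≠ 0 := by
    rw [← norm_pos_iff]
    linarith only [hδ, hwn]
  set R : Set E₁ := (fun c : ℝ => c • w) '' Ici (1 : ℝ) with hR
  have hRC : Φ '' R ⊆ C := by
    rw [hC]
    refine image_mono ?_
    rintro _ ⟨c, hc, rfl⟩
    have hc' : (1 : ℝ) ≤ c := hc
    rw [mem_compl_iff, mem_ball_zero_iff, not_lt]
    simp only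
    rw [norm_smul, Real.norm_of_nonneg (by linarith only [hc'])]
    nlinarith only [hwn, hc', hδ]
  have hRT : Φ '' R ⊆ Tᶜ := by
    intro x hx hxT
    have h1 : x ∈ thickening ε (Φ '' sphere (0 : E₁) 1) := hT hxT
    have h2 : x ∈ thickening ε C := self_subset_thickening hε _ (hRC hx)
    exact Set.disjoint_left.1 hεd h1 h2
  refine not_mem_enclosed ((isPreconnected_ray w).image Φ Φ.continuous.continuousOn) hRT ?_
    (⟨w, ⟨1, self_mem_Ici, one_smul _ _⟩, hwz⟩ : z ∈ Φ '' R) hz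
  intro hb
  have h1 : IsCompact (Φ.symm '' closure (Φ '' R)) :=
    (hb.isCompact_closure).image Φ.symm.continuous
  refine not_isBounded_ray hw0 (h1.isBounded.subset ?_)
  intro x hx
  exact ⟨Φ x, subset_closure ⟨x, hx, rfl⟩, Φ.symm_apply_apply x⟩

/-- The identity map from the Euclidean plane to `ℝ × ℝ`. -/
noncomputable def eh : WithLp 2 (ℝ × ℝ) ≃ₜ (ℝ × ℝ) :=
  (WithLp.prodContinuousLinearEquiv 2 ℝ ℝ ℝ).toHomeomorph

lemma eh_ball : eh '' ball (0 : WithLp 2 (ℝ × ℝ)) 1 = disc := by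
  ext z
  constructor
  · rintro ⟨w, hw, rfl⟩
    rw [mem_ball_zero_iff, WithLp.prod_norm_eq_of_L2, Real.sqrt_lt' one_pos, one_pow] at hw
    simpa only [disc, eh, ContinuousLinearEquiv.coe_toHomeomorph, WithLp.prodContinuousLinearEquiv_apply,     mem_ofPred_eq, WithLp.ofLp_fst, WithLp.ofLp_snd, Real.norm_eq_abs, sq_abs] using hw
  · intro hz
    refine ⟨eh.symm z, ?_, eh.apply_symm_apply z⟩
    rw [mem_ball_zero_iff, WithLp.prod_norm_eq_of_L2, Real.sqrt_lt' one_pos, one_pow]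
    simpa only [eh, ContinuousLinearEquiv.coe_symm_toHomeomorph, WithLp.prodContinuousLinearEquiv_symm_apply,     WithLp.toLp_fst, Real.norm_eq_abs, sq_abs, WithLp.toLp_snd, disc, mem_ofPred_eq] using hz

theorem enclosed_disc (Φ : (ℝ × ℝ) ≃ₜ (ℝ × ℝ)) {s : ℝ} (hs : 0 < s) :
    ∃ ε : ℝ, 0 < ε ∧ ∀ T : Set (ℝ × ℝ), T ⊆ thickening ε (frontier (Φ '' disc)) →
      enclosed T ⊆ thickening s (Φ '' disc) := by
  have h := enclosed_thickening (eh.trans Φ) hs
  have e1 : (eh.trans Φ) '' ball (0 : WithLp 2 (ℝ × ℝ)) 1 = Φ '' disc := by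
    rw [← eh_ball, image_image]; rfl
  rw [e1] at h
  exact h

lemma JordanDomain.exists {D : Set (ℝ × ℝ)} (h : JordanDomain D) :
    ∃ Φ : (ℝ × ℝ) ≃ₜ (ℝ × ℝ), D = Φ '' disc := h

variable {D : Set (ℝ × ℝ)} {δ : ℕ → ℝ} {N : ℕ → ℕ} {p : ∀ n, ZMod (N n) → ℤ × ℤ}
  {F : ℕ → Finset (ℤ × ℤ)}

lemma sq_dist {δ : ℝ} {f : ℤ × ℤ} {z w : ℝ × ℝ} (hz : z ∈ sq δ f)
    (hw : w ∈ sq δ f) : dist z w ≤ δ := by
  rw [Prod.dist_eq, Real.dist_eq, Real.dist_eq]
  obtain ⟨⟨a1, a2⟩, a3, a4⟩ := hz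
  obtain ⟨⟨b1, b2⟩, b3, b4⟩ := hw
  refine max_le (abs_le.2 ⟨?_, ?_⟩) (abs_le.2 ⟨?_, ?_⟩) <;> linarith only [a1, b2, a2, b1, a3, b4, a4, b3]

/-- Eventually all squares which meet a given compact subset of the domain are enclosed. -/
theorem approx_inner (hD : IsOpen D) (h : Approx D δ N p F) {K : Set (ℝ × ℝ)} (hK : IsCompact K)
    (hKD : K ⊆ D) : ∀ᶠ n in atTop, ∀ f, (sq (δ n) f ∩ K).Nonempty → f ∈ F n := by
  obtain ⟨r, hr, hrD⟩ := hK.exists_cthickening_subset_open hD hKD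
  have h1 := h.cpt _ hrD hK.cthickening
  have h2 : ∀ᶠ n in atTop, δ n < r := h.lim.eventually_lt_const hr
  filter_upwards [h1, h2] with n h3 h4 f hf
  obtain ⟨z, hz, hzK⟩ := hf
  have hδ := h.pos n
  set w : ℝ × ℝ := (δ n * (f.1 + 1 / 2), δ n * (f.2 + 1 / 2)) with hw
  have hwf : w ∈ sq (δ n) f := by
    refine ⟨⟨?_, ?_⟩, ?_, ?_⟩ <;> simp only [hw] <;> nlinarith
  have h5 : w ∈ cthickening r K := by
    refine mem_cthickening_of_dist_le w z r K hzK ?_
    have := sq_dist hwf hz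
    linarith only [h4, this]
  have h6 := h3 w h5
  have h7 : ⌊w.1 / δ n⌋ = f.1 := by
    rw [Int.floor_eq_iff]
    simp only [hw]
    rw [mul_div_cancel_left₀ _ hδ.ne']
    constructor <;> linarith only []
  have h8 : ⌊w.2 / δ n⌋ = f.2 := by
    rw [Int.floor_eq_iff]
    simp only [hw]
    rw [mul_div_cancel_left₀ _ hδ.ne']
    constructor <;> linarith
  rw [h7, h8] at h6
  exact h6

/-- A point near a point on the other side of the boundary is near the boundary. -/
lemma near_frontier (hD : IsOpen D) {z w : ℝ × ℝ} (hz : z ∈ D) (hw : w ∉ D) {ε : ℝ}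
    (h : dist z w < ε) : ∀ u ∈ segment ℝ z w, u ∈ thickening ε (frontier D) := by
  have h1 : (segment ℝ z w ∩ frontier D).Nonempty := by
    by_contra hcon
    rw [not_nonempty_iff_eq_empty] at hcon
    have h2 : segment ℝ z w ⊆ D ∪ (closure D)ᶜ := by
      intro u hu
      by_cases h3 : u ∈ D
      · exact Or.inl h3
      · right
        intro h4
        have : u ∈ segment ℝ z w ∩ frontier D := ⟨hu, h4, by rwa [hD.interior_eq]⟩
        rw [hcon] at this
        exact this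
    have h3 := IsPreconnected.subset_left_of_subset_union hD isClosed_closure.isOpen_compl
      (Set.disjoint_left.2 fun u h4 h5 => h5 (subset_closure h4)) h2
      ⟨z, left_mem_segment ℝ z w, hz⟩ (convex_segment z w).isPreconnected
    exact hw (h3 (right_mem_segment ℝ z w))
  obtain ⟨v, hv, hvf⟩ := h1
  intro u hu
  rw [mem_thickening_iff]
  refine ⟨v, hvf, lt_of_le_of_lt ?_ h⟩
  obtain ⟨a, b, ha, hb, hab, rfl⟩ := hv
  obtain ⟨c, d, hc, hd, hcd, rfl⟩ := hu
  obtain rfl : a = 1 - b := by linarith only [hab]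
  obtain rfl : c = 1 - d := by linarith
  rw [dist_eq_norm, dist_eq_norm]
  have : (1 - d) • z + d • w - ((1 - b) • z + b • w) = (b - d) • (z - w) := by
    simp only [sub_smul, smul_sub, one_smul]; abel
  rw [this, norm_smul, Real.norm_eq_abs]
  have h3 : |b - d| ≤ 1 := by rw [abs_le]; constructor <;> linarith only [hb, hc, hd, ha]
  calc |b - d| * ‖z - w‖ ≤ 1 * ‖z - w‖ := mul_le_mul_of_nonneg_right h3 (norm_nonneg _)
    _ = ‖z - w‖ := one_mul _

lemma pt_mem_sq {δ : ℝ} (hδ : 0 < δ) {v f : ℤ × ℤ} (h : Cor v f) : pt δ v ∈ sq δ f := by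
  obtain ⟨h1, h2⟩ := h
  refine ⟨⟨?_, ?_⟩, ?_, ?_⟩ <;> simp only [pt]
  · rcases h1 with h | h <;> rw [h] <;> push_cast <;> linarith
  · rcases h1 with h | h <;> rw [h] <;> push_cast <;> nlinarith
  · rcases h2 with h | h <;> rw [h] <;> push_cast <;> linarith
  · rcases h2 with h | h <;> rw [h] <;> push_cast <;> linarith

lemma seg_dist {z w u : ℝ × ℝ} (hu : u ∈ segment ℝ z w) : dist u z ≤ dist z w := by
  obtain ⟨c, d, hc, hd, hcd, rfl⟩ := hu
  obtain rfl : c = 1 - d := by linarith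
  rw [dist_eq_norm, dist_eq_norm]
  have : (1 - d) • z + d • w - z = d • (w - z) := by
    simp only [sub_smul, smul_sub, one_smul]; abel
  rw [this, norm_smul, Real.norm_eq_abs, abs_of_nonneg hd, norm_sub_rev z w]
  calc d * ‖w - z‖ ≤ 1 * ‖w - z‖ := mul_le_mul_of_nonneg_right (by linarith) (norm_nonneg _)
    _ = ‖w - z‖ := one_mul _

lemma step_dist {δ : ℝ} (hδ : 0 < δ) {n : ℕ} {p : ZMod n → ℤ × ℤ} (hp : IsPolygon p)
    (i : ZMod n) : dist (pt δ (p i)) (pt δ (p (i + 1))) ≤ δ := by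
  have h := hp.2.2 i
  simp only [Prod.ext_iff, Prod.fst_sub, Prod.snd_sub] at h
  rw [Prod.dist_eq, Real.dist_eq, Real.dist_eq]
  simp only [pt]
  rw [← mul_sub, ← mul_sub, abs_mul, abs_mul, abs_of_pos hδ]
  have h1 : |((p i).1 : ℝ) - (p (i + 1)).1| ≤ 1 := by
    have : |(p i).1 - (p (i + 1)).1| ≤ 1 := by rw [abs_le]; omega
    exact_mod_cast this
  have h2 : |((p i).2 : ℝ) - (p (i + 1)).2| ≤ 1 := by
    have : |(p i).2 - (p (i + 1)).2| ≤ 1 := by rw [abs_le]; omega
    exact_mod_cast this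
  refine max_le ?_ ?_ <;> nlinarith

/-- The polygons are eventually close to the boundary of the domain. -/
theorem trace_near (hD : IsOpen D) (hb : Bornology.IsBounded D) (h : Approx D δ N p F) {ε : ℝ}
    (hε : 0 < ε) : ∀ᶠ n in atTop, trace (δ n) (p n) ⊆ thickening ε (frontier D) := by
  set K : Set (ℝ × ℝ) := {z | ε ≤ infDist z Dᶜ} with hKdef
  have hne : (Dᶜ).Nonempty := by
    by_contra hcon
    rw [not_nonempty_iff_eq_empty, compl_empty_iff] at hcon
    rw [hcon] at hb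
    exact (NormedSpace.unbounded_univ ℝ (ℝ × ℝ)) hb
  have hKD : K ⊆ D := by
    intro z hz
    by_contra hzD
    have h1 : infDist z Dᶜ = 0 := infDist_zero_of_mem hzD
    have h2 : ε ≤ infDist z Dᶜ := hz
    linarith only [hε, h1, h2]
  have hKc : IsCompact K := by
    refine (isCompact_of_isClosed_isBounded (isClosed_le continuous_const
      (continuous_infDist_pt _)) (hb.subset hKD))
  have h1 := approx_inner hD h hKc hKD
  have h2 := h.near (ε / 2) (by positivity)
  have h3 : ∀ᶠ n in atTop, δ n < ε / 2 := h.lim.eventually_lt_const (by positivity)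
  filter_upwards [h1, h2, h3] with n h4 h5 h6 z hz
  have hδ := h.pos n
  obtain ⟨i, hi⟩ := mem_iUnion.1 hz
  by_cases hzD : z ∈ D
  · have h7 : z ∉ K := by
      intro hzK
      obtain ⟨-, g, hg, hzg⟩ := trace_faces hδ (h.poly n) (h.encl n) hi
      exact hg (h4 g ⟨z, hzg, hzK⟩)
    have h8 : infDist z Dᶜ < ε := by
      by_contra hcon
      exact h7 (not_lt.1 hcon)
    obtain ⟨w, hw, hzw⟩ := (infDist_lt_iff hne).1 h8
    exact near_frontier hD hzD hw hzw z (left_mem_segment ℝ z w)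
  · obtain ⟨w, hw, hzw⟩ := h5 i
    have h7 : dist z w < ε := by
      have h8 := seg_dist hi
      have h9 := step_dist hδ (h.poly n) i
      have h10 := dist_triangle z (pt (δ n) (p n i)) w
      change dist (pt (δ n) (p n i)) w < ε / 2 at hzw
      linarith only [h6, h8, h9, h10, hzw]
    rw [dist_comm] at h7
    exact near_frontier hD hw hzD h7 z (right_mem_segment ℝ w z)

/-- Eventually all enclosed squares are contained in a given open neighbourhood of the closure of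
the domain. -/
theorem approx_outer (Φ : (ℝ × ℝ) ≃ₜ (ℝ × ℝ)) (h : Approx (Φ '' disc) δ N p F)
    {U : Set (ℝ × ℝ)} (hU : IsOpen U) (hDU : closure (Φ '' disc) ⊆ U) :
    ∀ᶠ n in atTop, ∀ f ∈ F n, sq (δ n) f ⊆ U := by
  have hD := jordan_isOpen Φ
  have hb := jordan_isBounded Φ
  have hc : IsCompact (closure (Φ '' disc)) := hb.isCompact_closure
  obtain ⟨s, hs, hsU⟩ := hc.exists_cthickening_subset_open hU hDU
  obtain ⟨ε, hε, hεs⟩ := enclosed_disc Φ hs
  filter_upwards [trace_near hD hb h hε] with n hn f hf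
  have hδ := h.pos n
  have h1 := sq_subset_closure hδ hf
  have h2 := inn_subset_enclosed hδ (h.poly n) (h.encl n)
  have h3 := hεs _ hn
  have h4 : closure (inn (δ n) (F n)) ⊆ cthickening s (Φ '' disc) :=
    closure_minimal ((h2.trans h3).trans (thickening_subset_cthickening _ _))
      isClosed_cthickening
  exact (h1.trans h4).trans ((cthickening_subset_of_subset s subset_closure).trans hsU)

end Vale.Agent.P145.Dom
end
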