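import Mathlib
import Vale.Agent.P145.Bdl.B2
import Vale.Agent.P152.MathlibUsed
import Vale.Agent.P145.Bdl.B1
import Vale.Agent.P152.Bd3.B24
import Vale.Agent.P152.Bd3.B15
import Vale.Agent.P152.Bd3.B17
import Vale.Agent.P152.Bd3.B23

set_option linter.all false

section

/-!
Polynomials in the vertex heights, the cone of polynomials with nonnegative coefficients, and
their integrals.
-/

namespace Vale.Agent.P145.Top

open MeasureTheory

/-- Real heights at the vertices of the lattice. -/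
abbrev Om := ℤ × ℤ → ℝ

/-- Polynomials in the heights, with coefficients generated by `P`. -/
inductive Pol (P : ℝ → Prop) : (Om → ℝ) → Prop
  | mon (v : List (ℤ × ℤ)) : Pol P (fun ω => (v.map ω).prod)
  | zero : Pol P (fun _ => 0)
  | add {f g : Om → ℝ} : Pol P f → Pol P g → Pol P (fun ω => f ω + g ω)
  | smul {f : Om → ℝ} (c : ℝ) : P c → Pol P f → Pol P (fun ω => c * f ω)

/-- `δ² ∑_{v ∈ B} ω(v) f(δ v)`. -/
noncomputable def hB (B : Finset (ℤ × ℤ)) (δ : ℝ) (f : ℝ × ℝ → ℝ) (ω : Om) : ℝ :=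
  δ ^ 2 * ∑ v ∈ B, ω v * f (δ * v.1, δ * v.2)

/-- Product over a list of test functions. -/
noncomputable def hl (B : Finset (ℤ × ℤ)) (δ : ℝ) (l : List (ℝ × ℝ → ℝ)) (ω : Om) : ℝ :=
  (l.map fun f => hB B δ f ω).prod

theorem Pol.of_eq {P : ℝ → Prop} {f g : Om → ℝ} (hf : Pol P f) (h : ∀ ω, f ω = g ω) : Pol P g := by
  have : f = g := funext h
  rwa [← this]

theorem Pol.cons {P : ℝ → Prop} {g : Om → ℝ} (hg : Pol P g) (v : ℤ × ℤ) :
    Pol P (fun ω => ω v * g ω) := by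
  induction hg with
  | mon l => exact (Pol.mon (P := P) (v :: l)).of_eq fun ω => by simp
  | zero => exact Pol.zero.of_eq fun ω => by simp
  | add _ _ h1 h2 => exact (h1.add h2).of_eq fun ω => by ring
  | smul c hc _ h1 => exact (h1.smul c hc).of_eq fun ω => by ring

theorem Pol.sum {P : ℝ → Prop} {ι : Type*} (s : Finset ι) (g : ι → Om → ℝ)
    (h : ∀ i ∈ s, Pol P (g i)) : Pol P (fun ω => ∑ i ∈ s, g i ω) := by
  classical
  induction s using Finset.induction_on with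
  | empty => exact Pol.zero.of_eq fun ω => by simp
  | insert a s ha ih =>
    refine ((h a (Finset.mem_insert_self _ _)).add
      (ih fun i hi => h i (Finset.mem_insert_of_mem hi))).of_eq fun ω => ?_
    rw [Finset.sum_insert ha]

theorem Pol.hB {P : ℝ → Prop} {g : Om → ℝ} (hg : Pol P g) {B : Finset (ℤ × ℤ)} {δ : ℝ}
    {f : ℝ × ℝ → ℝ} (h : ∀ v ∈ B, P (δ ^ 2 * f (δ * v.1, δ * v.2))) :
    Pol P (fun ω => hB B δ f ω * g ω) := by
  refine (Pol.sum B (fun v ω => (δ ^ 2 * f (δ * v.1, δ * v.2)) * (ω v * g ω))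
    fun v hv => (hg.cons v).smul _ (h v hv)).of_eq fun ω => ?_
  unfold Top.hB
  rw [Finset.mul_sum, Finset.sum_mul]
  exact Finset.sum_congr rfl fun v _ => by ring

theorem Pol.one {P : ℝ → Prop} : Pol P (fun _ => 1) := (Pol.mon (P := P) []).of_eq fun ω => by simp

/-- The cone. -/
abbrev Cone : (Om → ℝ) → Prop := Pol (fun c => 0 ≤ c)

/-- The algebra. -/
abbrev Alg : (Om → ℝ) → Prop := Pol (fun _ => True)

theorem Pol.alg {P : ℝ → Prop} {g : Om → ℝ} (hg : Pol P g) : Alg g := by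
  induction hg with
  | mon l => exact Pol.mon l
  | zero => exact Pol.zero
  | add _ _ h1 h2 => exact h1.add h2
  | smul c _ _ h1 => exact h1.smul c trivial

theorem Cone.hB {g : Om → ℝ} (hg : Cone g) {B : Finset (ℤ × ℤ)} {δ : ℝ}
    {f : ℝ × ℝ → ℝ} (h : ∀ z, 0 ≤ f z) : Cone (fun ω => Top.hB B δ f ω * g ω) :=
  Pol.hB hg fun _ _ => mul_nonneg (sq_nonneg _) (h _)

theorem Alg.hB {g : Om → ℝ} (hg : Alg g) {B : Finset (ℤ × ℤ)} {δ : ℝ}
    {f : ℝ × ℝ → ℝ} : Alg (fun ω => Top.hB B δ f ω * g ω) :=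
  Pol.hB hg fun _ _ => trivial

theorem Alg.mul {f g : Om → ℝ} (hf : Alg f) (hg : Alg g) : Alg (fun ω => f ω * g ω) := by
  induction hf with
  | mon l =>
    induction l with
    | nil => exact hg.of_eq fun ω => by simp
    | cons v l ih => exact (ih.cons v).of_eq fun ω => by simp only [List.map_cons, List.prod_cons]; ring
  | zero => exact Pol.zero.of_eq fun ω => by simp
  | add _ _ h1 h2 => exact (h1.add h2).of_eq fun ω => by ring
  | smul c hc _ h1 => exact (h1.smul c hc).of_eq fun ω => by ring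

theorem Alg.neg {f : Om → ℝ} (hf : Alg f) : Alg (fun ω => - f ω) :=
  (hf.smul (-1) trivial).of_eq fun ω => by ring

theorem Alg.sub {f g : Om → ℝ} (hf : Alg f) (hg : Alg g) : Alg (fun ω => f ω - g ω) :=
  (hf.add hg.neg).of_eq fun ω => by ring

theorem alg_hB {B : Finset (ℤ × ℤ)} {δ : ℝ} {f : ℝ × ℝ → ℝ} : Alg (hB B δ f) :=
  (Alg.hB (g := fun _ => 1) Pol.one).of_eq fun ω => by ring

theorem Alg.pow {f : Om → ℝ} (hf : Alg f) (k : ℕ) : Alg (fun ω => f ω ^ k) := by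
  induction k with
  | zero => exact Pol.one.of_eq fun ω => by simp only [pow_zero]
  | succ k ih => exact (hf.mul ih).of_eq fun ω => by ring

theorem alg_hl {B : Finset (ℤ × ℤ)} {δ : ℝ} (l : List (ℝ × ℝ → ℝ)) : Alg (hl B δ l) := by
  induction l with
  | nil => exact Pol.one.of_eq fun ω => by simp [hl]
  | cons f l ih => exact (Alg.hB (B := B) (δ := δ) ih (f := f)).of_eq fun ω => by simp [hl]

theorem cone_hl {B : Finset (ℤ × ℤ)} {δ : ℝ} (l : List (ℝ × ℝ → ℝ)) (h : ∀ f ∈ l, ∀ z, 0 ≤ f z) :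
    Cone (hl B δ l) := by
  induction l with
  | nil => exact Pol.one.of_eq fun ω => by simp [hl]
  | cons f l ih =>
    exact (Cone.hB (B := B) (δ := δ) (ih fun g hg => h g (List.mem_cons_of_mem _ hg))
      (h f List.mem_cons_self)).of_eq fun ω => by simp [hl]

theorem cone_pow {B : Finset (ℤ × ℤ)} {δ : ℝ} {f : ℝ × ℝ → ℝ} (h : ∀ z, 0 ≤ f z) (k : ℕ) :
    Cone (fun ω => hB B δ f ω ^ k) := by
  induction k with
  | zero => exact Pol.one.of_eq fun ω => by simp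
  | succ k ih => exact (Cone.hB ih h).of_eq fun ω => by ring

theorem hB_add {B : Finset (ℤ × ℤ)} {δ : ℝ} (f g : ℝ × ℝ → ℝ) (ω : Om) :
    hB B δ (fun z => f z + g z) ω = hB B δ f ω + hB B δ g ω := by
  unfold hB
  rw [← mul_add, ← Finset.sum_add_distrib]
  congr 1
  exact Finset.sum_congr rfl fun v _ => by ring

theorem hB_smul {B : Finset (ℤ × ℤ)} {δ : ℝ} (c : ℝ) (f : ℝ × ℝ → ℝ) (ω : Om) :
    hB B δ (fun z => c * f z) ω = c * hB B δ f ω := by
  unfold hB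
  rw [Finset.mul_sum, Finset.mul_sum, Finset.mul_sum]
  exact Finset.sum_congr rfl fun v _ => by ring

theorem hB_sub {B : Finset (ℤ × ℤ)} {δ : ℝ} (f g : ℝ × ℝ → ℝ) (ω : Om) :
    hB B δ (fun z => f z - g z) ω = hB B δ f ω - hB B δ g ω := by
  unfold hB
  rw [← mul_sub, ← Finset.sum_sub_distrib]
  congr 1
  exact Finset.sum_congr rfl fun v _ => by ring

/-- Domination of the products by the powers of a fixed function. -/
theorem cone_dom {B : Finset (ℤ × ℤ)} {δ : ℝ} {f0 : ℝ × ℝ → ℝ} (h0 : ∀ z, 0 ≤ f0 z) {C : ℝ}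
    (hC : 0 ≤ C) (l : List (ℝ × ℝ → ℝ)) (h : ∀ f ∈ l, ∀ z, 0 ≤ f z ∧ f z ≤ C * f0 z) :
    Cone (fun ω => C ^ l.length * hB B δ f0 ω ^ l.length - hl B δ l ω) := by
  induction l with
  | nil => exact Pol.zero.of_eq fun ω => by simp [hl]
  | cons f l ih =>
    have h1 := ih fun g hg => h g (List.mem_cons_of_mem _ hg)
    have hf := h f List.mem_cons_self
    have h2 := Cone.hB (B := B) (δ := δ) h1 (f := f) fun z => (hf z).1
    have h3 := Cone.hB (B := B) (δ := δ) ((cone_pow (B := B) (δ := δ) h0 l.length).smul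
      (C ^ l.length) (pow_nonneg hC _)) (f := fun z => C * f0 z - f z)
      fun z => sub_nonneg.2 (hf z).2
    refine (h2.add h3).of_eq fun ω => ?_
    rw [hB_sub, hB_smul]
    simp only [List.length_cons, hl, List.map_cons, List.prod_cons]
    ring

/-- All moments of the heights are finite. -/
structure Mom (μ : Measure Om) : Prop where
  prob : IsProbabilityMeasure μ
  int : ∀ v : List (ℤ × ℤ), Integrable (fun ω => (v.map ω).prod) μ

theorem Mom.integrable {μ : Measure Om} (hμ : Mom μ) {P : ℝ → Prop} {g : Om → ℝ} (hg : Pol P g) :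
    Integrable g μ := by
  induction hg with
  | mon l => exact hμ.int l
  | zero => exact integrable_zero _ _ _
  | add _ _ h1 h2 => exact h1.add h2
  | smul c _ _ h1 => exact h1.const_mul c

theorem Mom.nonneg {μ : Measure Om} (hμ : Mom μ)
    (hpos : ∀ v : List (ℤ × ℤ), 0 ≤ ∫ ω, (v.map ω).prod ∂μ) {g : Om → ℝ} (hg : Cone g) :
    0 ≤ ∫ ω, g ω ∂μ := by
  induction hg with
  | mon l => exact hpos l
  | zero => simp
  | add h1 h2 i1 i2 =>
    rw [integral_add (hμ.integrable h1) (hμ.integrable h2)]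
    exact add_nonneg i1 i2
  | smul c hc _ i1 =>
    rw [integral_const_mul]
    exact mul_nonneg hc i1

theorem Mom.mono {μ ν : Measure Om} (hμ : Mom μ) (hν : Mom ν)
    (hm : ∀ v : List (ℤ × ℤ), ∫ ω, (v.map ω).prod ∂μ ≤ ∫ ω, (v.map ω).prod ∂ν) {g : Om → ℝ}
    (hg : Cone g) : ∫ ω, g ω ∂μ ≤ ∫ ω, g ω ∂ν := by
  induction hg with
  | mon l => exact hm l
  | zero => simp
  | add h1 h2 i1 i2 =>
    rw [integral_add (hμ.integrable h1) (hμ.integrable h2),
      integral_add (hν.integrable h1) (hν.integrable h2)]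
    exact add_le_add i1 i2
  | smul c hc _ i1 =>
    rw [integral_const_mul, integral_const_mul]
    exact mul_le_mul_of_nonneg_left i1 hc

/-- Cauchy-Schwarz. -/
theorem Mom.cs {μ : Measure Om} (hμ : Mom μ) {f g : Om → ℝ} (hf : Alg f) (hg : Alg g) :
    (∫ ω, f ω * g ω ∂μ) ^ 2 ≤ (∫ ω, f ω ^ 2 ∂μ) * ∫ ω, g ω ^ 2 ∂μ := by
  have i1 := hμ.integrable (hf.pow 2)
  have i2 := hμ.integrable (hg.pow 2)
  have i3 := hμ.integrable (hf.mul hg)
  set a := ∫ ω, f ω ^ 2 ∂μ with ha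
  set b := ∫ ω, f ω * g ω ∂μ with hb
  set c := ∫ ω, g ω ^ 2 ∂μ with hc
  have hc0 : 0 ≤ c := integral_nonneg fun ω => sq_nonneg _
  have ha0 : 0 ≤ a := integral_nonneg fun ω => sq_nonneg _
  have key : ∀ t : ℝ, 0 ≤ a * (t * t) + 2 * b * t + c := by
    intro t
    have h1 : 0 ≤ ∫ ω, (t * f ω + g ω) ^ 2 ∂μ := integral_nonneg fun ω => sq_nonneg _
    have h2 : ∫ ω, (t * f ω + g ω) ^ 2 ∂μ = a * (t * t) + 2 * b * t + c := by
      have : ∀ ω, (t * f ω + g ω) ^ 2 = (t * t) * f ω ^ 2 + (2 * t) * (f ω * g ω) + g ω ^ 2 :=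
        fun ω => by ring
      simp_rw [this]
      have i4 : Integrable (fun ω => t * t * f ω ^ 2 + 2 * t * (f ω * g ω)) μ :=
        (i1.const_mul _).add (i3.const_mul _)
      rw [integral_add i4 i2, integral_add (i1.const_mul _) (i3.const_mul _),
        integral_const_mul, integral_const_mul]
      ring
    rwa [h2] at h1
  have := discrim_le_zero key
  unfold discrim at this
  linarith

end Vale.Agent.P145.Top
end

section

/-!
Identification of the two-point function, uniqueness, and Gaussian moments.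
-/

namespace Vale.Agent.P145.PT

open MeasureTheory Set Filter Topology

/-- A test function is a difference of two nonnegative ones. -/
theorem exists_decomp {D : Set (ℝ × ℝ)} (hD : IsOpen D) (hb : Bornology.IsBounded D)
    {φ : ℝ × ℝ → ℝ} (hφ : TestOn D φ) : ∃ p m : ℝ × ℝ → ℝ, TestOn D p ∧ TestOn D m ∧
      (∀ z, 0 ≤ p z) ∧ (∀ z, 0 ≤ m z) ∧ ∀ z, φ z = p z - m z := by
  obtain ⟨r, hr, hz⟩ := exists_low hD hb hφ
  obtain ⟨χ, hχs, hχ01, hχ0, hχ1⟩ := exists_cutoff D (show r / 2 < r by linarith only [hr])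
  obtain ⟨B, hB⟩ := hφ.cs.exists_bound_of_continuous hφ.cont
  have hB0 : 0 ≤ B := (norm_nonneg _).trans (hB 0)
  have hsub : tsupport χ ⊆ {x | r / 2 ≤ dd D x} := by
    refine closure_minimal ?_ (isClosed_le continuous_const (dd_cont D))
    intro x hx
    by_contra h
    rw [mem_ofPred_eq, not_le] at h
    exact hx (hχ0 x h.le)
  have hsubD : tsupport χ ⊆ D := fun x hx => by
    have h1 : r / 2 ≤ dd D x := hsub hx
    exact (dd_pos hD hb).1 (by linarith only [hr, h1])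
  have hχT : TestOn D χ := ⟨hχs,
    Metric.isCompact_of_isClosed_isBounded (isClosed_tsupport _) (hb.subset hsubD), hsubD⟩
  refine ⟨fun z => φ z + B * χ z, fun z => B * χ z, hφ.add (hχT.smul B), hχT.smul B,
    fun z => ?_, fun z => mul_nonneg hB0 (hχ01 z).1, fun z => by ring⟩
  change 0 ≤ φ z + B * χ z
  rcases le_or_gt (dd D z) r with h | h
  · rw [hz z h, zero_add]; exact mul_nonneg hB0 (hχ01 z).1
  · rw [hχ1 z h.le, mul_one]
    have := abs_le.1 (hB z)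
    linarith only [this]

theorem L2Fn.sub' {D : Set (ℝ × ℝ)} {T : (ℝ × ℝ → ℝ) → ℝ} {C : ℝ} (hT : L2Fn D T C)
    {f g : ℝ × ℝ → ℝ} (hf : TestOn D f) (hg : TestOn D g) :
    T (fun z => f z - g z) = T f - T g := by
  have h1 := hT.add f (fun z => (-1) * g z) hf (hg.smul (-1))
  rw [hT.smul (-1) g hg] at h1
  have : (fun z => f z - g z) = fun z => f z + (-1) * g z := by funext z; ring
  rw [this, h1]; ring

theorem L2Fn.comb {D : Set (ℝ × ℝ)} {T S : (ℝ × ℝ → ℝ) → ℝ} {C C' : ℝ} (hT : L2Fn D T C)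
    (hS : L2Fn D S C') (c : ℝ) : L2Fn D (fun f => T f + c * S f) (C + |c| * C') where
  add := fun f g hf hg => by rw [hT.add f g hf hg, hS.add f g hf hg]; ring
  smul := fun a f hf => by rw [hT.smul a f hf, hS.smul a f hf]; ring
  bd := fun f hf => by
    calc |T f + c * S f| ≤ |T f| + |c * S f| := abs_add_le _ _
      _ ≤ C * Real.sqrt (∫ z, f z ^ 2) + |c| * (C' * Real.sqrt (∫ z, f z ^ 2)) := by
          refine add_le_add (hT.bd f hf) ?_
          rw [abs_mul]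
          exact mul_le_mul_of_nonneg_left (hS.bd f hf) (abs_nonneg c)
      _ = _ := by ring

theorem L2Fn.neg {D : Set (ℝ × ℝ)} {T : (ℝ × ℝ → ℝ) → ℝ} {C : ℝ} (hT : L2Fn D T C) :
    L2Fn D (fun f => - T f) C where
  add := fun f g hf hg => by rw [hT.add f g hf hg]; ring
  smul := fun a f hf => by rw [hT.smul a f hf]; ring
  bd := fun f hf => by rw [abs_neg]; exact hT.bd f hf

theorem le_zero_of {D : Set (ℝ × ℝ)} (hD : IsOpen D) (hb : Bornology.IsBounded D)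
    {T : (ℝ × ℝ → ℝ) → ℝ} {C : ℝ} (hT : L2Fn D T C)
    (heq : ∀ ψ, TestOn D ψ → T (lap ψ) = 0)
    (hdec : ∀ ε : ℝ, 0 < ε → ∃ r : ℝ, 0 < r ∧ ∀ x ∈ D, dd D x < r →
      T (bump (dd D x / 2) x) ≤ ε)
    {θ : ℝ × ℝ → ℝ} (hθ : TestOn D θ) (hθ0 : ∀ z, 0 ≤ θ z) : T θ ≤ 0 := by
  have hV := V_nonneg hb hθ
  have h : ∀ η : ℝ, 0 < η → T θ ≤ Real.sqrt (V D θ * η) + η := by
    intro η hη
    obtain ⟨ψ, hψ, hE, hTψ⟩ := lemB hD hb hT (TestOn.zero D)
      (fun ψ hψ => by rw [heq ψ hψ]; simp) hdec hθ hθ0 hη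
    have hE' : energy ψ ≤ η := by simpa only [zero_mul, integral_zero, zero_add] using hE
    have h1 := pair_le hb hθ hψ
    have h2 : ∫ z, θ z * ψ z ≤ Real.sqrt (V D θ * η) := by
      refine Real.le_sqrt_of_sq_le (h1.trans ?_)
      exact mul_le_mul_of_nonneg_left hE' hV
    linarith
  have ht : Tendsto (fun η : ℝ => Real.sqrt (V D θ * η) + η) (𝓝[>] 0) (𝓝 0) := by
    have : Continuous (fun η : ℝ => Real.sqrt (V D θ * η) + η) := by fun_prop
    have h0 := this.tendsto 0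
    simp only [mul_zero, Real.sqrt_zero, add_zero] at h0
    exact h0.mono_left nhdsWithin_le_nhds
  exact ge_of_tendsto ht (by
    filter_upwards [self_mem_nhdsWithin] with η hη using h η hη)

/-- Uniqueness: an `L²`-bounded functional which is harmonic and decays at the boundary is `0`. -/
theorem uniq {D : Set (ℝ × ℝ)} (hD : IsOpen D) (hb : Bornology.IsBounded D)
    {T : (ℝ × ℝ → ℝ) → ℝ} {C : ℝ} (hT : L2Fn D T C)
    (heq : ∀ ψ, TestOn D ψ → T (lap ψ) = 0)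
    (hdec : ∀ ε : ℝ, 0 < ε → ∃ r : ℝ, 0 < r ∧ ∀ x ∈ D, dd D x < r →
      |T (bump (dd D x / 2) x)| ≤ ε)
    {θ : ℝ × ℝ → ℝ} (hθ : TestOn D θ) : T θ = 0 := by
  have hnn : ∀ θ, TestOn D θ → (∀ z, 0 ≤ θ z) → T θ = 0 := by
    intro θ hθ hθ0
    refine le_antisymm ?_ ?_
    · refine le_zero_of hD hb hT heq (fun ε hε => ?_) hθ hθ0
      obtain ⟨r, hr, h⟩ := hdec ε hε
      exact ⟨r, hr, fun x hx hxr => (le_abs_self _).trans (h x hx hxr)⟩
    · have := le_zero_of hD hb hT.neg (fun ψ hψ => by rw [heq ψ hψ, neg_zero]) (fun ε hε => by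
        obtain ⟨r, hr, h⟩ := hdec ε hε
        exact ⟨r, hr, fun x hx hxr => (neg_le_abs _).trans (h x hx hxr)⟩) hθ hθ0
      linarith only [this]
  obtain ⟨p, m, hp, hm, hp0, hm0, hpm⟩ := exists_decomp hD hb hθ
  have : θ = fun z => p z - m z := funext hpm
  rw [this, hT.sub' hp hm, hnn p hp hp0, hnn m hm hm0, sub_zero]

/-- The properties of a limit two-point function: symmetric, linear, positive, Schwinger-Dyson
equation `M(-Δψ, φ) = κ ∫ ψ φ`, boundedness in `L²`, and decay at the boundary. -/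
structure Cov (D : Set (ℝ × ℝ)) (κ : ℝ) (M : (ℝ × ℝ → ℝ) → (ℝ × ℝ → ℝ) → ℝ) : Prop where
  symm : ∀ f g, TestOn D f → TestOn D g → M f g = M g f
  pos : ∀ f, TestOn D f → 0 ≤ M f f
  bd : ∀ g, TestOn D g → ∃ C, L2Fn D (fun f => M f g) C
  sd : ∀ ψ g, TestOn D ψ → TestOn D g → M (lap ψ) g = - (κ * ∫ z, ψ z * g z)
  dec : ∀ g, TestOn D g → (∀ z, 0 ≤ g z) → ∀ ε : ℝ, 0 < ε → ∃ r : ℝ, 0 < r ∧
    ∀ x ∈ D, dd D x < r → M (bump (dd D x / 2) x) g ≤ ε

theorem Cov.addl {D : Set (ℝ × ℝ)} {κ : ℝ} {M : (ℝ × ℝ → ℝ) → (ℝ × ℝ → ℝ) → ℝ} (h : Cov D κ M)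
    {f g k : ℝ × ℝ → ℝ} (hf : TestOn D f) (hg : TestOn D g) (hk : TestOn D k) :
    M (fun z => f z + g z) k = M f k + M g k := by
  obtain ⟨C, hC⟩ := h.bd k hk
  exact hC.add f g hf hg

theorem Cov.smull {D : Set (ℝ × ℝ)} {κ : ℝ} {M : (ℝ × ℝ → ℝ) → (ℝ × ℝ → ℝ) → ℝ} (h : Cov D κ M)
    {f k : ℝ × ℝ → ℝ} (c : ℝ) (hf : TestOn D f) (hk : TestOn D k) :
    M (fun z => c * f z) k = c * M f k := by
  obtain ⟨C, hC⟩ := h.bd k hk
  exact hC.smul c f hf

theorem Cov.quad {D : Set (ℝ × ℝ)} {κ : ℝ} {M : (ℝ × ℝ → ℝ) → (ℝ × ℝ → ℝ) → ℝ} (h : Cov D κ M)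
    {f g : ℝ × ℝ → ℝ} (hf : TestOn D f) (hg : TestOn D g) (c : ℝ) :
    M (fun z => f z + c * g z) (fun z => f z + c * g z)
      = M f f + 2 * c * M f g + c ^ 2 * M g g := by
  have hcg := hg.smul c
  have hs := hf.add hcg
  have e1 : M (fun z => f z + c * g z) (fun z => f z + c * g z)
      = M f (fun z => f z + c * g z) + M (fun z => c * g z) (fun z => f z + c * g z) :=
    h.addl hf hcg hs
  have e2 : M (fun z => c * g z) (fun z => f z + c * g z)
      = c * M g (fun z => f z + c * g z) := h.smull c hg hs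
  have e3 : M f (fun z => f z + c * g z) = M f f + c * M f g := by
    rw [h.symm f _ hf hs]
    have : M (fun z => f z + c * g z) f = M f f + M (fun z => c * g z) f := h.addl hf hcg hf
    rw [this, h.smull c hg hf, h.symm g f hg hf]
  have e4 : M g (fun z => f z + c * g z) = M f g + c * M g g := by
    rw [h.symm g _ hg hs]
    have : M (fun z => f z + c * g z) g = M f g + M (fun z => c * g z) g := h.addl hf hcg hg
    rw [this, h.smull c hg hg]
  rw [e1, e2, e3, e4]; ring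

/-- `M(φ + Δψ, φ + Δψ) = M(φ, φ) - κ (2 ∫ φ ψ - ∫ |∇ψ|²)`. -/
theorem Cov.lapquad {D : Set (ℝ × ℝ)} {κ : ℝ} {M : (ℝ × ℝ → ℝ) → (ℝ × ℝ → ℝ) → ℝ}
    (h : Cov D κ M) {φ ψ : ℝ × ℝ → ℝ} (hφ : TestOn D φ) (hψ : TestOn D ψ) :
    M (fun z => φ z + 1 * lap ψ z) (fun z => φ z + 1 * lap ψ z)
      = M φ φ - κ * ((2 * ∫ z, φ z * ψ z) - energy ψ) := by
  rw [h.quad hφ hψ.lap 1, h.symm φ _ hφ hψ.lap, h.sd ψ φ hψ hφ, h.sd ψ _ hψ hψ.lap,
    energy_eq hψ]
  have : ∫ z, ψ z * φ z = ∫ z, φ z * ψ z := by congr 1; funext z; ring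
  rw [this]; ring

/-- The lower bound holds for free. -/
theorem Cov.lower {D : Set (ℝ × ℝ)} {κ : ℝ} (hκ : 0 < κ)
    {M : (ℝ × ℝ → ℝ) → (ℝ × ℝ → ℝ) → ℝ} (h : Cov D κ M) {φ : ℝ × ℝ → ℝ} (hφ : TestOn D φ) :
    κ * V D φ ≤ M φ φ := by
  have : V D φ ≤ M φ φ / κ := V_le fun ψ hψ => by
    rw [le_div_iff₀ hκ]
    have h1 := h.pos _ (hφ.add (hψ.lap.smul 1))
    rw [h.lapquad hφ hψ] at h1
    linarith
  rwa [le_div_iff₀ hκ, mul_comm] at this

/-- A nonnegative test function is close to a Laplacian in the seminorm of `M`. -/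
theorem Cov.approx {D : Set (ℝ × ℝ)} (hD : IsOpen D) (hb : Bornology.IsBounded D) {κ : ℝ}
    (hκ : 0 < κ) {M : (ℝ × ℝ → ℝ) → (ℝ × ℝ → ℝ) → ℝ} (h : Cov D κ M) {φ : ℝ × ℝ → ℝ}
    (hφ : TestOn D φ) (hφ0 : ∀ z, 0 ≤ φ z) {η : ℝ} (hη : 0 < η) : ∃ ψ, TestOn D ψ ∧
      M (fun z => φ z + 1 * lap ψ z) (fun z => φ z + 1 * lap ψ z) ≤ η := by
  obtain ⟨C, hC⟩ := h.bd φ hφ
  have hT : L2Fn D (fun f => κ⁻¹ * M f φ) (κ⁻¹ * C) :=
    { add := fun f g hf hg => by rw [h.addl hf hg hφ]; ring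
      smul := fun c f hf => by rw [h.smull c hf hφ]; ring
      bd := fun f hf => by
        rw [abs_mul, abs_of_pos (inv_pos.2 hκ), mul_assoc]
        exact mul_le_mul_of_nonneg_left (hC.bd f hf) (inv_pos.2 hκ).le }
  obtain ⟨ψ, hψ, hE, hTψ⟩ := lemB hD hb hT hφ (fun ψ hψ => by
      rw [h.sd ψ φ hψ hφ]; field_simp)
    (fun ε hε => by
      obtain ⟨r, hr, hd⟩ := h.dec φ hφ hφ0 (κ * ε) (by (clear * - hκ hε; positivity))
      refine ⟨r, hr, fun x hx hxr => ?_⟩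
      have h1 := hd x hx hxr
      rw [inv_mul_le_iff₀ hκ]
      exact h1) hφ hφ0 (show 0 < η / (2 * κ) by (clear * - hη hκ; positivity))
  refine ⟨ψ, hψ, ?_⟩
  rw [h.lapquad hφ hψ]
  rw [inv_mul_le_iff₀ hκ] at hTψ
  have e : κ * (η / (2 * κ)) = η / 2 := by (clear * - hκ hη; field_simp)
  have h2 := mul_le_mul_of_nonneg_left hE hκ.le
  rw [mul_add, e] at h2 hTψ
  linarith only [hTψ, h2]

/-- Identification of the two-point function with the Green function of `D`. -/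
theorem Cov.eq_V {D : Set (ℝ × ℝ)} (hD : IsOpen D) (hb : Bornology.IsBounded D) {κ : ℝ}
    (hκ : 0 < κ) {M : (ℝ × ℝ → ℝ) → (ℝ × ℝ → ℝ) → ℝ} (h : Cov D κ M) {φ : ℝ × ℝ → ℝ}
    (hφ : TestOn D φ) : M φ φ = κ * V D φ := by
  refine le_antisymm ?_ (h.lower hκ hφ)
  refine le_of_forall_pos_le_add fun η hη => ?_
  obtain ⟨p, m, hp, hm, hp0, hm0, hpm⟩ := exists_decomp hD hb hφ
  obtain ⟨ψ1, hψ1, h1⟩ := h.approx hD hb hκ hp hp0 (show 0 < η / 4 by linarith)
  obtain ⟨ψ2, hψ2, h2⟩ := h.approx hD hb hκ hm hm0 (show 0 < η / 4 by linarith only [hη])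
  set a : ℝ × ℝ → ℝ := fun z => p z + 1 * lap ψ1 z with ha
  set b : ℝ × ℝ → ℝ := fun z => m z + 1 * lap ψ2 z with hb'
  have hat : TestOn D a := hp.add (hψ1.lap.smul 1)
  have hbt : TestOn D b := hm.add (hψ2.lap.smul 1)
  set ψ : ℝ × ℝ → ℝ := fun z => ψ1 z + (-1) * ψ2 z with hψd
  have hψ : TestOn D ψ := hψ1.add (hψ2.smul (-1))
  have e1 : (fun z => φ z + 1 * lap ψ z) = fun z => a z + (-1) * b z := by
    funext z
    rw [hψd, lap_add hψ1.sm (contDiff_const.mul hψ2.sm), lap_smul hψ2.sm, hpm z, ha, hb']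
    ring
  have e2 := h.lapquad hφ hψ
  rw [e1, h.quad hat hbt (-1)] at e2
  -- M a b ≥ -(M a a + M b b)/2
  have e3 := h.pos _ (hat.add (hbt.smul 1))
  rw [h.quad hat hbt 1] at e3
  have e4 := mul_le_mul_of_nonneg_left (le_V hb hφ hψ) hκ.le
  linarith

end Vale.Agent.P145.PT
end

section

/-!
Gaussian moments: the recursion for the limit moments, and the method of moments.
-/

namespace Vale.Agent.P145.PT

open MeasureTheory Set Filter Topology

/-- Moments of the centred Gaussian law of variance `v`. -/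
noncomputable def gm (v : ℝ) : ℕ → ℝ
  | 0 => 1
  | 1 => 0
  | n + 2 => (n + 1) * v * gm v n

/-- The limit moments are Gaussian. `A n θ` is the limit of `E[H(θ) H(φ)^n]`, `a n` the limit of
`E[H(φ)^n]`. -/
theorem moments_gauss {D : Set (ℝ × ℝ)} (hD : IsOpen D) (hb : Bornology.IsBounded D) {κ : ℝ}
    (hκ : 0 < κ) {φ : ℝ × ℝ → ℝ} (hφ : TestOn D φ) {M : (ℝ × ℝ → ℝ) → (ℝ × ℝ → ℝ) → ℝ}
    (hM : Cov D κ M) (A : ℕ → (ℝ × ℝ → ℝ) → ℝ) (a : ℕ → ℝ)
    (hA1 : A 1 φ = M φ φ) (ha0 : a 0 = 1) (ha : ∀ n, a (n + 1) = A n φ)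
    (hbd : ∀ n, ∃ C, L2Fn D (A n) C)
    (hsd0 : ∀ ψ, TestOn D ψ → A 0 (lap ψ) = 0)
    (hsd : ∀ n ψ, TestOn D ψ →
      A (n + 1) (lap ψ) = - (κ * (n + 1) * (∫ z, ψ z * φ z) * a n))
    (hdec : ∀ n, ∀ ε : ℝ, 0 < ε → ∃ r : ℝ, 0 < r ∧ ∀ x ∈ D, dd D x < r →
      |A n (bump (dd D x / 2) x)| ≤ ε) :
    ∀ n, a n = gm (κ * V D φ) n := by
  have h1 : a 1 = 0 := by
    obtain ⟨C, hC⟩ := hbd 0
    rw [ha 0]
    exact uniq hD hb hC hsd0 (hdec 0) hφ
  have h2 : ∀ n, a (n + 2) = (n + 1) * (κ * V D φ) * a n := by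
    intro n
    obtain ⟨C, hC⟩ := hbd (n + 1)
    obtain ⟨C1, hC1⟩ := hbd 1
    have hT := hC.comb hC1 (-((n + 1) * a n))
    have h := uniq hD hb hT (fun ψ hψ => by
      have e1 := hsd n ψ hψ
      have e2 := hsd 0 ψ hψ
      rw [zero_add] at e2
      rw [e1, e2, ha0]; push_cast; ring) (fun ε hε => by
      set c : ℝ := |(-((n + 1) * a n))| with hc
      have hc0 : 0 ≤ c := abs_nonneg _
      obtain ⟨r1, hr1, hd1⟩ := hdec (n + 1) (ε / 2) (by (clear * - hε; positivity))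
      obtain ⟨r2, hr2, hd2⟩ := hdec 1 (ε / (2 * (c + 1))) (by (clear * - hε; positivity))
      refine ⟨min r1 r2, lt_min hr1 hr2, fun x hx hxr => ?_⟩
      have e1 := hd1 x hx (lt_of_lt_of_le hxr (min_le_left _ _))
      have e2 := hd2 x hx (lt_of_lt_of_le hxr (min_le_right _ _))
      calc |A (n + 1) (bump (dd D x / 2) x) + -((n + 1) * a n) * A 1 (bump (dd D x / 2) x)|
          ≤ |A (n + 1) (bump (dd D x / 2) x)|
            + |(-((n + 1) * a n)) * A 1 (bump (dd D x / 2) x)| := abs_add_le _ _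
        _ ≤ ε / 2 + c * (ε / (2 * (c + 1))) := by
            rw [abs_mul]
            exact add_le_add e1 (mul_le_mul_of_nonneg_left e2 hc0)
        _ ≤ ε := by
            have : c * (ε / (2 * (c + 1))) = ε / 2 * (c / (c + 1)) := by (clear * - hc0 hε; field_simp)
            rw [this]
            have : c / (c + 1) ≤ 1 := by rw [div_le_one (by linarith only [hc0])]; linarith only []
            nlinarith only [hε, this]) hφ
    rw [hA1, hM.eq_V hD hb hκ hφ] at h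
    rw [ha (n + 1)]
    linarith only [h]
  have h3 : ∀ n, a n = gm (κ * V D φ) n ∧ a (n + 1) = gm (κ * V D φ) (n + 1) := by
    intro n
    induction n with
    | zero => exact ⟨ha0, h1⟩
    | succ n ih =>
      refine ⟨ih.2, ?_⟩
      rw [h2 n, ih.1]; rfl
  exact fun n => (h3 n).1

/-! Method of moments. -/

/-- Taylor remainder of `exp (I x)`. -/
noncomputable def RR (n : ℕ) (x : ℝ) : ℂ :=
  Complex.exp (Complex.I * x) - ∑ k ∈ Finset.range n, (Complex.I * x) ^ k / (k.factorial : ℂ)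

theorem RR_zero_val (n : ℕ) : RR (n + 1) 0 = 0 := by
  unfold RR
  rw [Finset.sum_range_succ']
  simp

theorem RR_hasDeriv (n : ℕ) (x : ℝ) : HasDerivAt (RR (n + 1)) (Complex.I * RR n x) x := by
  unfold RR
  have hl : HasDerivAt (fun x : ℝ => Complex.I * (x : ℂ)) Complex.I x := by
    have := (Complex.ofRealCLM.hasDerivAt (x := x)).const_mul Complex.I
    simpa only [Complex.ofRealCLM_apply, Complex.ofReal_one, mul_one] using this
  have h1 : HasDerivAt (fun x : ℝ => Complex.exp (Complex.I * x))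
      (Complex.exp (Complex.I * x) * Complex.I) x := by
    exact (Complex.hasDerivAt_exp _).comp x hl
  have h2 : HasDerivAt (fun x : ℝ => ∑ k ∈ Finset.range (n + 1),
      (Complex.I * (x : ℂ)) ^ k / (k.factorial : ℂ))
      (Complex.I * ∑ k ∈ Finset.range n, (Complex.I * x) ^ k / (k.factorial : ℂ)) x := by
    have e1 : (fun x : ℝ => ∑ k ∈ Finset.range (n + 1),
        (Complex.I * (x : ℂ)) ^ k / (k.factorial : ℂ))
        = fun x : ℝ => (∑ k ∈ Finset.range n,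
        (Complex.I * (x : ℂ)) ^ (k + 1) / ((k + 1).factorial : ℂ)) + 1 := by
      funext y; rw [Finset.sum_range_succ']; simp only [pow_zero, Nat.factorial_zero, Nat.cast_one, ne_eq, one_ne_zero, not_false_eq_true, div_self]
    rw [e1, Finset.mul_sum]
    refine HasDerivAt.add_const _ ?_
    refine HasDerivAt.fun_sum fun k _ => ?_
    have h3 := (hl.pow (k + 1)).div_const ((k + 1).factorial : ℂ)
    refine h3.congr_deriv ?_
    rw [Nat.factorial_succ]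
    push_cast
    have hk : ((k : ℂ) + 1) ≠ 0 := by exact_mod_cast Nat.succ_ne_zero k
    have hf : (k.factorial : ℂ) ≠ 0 := by exact_mod_cast Nat.factorial_ne_zero k
    field_simp
  refine (h1.sub h2).congr_deriv ?_
  ring

theorem RR_bound_nonneg (n : ℕ) : ∀ x : ℝ, 0 ≤ x → ‖RR n x‖ ≤ x ^ n / n.factorial := by
  induction n with
  | zero =>
    intro x hx
    simp only [RR, mul_comm Complex.I, Finset.range_zero, Finset.sum_empty, sub_zero, Complex.norm_exp_ofReal_mul_I, pow_zero, Nat.factorial_zero, Nat.cast_one, ne_eq, one_ne_zero, not_false_eq_true, div_self, Std.le_refl]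
  | succ n ih =>
    intro x hx
    have key := image_norm_le_of_norm_deriv_right_le_deriv_boundary (a := 0) (b := x)
      (f := RR (n + 1)) (f' := fun x => Complex.I * RR n x)
      (B := fun x => x ^ (n + 1) / (n + 1).factorial) (B' := fun x => x ^ n / n.factorial)
      (fun y _ => (RR_hasDeriv n y).continuousAt.continuousWithinAt)
      (fun y _ => (RR_hasDeriv n y).hasDerivWithinAt)
      (by rw [RR_zero_val]; simp only [norm_zero, ne_eq, Nat.add_eq_zero_iff, one_ne_zero, and_false, not_false_eq_true, zero_pow, zero_div, Std.le_refl])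
      (fun y => by
        have := (hasDerivAt_pow (n + 1) y).div_const ((n + 1).factorial : ℝ)
        refine this.congr_deriv ?_
        rw [Nat.factorial_succ]; push_cast
        have hk : ((n : ℝ) + 1) ≠ 0 := by (clear * -; positivity)
        have hf : (n.factorial : ℝ) ≠ 0 := by positivity
        field_simp)
      (fun y hy => by
        simp only [norm_mul, Complex.norm_I, one_mul]
        exact ih y hy.1)
    exact key ⟨hx, le_rfl⟩

theorem RR_bound (n : ℕ) (x : ℝ) : ‖RR n x‖ ≤ |x| ^ n / n.factorial := by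
  rcases le_total 0 x with h | h
  · rw [abs_of_nonneg h]; exact RR_bound_nonneg n x h
  · rw [abs_of_nonpos h]
    have h1 := RR_bound_nonneg n (-x) (by linarith)
    have h2 : RR n (-x) = (starRingEnd ℂ) (RR n x) := by
      unfold RR
      rw [map_sub, ← Complex.exp_conj, map_sum]
      congr 1
      · simp
      · refine Finset.sum_congr rfl fun k _ => ?_
        simp only [Complex.ofReal_neg, mul_neg, map_div₀, map_pow, map_mul, Complex.conj_I, Complex.conj_ofReal, neg_mul, map_natCast]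
    rw [h2, Complex.norm_conj] at h1
    exact h1

theorem gm_even (v : ℝ) (k : ℕ) : gm v (2 * k) / (2 * k).factorial = (v / 2) ^ k / k.factorial := by
  induction k with
  | zero => simp only [gm, mul_zero, Nat.factorial_zero, Nat.cast_one, ne_eq, one_ne_zero, not_false_eq_true, div_self, pow_zero]
  | succ k ih =>
    have e : 2 * (k + 1) = 2 * k + 2 := by ring
    rw [e]
    change ((2 * k : ℕ) + 1) * v * gm v (2 * k) / _ = _
    rw [Nat.factorial_succ (2 * k + 1), Nat.factorial_succ (2 * k), Nat.factorial_succ k, pow_succ]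
    have hf : ((2 * k).factorial : ℝ) ≠ 0 := by positivity
    have hf2 : (k.factorial : ℝ) ≠ 0 := by positivity
    rw [div_eq_div_iff hf hf2] at ih
    push_cast
    rw [div_eq_div_iff (by (clear * -; positivity)) (by positivity)]
    linear_combination (2 * (k : ℝ) + 1) * v * (k + 1) * ih

theorem gm_odd (v : ℝ) (k : ℕ) : gm v (2 * k + 1) = 0 := by
  induction k with
  | zero => rfl
  | succ k ih =>
    have e : 2 * (k + 1) + 1 = (2 * k + 1) + 2 := by ring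
    rw [e]
    change _ * v * gm v (2 * k + 1) = 0
    rw [ih, mul_zero]

theorem gm_nonneg {v : ℝ} (hv : 0 ≤ v) (k : ℕ) : 0 ≤ gm v (2 * k) := by
  have h := gm_even v k
  have h1 : 0 ≤ (v / 2) ^ k / k.factorial := by positivity
  rw [← h] at h1
  have hf : (0 : ℝ) < (2 * k).factorial := by positivity
  by_contra hc
  push Not at hc
  exact absurd h1 (not_le.2 (div_neg_of_neg_of_pos hc hf))

/-- The Taylor polynomial with the Gaussian moments. -/
theorem gm_taylor (v : ℝ) (m : ℕ) :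
    ∑ k ∈ Finset.range (2 * m), Complex.I ^ k * (gm v k : ℂ) / (k.factorial : ℂ)
      = ∑ k ∈ Finset.range m, ((-(v / 2) : ℝ) : ℂ) ^ k / (k.factorial : ℂ) := by
  induction m with
  | zero => simp only [mul_zero, Finset.range_zero, Finset.sum_empty, Complex.ofReal_neg, Complex.ofReal_div, Complex.ofReal_ofNat]
  | succ m ih =>
    have e : 2 * (m + 1) = 2 * m + 1 + 1 := by ring
    rw [e, Finset.sum_range_succ, Finset.sum_range_succ, ih, Finset.sum_range_succ, gm_odd]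
    have h := gm_even v m
    have h' : (gm v (2 * m) : ℂ) / ((2 * m).factorial : ℂ)
        = ((v / 2 : ℝ) : ℂ) ^ m / (m.factorial : ℂ) := by exact_mod_cast congrArg Complex.ofReal h
    rw [mul_div_assoc, h', pow_mul, Complex.I_sq]
    simp only [Complex.ofReal_zero, mul_zero, zero_div, add_zero]
    congr 1
    rw [Complex.ofReal_neg, neg_pow ((v / 2 : ℝ) : ℂ)]
    ring

/-- Method of moments for a centred Gaussian limit. -/
theorem charfun_of_moments {ι : Type*} {l : Filter ι} {Ω : ι → Type*}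
    [∀ i, MeasurableSpace (Ω i)] (μ : ∀ i, Measure (Ω i)) [∀ i, IsProbabilityMeasure (μ i)]
    (X : ∀ i, Ω i → ℝ) (hint : ∀ i n, Integrable (fun ω => X i ω ^ n) (μ i)) {v : ℝ}
    (hmom : ∀ n, Tendsto (fun i => ∫ ω, X i ω ^ n ∂μ i) l (𝓝 (gm v n))) :
    Tendsto (fun i => ∫ ω, Complex.exp (Complex.I * (X i ω : ℂ)) ∂μ i) l
      (𝓝 (Complex.exp ((-(v / 2) : ℝ) : ℂ))) := by
  rw [Metric.tendsto_nhds]
  intro ε hε
  -- choose m
  have t1 : Tendsto (fun m : ℕ => (v / 2) ^ m / (m.factorial : ℝ)) atTop (𝓝 0) :=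
    FloorSemiring.tendsto_pow_div_factorial_atTop (v / 2)
  have t2 : Tendsto (fun m : ℕ => ∑ k ∈ Finset.range m,
      ((-(v / 2) : ℝ) : ℂ) ^ k / (k.factorial : ℂ)) atTop
      (𝓝 (Complex.exp ((-(v / 2) : ℝ) : ℂ))) := by
    have := (NormedSpace.expSeries_div_hasSum_exp (𝔸 := ℂ)
      ((-(v / 2) : ℝ) : ℂ)).tendsto_sum_nat
    rwa [← Complex.exp_eq_exp_ℂ] at this
  obtain ⟨m, hm1, hm2⟩ := ((t1.eventually (gt_mem_nhds (show (0 : ℝ) < ε / 8 by positivity))).and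
    (Metric.tendsto_nhds.1 t2 (ε / 4) (by positivity))).exists
  -- moment conditions
  have t3 : Tendsto (fun i => (∫ ω, X i ω ^ (2 * m) ∂μ i) / ((2 * m).factorial : ℝ)) l
      (𝓝 (gm v (2 * m) / ((2 * m).factorial : ℝ))) := (hmom (2 * m)).div_const _
  rw [gm_even] at t3
  have t4 : Tendsto (fun i => ∑ k ∈ Finset.range (2 * m),
      Complex.I ^ k * ((∫ ω, X i ω ^ k ∂μ i : ℝ) : ℂ) / (k.factorial : ℂ)) l
      (𝓝 (∑ k ∈ Finset.range (2 * m), Complex.I ^ k * (gm v k : ℂ) / (k.factorial : ℂ))) := by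
    refine tendsto_finsetSum _ fun k _ => ?_
    exact ((Complex.continuous_ofReal.tendsto _ |>.comp (hmom k)).const_mul _).div_const _
  rw [gm_taylor] at t4
  filter_upwards [t3.eventually (gt_mem_nhds (show (v / 2) ^ m / (m.factorial : ℝ) < ε / 4 by
    linarith only [hε, hm1])), Metric.tendsto_nhds.1 t4 (ε / 4) (by positivity)] with i hi3 hi4
  have hXm : AEStronglyMeasurable (X i) (μ i) := by
    have := (hint i 1).aestronglyMeasurable
    simpa using this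
  have hXc : AEStronglyMeasurable (fun ω => (X i ω : ℂ)) (μ i) :=
    Complex.continuous_ofReal.comp_aestronglyMeasurable hXm
  have ie : Integrable (fun ω => Complex.exp (Complex.I * (X i ω : ℂ))) (μ i) := by
    refine Integrable.of_bound (C := 1) ?_ (ae_of_all _ fun ω => ?_)
    · exact Complex.continuous_exp.comp_aestronglyMeasurable (hXc.const_mul _)
    · rw [mul_comm, Complex.norm_exp_ofReal_mul_I]
  have ik : ∀ k, Integrable (fun ω => (Complex.I * (X i ω : ℂ)) ^ k / (k.factorial : ℂ)) (μ i) := by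
    intro k
    have h1 : Integrable (fun ω => ((X i ω ^ k : ℝ) : ℂ)) (μ i) := (hint i k).ofReal
    have h2 := (h1.const_mul (Complex.I ^ k)).div_const (k.factorial : ℂ)
    refine h2.congr (ae_of_all _ fun ω => ?_)
    simp only [mul_pow, Complex.ofReal_pow]
  have es : ∫ ω, ∑ k ∈ Finset.range (2 * m), (Complex.I * (X i ω : ℂ)) ^ k / (k.factorial : ℂ) ∂μ i
      = ∑ k ∈ Finset.range (2 * m),
        Complex.I ^ k * ((∫ ω, X i ω ^ k ∂μ i : ℝ) : ℂ) / (k.factorial : ℂ) := by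
    rw [integral_finsetSum _ fun k _ => ik k]
    refine Finset.sum_congr rfl fun k _ => ?_
    rw [integral_div]
    congr 1
    have : ∀ ω, (Complex.I * (X i ω : ℂ)) ^ k = Complex.I ^ k * ((X i ω ^ k : ℝ) : ℂ) := by
      intro ω; rw [mul_pow]; push_cast; ring
    simp_rw [this]
    rw [integral_const_mul, integral_complex_ofReal]
  have e1 : ‖(∫ ω, Complex.exp (Complex.I * (X i ω : ℂ)) ∂μ i) - ∑ k ∈ Finset.range (2 * m),
      Complex.I ^ k * ((∫ ω, X i ω ^ k ∂μ i : ℝ) : ℂ) / (k.factorial : ℂ)‖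
      ≤ (∫ ω, X i ω ^ (2 * m) ∂μ i) / ((2 * m).factorial : ℝ) := by
    rw [← es, ← integral_sub ie (integrable_finsetSum _ fun k _ => ik k)]
    calc _ ≤ ∫ ω, ‖RR (2 * m) (X i ω)‖ ∂μ i := norm_integral_le_integral_norm _
      _ ≤ ∫ ω, X i ω ^ (2 * m) / ((2 * m).factorial : ℝ) ∂μ i := by
          refine integral_mono_of_nonneg (ae_of_all _ fun ω => norm_nonneg _)
            ((hint i (2 * m)).div_const _) (ae_of_all _ fun ω => ?_)
          have := RR_bound (2 * m) (X i ω)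
          rwa [pow_mul, sq_abs, ← pow_mul] at this
      _ = _ := integral_div _ _
  rw [dist_eq_norm] at hi4 hm2 ⊢
  calc ‖(∫ ω, Complex.exp (Complex.I * (X i ω : ℂ)) ∂μ i) - Complex.exp ((-(v / 2) : ℝ) : ℂ)‖
      ≤ ‖(∫ ω, Complex.exp (Complex.I * (X i ω : ℂ)) ∂μ i) - ∑ k ∈ Finset.range (2 * m),
      Complex.I ^ k * ((∫ ω, X i ω ^ k ∂μ i : ℝ) : ℂ) / (k.factorial : ℂ)‖
      + ‖(∑ k ∈ Finset.range (2 * m),
      Complex.I ^ k * ((∫ ω, X i ω ^ k ∂μ i : ℝ) : ℂ) / (k.factorial : ℂ))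
        - ∑ k ∈ Finset.range m, ((-(v / 2) : ℝ) : ℂ) ^ k / (k.factorial : ℂ)‖
      + ‖(∑ k ∈ Finset.range m, ((-(v / 2) : ℝ) : ℂ) ^ k / (k.factorial : ℂ))
        - Complex.exp ((-(v / 2) : ℝ) : ℂ)‖ := by
        refine (norm_sub_le_norm_sub_add_norm_sub _ (∑ k ∈ Finset.range m,
          ((-(v / 2) : ℝ) : ℂ) ^ k / (k.factorial : ℂ)) _).trans ?_
        gcongr
        exact norm_sub_le_norm_sub_add_norm_sub _ _ _
    _ < ε := by linarith only [hε, hm2, hi3, hi4, e1]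

end Vale.Agent.P145.PT
end

section

/-!
P145, block F-TOP: the interface between the lattice blocks and the identification of the limit.
-/

namespace Vale.Agent.P145.Top

open Filter Topology Set MeasureTheory
open Vale.Agent.P145.PT Vale.Agent.P145.FP Vale.Agent.P145.Dom

/-- The closed square of mesh `δ` with bottom-left corner `δ f`. -/
def sq (δ : ℝ) (f : ℤ × ℤ) : Set (ℝ × ℝ) :=
  {z | δ * f.1 ≤ z.1 ∧ z.1 ≤ δ * (f.1 + 1) ∧ δ * f.2 ≤ z.2 ∧ z.2 ≤ δ * (f.2 + 1)}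

open Classical in
/-- The faces of `δ ℤ²` contained in `D` (for bounded `D` and `0 < δ`). -/
noncomputable def Fs (δ : ℝ) (D : Set (ℝ × ℝ)) : Finset (ℤ × ℤ) :=
  if h : {f : ℤ × ℤ | sq δ f ⊆ D}.Finite then h.toFinset else ∅

/-- `δ² ∑_v ω(v) f(δ v)`, for `f` of compact support. -/
noncomputable def hv (δ : ℝ) (f : ℝ × ℝ → ℝ) (ω : Om) : ℝ :=
  δ ^ 2 * ∑ᶠ v : ℤ × ℤ, ω v * f (δ * v.1, δ * v.2)

/-- Product over a list of test functions. -/
noncomputable def hvl (δ : ℝ) (l : List (ℝ × ℝ → ℝ)) (ω : Om) : ℝ :=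
  (l.map fun f => hv δ f ω).prod

/-- The heights `h / 2` at the vertices. -/
noncomputable def vh (x : Site → ℤ) : Om := fun v => (x (Sum.inl v) : ℝ) / 2

/-- Expectation in the lattice version of the domain `D`. -/
noncomputable def EE (c δ : ℝ) (D : Set (ℝ × ℝ)) (A : Om → ℝ) : ℝ :=
  ze c (Fs δ D) fun x => A (vh x)

/-- The open cell `a < x + y < b`, `a' < x - y < b'`. -/
def cell (a b a' b' : ℝ) : Set (ℝ × ℝ) :=
  {z | a < z.1 + z.2 ∧ z.1 + z.2 < b ∧ a' < z.1 - z.2 ∧ z.1 - z.2 < b'}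

/-- The closed cell. -/
def ccell (a b a' b' : ℝ) : Set (ℝ × ℝ) :=
  {z | a ≤ z.1 + z.2 ∧ z.1 + z.2 ≤ b ∧ a' ≤ z.1 - z.2 ∧ z.1 - z.2 ≤ b'}

/-- Exterior squares: the complement of `D` is a union of closed axis-parallel squares of a fixed
size (balls of the sup norm). -/
def ThickC (D : Set (ℝ × ℝ)) : Prop :=
  ∃ g : ℝ, 0 < g ∧ ∀ x ∉ D, ∃ y : ℝ × ℝ, x ∈ Metric.closedBall y g ∧
    Disjoint (Metric.closedBall y g) D

/-- MONO: the moments of the vertex heights are nonnegative and increasing in the set of faces,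
and the heights are centred. -/
def S_mono (c : ℝ) : Prop := ∀ F F' : Finset (ℤ × ℤ), F ⊆ F' → ∀ v : List (ℤ × ℤ),
  0 ≤ ze c F (fun x => (v.map (vh x)).prod) ∧
  ze c F (fun x => (v.map (vh x)).prod) ≤ ze c F' (fun x => (v.map (vh x)).prod) ∧
  ∀ u : ℤ × ℤ, ze c F (fun x => vh x u) = 0

/-- MB: the moments are bounded. -/
def S_mb (c : ℝ) (δ : ℕ → ℝ) : Prop := ∀ D : Set (ℝ × ℝ), IsOpen D → Bornology.IsBounded D →
  ∀ f : ℝ × ℝ → ℝ, TestOn univ f → (∀ z, 0 ≤ f z) → ∀ k : ℕ,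
    ∃ C : ℝ, ∀ᶠ n in atTop, EE c (δ n) D (fun ω => hv (δ n) f ω ^ k) ≤ C

/-- L2B: the second moments are bounded in `L²`. -/
def S_l2 (c : ℝ) (δ : ℕ → ℝ) : Prop := ∀ R : ℝ, 0 < R → ∃ C : ℝ, 0 ≤ C ∧
  ∀ D : Set (ℝ × ℝ), IsOpen D → D ⊆ Metric.ball 0 R →
  ∀ f : ℝ × ℝ → ℝ, TestOn (Metric.ball 0 R) f → (∀ z, 0 ≤ f z) → ∀ ε : ℝ, 0 < ε →
    ∀ᶠ n in atTop, EE c (δ n) D (fun ω => hv (δ n) f ω ^ 2) ≤ C * (∫ z, f z ^ 2) + ε

/-- DEC': decay at the boundary, for domains with exterior squares. -/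
def S_dec (c : ℝ) (δ : ℕ → ℝ) : Prop := ∀ D : Set (ℝ × ℝ), IsOpen D → Bornology.IsBounded D →
  ThickC D → ∀ f : ℝ × ℝ → ℝ, TestOn D f → (∀ z, 0 ≤ f z) → ∀ (k : ℕ) (ε : ℝ), 0 < ε →
    ∃ r : ℝ, 0 < r ∧ ∀ x ∈ D, dd D x < r → ∀ᶠ n in atTop,
      EE c (δ n) D (fun ω => hv (δ n) (bump (dd D x / 2) x) ω * hv (δ n) f ω ^ k) ≤ ε

/-- XST: the measures `ν n` with the sandwich and the Schwinger-Dyson equation, up to an error `η`
and for finitely many test functions. -/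
def S_xst (c κ : ℝ) (δ : ℕ → ℝ) : Prop := ∀ D₁ D₂ : Set (ℝ × ℝ), IsOpen D₁ → IsOpen D₂ →
  Bornology.IsBounded D₂ → closure D₁ ⊆ D₂ → ∀ a b a' b' : ℝ, a < b → a' < b' →
  ccell a b a' b' ⊆ D₁ → ∀ (ψ f : ℝ × ℝ → ℝ) (k : ℕ), TestOn (cell a b a' b') ψ → TestOn D₁ f →
  (∀ z, 0 ≤ f z) → ∀ L : List (List (ℝ × ℝ → ℝ)),
  (∀ l ∈ L, ∀ g ∈ l, TestOn D₁ g ∧ ∀ z, 0 ≤ g z) → ∀ η : ℝ, 0 < η →
    ∃ ν : ℕ → Measure Om, (∀ᶠ n in atTop, Mom (ν n)) ∧
    (∀ l ∈ L, ∀ᶠ n in atTop,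
      EE c (δ n) D₁ (hvl (δ n) l) ≤ (∫ ω, hvl (δ n) l ω ∂(ν n)) + η ∧
      ∫ ω, hvl (δ n) l ω ∂(ν n) ≤ EE c (δ n) D₂ (hvl (δ n) l) + η) ∧
    ∀ᶠ n in atTop, |(∫ ω, hv (δ n) (lap ψ) ω * hv (δ n) f ω ^ (k + 1) ∂(ν n)) +
        κ * (k + 1) * (∫ z, ψ z * f z) * ∫ ω, hv (δ n) f ω ^ k ∂(ν n)| ≤ η

/-- All inputs. -/
structure Inputs (c κ : ℝ) (δ : ℕ → ℝ) : Prop where
  cpos : 0 < c
  κpos : 0 < κ
  δpos : ∀ n, 0 < δ n
  δlim : Tendsto δ atTop (𝓝 0)
  mono : S_mono c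
  mb : S_mb c δ
  l2 : S_l2 c δ
  dec : S_dec c δ
  xst : S_xst c κ δ

/-- A strictly nested family of domains. -/
structure Nest (a b : ℝ) (D : ℝ → Set (ℝ × ℝ)) : Prop where
  lt : a < b
  op : ∀ s ∈ Ioo a b, IsOpen (D s)
  bdd : ∀ s ∈ Ioo a b, Bornology.IsBounded (D s)
  thick : ∀ s ∈ Ioo a b, ThickC (D s)
  nest : ∀ s ∈ Ioo a b, ∀ t ∈ Ioo a b, s < t → closure (D s) ⊆ D t
  exh : ∀ s ∈ Ioo a b, ∀ K ⊆ D s, IsCompact K → ∃ t ∈ Ioo a b, t < s ∧ K ⊆ D t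

/-- The output of this block: along every ultrafilter, for some parameter of every nested family,
all moments of nonnegative test functions converge to the moments of the Gaussian free field. -/
def S_key (c κ : ℝ) (δ : ℕ → ℝ) : Prop := ∀ (a b : ℝ) (D : ℝ → Set (ℝ × ℝ)), Nest a b D →
  (∃ R : ℝ, ∀ s ∈ Ioo a b, D s ⊆ Metric.ball 0 R) →
  ∀ U : Ultrafilter ℕ, (U : Filter ℕ) ≤ atTop → ∃ s ∈ Ioo a b,
    ∀ f : ℝ × ℝ → ℝ, TestOn (D s) f → (∀ z, 0 ≤ f z) → ∀ k : ℕ,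
      Tendsto (fun n => EE c (δ n) (D s) (fun ω => hv (δ n) f ω ^ k)) U
        (𝓝 (gm (κ * V (D s) f) k))

end Vale.Agent.P145.Top
end

section

/-!
Consequences of positivity and monotonicity of the moments.
-/

namespace Vale.Agent.P145.Top

open MeasureTheory

/-- Nonnegative moments. -/
structure Pos (μ : Measure Om) : Prop where
  mom : Mom μ
  pos : ∀ v : List (ℤ × ℤ), 0 ≤ ∫ ω, (v.map ω).prod ∂μ

variable {B : Finset (ℤ × ℤ)} {δ : ℝ}

theorem Pos.hl_nonneg {μ : Measure Om} (h : Pos μ) {l : List (ℝ × ℝ → ℝ)}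
    (hl0 : ∀ f ∈ l, ∀ z, 0 ≤ f z) : 0 ≤ ∫ ω, hl B δ l ω ∂μ :=
  h.mom.nonneg h.pos (cone_hl l hl0)

theorem Pos.pow_nonneg {μ : Measure Om} (h : Pos μ) {f : ℝ × ℝ → ℝ}
    (hf : ∀ z, 0 ≤ f z) (k : ℕ) : 0 ≤ ∫ ω, hB B δ f ω ^ k ∂μ :=
  h.mom.nonneg h.pos (cone_pow hf k)

theorem Pos.hl_le {μ : Measure Om} (h : Pos μ) {f0 : ℝ × ℝ → ℝ} (h0 : ∀ z, 0 ≤ f0 z) {C : ℝ}
    (hC : 0 ≤ C) (l : List (ℝ × ℝ → ℝ)) (hd : ∀ f ∈ l, ∀ z, 0 ≤ f z ∧ f z ≤ C * f0 z) :
    ∫ ω, hl B δ l ω ∂μ ≤ C ^ l.length * ∫ ω, hB B δ f0 ω ^ l.length ∂μ := by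
  have h1 := h.mom.nonneg h.pos (cone_dom (B := B) (δ := δ) h0 hC l hd)
  rw [integral_sub ((h.mom.integrable (cone_pow h0 _)).const_mul _)
    (h.mom.integrable (alg_hl l)), integral_const_mul] at h1
  linarith

theorem dom_diff {μ ν : Measure Om} (hμ : Mom μ) (hν : Mom ν)
    (hm : ∀ v : List (ℤ × ℤ), ∫ ω, (v.map ω).prod ∂μ ≤ ∫ ω, (v.map ω).prod ∂ν)
    {f0 : ℝ × ℝ → ℝ} (h0 : ∀ z, 0 ≤ f0 z) {C : ℝ}
    (hC : 0 ≤ C) (l : List (ℝ × ℝ → ℝ)) (hd : ∀ f ∈ l, ∀ z, 0 ≤ f z ∧ f z ≤ C * f0 z) :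
    (∫ ω, hl B δ l ω ∂ν) - ∫ ω, hl B δ l ω ∂μ ≤
      C ^ l.length * ((∫ ω, hB B δ f0 ω ^ l.length ∂ν) - ∫ ω, hB B δ f0 ω ^ l.length ∂μ) := by
  have h1 := Mom.mono hμ hν hm (cone_dom (B := B) (δ := δ) h0 hC l hd)
  rw [integral_sub ((hμ.integrable (cone_pow h0 _)).const_mul _)
    (hμ.integrable (alg_hl l)), integral_const_mul,
    integral_sub ((hν.integrable (cone_pow h0 _)).const_mul _)
    (hν.integrable (alg_hl l)), integral_const_mul] at h1
  linarith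

theorem hl_mono {μ ν : Measure Om} (hμ : Mom μ) (hν : Mom ν)
    (hm : ∀ v : List (ℤ × ℤ), ∫ ω, (v.map ω).prod ∂μ ≤ ∫ ω, (v.map ω).prod ∂ν)
    (l : List (ℝ × ℝ → ℝ)) (hd : ∀ f ∈ l, ∀ z, 0 ≤ f z) :
    ∫ ω, hl B δ l ω ∂μ ≤ ∫ ω, hl B δ l ω ∂ν := Mom.mono hμ hν hm (cone_hl l hd)

theorem pow_mono' {μ ν : Measure Om} (hμ : Mom μ) (hν : Mom ν)
    (hm : ∀ v : List (ℤ × ℤ), ∫ ω, (v.map ω).prod ∂μ ≤ ∫ ω, (v.map ω).prod ∂ν)
    {f0 : ℝ × ℝ → ℝ} (h0 : ∀ z, 0 ≤ f0 z) (k : ℕ) :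
    ∫ ω, hB B δ f0 ω ^ k ∂μ ≤ ∫ ω, hB B δ f0 ω ^ k ∂ν := Mom.mono hμ hν hm (cone_pow h0 k)

/-- Second moments of signed functions. -/
theorem Pos.sq_le {μ : Measure Om} (h : Pos μ) {g G : ℝ × ℝ → ℝ} (hg : ∀ z, |g z| ≤ G z) :
    ∫ ω, hB B δ g ω ^ 2 ∂μ ≤ ∫ ω, hB B δ G ω ^ 2 ∂μ := by
  have h1 : Cone (hB B δ fun z => G z + g z) :=
    (Cone.hB (B := B) (δ := δ) (g := fun _ => 1) Pol.one (f := fun z => G z + g z)
      fun z => by linarith only [neg_abs_le (g z), hg z]).of_eq fun ω => by ring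
  have h2 := Cone.hB (B := B) (δ := δ) h1 (f := fun z => G z - g z)
    fun z => by linarith only [le_abs_self (g z), hg z]
  have h3 := h.mom.nonneg h.pos h2
  have h4 : ∀ ω, hB B δ (fun z => G z - g z) ω * hB B δ (fun z => G z + g z) ω =
      hB B δ G ω ^ 2 - hB B δ g ω ^ 2 := fun ω => by rw [hB_sub, hB_add]; ring
  simp_rw [h4] at h3
  rw [integral_sub (h.mom.integrable (alg_hB.pow 2)) (h.mom.integrable (alg_hB.pow 2))] at h3
  linarith

/-- Mixed moments of a signed function. -/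
theorem Pos.mixed_sq_le {μ : Measure Om} (h : Pos μ) (g f : ℝ × ℝ → ℝ) (k : ℕ) :
    (∫ ω, hB B δ g ω * hB B δ f ω ^ k ∂μ) ^ 2 ≤
      (∫ ω, hB B δ g ω ^ 2 ∂μ) * ∫ ω, hB B δ f ω ^ (2 * k) ∂μ := by
  have := h.mom.cs (alg_hB (B := B) (δ := δ) (f := g)) (alg_hB (B := B) (δ := δ) (f := f) |>.pow k)
  have e : ∀ ω, (hB B δ f ω ^ k) ^ 2 = hB B δ f ω ^ (2 * k) := fun ω => by
    rw [← pow_mul, mul_comm]
  simp_rw [e] at this
  exact this

theorem hl_cons (f : ℝ × ℝ → ℝ) (l : List (ℝ × ℝ → ℝ)) (ω : Om) :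
    hl B δ (f :: l) ω = hB B δ f ω * hl B δ l ω := by simp [hl]

theorem hl_replicate (f : ℝ × ℝ → ℝ) (k : ℕ) (ω : Om) :
    hl B δ (List.replicate k f) ω = hB B δ f ω ^ k := by simp [hl]

end Vale.Agent.P145.Top
end

section

/-!
P145, block F-TOP, K2: dominating test functions.
-/

namespace Vale.Agent.P145.Top

open MeasureTheory Set Filter Topology
open Vale.Agent.P145.PT

/-- A cutoff function for a test function. -/
theorem exists_chi {D : Set (ℝ × ℝ)} (hD : IsOpen D) (hb : Bornology.IsBounded D)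
    {f : ℝ × ℝ → ℝ} (hf : TestOn D f) : ∃ (r : ℝ) (χ : ℝ × ℝ → ℝ), 0 < r ∧ TestOn D χ ∧
      (∀ z, 0 ≤ χ z ∧ χ z ≤ 1) ∧ (∀ z, r / 2 ≤ dd D z → χ z = 1) ∧
      ∀ z, dd D z ≤ r → f z = 0 := by
  obtain ⟨r, hr, hz⟩ := exists_low hD hb hf
  obtain ⟨χ, hχs, hχ01, hχ0, hχ1⟩ := exists_cutoff D (show r / 4 < r / 2 by linarith)
  have hsub : tsupport χ ⊆ {x | r / 4 ≤ dd D x} := by
    refine closure_minimal ?_ (isClosed_le continuous_const (dd_cont D))
    intro x hx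
    by_contra h
    rw [mem_ofPred_eq, not_le] at h
    exact hx (hχ0 x h.le)
  have hsubD : tsupport χ ⊆ D := fun x hx => by
    have h1 : r / 4 ≤ dd D x := hsub hx
    exact (dd_pos hD hb).1 (by linarith only [hr, h1])
  have hχT : TestOn D χ := ⟨hχs,
    Metric.isCompact_of_isClosed_isBounded (isClosed_tsupport _) (hb.subset hsubD), hsubD⟩
  exact ⟨r, χ, hr, hχT, hχ01, hχ1, hz⟩

/-- Domination of a test function by a nonnegative one, with `L²` norm almost as small. -/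
theorem exists_dom {D : Set (ℝ × ℝ)} (hD : IsOpen D) (hb : Bornology.IsBounded D)
    {f : ℝ × ℝ → ℝ} (hf : TestOn D f) {ε : ℝ} (hε : 0 < ε) : ∃ g : ℝ × ℝ → ℝ, TestOn D g ∧
      (∀ z, |f z| ≤ g z) ∧ ∫ z, g z ^ 2 ≤ (∫ z, f z ^ 2) + ε := by
  obtain ⟨r, χ, hr, hχT, hχ01, hχ1, hz⟩ := exists_chi hD hb hf
  set I : ℝ := ∫ z, χ z ^ 2 with hI
  have hI0 : 0 ≤ I := integral_nonneg fun z => sq_nonneg _
  set e : ℝ := Real.sqrt (ε / (I + 1)) with he
  have he0 : 0 < e := Real.sqrt_pos.2 (by positivity)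
  have he2 : e ^ 2 = ε / (I + 1) := Real.sq_sqrt (by (clear * - hε; positivity))
  have heI : e ^ 2 * I ≤ ε := by
    rw [he2, div_mul_eq_mul_div, div_le_iff₀ (by linarith only [hI0])]
    nlinarith only [hε]
  set g : ℝ × ℝ → ℝ := fun z => Real.sqrt (f z ^ 2 + (e * χ z) ^ 2) with hg
  have hsq : ∀ z, g z ^ 2 = f z ^ 2 + (e * χ z) ^ 2 := fun z => Real.sq_sqrt (by (clear * -; positivity))
  -- the function away from the boundary and close to it
  have hlow : ∀ z, dd D z ≤ r → g z = e * χ z := by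
    intro z hzr
    rw [hg]; simp only
    rw [hz z hzr]
    rw [zero_pow two_ne_zero, zero_add, Real.sqrt_sq (mul_nonneg he0.le (hχ01 z).1)]
  have hhigh : ∀ z, r / 2 ≤ dd D z → f z ^ 2 + (e * χ z) ^ 2 ≠ 0 := by
    intro z hzr
    rw [hχ1 z hzr]
    have : 0 < (e * 1) ^ 2 := by (clear * - hε; positivity)
    (clear * - hε; positivity)
  have hgs : ContDiff ℝ ((⊤ : ℕ∞) : WithTop ℕ∞) g := by
    rw [contDiff_iff_contDiffAt]
    intro z
    rcases lt_or_ge (dd D z) r with h | h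
    · have hev : g =ᶠ[𝓝 z] fun z => e * χ z := by
        filter_upwards [(dd_cont D).continuousAt.eventually_lt continuousAt_const h] with y hy
        exact hlow y hy.le
      exact (((contDiff_const (c := e)).mul hχT.1).contDiffAt (x := z)).congr_of_eventuallyEq hev
    · have h1 : ContDiff ℝ ((⊤ : ℕ∞) : WithTop ℕ∞) fun z => f z ^ 2 + (e * χ z) ^ 2 :=
        (hf.1.pow 2).add (((contDiff_const (c := e)).mul hχT.1).pow 2)
      exact h1.contDiffAt.sqrt (hhigh z (by linarith only [hr, h]))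
  have hsubg : Function.support g ⊆ tsupport f ∪ tsupport χ := by
    intro z hzg
    by_contra h
    rw [mem_union, not_or] at h
    have h1 : f z = 0 := image_eq_zero_of_notMem_tsupport h.1
    have h2 : χ z = 0 := image_eq_zero_of_notMem_tsupport h.2
    apply hzg
    rw [hg]; simp only
    rw [h1, h2]; simp
  have hclg : tsupport g ⊆ tsupport f ∪ tsupport χ :=
    closure_minimal hsubg ((isClosed_tsupport _).union (isClosed_tsupport _))
  have hsubD : tsupport g ⊆ D := hclg.trans (union_subset hf.2.2 hχT.2.2)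
  refine ⟨g, ⟨hgs, Metric.isCompact_of_isClosed_isBounded (isClosed_tsupport _)
    (hb.subset hsubD), hsubD⟩, fun z => ?_, ?_⟩
  · refine Real.abs_le_sqrt ?_
    nlinarith only []
  · have e1 : (fun z => g z ^ 2) = fun z => f z ^ 2 + e ^ 2 * χ z ^ 2 := by
      funext z; rw [hsq z]; ring
    rw [e1, integral_add hf.intSq (hχT.intSq.const_mul _), integral_const_mul]
    linarith only [heI]

/-- A large test function. -/
theorem exists_big {R : ℝ} (hR : 0 < R) : ∃ f0 : ℝ × ℝ → ℝ,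
    TestOn (Metric.ball (0 : ℝ × ℝ) (2 * R)) f0 ∧ (∀ z, 0 ≤ f0 z) ∧
      ∀ z ∈ Metric.ball (0 : ℝ × ℝ) R, 1 ≤ f0 z := by
  obtain ⟨χ, h0, h1, h2⟩ := exists_contMDiffMap_zero_one_of_isClosed (n := (⊤ : ℕ∞))
    (modelWithCornersSelf ℝ (ℝ × ℝ)) (s := {x : ℝ × ℝ | 3 / 2 * R ≤ dist x 0})
    (t := {x : ℝ × ℝ | dist x 0 ≤ R})
    (isClosed_le continuous_const (by fun_prop)) (isClosed_le (by fun_prop) continuous_const)
    (by
      rw [Set.disjoint_left]
      intro x hx hx'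
      have h1 : 3 / 2 * R ≤ dist x 0 := hx
      have h2 : dist x 0 ≤ R := hx'
      linarith only [hR, h1, h2])
  have hsub : tsupport χ ⊆ {x : ℝ × ℝ | dist x 0 ≤ 3 / 2 * R} := by
    refine closure_minimal ?_ (isClosed_le (by fun_prop) continuous_const)
    intro x hx
    by_contra h
    rw [mem_ofPred_eq, not_le] at h
    exact hx (h0 h.le)
  have hsub' : tsupport χ ⊆ Metric.ball (0 : ℝ × ℝ) (2 * R) := fun x hx => by
    have h1 : dist x 0 ≤ 3 / 2 * R := hsub hx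
    rw [Metric.mem_ball]; linarith only [hR, h1]
  refine ⟨χ, ⟨χ.contMDiff.contDiff, Metric.isCompact_of_isClosed_isBounded (isClosed_tsupport _)
    (Metric.isBounded_ball.subset hsub'), hsub'⟩, fun z => (h2 z).1, fun z hz => ?_⟩
  exact (h1 (show dist z 0 ≤ R from (Metric.mem_ball.1 hz).le)).ge

/-- Decomposition of a test function, with domination. -/
theorem pos_part {D : Set (ℝ × ℝ)} (hD : IsOpen D) (hb : Bornology.IsBounded D)
    {f : ℝ × ℝ → ℝ} (hf : TestOn D f) {R : ℝ} {f0 : ℝ × ℝ → ℝ}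
    (hDR : D ⊆ Metric.ball (0 : ℝ × ℝ) R) (h0 : ∀ z, 0 ≤ f0 z)
    (h1 : ∀ z ∈ Metric.ball (0 : ℝ × ℝ) R, 1 ≤ f0 z) :
    ∃ (p m : ℝ × ℝ → ℝ) (C : ℝ), 0 ≤ C ∧ TestOn D p ∧ TestOn D m ∧
      (∀ z, 0 ≤ p z ∧ p z ≤ C * f0 z) ∧ (∀ z, 0 ≤ m z ∧ m z ≤ C * f0 z) ∧
      ∀ z, f z = p z - m z := by
  obtain ⟨p, m, hp, hm, hp0, hm0, hpm⟩ := exists_decomp hD hb hf
  have key : ∀ {q : ℝ × ℝ → ℝ}, TestOn D q → (∀ z, 0 ≤ q z) →
      ∃ C : ℝ, 0 ≤ C ∧ ∀ C' : ℝ, C ≤ C' → ∀ z, q z ≤ C' * f0 z := by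
    intro q hq hq0
    obtain ⟨B, hB⟩ := hq.cs.exists_bound_of_continuous hq.cont
    have hB0 : 0 ≤ B := (norm_nonneg _).trans (hB 0)
    refine ⟨B, hB0, fun C' hC' z => ?_⟩
    by_cases hz : z ∈ D
    · have h2 := h1 z (hDR hz)
      have h3 : q z ≤ B := (le_abs_self _).trans (hB z)
      have h4 : C' * 1 ≤ C' * f0 z := mul_le_mul_of_nonneg_left h2 (hB0.trans hC')
      linarith only [hC', h3, h4]
    · have h2 : q z = 0 := by
        by_contra h
        exact hz (hq.2.2 (subset_tsupport q h))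
      rw [h2]
      exact mul_nonneg (hB0.trans hC') (h0 z)
  obtain ⟨C1, hC1, hb1⟩ := key hp hp0
  obtain ⟨C2, hC2, hb2⟩ := key hm hm0
  exact ⟨p, m, max C1 C2, hC1.trans (le_max_left _ _), hp, hm,
    fun z => ⟨hp0 z, hb1 _ (le_max_left _ _) z⟩, fun z => ⟨hm0 z, hb2 _ (le_max_right _ _) z⟩, hpm⟩

end Vale.Agent.P145.Top
end

section

/-!
# P145, block F-B: Tassion's argument, conclusion

`rsw`: for a positively associated and symmetric percolation of the fine lattice whose squares are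
crossed with probability at least `c0` and for which the event `Arm` has small probability, annuli
contain circuits with probability bounded below at all large scales.
-/

namespace Vale.Agent.P145.FB

open Relation

namespace PP

variable {P : PP} {c0 : ℝ} {N : ℕ}

theorem next1 (G : Geo) (h0 : 0 < c0) (hsq : P.Sq c0 N)
    (harm : ∀ c : ℝ, 0 < c → ∀ M0 : ℤ, ∃ M : ℤ, M0 ≤ M ∧ ∃ s0 : ℤ, ∀ s : ℤ, s0 ≤ s →
      P.p (Arm s (2 * M * s)) < c) :
    ∃ M : ℕ, 2 ≤ M ∧ ∃ n0 : ℕ, ∀ n : ℕ, n0 ≤ n → P.Good c0 n →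
      ∃ t : ℕ, 2 * n * M ≤ t ∧ t ≤ 4 * (2 * n * M) ∧ 2 * n ≤ P.al c0 t := by
  have hc1 : 0 < c1 c0 := c1_pos h0
  set c2 : ℝ := (c1 c0 * (c0 * c1 c0) ^ 15) ^ 4 with hc2
  have hc2p : 0 < c2 := by (clear * - hc1 h0; positivity)
  set a : ℝ := (c0 / 4) * (c0 / 4) * c2 with ha
  have hap : 0 < a := by positivity
  set A4 : ℝ := a * c0 * a * c0 * a with hA4
  have hA4p : 0 < A4 := by positivity
  obtain ⟨M', hM', s0, hs0⟩ := harm (c2 * (A4 ^ 4) * (A4 ^ 4 * (c0 / 4))) (by (clear * - hc1 h0; positivity)) 2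
  obtain ⟨M, rfl⟩ : ∃ M : ℕ, M' = M := ⟨M'.toNat, by omega⟩
  refine ⟨M, by omega, max (max N 8) s0.toNat, fun n hn hg => ?_⟩
  have hnN : N ≤ n := le_trans (le_trans (le_max_left _ _) (le_max_left _ _)) hn
  have hn8 : 8 ≤ n := le_trans (le_trans (le_max_right _ _) (le_max_left _ _)) hn
  have hns : s0.toNat ≤ n := le_trans (le_max_right _ _) hn
  by_contra hcon
  push Not at hcon
  obtain ⟨s, hs⟩ : ∃ s : ℕ, s = 2 * n := ⟨_, rfl⟩
  obtain ⟨Q, hQ⟩ : ∃ Q : ℕ, Q = 2 * n * M := ⟨_, rfl⟩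
  have hQs : Q = s * M := by rw [hQ, hs]
  have hM2 : 2 ≤ M := by omega
  have hQ2 : 2 * s ≤ Q := by rw [hQs, mul_comm 2 s]; exact Nat.mul_le_mul_left _ hM2
  have hal : ∀ t : ℕ, Q ≤ t → t ≤ 4 * Q → P.al c0 t < s := fun t h1 h2 => by
    rw [hs]; exact hcon t (by omega) (by omega)
  -- the small circuit
  have e1 : c2 ≤ P.p (Ann 0 0 s) := by
    have h1 := ann_of_good G h0 hsq hnN hn8 hg 15 (4 * s) (by omega) (by push_cast; omega)
    have h2 : (2 * n : ℤ) = s := by omega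
    rw [h2] at h1
    exact P.Ann_ge 0 0 (by positivity) h1
  -- crossings at scale Q and 2Q
  have f1 := long_of_ann G h0 (s := s) (t := Q) (by omega) hQ2 (hal Q le_rfl (by (clear * - hQ hQs; omega))) hc2p.le e1
  have f2 := ratio4 G h0 hsq (t := Q) (by (clear * - hnN hs hQ hQs hQ2; omega)) hap.le f1
  have f3 : A4 ^ 4 ≤ P.p (Ann (3 * (2 * M * s)) 0 (2 * M * s)) := by
    refine P.Ann_ge _ _ hA4p.le ?_
    have h1 : (2 * M * s : ℤ) = 2 * Q := by rw [hQs]; push_cast; ring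
    rw [h1]
    have h2 : 4 * (2 * (Q : ℤ)) = 8 * Q := by ring
    rw [h2]; exact f2
  have g1 := long_of_ann G h0 (s := s) (t := 2 * Q) (by omega) (by (clear * - hs hQ hQs hQ2; omega))
    (hal (2 * Q) (by omega) (by (clear * - hQ hQs; omega))) hc2p.le e1
  have g2 := ratio4 G h0 hsq (t := 2 * Q) (by omega) hap.le g1
  have g3 : A4 ^ 4 ≤ P.p (Ann 0 0 (2 * (2 * M * s))) := by
    refine P.Ann_ge _ _ hA4p.le ?_
    have h1 : 2 * (2 * M * s : ℤ) = 2 * (2 * Q : ℕ) := by rw [hQs]; push_cast; ring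
    rw [h1]
    have h2 : 4 * (2 * ((2 * Q : ℕ) : ℤ)) = 8 * (2 * Q : ℕ) := by ring
    rw [h2]; exact g2
  -- the arm
  have k1 : c0 / 4 ≤ P.p (Hc (-(4 * (2 * M * s))) 0 (-(2 * (2 * M * s))) (2 * (2 * M * s)) 0 s) := by
    have h1 := P.H_gt (c0 := c0) (n := 4 * Q) (a := (s : ℤ))
      (by have := hal (4 * Q) (by omega) (by omega); omega)
      (by have := hal (4 * Q) (by omega) (by omega); omega)
    have h2 := P.H_nonneg (4 * Q : ℕ) (s : ℤ) (4 * Q : ℕ)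
    have h3 := P.p_Hc_shift (-(4 * Q : ℕ)) (4 * Q : ℕ) (-(4 * Q : ℕ)) (4 * Q : ℕ) 0 s
      (-((4 * Q : ℕ) : ℤ)) 0
    have h4 : c0 / 4 ≤ P.H (4 * Q : ℕ) 0 s := by linarith only [h1, h2]
    rw [H, ← h3] at h4
    have h5 : (2 * M * s : ℤ) = 2 * Q := by rw [hQs]; push_cast; ring
    rw [h5]
    convert h4 using 3 <;> (try push_cast) <;> ring
  have key := P.fkg3 (T := Arm s (2 * M * s)) (IL_Ann 0 0 s) (IL_Ann 0 0 (2 * (2 * M * s)))
    ((IL_Ann (3 * (2 * M * s)) 0 (2 * M * s)).and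
      (IL_Hc (-(4 * (2 * M * s))) 0 (-(2 * (2 * M * s))) (2 * (2 * M * s)) 0 s))
    (fun S h1 h2 h3 => ⟨h1, h2, h3.1, h3.2⟩) hc2p.le (by positivity)
    (by positivity) e1 g3
    (P.fkg2 (T := fun S => Ann (3 * (2 * M * s)) 0 (2 * M * s) S ∧
      Hc (-(4 * (2 * M * s))) 0 (-(2 * (2 * M * s))) (2 * (2 * M * s)) 0 s S)
      (IL_Ann _ _ _) (IL_Hc _ _ _ _ _ _) (fun S x y => ⟨x, y⟩) (by (clear * - h0 hc1; positivity)) (by positivity)
      f3 k1)
  have := hs0 s (by omega)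
  linarith only [key, this]

/-- The sequence of scales with ratio `3/2`. -/
def useq (t : ℕ) : ℕ → ℕ
  | 0 => t
  | j + 1 => useq t j + useq t j / 2

theorem useq_ge (t : ℕ) : ∀ j, t ≤ useq t j
  | 0 => le_rfl
  | j + 1 => le_trans (useq_ge t j) (Nat.le_add_right _ _)

theorem useq_le (t : ℕ) : ∀ j, 2 ^ j * useq t j ≤ 3 ^ j * t
  | 0 => by simp only [pow_zero, useq, one_mul, Std.le_refl]
  | j + 1 => by
    have := useq_le t j
    have h2 : 2 * useq t (j + 1) ≤ 3 * useq t j := by simp only [useq]; (clear * -; omega)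
    calc 2 ^ (j + 1) * useq t (j + 1) = 2 ^ j * (2 * useq t (j + 1)) := by ring
      _ ≤ 2 ^ j * (3 * useq t j) := Nat.mul_le_mul_left _ h2
      _ = 3 * (2 ^ j * useq t j) := by ring
      _ ≤ 3 * (3 ^ j * t) := Nat.mul_le_mul_left _ this
      _ = 3 ^ (j + 1) * t := by ring

theorem useq_le' (t : ℕ) : ∀ j, useq t j ≤ 2 ^ j * t
  | 0 => by simp [useq]
  | j + 1 => by
    have := useq_le' t j
    have h2 : useq t (j + 1) ≤ 2 * useq t j := by simp only [useq]; omega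
    calc useq t (j + 1) ≤ 2 * useq t j := h2
      _ ≤ 2 * (2 ^ j * t) := Nat.mul_le_mul_left _ this
      _ = 2 ^ (j + 1) * t := by ring

theorem grow (G : Geo) (h0 : 0 < c0) (hc : c0 ≤ 1) (hsq : P.Sq c0 N) {t : ℕ} (ht : N ≤ t)
    (ht1 : 1 ≤ t) {J : ℕ} (hb : ∀ j < J, ¬ P.Good c0 (useq t (j + 1))) :
    ∀ j ≤ J, 2 ^ j * P.al c0 t ≤ P.al c0 (useq t j) := by
  intro j
  induction j with
  | zero => intro _; simp [useq]
  | succ j ih =>
    intro hj
    have h1 := ih (by omega)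
    have h2 := useq_ge t (j + 1)
    have h3 := (not_good G h0 hc hsq (n := useq t (j + 1)) (by omega) (by omega)
      (hb j (by omega))).2
    have h4 : useq t (j + 1) - useq t (j + 1) / 3 = useq t j := by
      simp only [useq]; (clear * -; omega)
    rw [h4] at h3
    calc 2 ^ (j + 1) * P.al c0 t = 2 * (2 ^ j * P.al c0 t) := by ring
      _ ≤ 2 * P.al c0 (useq t j) := Nat.mul_le_mul_left _ h1
      _ ≤ _ := h3

theorem exists_J (K : ℕ) : ∃ J : ℕ, 3 ^ J * K < 4 ^ J := by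
  obtain ⟨J, hJ⟩ := pow_unbounded_of_one_lt (K : ℝ) (by norm_num : (1 : ℝ) < 4 / 3)
  refine ⟨J, ?_⟩
  have h1 : (3 : ℝ) ^ J * K < 4 ^ J := by
    have h3 : (0 : ℝ) < 3 ^ J := by positivity
    calc (3 : ℝ) ^ J * K < 3 ^ J * (4 / 3) ^ J := by
          exact mul_lt_mul_of_pos_left hJ h3
      _ = 4 ^ J := by rw [← mul_pow]; (clear * -; norm_num)
  exact_mod_cast h1

theorem next2 (G : Geo) (h0 : 0 < c0) (hc : c0 ≤ 1) (hsq : P.Sq c0 N) (K : ℕ) :
    ∃ J : ℕ, ∀ t : ℕ, N ≤ t → 2 ≤ t → 1 ≤ P.al c0 t → t ≤ K * P.al c0 t →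
      ∃ n : ℕ, t < n ∧ n ≤ 2 ^ J * t ∧ P.Good c0 n := by
  obtain ⟨J, hJ⟩ := exists_J K
  refine ⟨J, fun t ht ht2 ha hK => ?_⟩
  by_contra hcon
  push Not at hcon
  have hlt : ∀ j, t < useq t (j + 1) := fun j => by
    have := useq_ge t j
    simp only [useq]; omega
  have h1 := grow G h0 hc hsq ht (by omega) (J := J) (fun j hj hg => by
    refine hcon (useq t (j + 1)) (hlt j) ((useq_le' t (j + 1)).trans ?_) hg
    exact Nat.mul_le_mul_right _ (Nat.pow_le_pow_right (by norm_num) (by omega))) J le_rfl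
  have h2 := P.al_le c0 (useq t J)
  have h3 := useq_le t J
  have h4 : 2 ^ J * P.al c0 t ≤ useq t J := by (clear * - h1 h2; omega)
  have h5 : 2 ^ J * (2 ^ J * P.al c0 t) ≤ 3 ^ J * (K * P.al c0 t) :=
    calc 2 ^ J * (2 ^ J * P.al c0 t) ≤ 2 ^ J * useq t J := Nat.mul_le_mul_left _ h4
      _ ≤ 3 ^ J * t := h3
      _ ≤ 3 ^ J * (K * P.al c0 t) := Nat.mul_le_mul_left _ hK
  have h6 : 4 ^ J * P.al c0 t ≤ 3 ^ J * K * P.al c0 t := by
    have e : (4 : ℕ) ^ J = 2 ^ J * 2 ^ J := by rw [← mul_pow]; norm_num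
    rw [e]
    calc 2 ^ J * 2 ^ J * P.al c0 t = 2 ^ J * (2 ^ J * P.al c0 t) := by ring
      _ ≤ _ := h5
      _ = 3 ^ J * K * P.al c0 t := by ring
  have h7 : 3 ^ J * K * P.al c0 t < 4 ^ J * P.al c0 t :=
    Nat.mul_lt_mul_of_pos_right hJ ha
  omega

/-- Good scales have bounded ratios. -/
theorem next (G : Geo) (h0 : 0 < c0) (hc : c0 ≤ 1) (hsq : P.Sq c0 N)
    (harm : ∀ c : ℝ, 0 < c → ∀ M0 : ℤ, ∃ M : ℤ, M0 ≤ M ∧ ∃ s0 : ℤ, ∀ s : ℤ, s0 ≤ s →
      P.p (Arm s (2 * M * s)) < c) :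
    ∃ K n0 : ℕ, ∀ n : ℕ, n0 ≤ n → P.Good c0 n → ∃ n', n < n' ∧ n' ≤ K * n ∧ P.Good c0 n' := by
  obtain ⟨M, hM, n0, hn0⟩ := next1 G h0 hsq harm
  obtain ⟨J, hJ⟩ := next2 (P := P) G h0 hc hsq (4 * M)
  refine ⟨2 ^ J * (8 * M), max (max n0 N) 1, fun n hn hg => ?_⟩
  have a1 : n0 ≤ n := le_trans (le_trans (le_max_left _ _) (le_max_left _ _)) hn
  have a2 : N ≤ n := le_trans (le_trans (le_max_right _ _) (le_max_left _ _)) hn
  have a3 : 1 ≤ n := le_trans (le_max_right _ _) hn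
  obtain ⟨t, h1, h2, h3⟩ := hn0 n a1 hg
  have h4 : n * 2 ≤ n * M := Nat.mul_le_mul_left _ hM
  have h5 : 2 * n * M = 2 * (n * M) := by ring
  obtain ⟨n', g1, g2, g3⟩ := hJ t (by (clear * - a2 a3 h1 h4 h5; omega)) (by omega) (by omega) (by
    calc t ≤ 4 * (2 * n * M) := h2
      _ = 4 * M * (2 * n) := by ring
      _ ≤ 4 * M * P.al c0 t := Nat.mul_le_mul_left _ h3)
  refine ⟨n', by omega, ?_, g3⟩
  calc n' ≤ 2 ^ J * t := g2
    _ ≤ 2 ^ J * (4 * (2 * n * M)) := Nat.mul_le_mul_left _ h2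
    _ = 2 ^ J * (8 * M) * n := by ring

/-- **Box crossings and circuits at all scales.** -/
theorem rsw (P : PP) (G : Geo) {c0 : ℝ} (h0 : 0 < c0) (N : ℕ)
    (hsq : ∀ n : ℤ, (N : ℤ) ≤ n → c0 ≤ P.L n n)
    (hedge : 0 < P.p (fun S => (0, 0) ∈ S ∧ (0, 1) ∈ S ∧ (0, 2) ∈ S))
    (harm : ∀ c : ℝ, 0 < c → ∀ M0 : ℤ, ∃ M : ℤ, M0 ≤ M ∧ ∃ s0 : ℤ, ∀ s : ℤ, s0 ≤ s →
      P.p (Arm s (2 * M * s)) < c) :
    ∃ c : ℝ, 0 < c ∧ ∃ r0 : ℤ, ∀ r : ℤ, r0 ≤ r → c ≤ P.L (4 * r) r := by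
  have hc : c0 ≤ 1 := (hsq N le_rfl).trans (P.le_one _)
  have hc1 := c1_pos h0
  obtain ⟨K, n0, hK⟩ := next G h0 hc hsq harm
  obtain ⟨n1, hn1⟩ : ∃ n1 : ℕ, n1 = max (max n0 N) 8 := ⟨_, rfl⟩
  have a1 : n0 ≤ n1 := by rw [hn1]; exact le_trans (le_max_left _ _) (le_max_left _ _)
  have a2 : N ≤ n1 := by rw [hn1]; exact le_trans (le_max_right _ _) (le_max_left _ _)
  have a3 : 8 ≤ n1 := by rw [hn1]; exact le_max_right _ _
  by_cases hex : ∃ n, n1 ≤ n ∧ P.Good c0 n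
  · obtain ⟨n2, hn2, hg2⟩ := hex
    refine ⟨c1 c0 * (c0 * c1 c0) ^ (16 * K), by positivity, 2 * n2, fun r hr => ?_⟩
    obtain ⟨r', rfl⟩ : ∃ r' : ℕ, r = r' := ⟨r.toNat, by omega⟩
    classical
    set n := Nat.findGreatest (fun n => n2 ≤ n ∧ P.Good c0 n) (r' / 2) with hn
    have hspec : n2 ≤ n ∧ P.Good c0 n :=
      Nat.findGreatest_spec (P := fun n => n2 ≤ n ∧ P.Good c0 n) (m := n2) (by omega)
        ⟨le_rfl, hg2⟩
    have hnr : n ≤ r' / 2 := Nat.findGreatest_le _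
    obtain ⟨n', g1, g2, g3⟩ := hK n (by omega) hspec.2
    have hn' : ¬ n' ≤ r' / 2 := fun h =>
      Nat.findGreatest_is_greatest (P := fun n => n2 ≤ n ∧ P.Good c0 n) g1 h
        ⟨by omega, g3⟩
    have h1 : (r' : ℤ) ≤ 2 * (K * n) := by
      have : r' ≤ 2 * (K * n) := by omega
      exact_mod_cast this
    have h2 := ann_of_good G h0 hsq (n := n) (by omega) (by omega) hspec.2 (16 * K) (4 * r')
      (by omega) (by push_cast; nlinarith only [h1])
    exact h2.trans (P.L_mono G (by omega) le_rfl (by omega))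
  · push Not at hex
    have hal : ∀ t, n1 ≤ t → P.al c0 t = 0 := by
      intro t ht
      by_contra hne
      obtain ⟨J, hJ⟩ := next2 (P := P) G h0 hc hsq t
      obtain ⟨n, g1, _, g3⟩ := hJ t (by (clear * - hn1 a2 ht; omega)) (by omega) (by omega)
        (Nat.le_mul_of_pos_right _ (by omega))
      exact hex n (by omega) g3
    set b := P.p (fun S => (0, 0) ∈ S ∧ (0, 1) ∈ S ∧ (0, 2) ∈ S) with hb
    set a : ℝ := (c0 / 4) * (c0 / 4) * b with ha
    have hap : 0 < a := by (clear * - h0 hedge; positivity)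
    set A4 : ℝ := a * c0 * a * c0 * a with hA4
    have hA4p : 0 < A4 := by (clear * - h0 hedge; positivity)
    refine ⟨A4 * c0 * A4, by positivity, 2 * n1 + 2, fun r hr => ?_⟩
    obtain ⟨r', rfl⟩ : ∃ r' : ℕ, r = r' := ⟨r.toNat, by omega⟩
    obtain ⟨t, ht⟩ : ∃ t : ℕ, t = r' / 2 := ⟨_, rfl⟩
    have h1 := long_of_edge (c0 := c0) G h0 (t := t) (by omega) (hal t (by omega)) hedge.le le_rfl
    have h2 := ratio4 G h0 hsq (t := t) (by omega) hap.le h1
    have h3 := P.L_chain G h0.le (w := 8 * t) (w' := 8 * t) (h := 2 * t) (by omega)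
      (hsq _ (by omega)) (by (clear * - ht; omega)) (by omega) hA4p.le hA4p.le h2 h2
    exact h3.trans (P.L_mono G (by omega) (by omega) (by omega))

/-- The annulus event at all large scales. -/
theorem rsw_ann (P : PP) (G : Geo) {c0 : ℝ} (h0 : 0 < c0) (N : ℕ)
    (hsq : ∀ n : ℤ, (N : ℤ) ≤ n → c0 ≤ P.L n n)
    (hedge : 0 < P.p (fun S => (0, 0) ∈ S ∧ (0, 1) ∈ S ∧ (0, 2) ∈ S))
    (harm : ∀ c : ℝ, 0 < c → ∀ M0 : ℤ, ∃ M : ℤ, M0 ≤ M ∧ ∃ s0 : ℤ, ∀ s : ℤ, s0 ≤ s →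
      P.p (Arm s (2 * M * s)) < c) :
    ∃ c : ℝ, 0 < c ∧ ∃ r0 : ℤ, ∀ r : ℤ, r0 ≤ r → ∀ p q : ℤ, c ≤ P.p (Ann p q r) := by
  obtain ⟨c, hc, r0, hr0⟩ := rsw P G h0 N hsq hedge harm
  exact ⟨c ^ 4, by (clear * - hc; positivity), r0, fun r hr p q => P.Ann_ge p q hc.le (hr0 r hr)⟩

/-- Crossings of rectangles of every ratio at all large scales. -/
theorem rsw_rect (P : PP) (G : Geo) {c0 : ℝ} (h0 : 0 < c0) (N : ℕ)
    (hsq : ∀ n : ℤ, (N : ℤ) ≤ n → c0 ≤ P.L n n)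
    (hedge : 0 < P.p (fun S => (0, 0) ∈ S ∧ (0, 1) ∈ S ∧ (0, 2) ∈ S))
    (harm : ∀ c : ℝ, 0 < c → ∀ M0 : ℤ, ∃ M : ℤ, M0 ≤ M ∧ ∃ s0 : ℤ, ∀ s : ℤ, s0 ≤ s →
      P.p (Arm s (2 * M * s)) < c) (k : ℕ) :
    ∃ c : ℝ, 0 < c ∧ ∃ r0 : ℤ, ∀ r : ℤ, r0 ≤ r → c ≤ P.L (k * r) r := by
  obtain ⟨c, hc, r0, hr0⟩ := rsw P G h0 N hsq hedge harm
  refine ⟨c * (c0 * c) ^ k, by positivity, max (max r0 N) 0, fun r hr => ?_⟩
  have a1 : r0 ≤ r := le_trans (le_trans (le_max_left _ _) (le_max_left _ _)) hr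
  have a2 : (N : ℤ) ≤ r := le_trans (le_trans (le_max_right _ _) (le_max_left _ _)) hr
  have a3 : 0 ≤ r := le_trans (le_max_right _ _) hr
  have h1 := hr0 r a1
  have h2 : (4 : ℤ) * r = r + 3 * r := by ring
  rw [h2] at h1
  have h3 := P.L_iter G h0.le a3 (by omega : (0 : ℤ) ≤ 3 * r) (hsq r a2) hc.le h1 k
  refine h3.trans (P.L_mono G (mul_nonneg (by omega) a3) ?_ le_rfl)
  push_cast
  nlinarith only [a2]

end PP

end Vale.Agent.P145.FB
end

section

/-!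
# Deterministic geometry of crossings (the structure `Geo`)
-/

namespace Vale.Agent.P145.FB

open Vale.Agent.P153 Vale.Agent.P153.Topo

theorem rc_eq (a b c d : ℤ) : rc a b c d = Rect (2 * a) (2 * b) (2 * c) (2 * d) := rfl

theorem mem_rc {a b c d : ℤ} {z : ℤ × ℤ} :
    z ∈ rc a b c d ↔ 2 * a ≤ z.1 ∧ z.1 ≤ 2 * b ∧ 2 * c ≤ z.2 ∧ z.2 ≤ 2 * d := Iff.rfl

theorem rc_mono {a b c d a' b' c' d' : ℤ} (h1 : a' ≤ a) (h2 : b ≤ b') (h3 : c' ≤ c) (h4 : d ≤ d') :
    rc a b c d ⊆ rc a' b' c' d' := by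
  intro z hz
  rw [mem_rc] at hz ⊢
  omega

/-- Two paths of `S ∩ R` and `S ∩ R'` which meet, inside a larger rectangle. -/
theorem NC.join {S A B C : Set (ℤ × ℤ)} {x y z : ℤ × ℤ} (hA : A ⊆ C) (hB : B ⊆ C)
    (h1 : NC (S ∩ A) x z) (h2 : NC (S ∩ B) y z) : NC (S ∩ C) x y :=
  (h1.mono (Set.inter_subset_inter_right S hA)).trans
    (h2.mono (Set.inter_subset_inter_right S hB)).symm

theorem LRc.chain (a a' b b' c d : ℤ) (S : Set (ℤ × ℤ)) (h1 : a ≤ a') (_h2 : a' ≤ b) (h3 : b ≤ b')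
    (_h4 : c ≤ d) (hl : LRc a b c d S) (hv : BTc a' b c d S) (hr : LRc a' b' c d S) :
    LRc a b' c d S := by
  obtain ⟨x, x', hx, hxa, hxb⟩ := hl
  obtain ⟨v, v', hv, hvc, hvd⟩ := hv
  obtain ⟨y, y', hy, hya, hyb⟩ := hr
  obtain ⟨z, hz1, hz2⟩ := ncross (S := S ∩ rc a b c d) (T := S ∩ rc a' b c d)
    (a := 2 * a) (b := 2 * b) (c := 2 * c) (d := 2 * d) Set.inter_subset_right
    (Set.inter_subset_right.trans (rc_mono h1 le_rfl le_rfl le_rfl)) hx hxa hxb hv hvc hvd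
  obtain ⟨w, hw1, hw2⟩ := ncross (S := S ∩ rc a' b' c d) (T := S ∩ rc a' b c d)
    (a := 2 * a') (b := 2 * b') (c := 2 * c) (d := 2 * d) Set.inter_subset_right
    (Set.inter_subset_right.trans (rc_mono le_rfl h3 le_rfl le_rfl)) hy hya hyb hv hvc hvd
  have e1 : rc a b c d ⊆ rc a b' c d := rc_mono le_rfl h3 le_rfl le_rfl
  have e2 : rc a' b c d ⊆ rc a b' c d := rc_mono h1 h3 le_rfl le_rfl
  have e3 : rc a' b' c d ⊆ rc a b' c d := rc_mono h1 le_rfl le_rfl le_rfl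
  have h5 : NC (S ∩ rc a b' c d) x v := NC.join e1 e2 hz1 hz2
  have h6 : NC (S ∩ rc a b' c d) y v := NC.join e3 e2 hw1 hw2
  exact ⟨x, y', (h5.trans h6.symm).trans (hy.mono (Set.inter_subset_inter_right S e3)), hxa, hyb⟩

theorem LRc.mono (a a' b b' c c' d d' : ℤ) (S : Set (ℤ × ℤ)) (h1 : a ≤ a') (h2 : a' ≤ b')
    (h3 : b' ≤ b) (h4 : c' ≤ c) (h5 : d ≤ d') (h : LRc a b c d S) : LRc a' b' c' d' S := by
  obtain ⟨x, y, hxy, hx, hy⟩ := h
  obtain ⟨z, w, hz, hw, hzw, _, _⟩ := hxy.exit (f := Prod.fst) nn_fst (c := 2 * a') (d := 2 * b')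
    (by omega) (by omega) (by omega)
  refine ⟨z, w, hzw.mono ?_, hz, hw⟩
  rintro u ⟨⟨hu1, hu2⟩, hu3, hu4⟩
  rw [mem_rc] at hu2
  exact ⟨hu1, by rw [mem_rc]; omega⟩

theorem BTc.mono (a a' b b' c c' d d' : ℤ) (S : Set (ℤ × ℤ)) (h1 : a' ≤ a) (h2 : b ≤ b')
    (h3 : c ≤ c') (h4 : c' ≤ d') (h5 : d' ≤ d) (h : BTc a b c d S) : BTc a' b' c' d' S := by
  obtain ⟨x, y, hxy, hx, hy⟩ := h
  obtain ⟨z, w, hz, hw, hzw, _, _⟩ := hxy.exit (f := Prod.snd) nn_snd (c := 2 * c') (d := 2 * d')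
    (by omega) (by omega) (by omega)
  refine ⟨z, w, hzw.mono ?_, hz, hw⟩
  rintro u ⟨⟨hu1, hu2⟩, hu3, hu4⟩
  rw [mem_rc] at hu2
  exact ⟨hu1, by rw [mem_rc]; omega⟩

/-- The cluster of the event `XX` reaches the bottom and the top of the box and the upper and lower
parts of both vertical sides. -/
theorem XX.cluster {p q n h : ℤ} {S : Set (ℤ × ℤ)} (hX : XX p q n h S) :
    ∃ o r1 r2 l1 l2 t : ℤ × ℤ, let B := S ∩ rc (p - n) (p + n) (q - n) (q + n)
      NC B o r1 ∧ NC B o r2 ∧ NC B o l1 ∧ NC B o l2 ∧ NC B o t ∧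
      r1.1 = 2 * (p + n) ∧ 2 * (q + h) ≤ r1.2 ∧ r2.1 = 2 * (p + n) ∧ r2.2 ≤ 2 * (q - h) ∧
      l1.1 = 2 * (p - n) ∧ 2 * (q + h) ≤ l1.2 ∧ l2.1 = 2 * (p - n) ∧ l2.2 ≤ 2 * (q - h) ∧
      o.2 = 2 * (q - n) ∧ t.2 = 2 * (q + n) := by
  obtain ⟨⟨x1, y1, h1, h1a, h1b, h1c, _⟩, ⟨x2, y2, h2, h2a, h2b, _, h2d⟩,
    ⟨x3, y3, h3, h3a, h3b, h3c, _⟩, ⟨x4, y4, h4, h4a, h4b, _, h4d⟩, ⟨o, t, ho, hoc, hod⟩⟩ := hX
  have hsub : S ∩ rc (p - n) (p + n) (q - n) (q + n) ⊆
      Rect (2 * (p - n)) (2 * (p + n)) (2 * (q - n)) (2 * (q + n)) := Set.inter_subset_right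
  obtain ⟨z1, hz1, hz1'⟩ := ncross hsub hsub h1 h1a h1b ho hoc hod
  obtain ⟨z2, hz2, hz2'⟩ := ncross hsub hsub h2 h2a h2b ho hoc hod
  obtain ⟨z3, hz3, hz3'⟩ := ncross hsub hsub h3.symm h3b h3a ho hoc hod
  obtain ⟨z4, hz4, hz4'⟩ := ncross hsub hsub h4.symm h4b h4a ho hoc hod
  refine ⟨o, y1, y2, y3, y4, t, (hz1'.trans hz1.symm).trans h1, (hz2'.trans hz2.symm).trans h2,
    hz3'.trans hz3.symm, hz4'.trans hz4.symm, ho, h1b, h1c, h2b, h2d, h3b, h3c, h4b, h4d, hoc, hod⟩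

theorem Geo.f1' (n m v al : ℤ) (S : Set (ℤ × ℤ)) (_h0 : 0 ≤ al) (_hm : 0 < m) (hmn : m ≤ n)
    (hmv : m + v ≤ n) (hv : 0 ≤ v) (hl : Hc (m - 2 * n) m (-v - n) (-v + n) (-al) al S)
    (hr : Hm (-m) (2 * n - m) (-v - n) (-v + n) (-al) al S) (hX : XX 0 0 m al S) :
    LRc (m - 2 * n) (2 * n - m) (-v - n) (-v + n) S := by
  obtain ⟨o, r1, r2, l1, l2, t, g1, g2, g3, g4, g5, e1, e2, e3, e4, e5, e6, e7, e8, e9, e10⟩ :=
    hX.cluster
  simp only [zero_sub, zero_add] at g1 g2 g3 g4 g5 e1 e2 e3 e4 e5 e6 e7 e8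
  obtain ⟨x, x', hx, hxa, hxb, hxc, hxd⟩ := hl
  obtain ⟨y, y', hy, hya, hyb, hyc, hyd⟩ := hr
  obtain ⟨z, hz1, hz2⟩ := landR (S := S ∩ rc (m - 2 * n) m (-v - n) (-v + n))
    (T := S ∩ rc (-m) m (-m) m) (a := 2 * (m - 2 * n)) (b := 2 * m) (c := 2 * (-v - n))
    (d := 2 * (-v + n)) Set.inter_subset_right
    (Set.inter_subset_right.trans (rc_mono (by omega) le_rfl (by omega) (by omega)))
    hx hxa hxb (g2.symm.trans g1) e3 e1 (by omega) (by omega)
  obtain ⟨w, hw1, hw2⟩ := landL (S := S ∩ rc (-m) (2 * n - m) (-v - n) (-v + n))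
    (T := S ∩ rc (-m) m (-m) m) (a := 2 * (-m)) (b := 2 * (2 * n - m)) (c := 2 * (-v - n))
    (d := 2 * (-v + n)) Set.inter_subset_right
    (Set.inter_subset_right.trans (rc_mono le_rfl (by omega) (by omega) (by omega)))
    hy hya hyb (g4.symm.trans g3) e7 e5 (by omega) (by (clear * - e6 hyd; omega))
  have s1 : rc (m - 2 * n) m (-v - n) (-v + n) ⊆ rc (m - 2 * n) (2 * n - m) (-v - n) (-v + n) :=
    rc_mono le_rfl (by omega) le_rfl le_rfl
  have s2 : rc (-m) m (-m) m ⊆ rc (m - 2 * n) (2 * n - m) (-v - n) (-v + n) :=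
    rc_mono (by omega) (by omega) (by omega) (by omega)
  have s3 : rc (-m) (2 * n - m) (-v - n) (-v + n) ⊆ rc (m - 2 * n) (2 * n - m) (-v - n) (-v + n) :=
    rc_mono (by omega) le_rfl le_rfl le_rfl
  have k1 := NC.join s1 s2 hz1 hz2
  have k2 := NC.join s3 s2 hw1 hw2
  have k3 : NC (S ∩ rc (m - 2 * n) (2 * n - m) (-v - n) (-v + n)) r2 l2 :=
    (g2.symm.trans g4).mono (Set.inter_subset_inter_right S s2)
  exact ⟨x, y, (k1.trans k3).trans k2.symm, hxa, hya⟩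

theorem Geo.zig' (n h : ℤ) (S : Set (ℤ × ℤ)) (_hn : 0 < n) (hh : 0 ≤ h) (_hhn : h ≤ n)
    (hX : XX 0 0 n h S) (hY : XX 0 (-(2 * h)) n h S) : BTc (-n) n (-n - 2 * h) n S := by
  obtain ⟨o, r1, r2, l1, l2, t, g1, g2, g3, g4, g5, e1, e2, e3, e4, e5, e6, e7, e8, e9, e10⟩ :=
    hX.cluster
  obtain ⟨o', r1', r2', l1', l2', t', g1', g2', g3', g4', g5', e1', e2', e3', e4', e5', e6', e7',
    e8', e9', e10'⟩ := hY.cluster
  simp only [zero_sub, zero_add] at g1 g2 g3 g4 g5 e1 e2 e3 e4 e5 e6 e7 e8 e9 e10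
  simp only [zero_sub, zero_add] at g1' g2' g3' g4' g5' e1' e2' e3' e4' e5' e6' e7' e8' e9' e10'
  have s1 : rc (-n) n (-n) n ⊆ rc (-n) n (-n - 2 * h) n := rc_mono le_rfl le_rfl (by omega) le_rfl
  have s2 : rc (-n) n (-(2 * h) - n) (-(2 * h) + n) ⊆ rc (-n) n (-n - 2 * h) n :=
    rc_mono le_rfl le_rfl (by omega) (by omega)
  obtain ⟨z, hz1, hz2⟩ := interlace (S := S ∩ rc (-n) n (-n) n)
    (T := S ∩ rc (-n) n (-(2 * h) - n) (-(2 * h) + n)) (a := 2 * (-n)) (b := 2 * n)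
    (c := 2 * (-n - 2 * h)) (d := 2 * n) (Set.inter_subset_right.trans s1)
    (Set.inter_subset_right.trans s2) (g3.symm.trans g2) e5 e3 (g4'.symm.trans g1') e7' e1'
    (by omega) (by omega)
  have k1 := NC.join s1 s2 hz1 hz2
  have k2 : NC (S ∩ rc (-n) n (-n - 2 * h) n) l1 t :=
    (g3.symm.trans g5).mono (Set.inter_subset_inter_right S s1)
  have k3 : NC (S ∩ rc (-n) n (-n - 2 * h) n) o' l2' :=
    g4'.mono (Set.inter_subset_inter_right S s2)
  exact ⟨o', t, (k3.trans k1.symm).trans k2, by (clear * - e9'; omega), by omega⟩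

/-- The annulus between the boxes with centre `(p, q)` and half sides `t`, `2t`. -/
def annR (p q t : ℤ) : Set (ℤ × ℤ) :=
  {z | z ∈ rc (p - 2 * t) (p + 2 * t) (q - 2 * t) (q + 2 * t) ∧
    (z.1 ≤ 2 * (p - t) ∨ 2 * (p + t) ≤ z.1 ∨ z.2 ≤ 2 * (q - t) ∨ 2 * (q + t) ≤ z.2)}

theorem annR_sub (p q t : ℤ) : annR p q t ⊆ rc (p - 2 * t) (p + 2 * t) (q - 2 * t) (q + 2 * t) :=
  fun _ hz => hz.1

/-- Exit lemma for the triangular lattice. -/
theorem Conn.first {S : Set (ℤ × ℤ)} {f : ℤ × ℤ → ℤ} (hf : ∀ u v, Adj u v → f v ≤ f u + 1) {d : ℤ}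
    {x y : ℤ × ℤ} (h : Conn S x y) (hx : f x ≤ d) (hy : d ≤ f y) :
    ∃ z, f z = d ∧ Conn (S ∩ {w | f w ≤ d}) x z := by
  have key : (f y < d ∧ Conn (S ∩ {w | f w ≤ d}) x y) ∨
      ∃ z, f z = d ∧ Conn (S ∩ {w | f w ≤ d}) x z := by
    refine Conn.ind (S := S) (fun y => (f y < d ∧ Conn (S ∩ {w | f w ≤ d}) x y) ∨
      ∃ z, f z = d ∧ Conn (S ∩ {w | f w ≤ d}) x z) ?_ ?_ h
    · rcases lt_or_eq_of_le hx with h1 | h1
      · exact Or.inl ⟨h1, Conn.refl ⟨h.1, hx⟩⟩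
      · exact Or.inr ⟨x, h1, Conn.refl ⟨h.1, hx⟩⟩
    · intro u v _ huv hv ih
      rcases ih with ⟨h1, h2⟩ | h1
      · have h3 := hf u v huv
        have h4 : Conn (S ∩ {w | f w ≤ d}) x v := h2.tail huv ⟨hv, show f v ≤ d by omega⟩
        rcases lt_or_ge (f v) d with h5 | h5
        · exact Or.inl ⟨h5, h4⟩
        · exact Or.inr ⟨v, by omega, h4⟩
      · exact Or.inr h1
  rcases key with ⟨h1, _⟩ | h1
  · omega
  · exact h1

theorem Conn.exit {S : Set (ℤ × ℤ)} {f : ℤ × ℤ → ℤ} (hf : ∀ u v, Adj u v → f v ≤ f u + 1)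
    {c d : ℤ} (hcd : c ≤ d) {x y : ℤ × ℤ} (h : Conn S x y) (hx : f x ≤ c) (hy : d ≤ f y) :
    ∃ z w, f z = c ∧ f w = d ∧ Conn (S ∩ {u | c ≤ f u ∧ f u ≤ d}) z w := by
  obtain ⟨w, hw, h1⟩ := Conn.first hf h (hx.trans hcd) hy
  obtain ⟨z, hz, h2⟩ := Conn.first (f := fun u => - f u) (d := -c)
    (fun u v huv => by have := hf v u (adj_symm huv); omega) h1.symm (by omega) (by omega)
  have h3 : Conn (S ∩ {u | c ≤ f u ∧ f u ≤ d}) w z := h2.mono (by
    rintro u ⟨⟨h3, h4⟩, h5⟩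
    refine ⟨h3, ?_, h4⟩
    have : - f u ≤ -c := h5
    show c ≤ f u
    omega)
  exact ⟨z, w, by omega, hw, h3.symm⟩

/-- The event `Ann` gives one cluster of `S` inside the annulus which meets every path of the
triangular lattice (in particular every nearest-neighbour path) from the inner box to the
complement of the interior of the outer box. -/
theorem Ann.cluster {p q t : ℤ} (ht : 0 < t) {S : Set (ℤ × ℤ)} (hA : Ann p q t S) :
    ∃ o, o ∈ S ∩ annR p q t ∧ ∀ (D : Set (ℤ × ℤ)) (x y : ℤ × ℤ), Conn D x y →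
      x ∈ rc (p - t) (p + t) (q - t) (q + t) →
      (y.1 ≤ 2 * (p - 2 * t) ∨ 2 * (p + 2 * t) ≤ y.1 ∨ y.2 ≤ 2 * (q - 2 * t) ∨
        2 * (q + 2 * t) ≤ y.2) →
      ∃ w, w ∈ D ∧ NC (S ∩ annR p q t) o w := by
  obtain ⟨⟨a1, b1, h1, h1a, h1b⟩, ⟨a2, b2, h2, h2a, h2b⟩, ⟨a3, b3, h3, h3a, h3b⟩,
    ⟨a4, b4, h4, h4a, h4b⟩⟩ := hA
  have k1 : NC (S ∩ annR p q t) a1 b1 := h1.mono (Set.inter_subset_inter_right S (by
    intro z hz
    rw [mem_rc] at hz
    refine ⟨by rw [mem_rc]; omega, ?_⟩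
    right; right; right; omega))
  have k2 : NC (S ∩ annR p q t) a2 b2 := h2.mono (Set.inter_subset_inter_right S (by
    intro z hz
    rw [mem_rc] at hz
    refine ⟨by rw [mem_rc]; omega, ?_⟩
    right; right; left; omega))
  have k3 : NC (S ∩ annR p q t) a3 b3 := h3.mono (Set.inter_subset_inter_right S (by
    intro z hz
    rw [mem_rc] at hz
    refine ⟨by rw [mem_rc]; omega, ?_⟩
    left; omega))
  have k4 : NC (S ∩ annR p q t) a4 b4 := h4.mono (Set.inter_subset_inter_right S (by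
    intro z hz
    rw [mem_rc] at hz
    refine ⟨by rw [mem_rc]; (clear * - hz; omega), ?_⟩
    right; left; omega))
  -- a horizontal strip and a vertical strip meet in the big box
  have hH : ∀ {c d : ℤ}, q - 2 * t ≤ c → d ≤ q + 2 * t → ∀ {a b : ℤ}, p - 2 * t ≤ a →
      b ≤ p + 2 * t → ∀ {x x' y y' : ℤ × ℤ},
      NC (S ∩ rc (p - 2 * t) (p + 2 * t) c d) x x' → x.1 = 2 * (p - 2 * t) →
      x'.1 = 2 * (p + 2 * t) → NC (S ∩ rc a b (q - 2 * t) (q + 2 * t)) y y' →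
      y.2 = 2 * (q - 2 * t) → y'.2 = 2 * (q + 2 * t) →
      ∃ z, NC (S ∩ rc (p - 2 * t) (p + 2 * t) c d) x z ∧
        NC (S ∩ rc a b (q - 2 * t) (q + 2 * t)) y z := by
    intro c d hc hd a b ha hb x x' y y' hx hxa hxb hy hya hyb
    exact ncross (a := 2 * (p - 2 * t)) (b := 2 * (p + 2 * t)) (c := 2 * (q - 2 * t))
      (d := 2 * (q + 2 * t)) (Set.inter_subset_right.trans (rc_mono le_rfl le_rfl hc hd))
      (Set.inter_subset_right.trans (rc_mono ha hb le_rfl le_rfl)) hx hxa hxb hy hya hyb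
  have sub1 : rc (p - 2 * t) (p + 2 * t) (q + t) (q + 2 * t) ⊆ annR p q t := by
    intro z hz
    rw [mem_rc] at hz
    refine ⟨by rw [mem_rc]; omega, ?_⟩
    right; right; right; omega
  have sub2 : rc (p - 2 * t) (p + 2 * t) (q - 2 * t) (q - t) ⊆ annR p q t := by
    intro z hz
    rw [mem_rc] at hz
    refine ⟨by rw [mem_rc]; omega, ?_⟩
    right; right; left; (clear * - hz; omega)
  have sub3 : rc (p - 2 * t) (p - t) (q - 2 * t) (q + 2 * t) ⊆ annR p q t := by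
    intro z hz
    rw [mem_rc] at hz
    refine ⟨by rw [mem_rc]; omega, ?_⟩
    left; omega
  have sub4 : rc (p + t) (p + 2 * t) (q - 2 * t) (q + 2 * t) ⊆ annR p q t := by
    intro z hz
    rw [mem_rc] at hz
    refine ⟨by rw [mem_rc]; omega, ?_⟩
    right; left; omega
  obtain ⟨z13, c13, d13⟩ := hH (by (clear * - ht; omega)) (by omega) (by (clear * -; omega)) (by omega) h1 h1a h1b h3 h3a h3b
  obtain ⟨z14, c14, d14⟩ := hH (by omega) (by (clear * -; omega)) (by omega) (by omega) h1 h1a h1b h4 h4a h4b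
  obtain ⟨z23, c23, d23⟩ := hH (by (clear * -; omega)) (by omega) (by omega) (by omega) h2 h2a h2b h3 h3a h3b
  have j13 : NC (S ∩ annR p q t) a1 a3 := NC.join sub1 sub3 c13 d13
  have j14 : NC (S ∩ annR p q t) a1 a4 := NC.join sub1 sub4 c14 d14
  have j12 : NC (S ∩ annR p q t) a1 a2 := j13.trans (NC.join sub2 sub3 c23 d23).symm
  refine ⟨a1, k1.left_mem, ?_⟩
  intro D x y hD hx hy
  -- cut the path at the first exit of the open outer box
  set f : ℤ × ℤ → ℤ := fun z => max (max (z.1 - 2 * p) (2 * p - z.1)) (max (z.2 - 2 * q) (2 * q - z.2))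
    with hf
  have hfl : ∀ u v, Adj u v → f v ≤ f u + 1 := by
    intro u v huv
    rw [adj_iff] at huv
    simp only [hf]
    omega
  rw [mem_rc] at hx
  obtain ⟨y1, hy1, hD1⟩ := Conn.first hfl (d := 4 * t) hD (by simp only [hf]; omega)
    (by simp only [hf]; (clear * - ht hx hy; omega))
  have hD1r : ∀ z ∈ D ∩ {w | f w ≤ 4 * t}, z ∈ rc (p - 2 * t) (p + 2 * t) (q - 2 * t) (q + 2 * t) := by
    rintro z ⟨_, hz⟩
    have hz' : max (max (z.1 - 2 * p) (2 * p - z.1)) (max (z.2 - 2 * q) (2 * q - z.2)) ≤ 4 * t := hz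
    rw [mem_rc]
    omega
  have hside : y1.1 = 2 * (p - 2 * t) ∨ y1.1 = 2 * (p + 2 * t) ∨ y1.2 = 2 * (q - 2 * t) ∨
      y1.2 = 2 * (q + 2 * t) := by
    simp only [hf] at hy1
    omega
  have hf1 : ∀ u v : ℤ × ℤ, Adj u v → v.1 ≤ u.1 + 1 := by
    intro u v huv
    rw [adj_iff] at huv
    omega
  have hf1' : ∀ u v : ℤ × ℤ, Adj u v → -v.1 ≤ -u.1 + 1 := by
    intro u v huv
    rw [adj_iff] at huv
    omega
  have hf2 : ∀ u v : ℤ × ℤ, Adj u v → v.2 ≤ u.2 + 1 := by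
    intro u v huv
    rw [adj_iff] at huv
    omega
  have hf2' : ∀ u v : ℤ × ℤ, Adj u v → -v.2 ≤ -u.2 + 1 := by
    intro u v huv
    rw [adj_iff] at huv
    omega
  rcases hside with h | h | h | h
  · -- exit through the left side
    obtain ⟨z, w, hz, hw, hzw⟩ := Conn.exit (f := fun u => -u.1) hf1' (c := -(2 * (p - t)))
      (d := -(2 * (p - 2 * t))) (by omega) hD1 (by (clear * - hx; omega)) (by omega)
    obtain ⟨v, hv1, hv2⟩ := cross (A := D ∩ {w | f w ≤ 4 * t} ∩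
        {u | -(2 * (p - t)) ≤ -u.1 ∧ -u.1 ≤ -(2 * (p - 2 * t))})
      (B := {z | NC (S ∩ rc (p - 2 * t) (p - t) (q - 2 * t) (q + 2 * t)) a3 z})
      (a := 2 * (p - 2 * t)) (b := 2 * (p - t)) (c := 2 * (q - 2 * t)) (d := 2 * (q + 2 * t))
      (by
        rintro u ⟨hu1, hu2, hu3⟩
        have := hD1r u hu1
        rw [mem_rc] at this
        omega)
      (by
        intro u hu
        have := hu.right_mem.2
        rw [mem_rc] at this
        omega)
      hzw.symm (by omega) (by omega) h3.cluster.conn h3a h3b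
    exact ⟨v, hv1.1.1, j13.trans (hv2.mono (Set.inter_subset_inter_right S sub3))⟩
  · obtain ⟨z, w, hz, hw, hzw⟩ := Conn.exit (f := fun u => u.1) hf1 (c := 2 * (p + t))
      (d := 2 * (p + 2 * t)) (by omega) hD1 (by omega) (by omega)
    obtain ⟨v, hv1, hv2⟩ := cross (A := D ∩ {w | f w ≤ 4 * t} ∩
        {u | 2 * (p + t) ≤ u.1 ∧ u.1 ≤ 2 * (p + 2 * t)})
      (B := {z | NC (S ∩ rc (p + t) (p + 2 * t) (q - 2 * t) (q + 2 * t)) a4 z})
      (a := 2 * (p + t)) (b := 2 * (p + 2 * t)) (c := 2 * (q - 2 * t)) (d := 2 * (q + 2 * t))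
      (by
        rintro u ⟨hu1, hu2, hu3⟩
        have := hD1r u hu1
        rw [mem_rc] at this
        omega)
      (by
        intro u hu
        have := hu.right_mem.2
        rw [mem_rc] at this
        omega)
      hzw (by omega) (by omega) h4.cluster.conn h4a h4b
    exact ⟨v, hv1.1.1, j14.trans (hv2.mono (Set.inter_subset_inter_right S sub4))⟩
  · obtain ⟨z, w, hz, hw, hzw⟩ := Conn.exit (f := fun u => -u.2) hf2' (c := -(2 * (q - t)))
      (d := -(2 * (q - 2 * t))) (by omega) hD1 (by omega) (by omega)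
    obtain ⟨v, hv1, hv2⟩ := cross
      (A := {z | NC (S ∩ rc (p - 2 * t) (p + 2 * t) (q - 2 * t) (q - t)) a2 z})
      (B := D ∩ {w | f w ≤ 4 * t} ∩
        {u | -(2 * (q - t)) ≤ -u.2 ∧ -u.2 ≤ -(2 * (q - 2 * t))})
      (a := 2 * (p - 2 * t)) (b := 2 * (p + 2 * t)) (c := 2 * (q - 2 * t)) (d := 2 * (q - t))
      (by
        intro u hu
        have := hu.right_mem.2
        rw [mem_rc] at this
        omega)
      (by
        rintro u ⟨hu1, hu2, hu3⟩
        have := hD1r u hu1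
        rw [mem_rc] at this
        omega)
      h2.cluster.conn h2a h2b hzw.symm (by omega) (by omega)
    exact ⟨v, hv2.1.1, j12.trans (hv1.mono (Set.inter_subset_inter_right S sub2))⟩
  · obtain ⟨z, w, hz, hw, hzw⟩ := Conn.exit (f := fun u => u.2) hf2 (c := 2 * (q + t))
      (d := 2 * (q + 2 * t)) (by omega) hD1 (by omega) (by omega)
    obtain ⟨v, hv1, hv2⟩ := cross
      (A := {z | NC (S ∩ rc (p - 2 * t) (p + 2 * t) (q + t) (q + 2 * t)) a1 z})
      (B := D ∩ {w | f w ≤ 4 * t} ∩ {u | 2 * (q + t) ≤ u.2 ∧ u.2 ≤ 2 * (q + 2 * t)})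
      (a := 2 * (p - 2 * t)) (b := 2 * (p + 2 * t)) (c := 2 * (q + t)) (d := 2 * (q + 2 * t))
      (by
        intro u hu
        have := hu.right_mem.2
        rw [mem_rc] at this
        omega)
      (by
        rintro u ⟨hu1, hu2, hu3⟩
        have := hD1r u hu1
        rw [mem_rc] at this
        omega)
      h1.cluster.conn h1a h1b hzw (by omega) (by omega)
    exact ⟨v, hv2.1.1, hv1.mono (Set.inter_subset_inter_right S sub1)⟩

theorem Geo.f2a (s t : ℤ) (S : Set (ℤ × ℤ)) (hs : 0 < s) (hst : 2 * s ≤ t)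
    (hl : Hc (-(2 * t)) 0 (-t) t 0 s S) (hr : Hm 0 (2 * t) (-t) t 0 s S) (hA : Ann 0 0 s S) :
    LRc (-(2 * t)) (2 * t) (-t) t S := by
  obtain ⟨o, _, hsep⟩ := hA.cluster hs
  obtain ⟨x, x', hx, hxa, hxb, hxc, hxd⟩ := hl
  obtain ⟨y, y', hy, hya, hyb, hyc, hyd⟩ := hr
  obtain ⟨w, hw1, hw2⟩ := hsep _ x' x (hx.symm.cluster.conn)
    (by rw [mem_rc]; (clear * - hxb hxc hxd hyc hyd; omega)) (by left; omega)
  obtain ⟨v, hv1, hv2⟩ := hsep _ y' y (hy.symm.cluster.conn)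
    (by rw [mem_rc]; (clear * - hyb hyc hyd; omega)) (by right; left; (clear * - hst hya hyc hyd; omega))
  have s1 : rc (-(2 * t)) 0 (-t) t ⊆ rc (-(2 * t)) (2 * t) (-t) t :=
    rc_mono le_rfl (by (clear * - hst hyc hyd; omega)) le_rfl le_rfl
  have s2 : rc 0 (2 * t) (-t) t ⊆ rc (-(2 * t)) (2 * t) (-t) t :=
    rc_mono (by omega) le_rfl le_rfl le_rfl
  have s3 : annR 0 0 s ⊆ rc (-(2 * t)) (2 * t) (-t) t :=
    (annR_sub 0 0 s).trans (rc_mono (by (clear * - hst hyc hyd; omega)) (by omega) (by omega) (by omega))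
  have k1 := NC.join s1 s3 (hx.trans hw1) hw2
  have k2 := NC.join s2 s3 (hy.trans hv1) hv2
  exact ⟨x, y, k1.trans k2.symm, hxa, hya⟩

theorem Geo.f2b (t : ℤ) (S : Set (ℤ × ℤ)) (ht : 1 ≤ t)
    (hl : Hc (-(2 * t)) 0 (-t) t 0 1 S) (hr : Hm 0 (2 * t) (-t) t 0 1 S) (h0 : (0, 0) ∈ S)
    (h1 : (0, 1) ∈ S) (h2 : (0, 2) ∈ S) : LRc (-(2 * t)) (2 * t) (-t) t S := by
  obtain ⟨x, x', hx, hxa, hxb, hxc, hxd⟩ := hl
  obtain ⟨y, y', hy, hya, hyb, hyc, hyd⟩ := hr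
  have s1 : rc (-(2 * t)) 0 (-t) t ⊆ rc (-(2 * t)) (2 * t) (-t) t :=
    rc_mono le_rfl (by omega) le_rfl le_rfl
  have s2 : rc 0 (2 * t) (-t) t ⊆ rc (-(2 * t)) (2 * t) (-t) t :=
    rc_mono (by omega) le_rfl le_rfl le_rfl
  set C := S ∩ rc (-(2 * t)) (2 * t) (-t) t with hC
  have m0 : ((0, 0) : ℤ × ℤ) ∈ C := ⟨h0, by rw [mem_rc]; simp only; omega⟩
  have m1 : ((0, 1) : ℤ × ℤ) ∈ C := ⟨h1, by rw [mem_rc]; simp only; omega⟩
  have m2 : ((0, 2) : ℤ × ℤ) ∈ C := ⟨h2, by rw [mem_rc]; simp only; omega⟩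
  have n01 : NC C (0, 0) (0, 1) := NC.of_nn m0 m1 (by unfold NN; simp only [one_ne_zero, zero_add, zero_ne_one, zero_sub, Int.reduceNeg, zero_eq_neg, or_self, and_self, reduceCtorEq, or_false, or_true])
  have n12 : NC C (0, 1) (0, 2) := NC.of_nn m1 m2 (by unfold NN; simp only [OfNat.ofNat_ne_one, zero_add, zero_ne_one, zero_sub, Int.reduceNeg, zero_eq_neg, one_ne_zero, or_self, and_self, Int.reduceAdd, sub_self, OfNat.ofNat_ne_zero, or_false, or_true])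
  have key : ∀ u : ℤ × ℤ, u.1 = 0 → 0 ≤ u.2 → u.2 ≤ 2 → NC C (0, 0) u := by
    rintro ⟨u1, u2⟩ h3 h4 h5
    simp only at h3 h4 h5
    subst h3
    have : u2 = 0 ∨ u2 = 1 ∨ u2 = 2 := by omega
    rcases this with rfl | rfl | rfl
    · exact NC.refl m0
    · exact n01
    · exact n01.trans n12
  have k1 : NC C x x' := hx.mono (Set.inter_subset_inter_right S s1)
  have k2 : NC C y y' := hy.mono (Set.inter_subset_inter_right S s2)
  have k3 := key x' (by omega) (by omega) (by omega)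
  have k4 := key y' (by omega) (by omega) (by omega)
  exact ⟨x, y, (k1.trans k3.symm).trans (k4.trans k2.symm), hxa, hya⟩

/-- The deterministic facts about crossings. -/
theorem geo : Geo where
  chain := LRc.chain
  mono := LRc.mono
  f1 := Geo.f1'
  zig := Geo.zig'
  f2 := Geo.f2a
  f2' := Geo.f2b

end Vale.Agent.P145.FB
end

section

/-!
# P145, block F-B: circuits of the open bonds with spin plus, in the plane measure

The abstract theorem `PP.rsw` is applied to the random set `SQ` of the open bonds with spin plus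
together with their end points.
-/

namespace Vale.Agent.P145.FB

open Finset Filter Topology MeasureTheory
open Vale.Agent.P152 Vale.Agent.P145.FA

/-- The open bonds with spin plus. -/
def opp (x : Hgt × Mk) : Set Pt := {w | x.2 w = true ∧ x.1 (e1 w) % 4 = 0}

/-- Positive association of the open bonds with spin plus. -/
def Assoc (t : ℝ) (P : Measure (Ori (ℤ × ℤ))) : Prop :=
  ∀ U V : Set Pt → Prop, (∀ A B, A ⊆ B → U A → U B) → (∀ A B, A ⊆ B → V A → V B) →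
    (∃ F : Finset Pt, ∀ A B : Set Pt, (∀ w ∈ F, w ∈ A ↔ w ∈ B) → U A → U B) →
    (∃ F : Finset Pt, ∀ A B : Set Pt, (∀ w ∈ F, w ∈ A ↔ w ∈ B) → V A → V B) →
    (J t P).real {x | U (opp x)} * (J t P).real {x | V (opp x)} ≤
      (J t P).real {x | U (opp x) ∧ V (opp x)}

/-- The edge points given by a set of bonds and their end points. -/
def fine (A : Set Pt) : Set Pt :=
  {p | (Odd (p.1 + p.2) ∧ vx p ∈ A) ∨
    (Even p.1 ∧ Even p.2 ∧ ∃ q, NN p q ∧ vx q ∈ A)}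

/-- The open bonds with spin plus and their end points. -/
def SQ (x : Hgt × Mk) : Set Pt := fine (opp x)

theorem fine_mono {A B : Set Pt} (h : A ⊆ B) : fine A ⊆ fine B := by
  rintro p (⟨h1, h2⟩ | ⟨h1, h2, q, h3, h4⟩)
  · exact Or.inl ⟨h1, h h2⟩
  · exact Or.inr ⟨h1, h2, q, h3, h h4⟩

/-- Local events of `fine A` depend on finitely many bonds. -/
theorem loc_fine {Q : Set (ℤ × ℤ) → Prop} (hQ : Loc Q) :
    ∃ F : Finset Pt, ∀ A B : Set Pt, (∀ w ∈ F, w ∈ A ↔ w ∈ B) → Q (fine A) → Q (fine B) := by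
  obtain ⟨N, hN⟩ := hQ
  refine ⟨((Finset.Icc (-(N + 1)) (N + 1)) ×ˢ (Finset.Icc (-(N + 1)) (N + 1))).image vx,
    fun A B h hA => hN _ _ ?_ hA⟩
  have key : ∀ q : Pt, |q.1| ≤ N + 1 → |q.2| ≤ N + 1 → (vx q ∈ A ↔ vx q ∈ B) := by
    intro q h1 h2
    refine h _ (Finset.mem_image_of_mem _ ?_)
    rw [abs_le] at h1 h2
    simp only [Finset.mem_product, Finset.mem_Icc]
    exact ⟨⟨h1.1, h1.2⟩, ⟨h2.1, h2.2⟩⟩
  intro p h1 h2
  rw [abs_le] at h1 h2
  have k1 : vx p ∈ A ↔ vx p ∈ B := key p (by rw [abs_le]; omega) (by rw [abs_le]; omega)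
  have k2 : ∀ q, NN p q → (vx q ∈ A ↔ vx q ∈ B) := by
    intro q hq
    refine key q ?_ ?_ <;> rw [abs_le] <;> unfold NN at hq <;> omega
  unfold fine
  constructor
  · rintro (⟨h3, h4⟩ | ⟨h3, h4, q, h5, h6⟩)
    · exact Or.inl ⟨h3, k1.1 h4⟩
    · exact Or.inr ⟨h3, h4, q, h5, (k2 q h5).1 h6⟩
  · rintro (⟨h3, h4⟩ | ⟨h3, h4, q, h5, h6⟩)
    · exact Or.inl ⟨h3, k1.2 h4⟩
    · exact Or.inr ⟨h3, h4, q, h5, (k2 q h5).2 h6⟩

/-! ### The set `SQ` as a function of `SP` -/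

/-- The edge points of `S` together with their end points. -/
def hull (S : Set Pt) : Set Pt :=
  {p | (Odd (p.1 + p.2) ∧ p ∈ S) ∨ (Even p.1 ∧ Even p.2 ∧ ∃ q, NN p q ∧ q ∈ S)}

theorem nn_odd {p q : Pt} (h : NN p q) (h1 : Even p.1) (h2 : Even p.2) : Odd (q.1 + q.2) := by
  rw [Int.even_iff] at h1 h2
  rw [Int.odd_iff]
  unfold NN at h
  omega

theorem SQ_eq (x : Hgt × Mk) : SQ x = hull (SP x) := by
  ext p
  unfold SQ fine hull opp SP
  simp only [Set.mem_ofPred_eq]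
  constructor
  · rintro (⟨h1, h2, h3⟩ | ⟨h1, h2, q, h3, h4, h5⟩)
    · exact Or.inl ⟨h1, Or.inr ⟨h1, h2, h3⟩⟩
    · exact Or.inr ⟨h1, h2, q, h3, Or.inr ⟨nn_odd h3 h1 h2, h4, h5⟩⟩
  · rintro (⟨h1, (⟨h2, h3, -⟩ | ⟨-, h2, h3⟩)⟩ | ⟨h1, h2, q, h3, (⟨h4, h5, -⟩ | ⟨-, h4, h5⟩)⟩)
    · exfalso
      rw [Int.odd_iff] at h1
      rw [Int.even_iff] at h2 h3
      omega
    · exact Or.inl ⟨h1, h2, h3⟩
    · exfalso
      have := nn_odd h3 h1 h2
      rw [Int.odd_iff] at this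
      rw [Int.even_iff] at h4 h5
      omega
    · exact Or.inr ⟨h1, h2, q, h3, h4, h5⟩

/-- `hull` commutes with the symmetries of the fine lattice. -/
theorem hull_comm {g g' : Pt → Pt} (hg : ∀ z, g (g' z) = z) (hg' : ∀ z, g' (g z) = z)
    (hn : ∀ u v, NN u v → NN (g u) (g v)) (hn' : ∀ u v, NN u v → NN (g' u) (g' v))
    (ho : ∀ z : Pt, Odd ((g z).1 + (g z).2) ↔ Odd (z.1 + z.2))
    (he : ∀ z : Pt, (Even (g z).1 ∧ Even (g z).2) ↔ (Even z.1 ∧ Even z.2)) (S : Set Pt) :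
    hull {z | g z ∈ S} = {z | g z ∈ hull S} := by
  ext p
  constructor
  · rintro (⟨h1, h2⟩ | ⟨h1, h2, q, h3, h4⟩)
    · exact Or.inl ⟨(ho p).2 h1, h2⟩
    · exact Or.inr ⟨((he p).2 ⟨h1, h2⟩).1, ((he p).2 ⟨h1, h2⟩).2, g q, hn _ _ h3, h4⟩
  · rintro (⟨h1, h2⟩ | ⟨h1, h2, q, h3, h4⟩)
    · exact Or.inl ⟨(ho p).1 h1, h2⟩
    · refine Or.inr ⟨((he p).1 ⟨h1, h2⟩).1, ((he p).1 ⟨h1, h2⟩).2, g' q, ?_, ?_⟩
      · have := hn' _ _ h3
        rwa [hg'] at this
      · show g (g' q) ∈ S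
        rw [hg]; exact h4

theorem hull_shift (a b : ℤ) (S : Set Pt) :
    hull {z | (z.1 + 2 * a, z.2 + 2 * b) ∈ S} = {z | (z.1 + 2 * a, z.2 + 2 * b) ∈ hull S} := by
  refine hull_comm (g := fun z => (z.1 + 2 * a, z.2 + 2 * b))
    (g' := fun z => (z.1 + 2 * (-a), z.2 + 2 * (-b))) ?_ ?_ (nn_shift a b) (nn_shift (-a) (-b))
    ?_ ?_ S
  · rintro ⟨x, y⟩; ext <;> dsimp only <;> ring
  · rintro ⟨x, y⟩; ext <;> dsimp only <;> ring
  · rintro ⟨x, y⟩; simp only [Int.odd_iff]; omega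
  · rintro ⟨x, y⟩; simp only [Int.even_iff]; (clear * -; omega)

theorem hull_reflx (S : Set Pt) :
    hull {z | (-z.1, z.2) ∈ S} = {z | (-z.1, z.2) ∈ hull S} := by
  refine hull_comm (g := fun z => (-z.1, z.2)) (g' := fun z => (-z.1, z.2)) ?_ ?_ nn_reflx nn_reflx
    ?_ ?_ S
  · rintro ⟨x, y⟩; ext <;> dsimp only <;> ring
  · rintro ⟨x, y⟩; ext <;> dsimp only <;> ring
  · rintro ⟨x, y⟩; simp only [Int.odd_iff]; (clear * -; omega)
  · rintro ⟨x, y⟩; simp only [Int.even_iff]; omega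

theorem hull_refly (S : Set Pt) :
    hull {z | (z.1, -z.2) ∈ S} = {z | (z.1, -z.2) ∈ hull S} := by
  refine hull_comm (g := fun z => (z.1, -z.2)) (g' := fun z => (z.1, -z.2)) ?_ ?_ nn_refly nn_refly
    ?_ ?_ S
  · rintro ⟨x, y⟩; ext <;> dsimp only <;> ring
  · rintro ⟨x, y⟩; ext <;> dsimp only <;> ring
  · rintro ⟨x, y⟩; simp only [Int.odd_iff]; omega
  · rintro ⟨x, y⟩; simp only [Int.even_iff]; omega

theorem hull_swap (S : Set Pt) :
    hull {z | (z.2, z.1) ∈ S} = {z | (z.2, z.1) ∈ hull S} := by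
  refine hull_comm (g := fun z => (z.2, z.1)) (g' := fun z => (z.2, z.1)) ?_ ?_ nn_swap nn_swap
    ?_ ?_ S
  · rintro ⟨x, y⟩; rfl
  · rintro ⟨x, y⟩; rfl
  · rintro ⟨x, y⟩; simp only [Int.odd_iff]; omega
  · rintro ⟨x, y⟩; simp only [Int.even_iff]; omega

theorem loc_hull {Q : Set (ℤ × ℤ) → Prop} (hQ : Loc Q) : Loc (fun S => Q (hull S)) := by
  obtain ⟨N, hN⟩ := hQ
  refine ⟨N + 1, fun S T h hS => hN _ _ ?_ hS⟩
  intro p h1 h2
  rw [abs_le] at h1 h2
  have k1 : p ∈ S ↔ p ∈ T := h p (by rw [abs_le]; omega) (by rw [abs_le]; omega)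
  have k2 : ∀ q, NN p q → (q ∈ S ↔ q ∈ T) := by
    intro q hq
    refine h q ?_ ?_ <;> rw [abs_le] <;> unfold NN at hq <;> omega
  constructor
  · rintro (⟨h3, h4⟩ | ⟨h3, h4, q, h5, h6⟩)
    · exact Or.inl ⟨h3, k1.1 h4⟩
    · exact Or.inr ⟨h3, h4, q, h5, (k2 q h5).1 h6⟩
  · rintro (⟨h3, h4⟩ | ⟨h3, h4, q, h5, h6⟩)
    · exact Or.inl ⟨h3, k1.2 h4⟩
    · exact Or.inr ⟨h3, h4, q, h5, (k2 q h5).2 h6⟩

/-! ### The instance of `PP` -/

/-- Invariance of the law of `SP` under the symmetries of the fine lattice. -/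
structure SymS (t : ℝ) (P : Measure (Ori (ℤ × ℤ))) : Prop where
  shift : ∀ (a b : ℤ) (Q : Set (ℤ × ℤ) → Prop), Loc Q →
    (J t P).real {x | Q {z | (z.1 + 2 * a, z.2 + 2 * b) ∈ SP x}} = (J t P).real {x | Q (SP x)}
  reflx : ∀ Q : Set (ℤ × ℤ) → Prop, Loc Q →
    (J t P).real {x | Q {z | (-z.1, z.2) ∈ SP x}} = (J t P).real {x | Q (SP x)}
  refly : ∀ Q : Set (ℤ × ℤ) → Prop, Loc Q →
    (J t P).real {x | Q {z | (z.1, -z.2) ∈ SP x}} = (J t P).real {x | Q (SP x)}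
  swap : ∀ Q : Set (ℤ × ℤ) → Prop, Loc Q →
    (J t P).real {x | Q {z | (z.2, z.1) ∈ SP x}} = (J t P).real {x | Q (SP x)}

/-- The random set `SQ` under the law `J t P`. -/
noncomputable def ppq (t : ℝ) (P : Measure (Ori (ℤ × ℤ))) [IsProbabilityMeasure P]
    (hA : Assoc t P) (hS : SymS t P) : PP where
  p Q := (J t P).real {x | Q (SQ x)}
  nonneg _ := measureReal_nonneg
  le_one _ := measureReal_le_one
  mono Q R h := measureReal_mono (fun x hx => h _ hx)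
  or_le Q R := measureReal_union_le _ _
  fkg Q R hQ hR := hA (fun A => Q (fine A)) (fun A => R (fine A))
    (fun A B h => hQ.1 _ _ (fine_mono h)) (fun A B h => hR.1 _ _ (fine_mono h))
    (loc_fine hQ.2) (loc_fine hR.2)
  shift a b Q hQ := by
    have h := hS.shift a b (fun S => Q (hull S)) (loc_hull hQ.2)
    simp only [hull_shift, ← SQ_eq] at h
    exact h
  reflx Q hQ := by
    have h := hS.reflx (fun S => Q (hull S)) (loc_hull hQ.2)
    simp only [hull_reflx, ← SQ_eq] at h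
    exact h
  refly Q hQ := by
    have h := hS.refly (fun S => Q (hull S)) (loc_hull hQ.2)
    simp only [hull_refly, ← SQ_eq] at h
    exact h
  swap Q hQ := by
    have h := hS.swap (fun S => Q (hull S)) (loc_hull hQ.2)
    simp only [hull_swap, ← SQ_eq] at h
    exact h

/-! ### Crossings of `SP` are crossings of `SQ` -/

theorem nc_hull {S R : Set Pt} (hS : ∀ z ∈ S, Odd (z.1 + z.2) ∨ (Even z.1 ∧ Even z.2)) {x y : Pt}
    (h : NC (S ∩ R) x y) (hxy : x ≠ y) : NC (hull S ∩ R) x y := by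
  have mem : ∀ u v : Pt, (NN u v ∨ NN v u) → u ∈ S → v ∈ S → u ∈ hull S := by
    intro u v huv hu hv
    rcases hS u hu with h1 | ⟨h1, h2⟩
    · exact Or.inl ⟨h1, hu⟩
    · refine Or.inr ⟨h1, h2, v, ?_, hv⟩
      rcases huv with h3 | h3
      · exact h3
      · unfold NN at h3 ⊢; omega
  obtain ⟨hx, h⟩ := h
  have key : ∀ y, Relation.ReflTransGen (fun u v => NN u v ∧ v ∈ S ∩ R) x y →
      (x = y ∨ NC (hull S ∩ R) x y) ∧ y ∈ S ∩ R := by
    intro y hy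
    induction hy with
    | refl => exact ⟨Or.inl rfl, hx⟩
    | @tail u v _ huv ih =>
      obtain ⟨ih, hu⟩ := ih
      have hv : v ∈ hull S := mem v u (Or.inr huv.1) huv.2.1 hu.1
      refine ⟨Or.inr ?_, huv.2⟩
      rcases ih with rfl | ih
      · exact ⟨⟨mem x v (Or.inl huv.1) hu.1 huv.2.1, hx.2⟩,
          Relation.ReflTransGen.single ⟨huv.1, hv, huv.2.2⟩⟩
      · exact ⟨ih.1, ih.2.tail ⟨huv.1, hv, huv.2.2⟩⟩
  rcases (key y h).1 with h1 | h1
  · exact absurd h1 hxy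
  · exact h1

theorem SP_par (x : Hgt × Mk) : ∀ z ∈ SP x, Odd (z.1 + z.2) ∨ (Even z.1 ∧ Even z.2) := by
  rintro z (⟨h1, h2, -⟩ | ⟨h1, -⟩)
  · exact Or.inr ⟨h1, h2⟩
  · exact Or.inl h1

theorem LRc_SQ {x : Hgt × Mk} {a b c d : ℤ} (hab : a ≠ b) (h : LRc a b c d (SP x)) :
    LRc a b c d (SQ x) := by
  obtain ⟨u, v, h1, h2, h3⟩ := h
  rw [SQ_eq]
  exact ⟨u, v, nc_hull (SP_par x) h1 (fun e => hab (by rw [e] at h2; omega)), h2, h3⟩

/-! ### `SQ` is almost surely contained in `SP` -/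

theorem ev_of_open {a : Ori (ℤ × ℤ)} (ha : ∀ x y, Ice a x y) {ξ : Mk} {w : Pt}
    (h : oma a ξ w = true) : ev a w = true := by
  have h1 := ha w.1 w.2
  unfold Ice at h1
  simp only [oma, ev, od, dg, ag] at h ⊢
  have e : (w.1, w.2) = w := rfl
  rw [e] at h1
  cases h2 : a (Sum.inl w) <;> cases h3 : a (Sum.inr w) <;>
    cases h4 : a (Sum.inr (w.1, w.2 - 1)) <;> cases h5 : a (Sum.inl (w.1 - 1, w.2)) <;>
    by_cases h6 : Even (w.1 + w.2) <;> simp_all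

theorem open_even (t : ℝ) (P : Measure (Ori (ℤ × ℤ))) [IsProbabilityMeasure P]
    (hice : ∀ᵐ a ∂P, ∀ x y, Ice a x y) :
    ∀ᵐ x ∂(J t P), ∀ w, x.2 w = true → x.1 (e1 w) = x.1 (e2 w) := by
  have hm : ∀ w : Pt, MeasurableSet {x : Hgt × Mk | x.2 w = true → x.1 (e1 w) = x.1 (e2 w)} := by
    intro w
    have h1 : MeasurableSet {x : Hgt × Mk | x.2 w = true} :=
      measurableSet_eq_fun ((measurable_pi_apply w).comp measurable_snd) measurable_const
    have h2 : MeasurableSet {x : Hgt × Mk | x.1 (e1 w) = x.1 (e2 w)} :=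
      measurableSet_eq_fun ((measurable_pi_apply _).comp measurable_fst)
        ((measurable_pi_apply _).comp measurable_fst)
    have h3 : {x : Hgt × Mk | x.2 w = true → x.1 (e1 w) = x.1 (e2 w)} =
        {x : Hgt × Mk | x.2 w = true}ᶜ ∪ {x : Hgt × Mk | x.1 (e1 w) = x.1 (e2 w)} := by
      ext x
      simp only [Set.mem_ofPred_eq, Set.mem_union, Set.mem_compl_iff]
      (clear * -; tauto)
    rw [h3]
    exact h1.compl.union h2
  have hm' : MeasurableSet {x : Hgt × Mk | ∀ w, x.2 w = true → x.1 (e1 w) = x.1 (e2 w)} := by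
    have : {x : Hgt × Mk | ∀ w, x.2 w = true → x.1 (e1 w) = x.1 (e2 w)} =
        ⋂ w, {x : Hgt × Mk | x.2 w = true → x.1 (e1 w) = x.1 (e2 w)} := by
      ext x; simp only [Prod.forall, Set.mem_ofPred_eq, Set.mem_iInter]
    rw [this]
    exact MeasurableSet.iInter hm
  have key : ∀ k : ℤ, ∀ᵐ x ∂((JO t P).map (hk k)),
      ∀ w, x.2 w = true → x.1 (e1 w) = x.1 (e2 w) := by
    intro k
    rw [ae_map_iff (measurable_hk k).aemeasurable hm', JO]
    rw [ae_map_iff measurable_oma.aemeasurable (by exact (measurable_hk k) hm')]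
    have h1 : ∀ᵐ x ∂(P.prod (mkm t)), ∀ i j, Ice x.1 i j :=
      (Measure.quasiMeasurePreserving_fst (μ := P) (ν := mkm t)).ae hice
    filter_upwards [h1] with x hx w hw
    have h2 := ev_of_open hx hw
    rw [ev_iff (FP.isHeight_pth hx)] at h2
    have h3 : pth x.1 (e1 w) = pth x.1 (e2 w) := by simpa using h2
    show pth x.1 (e1 w) + 2 * k = pth x.1 (e2 w) + 2 * k
    rw [h3]
  rw [J]
  refine ae_add_measure_iff.2 ⟨?_, ?_⟩
  · exact Measure.ae_smul_measure (key 0) _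
  · exact Measure.ae_smul_measure (key 1) _

theorem face_of_nn {p q : Pt} (h : NN p q) (h1 : Even p.1) (h2 : Even p.2) :
    fc p = e1 (vx q) ∨ fc p = e2 (vx q) := by
  obtain ⟨p1, p2⟩ := p
  obtain ⟨q1, q2⟩ := q
  obtain ⟨i, hi⟩ := h1
  obtain ⟨j, hj⟩ := h2
  dsimp only at hi hj
  unfold NN at h
  dsimp only at h
  unfold fc vx e1 e2
  dsimp only
  have hev : ∀ z : ℤ, Even z ↔ z % 2 = 0 := fun z => Int.even_iff
  simp only [hev]
  rcases h with ⟨h3, h4 | h4⟩ | ⟨h3, h4 | h4⟩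
  · right
    rw [if_pos (by omega)]
    ext <;> dsimp only <;> omega
  · left
    rw [if_pos (by (clear * - hi hj h3 h4; omega))]
    ext <;> dsimp only <;> (clear * - hi hj h3 h4; omega)
  · left
    rw [if_neg (by omega)]
    ext <;> dsimp only <;> (clear * - hi hj h3 h4; omega)
  · right
    rw [if_neg (by (clear * - hi hj h3 h4; omega))]
    ext <;> dsimp only <;> (clear * - hi hj h3 h4; omega)

theorem SQ_subset (t : ℝ) (P : Measure (Ori (ℤ × ℤ))) [IsProbabilityMeasure P]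
    (hice : ∀ᵐ a ∂P, ∀ x y, Ice a x y) : ∀ᵐ x ∂(J t P), SQ x ⊆ SP x := by
  filter_upwards [open_even t P hice] with x hx
  rw [SQ_eq]
  rintro p (⟨-, h⟩ | ⟨h1, h2, q, h3, (⟨h4, h5, -⟩ | ⟨-, h4, h5⟩)⟩)
  · exact h
  · exfalso
    have := nn_odd h3 h1 h2
    rw [Int.odd_iff] at this
    rw [Int.even_iff] at h4 h5
    (clear * - h4 h5 this; omega)
  · refine Or.inl ⟨h1, h2, ?_⟩
    rcases face_of_nn h3 h1 h2 with h6 | h6
    · rw [h6]; exact h5
    · rw [h6, ← hx _ h4]; exact h5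

theorem inc_SQ_le (t : ℝ) (P : Measure (Ori (ℤ × ℤ))) [IsProbabilityMeasure P]
    (hice : ∀ᵐ a ∂P, ∀ x y, Ice a x y) {Q : Set (ℤ × ℤ) → Prop} (hQ : Inc Q) :
    (J t P).real {x | Q (SQ x)} ≤ (J t P).real {x | Q (SP x)} := by
  refine ENNReal.toReal_mono (measure_ne_top _ _) (measure_mono_ae ?_)
  filter_upwards [SQ_subset t P hice] with x hx h
  exact hQ _ _ hx h

/-! ### A single bond is open and plus with positive probability -/

theorem edge_pos {t : ℝ} {P : Measure (Ori (ℤ × ℤ))} [IsProbabilityMeasure P] (hS : SymS t P)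
    {c0 : ℝ} (h0 : 0 < c0) {n : ℤ} (hn : 1 ≤ n)
    (hsq : c0 ≤ (J t P).real {x | LRc 0 n 0 n (SP x)}) :
    0 < (J t P).real {x | (0, 0) ∈ SQ x ∧ (0, 1) ∈ SQ x ∧ (0, 2) ∈ SQ x} := by
  have hloc : ∀ p : Pt, Loc (fun S : Set Pt => p ∈ S) := fun p =>
    ⟨max |p.1| |p.2|, fun S T h hS => (h p (le_max_left _ _) (le_max_right _ _)).1 hS⟩
  have h1 : ∀ a b : ℤ, (J t P).real {x | (2 * a, 1 + 2 * b) ∈ SP x} =
      (J t P).real {x | ((0, 1) : Pt) ∈ SP x} := by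
    intro a b
    have := hS.shift a b _ (hloc (0, 1))
    simpa using this
  have h2 : ∀ a b : ℤ, (J t P).real {x | (1 + 2 * a, 2 * b) ∈ SP x} =
      (J t P).real {x | ((0, 1) : Pt) ∈ SP x} := by
    intro a b
    rw [← h1 b a]
    exact hS.swap _ (hloc (2 * b, 1 + 2 * a))
  have h3 : 0 < (J t P).real {x | ((0, 1) : Pt) ∈ SP x} := by
    by_contra hcon
    have h4 : (J t P).real {x | ((0, 1) : Pt) ∈ SP x} = 0 :=
      le_antisymm (not_lt.1 hcon) measureReal_nonneg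
    have h5 : ∀ p : Pt, Odd (p.1 + p.2) → (J t P).real {x | p ∈ SP x} = 0 := by
      rintro ⟨p1, p2⟩ hp
      rw [Int.odd_iff] at hp
      dsimp only at hp
      rcases Int.even_or_odd p1 with hp1 | hp1
      · obtain ⟨i, hi⟩ := hp1
        obtain ⟨j, hj⟩ : ∃ j, p2 = 1 + 2 * j := ⟨(p2 - 1) / 2, by (clear * - hp hi; omega)⟩
        have e : ((p1, p2) : Pt) = (2 * i, 1 + 2 * j) := by ext <;> dsimp only <;> omega
        rw [e, h1, h4]
      · obtain ⟨i, hi⟩ := hp1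
        obtain ⟨j, hj⟩ : ∃ j, p2 = 2 * j := ⟨p2 / 2, by (clear * - hp hi; omega)⟩
        have e : ((p1, p2) : Pt) = (1 + 2 * i, 2 * j) := by ext <;> dsimp only <;> omega
        rw [e, h2, h4]
    have h6 : (J t P).real {x | LRc 0 n 0 n (SP x)} ≤
        ∑ p ∈ (Finset.Icc (-(2 * n + 1)) (2 * n + 1) ×ˢ Finset.Icc (-(2 * n + 1)) (2 * n + 1)).filter
          (fun p : Pt => Odd (p.1 + p.2)), (J t P).real {x | p ∈ SP x} := by
      refine le_trans (measureReal_mono ?_ (measure_ne_top _ _)) (measureReal_biUnion_finset_le _ _)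
      intro x hx
      obtain ⟨u, v, ⟨g1, g2⟩, g3, g4⟩ := LRc_SQ (x := x) (by omega) hx
      rcases Relation.ReflTransGen.cases_head g2 with h | ⟨w, ⟨g5, g6⟩, -⟩
      · exfalso
        rw [h] at g3; omega
      · have gu := g1.1
        rw [SQ_eq] at gu
        have hb := g1.2
        obtain ⟨b1, b2, b3, b4⟩ := hb
        rcases gu with ⟨k1, k2⟩ | ⟨k1, k2, q, k3, k4⟩
        · simp only [Set.mem_iUnion, exists_prop, Finset.mem_filter, Finset.mem_product,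
            Finset.mem_Icc]
          exact ⟨u, ⟨⟨⟨by omega, by omega⟩, ⟨by omega, by omega⟩⟩, k1⟩, k2⟩
        · have k5 := nn_odd k3 k1 k2
          unfold NN at k3
          simp only [Set.mem_iUnion, exists_prop, Finset.mem_filter, Finset.mem_product,
            Finset.mem_Icc]
          exact ⟨q, ⟨⟨⟨by omega, by (clear * - g3 b2 k3; omega)⟩, ⟨by omega, by omega⟩⟩, k5⟩, k4⟩
    rw [Finset.sum_eq_zero (fun p hp => h5 p (Finset.mem_filter.1 hp).2)] at h6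
    linarith
  refine lt_of_lt_of_le h3 (measureReal_mono ?_)
  intro x hx
  have hx' : ((0, 1) : Pt) ∈ SP x := hx
  show (0, 0) ∈ SQ x ∧ (0, 1) ∈ SQ x ∧ (0, 2) ∈ SQ x
  rw [SQ_eq]
  refine ⟨Or.inr ⟨by decide, by decide, (0, 1), by unfold NN; decide, hx'⟩,
    Or.inl ⟨by decide, hx'⟩, Or.inr ⟨by decide, by decide, (0, 1), by unfold NN; decide, hx'⟩⟩

/-! ### Circuits and crossings at all scales -/

/-- **(R1)**: crossings of long rectangles by open bonds with spin plus. -/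
theorem r1_long {t : ℝ} {P : Measure (Ori (ℤ × ℤ))} [IsProbabilityMeasure P]
    (hice : ∀ᵐ a ∂P, ∀ x y, Ice a x y) (hA : Assoc t P) (hS : SymS t P)
    {c0 : ℝ} (h0 : 0 < c0) {N : ℤ}
    (hsq : ∀ n : ℤ, N ≤ n → c0 ≤ (J t P).real {x | LRc 0 n 0 n (SP x)})
    (harm : ∀ c : ℝ, 0 < c → ∀ M0 : ℤ, ∃ M : ℤ, M0 ≤ M ∧ ∃ s0 : ℤ, ∀ s : ℤ, s0 ≤ s →
      (J t P).real {x | Arm s (2 * M * s) (SP x)} < c) (k : ℕ) :
    ∃ c : ℝ, 0 < c ∧ ∃ r0 : ℤ, ∀ r : ℤ, r0 ≤ r →
      c ≤ (J t P).real {x | LRc 0 (k * r) 0 r (SQ x)} := by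
  have hIA : ∀ s R : ℤ, Inc (Arm s R) := fun s R =>
    ((IL_Ann 0 0 s).and ((IL_Ann 0 0 (2 * R)).and ((IL_Ann (3 * R) 0 R).and
      (IL_Hc (-(4 * R)) 0 (-(2 * R)) (2 * R) 0 s)))).1
  refine PP.rsw_rect (ppq t P hA hS) geo h0 (max N 1).toNat ?_ ?_ ?_ k
  · intro n hn
    have h1 : N ≤ n := by omega
    have h2 : (1 : ℤ) ≤ n := by omega
    refine (hsq n h1).trans (measureReal_mono ?_)
    intro x hx
    exact LRc_SQ (by omega) hx
  · exact edge_pos hS h0 (n := max N 1) (le_max_right _ _) (hsq _ (le_max_left _ _))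
  · intro c hc M0
    obtain ⟨M, hM, s0, h⟩ := harm c hc M0
    exact ⟨M, hM, s0, fun s hs => lt_of_le_of_lt (inc_SQ_le t P hice (hIA s _)) (h s hs)⟩

/-- **(R1)**: circuits of open bonds with spin plus in annuli. -/
theorem r1_ann {t : ℝ} {P : Measure (Ori (ℤ × ℤ))} [IsProbabilityMeasure P]
    (hice : ∀ᵐ a ∂P, ∀ x y, Ice a x y) (hA : Assoc t P) (hS : SymS t P)
    {c0 : ℝ} (h0 : 0 < c0) {N : ℤ}
    (hsq : ∀ n : ℤ, N ≤ n → c0 ≤ (J t P).real {x | LRc 0 n 0 n (SP x)})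
    (harm : ∀ c : ℝ, 0 < c → ∀ M0 : ℤ, ∃ M : ℤ, M0 ≤ M ∧ ∃ s0 : ℤ, ∀ s : ℤ, s0 ≤ s →
      (J t P).real {x | Arm s (2 * M * s) (SP x)} < c) :
    ∃ c : ℝ, 0 < c ∧ ∃ r0 : ℤ, ∀ r : ℤ, r0 ≤ r → ∀ p q : ℤ,
      c ≤ (J t P).real {x | Ann p q r (SQ x)} := by
  obtain ⟨c, hc, r0, h⟩ := r1_long hice hA hS h0 hsq harm 4
  refine ⟨c ^ 4, by positivity, r0, fun r hr p q => ?_⟩
  exact (ppq t P hA hS).Ann_ge p q hc.le (h r hr)

end Vale.Agent.P145.FB
end

section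

/-!
# The event `Arm`: one cluster of `S` contains the three circuits
-/

namespace Vale.Agent.P145.FB

open Vale.Agent.P153 Vale.Agent.P153.Topo

/-- `C` meets every path of the triangular lattice from the box with centre `(p, q)` and half side
`t` to the complement of the interior of the box with half side `2t`. -/
def Sep (C : Set (ℤ × ℤ)) (p q t : ℤ) : Prop :=
  ∀ (D : Set (ℤ × ℤ)) (x y : ℤ × ℤ), Conn D x y → x ∈ rc (p - t) (p + t) (q - t) (q + t) →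
    (y.1 ≤ 2 * (p - 2 * t) ∨ 2 * (p + 2 * t) ≤ y.1 ∨ y.2 ≤ 2 * (q - 2 * t) ∨
      2 * (q + 2 * t) ≤ y.2) → (D ∩ C).Nonempty

theorem Sep.mono {C C' : Set (ℤ × ℤ)} {p q t : ℤ} (h : Sep C p q t) (hC : C ⊆ C') :
    Sep C' p q t :=
  fun D x y hD hx hy => (h D x y hD hx hy).mono (Set.inter_subset_inter_right D hC)

/-- On `Arm` one cluster of `S` in a box contains circuits around the three boxes. -/
theorem Arm.joined {s R : ℤ} (hs : 0 < s) (hsR : s ≤ 2 * R) {S : Set (ℤ × ℤ)} (hA : Arm s R S) :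
    ∃ o : ℤ × ℤ, o ∈ S ∩ rc (-(4 * R)) (5 * R) (-(4 * R)) (4 * R) ∧
      Sep {w | NC (S ∩ rc (-(4 * R)) (5 * R) (-(4 * R)) (4 * R)) o w} 0 0 s ∧
      Sep {w | NC (S ∩ rc (-(4 * R)) (5 * R) (-(4 * R)) (4 * R)) o w} 0 0 (2 * R) ∧
      Sep {w | NC (S ∩ rc (-(4 * R)) (5 * R) (-(4 * R)) (4 * R)) o w} (3 * R) 0 R := by
  obtain ⟨hA1, hA2, hA3, hH⟩ := hA
  have hR : 0 < R := by omega
  obtain ⟨o1, ho1, h1⟩ := hA1.cluster hs
  obtain ⟨o2, ho2, h2⟩ := hA2.cluster (by (clear * - hR; omega))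
  obtain ⟨o3, ho3, h3⟩ := hA3.cluster hR
  obtain ⟨x, y, hxy, hx, hy, hy1, hy2⟩ := hH
  set B := rc (-(4 * R)) (5 * R) (-(4 * R)) (4 * R) with hB
  have s1 : annR 0 0 s ⊆ B :=
    (annR_sub 0 0 s).trans (rc_mono (by (clear * - hsR; omega)) (by omega) (by omega) (by omega))
  have s2 : annR 0 0 (2 * R) ⊆ B :=
    (annR_sub 0 0 (2 * R)).trans (rc_mono (by omega) (by (clear * - hR; omega)) (by omega) (by omega))
  have s3 : annR (3 * R) 0 R ⊆ B :=
    (annR_sub (3 * R) 0 R).trans (rc_mono (by omega) (by omega) (by omega) (by omega))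
  have s4 : rc (-(4 * R)) 0 (-(2 * R)) (2 * R) ⊆ B :=
    rc_mono le_rfl (by omega) (by omega) (by (clear * - hR; omega))
  -- the path meets the circuits 1 and 2
  obtain ⟨w1, hw1, hw1'⟩ := h1 _ y x hxy.symm.cluster.conn (by rw [mem_rc]; (clear * - hs hy hy1 hy2; omega))
    (by left; omega)
  obtain ⟨w2, hw2, hw2'⟩ := h2 _ y x hxy.symm.cluster.conn (by rw [mem_rc]; omega)
    (by left; omega)
  have e1 : NC (S ∩ B) y o1 := NC.join s4 s1 hw1 hw1'
  have e2 : NC (S ∩ B) y o2 := NC.join s4 s2 hw2 hw2'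
  have e12 : NC (S ∩ B) o2 o1 := e2.symm.trans e1
  -- the circuits 2 and 3 meet
  obtain ⟨v, hv, hv'⟩ := h2 {z | z.2 = 0 ∧ 0 ≤ z.1} (0, 0) (8 * R, 0)
    (conn_row (fun i hi _ => ⟨rfl, by simp only; omega⟩)) (by rw [mem_rc]; simp only; (clear * - hR; omega))
    (by right; left; simp only; omega)
  obtain ⟨u, hu, hu'⟩ := h2 {z | z.2 = 0 ∧ z.1 ≤ 0} (0, 0) (-(8 * R), 0)
    (conn_row (fun i _ hi => ⟨rfl, by simp only; (clear * - hR hi; omega)⟩)) (by rw [mem_rc]; simp only; omega)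
    (by left; simp only; omega)
  have hvm := hv'.right_mem.2
  have hum := hu'.right_mem.2
  obtain ⟨hv1, hv2⟩ := hv
  obtain ⟨hu1, hu2⟩ := hu
  obtain ⟨hvm1, hvm2⟩ := hvm
  rw [mem_rc] at hvm1
  have hvu : NC (S ∩ annR 0 0 (2 * R)) v u := hv'.symm.trans hu'
  obtain ⟨w3, hw3, hw3'⟩ := h3 _ v u hvu.cluster.conn (by rw [mem_rc]; omega)
    (by left; omega)
  have e3 : NC (S ∩ B) v o3 := NC.join s2 s3 hw3 hw3'
  have e23 : NC (S ∩ B) o2 o3 := (hv'.mono (Set.inter_subset_inter_right S s2)).trans e3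
  refine ⟨o2, ⟨ho2.1, s2 ho2.2⟩, ?_, ?_, ?_⟩
  · intro D x y hD hx hy
    obtain ⟨w, hw, hw'⟩ := h1 D x y hD hx hy
    exact ⟨w, hw, e12.trans (hw'.mono (Set.inter_subset_inter_right S s1))⟩
  · intro D x y hD hx hy
    obtain ⟨w, hw, hw'⟩ := h2 D x y hD hx hy
    exact ⟨w, hw, hw'.mono (Set.inter_subset_inter_right S s2)⟩
  · intro D x y hD hx hy
    obtain ⟨w, hw, hw'⟩ := h3 D x y hD hx hy
    exact ⟨w, hw, e23.trans (hw'.mono (Set.inter_subset_inter_right S s3))⟩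

end Vale.Agent.P145.FB
end

section

/-!
# Chains of circuits

Circuits (`Ann`) of a random subset `S` of the fine lattice around neighbouring centres meet; a
chain of them lies in one cluster of `S` and meets every set which separates its two ends. If a
level is attached to the points of `S`, constant along the steps of `S`, all these objects have the
same level.
-/

namespace Vale.Agent.P145.FB

open Vale.Agent.P153 Vale.Agent.P153.Topo

/-! ### One circuit -/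

/-- `o` belongs to the cluster of the four crossings of the annulus. -/
structure Base (S : Set (ℤ × ℤ)) (p q t : ℤ) (o : ℤ × ℤ) : Prop where
  top : ∃ x y, NC (S ∩ rc (p - 2 * t) (p + 2 * t) (q + t) (q + 2 * t)) x y ∧
    x.1 = 2 * (p - 2 * t) ∧ y.1 = 2 * (p + 2 * t) ∧ NC (S ∩ annR p q t) o x
  bot : ∃ x y, NC (S ∩ rc (p - 2 * t) (p + 2 * t) (q - 2 * t) (q - t)) x y ∧
    x.1 = 2 * (p - 2 * t) ∧ y.1 = 2 * (p + 2 * t) ∧ NC (S ∩ annR p q t) o x
  left : ∃ x y, NC (S ∩ rc (p - 2 * t) (p - t) (q - 2 * t) (q + 2 * t)) x y ∧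
    x.2 = 2 * (q - 2 * t) ∧ y.2 = 2 * (q + 2 * t) ∧ NC (S ∩ annR p q t) o x
  right : ∃ x y, NC (S ∩ rc (p + t) (p + 2 * t) (q - 2 * t) (q + 2 * t)) x y ∧
    x.2 = 2 * (q - 2 * t) ∧ y.2 = 2 * (q + 2 * t) ∧ NC (S ∩ annR p q t) o x

theorem annR_top {p q t : ℤ} (_ht : 0 < t) :
    rc (p - 2 * t) (p + 2 * t) (q + t) (q + 2 * t) ⊆ annR p q t := by
  intro z hz
  rw [mem_rc] at hz
  refine ⟨by rw [mem_rc]; omega, ?_⟩
  right; right; right; omega

theorem annR_bot {p q t : ℤ} (_ht : 0 < t) :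
    rc (p - 2 * t) (p + 2 * t) (q - 2 * t) (q - t) ⊆ annR p q t := by
  intro z hz
  rw [mem_rc] at hz
  refine ⟨by rw [mem_rc]; omega, ?_⟩
  right; right; left; omega

theorem annR_left {p q t : ℤ} (_ht : 0 < t) :
    rc (p - 2 * t) (p - t) (q - 2 * t) (q + 2 * t) ⊆ annR p q t := by
  intro z hz
  rw [mem_rc] at hz
  refine ⟨by rw [mem_rc]; omega, ?_⟩
  left; omega

theorem annR_right {p q t : ℤ} (_ht : 0 < t) :
    rc (p + t) (p + 2 * t) (q - 2 * t) (q + 2 * t) ⊆ annR p q t := by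
  intro z hz
  rw [mem_rc] at hz
  refine ⟨by rw [mem_rc]; omega, ?_⟩
  right; left; omega

/-- A horizontal crossing and a vertical crossing of a shorter and higher rectangle meet. -/
theorem meetHV {S T : Set (ℤ × ℤ)} {a b c d a' b' c' d' : ℤ} (h1 : a ≤ a') (h2 : b' ≤ b)
    (h3 : c' ≤ c) (h4 : d ≤ d') {x x' y y' : ℤ × ℤ} (hx : NC (S ∩ rc a b c d) x x')
    (hxa : x.1 = 2 * a) (hxb : x'.1 = 2 * b) (hy : NC (T ∩ rc a' b' c' d') y y')
    (hyc : y.2 = 2 * c') (hyd : y'.2 = 2 * d') :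
    ∃ z, NC (S ∩ rc a b c d) x z ∧ NC (T ∩ rc a' b' c' d') y z :=
  ncross (a := 2 * a) (b := 2 * b) (c := 2 * c') (d := 2 * d')
    (Set.inter_subset_right.trans (rc_mono le_rfl le_rfl h3 h4))
    (Set.inter_subset_right.trans (rc_mono h1 h2 le_rfl le_rfl)) hx hxa hxb hy hyc hyd

theorem Ann.base {p q t : ℤ} (ht : 0 < t) {S : Set (ℤ × ℤ)} (hA : Ann p q t S) :
    ∃ o, Base S p q t o := by
  obtain ⟨⟨a1, b1, h1, h1a, h1b⟩, ⟨a2, b2, h2, h2a, h2b⟩, ⟨a3, b3, h3, h3a, h3b⟩,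
    ⟨a4, b4, h4, h4a, h4b⟩⟩ := hA
  obtain ⟨z13, c13, d13⟩ := meetHV (by omega) (by omega) (by omega) (by omega) h1 h1a h1b h3 h3a h3b
  obtain ⟨z14, c14, d14⟩ := meetHV (by omega) (by omega) (by omega) (by omega) h1 h1a h1b h4 h4a h4b
  obtain ⟨z23, c23, d23⟩ := meetHV (by omega) (by omega) (by omega) (by omega) h2 h2a h2b h3 h3a h3b
  have j13 : NC (S ∩ annR p q t) a1 a3 := NC.join (annR_top ht) (annR_left ht) c13 d13
  have j14 : NC (S ∩ annR p q t) a1 a4 := NC.join (annR_top ht) (annR_right ht) c14 d14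
  have j12 : NC (S ∩ annR p q t) a1 a2 :=
    j13.trans (NC.join (annR_bot ht) (annR_left ht) c23 d23).symm
  exact ⟨a1, ⟨a1, b1, h1, h1a, h1b, NC.refl j13.1⟩, ⟨a2, b2, h2, h2a, h2b, j12⟩,
    ⟨a3, b3, h3, h3a, h3b, j13⟩, ⟨a4, b4, h4, h4a, h4b, j14⟩⟩

theorem Base.mem {S : Set (ℤ × ℤ)} {p q t : ℤ} {o : ℤ × ℤ} (h : Base S p q t o) :
    o ∈ S ∩ annR p q t := by
  obtain ⟨x, y, _, _, _, h1⟩ := h.top
  exact h1.1

theorem Base.ann {S : Set (ℤ × ℤ)} {p q t : ℤ} {o : ℤ × ℤ} (h : Base S p q t o) :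
    Ann p q t S := by
  obtain ⟨⟨a1, b1, h1, h1a, h1b, _⟩, ⟨a2, b2, h2, h2a, h2b, _⟩, ⟨a3, b3, h3, h3a, h3b, _⟩,
    ⟨a4, b4, h4, h4a, h4b, _⟩⟩ := h
  exact ⟨⟨a1, b1, h1, h1a, h1b⟩, ⟨a2, b2, h2, h2a, h2b⟩, ⟨a3, b3, h3, h3a, h3b⟩,
    ⟨a4, b4, h4, h4a, h4b⟩⟩

/-- Circuits around neighbouring centres meet. -/
theorem Base.join {S : Set (ℤ × ℤ)} {p q t p' q' : ℤ} {o o' : ℤ × ℤ} (ht : 0 < t)
    (h : Base S p q t o) (h' : Base S p' q' t o') (hp : |p' - p| ≤ 3 * t) (hq : |q' - q| ≤ 3 * t) :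
    NC (S ∩ (annR p q t ∪ annR p' q' t)) o o' := by
  obtain ⟨hp1, hp2⟩ := abs_le.1 hp
  obtain ⟨hq1, hq2⟩ := abs_le.1 hq
  -- a vertical crossing of `h` and a horizontal crossing of `h'`
  have key : ∀ {a b c d : ℤ}, p' - 2 * t ≤ a → b ≤ p' + 2 * t → q - 2 * t ≤ c → d ≤ q + 2 * t →
      rc a b (q - 2 * t) (q + 2 * t) ⊆ annR p q t →
      rc (p' - 2 * t) (p' + 2 * t) c d ⊆ annR p' q' t →
      (∃ x y, NC (S ∩ rc a b (q - 2 * t) (q + 2 * t)) x y ∧
        x.2 = 2 * (q - 2 * t) ∧ y.2 = 2 * (q + 2 * t) ∧ NC (S ∩ annR p q t) o x) →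
      (∃ x y, NC (S ∩ rc (p' - 2 * t) (p' + 2 * t) c d) x y ∧
        x.1 = 2 * (p' - 2 * t) ∧ y.1 = 2 * (p' + 2 * t) ∧ NC (S ∩ annR p' q' t) o' x) →
      NC (S ∩ (annR p q t ∪ annR p' q' t)) o o' := by
    rintro a b c d ha hb hc hd s1 s2 ⟨y, y', hy, hyc, hyd, hoy⟩ ⟨x, x', hx, hxa, hxb, hox⟩
    obtain ⟨z, hz1, hz2⟩ := meetHV ha hb hc hd hx hxa hxb hy hyc hyd
    have e1 : NC (S ∩ (annR p q t ∪ annR p' q' t)) o z :=
      (hoy.mono (Set.inter_subset_inter_right S Set.subset_union_left)).trans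
        (hz2.mono (Set.inter_subset_inter_right S (s1.trans Set.subset_union_left)))
    have e2 : NC (S ∩ (annR p q t ∪ annR p' q' t)) o' z :=
      (hox.mono (Set.inter_subset_inter_right S Set.subset_union_right)).trans
        (hz1.mono (Set.inter_subset_inter_right S (s2.trans Set.subset_union_right)))
    exact e1.trans e2.symm
  rcases le_total 0 (p' - p) with h1 | h1 <;> rcases le_total 0 (q' - q) with h2 | h2
  · exact key (by omega) (by omega) (by omega) (by omega) (annR_right ht) (annR_bot ht) h.right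
      h'.bot
  · exact key (by omega) (by omega) (by omega) (by omega) (annR_right ht) (annR_top ht) h.right
      h'.top
  · exact key (by omega) (by omega) (by omega) (by omega) (annR_left ht) (annR_bot ht) h.left
      h'.bot
  · exact key (by omega) (by omega) (by omega) (by omega) (annR_left ht) (annR_top ht) h.left
      h'.top

/-! ### Chains -/

/-- A chain of centres. -/
def IsCh (t : ℤ) (n : ℕ) (x : ℕ → ℤ × ℤ) : Prop :=
  ∀ i < n, |(x (i + 1)).1 - (x i).1| ≤ 3 * t ∧ |(x (i + 1)).2 - (x i).2| ≤ 3 * t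

/-- The union of the annuli of a chain. -/
def annU (t : ℤ) (n : ℕ) (x : ℕ → ℤ × ℤ) : Set (ℤ × ℤ) :=
  {z | ∃ i ≤ n, z ∈ annR (x i).1 (x i).2 t}

theorem chain_base {S : Set (ℤ × ℤ)} {t : ℤ} (ht : 0 < t) {n : ℕ} {x : ℕ → ℤ × ℤ}
    (hx : IsCh t n x) {o : ℕ → ℤ × ℤ} (ho : ∀ i ≤ n, Base S (x i).1 (x i).2 t (o i)) :
    ∀ i ≤ n, NC (S ∩ annU t n x) (o 0) (o i) := by
  intro i
  induction i with
  | zero =>
    intro _
    exact NC.refl ⟨(ho 0 (Nat.zero_le _)).mem.1, 0, Nat.zero_le _, (ho 0 (Nat.zero_le _)).mem.2⟩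
  | succ i ih =>
    intro hi
    have h1 := ih (by omega)
    have h2 := (ho i (by omega)).join ht (ho (i + 1) hi) (hx i (by omega)).1 (hx i (by omega)).2
    refine h1.trans (h2.mono (Set.inter_subset_inter_right S ?_))
    rintro z (hz | hz)
    · exact ⟨i, by omega, hz⟩
    · exact ⟨i + 1, hi, hz⟩

/-- A chain of circuits lies in one cluster. -/
theorem chain_cluster {S : Set (ℤ × ℤ)} {t : ℤ} (ht : 0 < t) {n : ℕ} {x : ℕ → ℤ × ℤ}
    (hx : IsCh t n x) (hA : ∀ i ≤ n, Ann (x i).1 (x i).2 t S) :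
    ∃ o : ℕ → ℤ × ℤ, (∀ i ≤ n, Base S (x i).1 (x i).2 t (o i)) ∧
      ∀ i ≤ n, NC (S ∩ annU t n x) (o 0) (o i) := by
  choose! o ho using fun i (hi : i ≤ n) => (hA i hi).base ht
  exact ⟨o, ho, chain_base ht hx ho⟩

/-! ### Separating sets -/

/-- `C` meets every path of the triangular lattice from the box with centre `(p, q)` and half side
`a` to the complement of the interior of the box with half side `b`. -/
def SepG (C : Set (ℤ × ℤ)) (p q a b : ℤ) : Prop :=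
  ∀ (D : Set (ℤ × ℤ)) (x y : ℤ × ℤ), Conn D x y → x ∈ rc (p - a) (p + a) (q - a) (q + a) →
    (y.1 ≤ 2 * (p - b) ∨ 2 * (p + b) ≤ y.1 ∨ y.2 ≤ 2 * (q - b) ∨ 2 * (q + b) ≤ y.2) →
    (D ∩ C).Nonempty

theorem SepG.mono {C C' : Set (ℤ × ℤ)} {p q a b a' b' : ℤ} (h : SepG C p q a b) (hC : C ⊆ C')
    (ha : a' ≤ a) (hb : b ≤ b') : SepG C' p q a' b' :=
  fun D x y hD hx hy => (h D x y hD (by rw [mem_rc] at hx ⊢; omega) (by omega)).mono
    (Set.inter_subset_inter_right D hC)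

theorem sep_iff {C : Set (ℤ × ℤ)} {p q t : ℤ} : Sep C p q t ↔ SepG C p q t (2 * t) := Iff.rfl

/-- The circuit at the centre `(p, q)` separates. -/
theorem Base.sep {S : Set (ℤ × ℤ)} {p q t : ℤ} (ht : 0 < t) {o : ℤ × ℤ} (h : Base S p q t o) :
    SepG {z | NC (S ∩ annR p q t) o z} p q t (2 * t) := by
  have key : ∀ {B : Set (ℤ × ℤ)} {x y : ℤ × ℤ}, B ⊆ annR p q t → NC (S ∩ B) x y →
      NC (S ∩ annR p q t) o x → NC ({z | NC (S ∩ annR p q t) o z} ∩ B) x y := by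
    intro B x y hB h1 h2
    refine NC.mono ?_ h1.cluster
    intro z hz
    exact ⟨h2.trans (hz.mono (Set.inter_subset_inter_right S hB)), hz.right_mem.2⟩
  have hA : Ann p q t {z | NC (S ∩ annR p q t) o z} := by
    obtain ⟨⟨a1, b1, h1, h1a, h1b, k1⟩, ⟨a2, b2, h2, h2a, h2b, k2⟩, ⟨a3, b3, h3, h3a, h3b, k3⟩,
      ⟨a4, b4, h4, h4a, h4b, k4⟩⟩ := h
    exact ⟨⟨a1, b1, key (annR_top ht) h1 k1, h1a, h1b⟩, ⟨a2, b2, key (annR_bot ht) h2 k2, h2a, h2b⟩,
      ⟨a3, b3, key (annR_left ht) h3 k3, h3a, h3b⟩, ⟨a4, b4, key (annR_right ht) h4 k4, h4a, h4b⟩⟩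
  obtain ⟨o', ho', h1⟩ := hA.cluster ht
  intro D x y hD hx hy
  obtain ⟨w, hw, hw'⟩ := h1 D x y hD hx hy
  exact ⟨w, hw, hw'.right_mem.1⟩

/-- A path of the cluster of a chain from a point inside to a point outside meets every
separating set. -/
theorem SepG.chain {S C : Set (ℤ × ℤ)} {p q a b : ℤ} (hC : SepG C p q a b) {t : ℤ} (ht : 0 < t)
    {n : ℕ} {x : ℕ → ℤ × ℤ} (hx : IsCh t n x) {o : ℕ → ℤ × ℤ}
    (ho : ∀ i ≤ n, Base S (x i).1 (x i).2 t (o i))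
    (hin : rc ((x 0).1 - 2 * t) ((x 0).1 + 2 * t) ((x 0).2 - 2 * t) ((x 0).2 + 2 * t) ⊆
      rc (p - a) (p + a) (q - a) (q + a))
    (hout : (x n).1 + 2 * t ≤ p - b ∨ p + b ≤ (x n).1 - 2 * t ∨ (x n).2 + 2 * t ≤ q - b ∨
      q + b ≤ (x n).2 - 2 * t) :
    ∃ z ∈ C, NC (S ∩ annU t n x) (o 0) z := by
  have h1 := chain_base ht hx ho n le_rfl
  have h2 := annR_sub _ _ _ (ho 0 (Nat.zero_le _)).mem.2
  have h3 := annR_sub _ _ _ (ho n le_rfl).mem.2
  rw [mem_rc] at h3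
  obtain ⟨z, hz, hzC⟩ := hC _ _ _ h1.cluster.conn (hin h2) (by omega)
  exact ⟨z, hzC, hz⟩

/-! ### Levels -/

/-- A function which is constant along the steps of `S`. -/
def Lev (S : Set (ℤ × ℤ)) (lev : ℤ × ℤ → ℤ) : Prop :=
  ∀ u v, NN u v → u ∈ S → v ∈ S → lev u = lev v

theorem Lev.mono {S T : Set (ℤ × ℤ)} {lev : ℤ × ℤ → ℤ} (h : Lev T lev) (hST : S ⊆ T) :
    Lev S lev := fun u v huv hu hv => h u v huv (hST hu) (hST hv)

theorem NC.lev {S : Set (ℤ × ℤ)} {lev : ℤ × ℤ → ℤ} (hl : Lev S lev) {x y : ℤ × ℤ} (h : NC S x y) :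
    lev y = lev x :=
  NC.ind (fun z => lev z = lev x) rfl
    (fun u v hu huv hv ih => (hl u v huv hu.right_mem hv).symm.trans ih) h

/-- A path of `S` is a path of its level set. -/
theorem NC.to_lev {S B : Set (ℤ × ℤ)} {lev : ℤ × ℤ → ℤ} (hl : Lev S lev) {x y : ℤ × ℤ}
    (h : NC (S ∩ B) x y) {l : ℤ} (hx : lev x = l) : NC ((S ∩ {z | lev z = l}) ∩ B) x y := by
  refine NC.mono ?_ h.cluster
  intro z hz
  exact ⟨⟨hz.right_mem.1, (NC.lev (hl.mono Set.inter_subset_left) hz).trans hx⟩, hz.right_mem.2⟩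

theorem Base.to_lev {S : Set (ℤ × ℤ)} {lev : ℤ × ℤ → ℤ} (hl : Lev S lev) {p q t : ℤ} {o : ℤ × ℤ}
    (h : Base S p q t o) : Base (S ∩ {z | lev z = lev o}) p q t o := by
  have key : ∀ {B : Set (ℤ × ℤ)} {x y : ℤ × ℤ}, NC (S ∩ B) x y → NC (S ∩ annR p q t) o x →
      NC ((S ∩ {z | lev z = lev o}) ∩ B) x y ∧ NC ((S ∩ {z | lev z = lev o}) ∩ annR p q t) o x := by
    intro B x y h1 h2
    exact ⟨h1.to_lev hl (NC.lev (hl.mono Set.inter_subset_left) h2), h2.to_lev hl rfl⟩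
  obtain ⟨⟨a1, b1, h1, h1a, h1b, k1⟩, ⟨a2, b2, h2, h2a, h2b, k2⟩, ⟨a3, b3, h3, h3a, h3b, k3⟩,
    ⟨a4, b4, h4, h4a, h4b, k4⟩⟩ := h
  exact ⟨⟨a1, b1, (key h1 k1).1, h1a, h1b, (key h1 k1).2⟩,
    ⟨a2, b2, (key h2 k2).1, h2a, h2b, (key h2 k2).2⟩,
    ⟨a3, b3, (key h3 k3).1, h3a, h3b, (key h3 k3).2⟩,
    ⟨a4, b4, (key h4 k4).1, h4a, h4b, (key h4 k4).2⟩⟩

/-- Two circuits of neighbouring centres have the same level. -/
theorem lev_unique {S : Set (ℤ × ℤ)} {lev : ℤ × ℤ → ℤ} {p q t p' q' l l' : ℤ} (_ht : 0 < t)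
    (h : Ann p q t (S ∩ {z | lev z = l})) (h' : Ann p' q' t (S ∩ {z | lev z = l'}))
    (hp : |p' - p| ≤ 3 * t) (hq : |q' - q| ≤ 3 * t) : l = l' := by
  obtain ⟨hp1, hp2⟩ := abs_le.1 hp
  obtain ⟨hq1, hq2⟩ := abs_le.1 hq
  have key : ∀ {a b c d : ℤ}, p' - 2 * t ≤ a → b ≤ p' + 2 * t → q - 2 * t ≤ c → d ≤ q + 2 * t →
      BTc a b (q - 2 * t) (q + 2 * t) (S ∩ {z | lev z = l}) →
      LRc (p' - 2 * t) (p' + 2 * t) c d (S ∩ {z | lev z = l'}) → l = l' := by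
    rintro a b c d ha hb hc hd ⟨y, y', hy, hyc, hyd⟩ ⟨x, x', hx, hxa, hxb⟩
    obtain ⟨z, hz1, hz2⟩ := meetHV ha hb hc hd hx hxa hxb hy hyc hyd
    exact hz2.right_mem.1.2.symm.trans hz1.right_mem.1.2
  rcases le_total 0 (p' - p) with h1 | h1 <;> rcases le_total 0 (q' - q) with h2 | h2
  · exact key (by omega) (by omega) (by omega) (by omega) h.2.2.2 h'.2.1
  · exact key (by omega) (by omega) (by omega) (by omega) h.2.2.2 h'.1
  · exact key (by (clear * - h1; omega)) (by omega) (by omega) (by omega) h.2.2.1 h'.2.1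
  · exact key (by omega) (by omega) (by omega) (by omega) h.2.2.1 h'.1

/-- A circuit has a level. -/
theorem Ann.lev {S : Set (ℤ × ℤ)} {lev : ℤ × ℤ → ℤ} (hl : Lev S lev) {p q t : ℤ} (ht : 0 < t)
    (h : Ann p q t S) : ∃ l, Ann p q t (S ∩ {z | lev z = l}) := by
  obtain ⟨o, ho⟩ := h.base ht
  exact ⟨lev o, (ho.to_lev hl).ann⟩

/-- A chain of circuits has one level. -/
theorem chain_lev {S : Set (ℤ × ℤ)} {lev : ℤ × ℤ → ℤ} (hl : Lev S lev) {t : ℤ} (ht : 0 < t)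
    {n : ℕ} {x : ℕ → ℤ × ℤ} (hx : IsCh t n x) (hA : ∀ i ≤ n, Ann (x i).1 (x i).2 t S) :
    ∃ l, ∀ i ≤ n, Ann (x i).1 (x i).2 t (S ∩ {z | lev z = l}) := by
  obtain ⟨o, ho, h1⟩ := chain_cluster ht hx hA
  refine ⟨lev (o 0), fun i hi => ?_⟩
  have h2 := ((ho i hi).to_lev hl).ann
  rwa [NC.lev (hl.mono Set.inter_subset_left) (h1 i hi)] at h2

/-- Circuits of a chain with given levels: the levels agree. -/
theorem chain_lev_unique {S : Set (ℤ × ℤ)} {lev : ℤ × ℤ → ℤ} {t : ℤ} (ht : 0 < t)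
    {n : ℕ} {x : ℕ → ℤ × ℤ} (hx : IsCh t n x) {l : ℕ → ℤ}
    (hA : ∀ i ≤ n, Ann (x i).1 (x i).2 t (S ∩ {z | lev z = l i})) : ∀ i ≤ n, l i = l 0 := by
  intro i
  induction i with
  | zero => intro _; rfl
  | succ i ih =>
    intro hi
    rw [← ih (by omega)]
    exact (lev_unique ht (hA i (by omega)) (hA (i + 1) hi) (hx i (by omega)).1
      (hx i (by omega)).2).symm

/-- A chain of circuits of level `l` which joins the inside and the outside of a separating set of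
level `l'`. -/
theorem SepG.lev {S C : Set (ℤ × ℤ)} {lev : ℤ × ℤ → ℤ} {p q a b l l' : ℤ}
    (hC : SepG C p q a b) (hCl : ∀ z ∈ C, lev z = l') {t : ℤ} (ht : 0 < t)
    {n : ℕ} {x : ℕ → ℤ × ℤ} (hx : IsCh t n x)
    (hA : ∀ i ≤ n, Ann (x i).1 (x i).2 t (S ∩ {z | lev z = l}))
    (hin : rc ((x 0).1 - 2 * t) ((x 0).1 + 2 * t) ((x 0).2 - 2 * t) ((x 0).2 + 2 * t) ⊆
      rc (p - a) (p + a) (q - a) (q + a))
    (hout : (x n).1 + 2 * t ≤ p - b ∨ p + b ≤ (x n).1 - 2 * t ∨ (x n).2 + 2 * t ≤ q - b ∨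
      q + b ≤ (x n).2 - 2 * t) : l = l' := by
  obtain ⟨o, ho, -⟩ := chain_cluster ht hx hA
  obtain ⟨z, hz, h1⟩ := hC.chain ht hx ho hin hout
  exact h1.right_mem.1.2.symm.trans (hCl z hz)

end Vale.Agent.P145.FB
end

section

/-!
# P145, block F-B: circuits at a given level

`opl l x` is the set of the open bonds at level `l`. The circuits of open bonds with spin plus are
circuits at a level divisible by four.
-/

namespace Vale.Agent.P145.FB

open Finset Filter Topology MeasureTheory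
open Vale.Agent.P152 (Edge Ori Ice sgb pth IsHeight)
open Vale.Agent.P145.FA (Hgt mu0)
open Vale.Agent.P145.X (Jmu LevFam some4 sh)

/-- The open bonds at level `l`. -/
def opl (l : ℤ) (x : Hgt × Mk) : Set Pt := {w | x.2 w = true ∧ x.1 (e1 w) = l ∧ x.1 (e2 w) = l}

/-- The open bonds at level `0`. -/
def bl (x : Hgt × Mk) : Set Pt := opl 0 x

theorem opl_sub_opp {l : ℤ} (hl : 4 ∣ l) (x : Hgt × Mk) : opl l x ⊆ opp x := by
  rintro w ⟨h1, h2, -⟩
  refine ⟨h1, ?_⟩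
  rw [h2]; omega

theorem fine_opl_sub {l : ℤ} (hl : 4 ∣ l) (x : Hgt × Mk) : fine (opl l x) ⊆ SQ x :=
  fine_mono (opl_sub_opp hl x)

theorem Ann_opl {l : ℤ} (hl : 4 ∣ l) {p q r : ℤ} {x : Hgt × Mk} (h : Ann p q r (fine (opl l x))) :
    Ann p q r (SQ x) := (IL_Ann p q r).1 _ _ (fine_opl_sub hl x) h

/-- The height attached to a point of the fine lattice. -/
noncomputable def lv (x : Hgt × Mk) (z : Pt) : ℤ :=
  open Classical in if Odd (z.1 + z.2) then x.1 (e1 (vx z)) else x.1 (fc z)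

theorem lv_opl {l : ℤ} {x : Hgt × Mk} {z : Pt} (hz : z ∈ fine (opl l x)) : lv x z = l := by
  unfold lv
  rcases hz with ⟨h1, h2⟩ | ⟨h1, h2, q, h3, h4⟩
  · rw [if_pos h1]; exact h2.2.1
  · have h5 : ¬ Odd (z.1 + z.2) := by
      rw [Int.even_iff] at h1 h2
      rw [Int.odd_iff]; (clear * - h1 h2; omega)
    rw [if_neg h5]
    rcases face_of_nn h3 h1 h2 with h6 | h6
    · rw [h6]; exact h4.2.1
    · rw [h6]; exact h4.2.2

/-- Uniqueness of the level. -/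
theorem opl_unique {l l' p q p' q' t : ℤ} (ht : 0 < t) {x : Hgt × Mk}
    (h : Ann p q t (fine (opl l x))) (h' : Ann p' q' t (fine (opl l' x)))
    (hp : |p' - p| ≤ 3 * t) (hq : |q' - q| ≤ 3 * t) : l = l' := by
  refine lev_unique (S := fine (opl l x) ∪ fine (opl l' x)) (lev := lv x) ht
    ((IL_Ann p q t).1 _ _ (fun z hz => ⟨Or.inl hz, lv_opl hz⟩) h)
    ((IL_Ann p' q' t).1 _ _ (fun z hz => ⟨Or.inr hz, lv_opl hz⟩) h') hp hq

/-- The even ends of the open bonds have the same height. -/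
def Op (x : Hgt × Mk) : Prop := ∀ w, x.2 w = true → x.1 (e1 w) = x.1 (e2 w)

theorem Op.fcz {x : Hgt × Mk} (hx : Op x) {z q : Pt} (h : NN z q) (h1 : Even z.1) (h2 : Even z.2)
    (hq : x.2 (vx q) = true) : x.1 (fc z) = x.1 (e1 (vx q)) := by
  rcases face_of_nn h h1 h2 with h6 | h6
  · rw [h6]
  · rw [h6, hx _ hq]

theorem Op.lev {x : Hgt × Mk} (hx : Op x) : Lev (SQ x) (lv x) := by
  have key : ∀ u v, NN u v → u ∈ SQ x → v ∈ SQ x → Odd (v.1 + v.2) → lv x u = lv x v := by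
    intro u v huv hu hv ho
    have hue : Even u.1 ∧ Even u.2 := by
      rcases hu with ⟨h1, -⟩ | ⟨h1, h2, -⟩
      · exfalso
        unfold NN at huv
        rw [Int.odd_iff] at h1 ho
        omega
      · exact ⟨h1, h2⟩
    have hvo : vx v ∈ opp x := by
      rcases hv with ⟨-, h1⟩ | ⟨h1, h2, -⟩
      · exact h1
      · exfalso
        rw [Int.even_iff] at h1 h2
        rw [Int.odd_iff] at ho
        omega
    have huo : ¬ Odd (u.1 + u.2) := by
      have := hue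
      rw [Int.even_iff, Int.even_iff] at this
      rw [Int.odd_iff]; omega
    unfold lv
    rw [if_neg huo, if_pos ho]
    exact hx.fcz huv hue.1 hue.2 hvo.1
  intro u v huv hu hv
  by_cases ho : Odd (v.1 + v.2)
  · exact key u v huv hu hv ho
  · refine (key v u huv.symm hv hu ?_).symm
    unfold NN at huv
    rw [Int.odd_iff] at ho ⊢
    omega

/-- The part of `SQ x` at level `l` consists of bonds at level `l`. -/
theorem SQ_lev_sub {x : Hgt × Mk} (hx : Op x) (l : ℤ) :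
    SQ x ∩ {z | lv x z = l} ⊆ fine (opl l x) := by
  rintro z ⟨hz, hl⟩
  rcases hz with ⟨h1, h2⟩ | ⟨h1, h2, q, h3, h4⟩
  · left
    refine ⟨h1, h2.1, ?_⟩
    have hl' : x.1 (e1 (vx z)) = l := by
      have := hl
      simp only [lv, Set.mem_ofPred_eq, if_pos h1] at this
      exact this
    exact ⟨hl', by rw [← hx _ h2.1]; exact hl'⟩
  · right
    have h5 : ¬ Odd (z.1 + z.2) := by
      rw [Int.even_iff] at h1 h2
      rw [Int.odd_iff]; omega
    have hl' : x.1 (fc z) = l := by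
      have := hl
      simp only [lv, Set.mem_ofPred_eq, if_neg h5] at this
      exact this
    have h6 := hx.fcz h3 h1 h2 h4.1
    exact ⟨h1, h2, q, h3, h4.1, by rw [← h6]; exact hl', by rw [← hx _ h4.1, ← h6]; exact hl'⟩

theorem four_dvd_of_mem {x : Hgt × Mk} {l : ℤ} {z : Pt} (hz : z ∈ SQ x) (hx : Op x)
    (hl : lv x z = l) : 4 ∣ l := by
  have h0 : ∃ w, w ∈ opp x ∧ x.1 (e1 w) = l := by
    rcases hz with ⟨h1, h2⟩ | ⟨h1, h2, q, h3, h4⟩
    · refine ⟨_, h2, ?_⟩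
      simpa only [lv, if_pos h1] using hl
    · have h5 : ¬ Odd (z.1 + z.2) := by
        rw [Int.even_iff] at h1 h2
        rw [Int.odd_iff]; omega
      refine ⟨_, h4, ?_⟩
      have hl' : x.1 (fc z) = l := by simpa only [lv, if_neg h5] using hl
      rw [← hx.fcz h3 h1 h2 h4.1]; exact hl'
  obtain ⟨w, h1, h2⟩ := h0
  have := h1.2
  omega

/-- A circuit of open bonds with spin plus is a circuit at one level divisible by four. -/
theorem Ann_SQ_level {x : Hgt × Mk} (hx : Op x) {p q t : ℤ} (ht : 0 < t) (h : Ann p q t (SQ x)) :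
    ∃ l, 4 ∣ l ∧ Ann p q t (fine (opl l x)) := by
  obtain ⟨l, hl⟩ := Ann.lev hx.lev ht h
  refine ⟨l, ?_, (IL_Ann p q t).1 _ _ (SQ_lev_sub hx l) hl⟩
  obtain ⟨⟨a, b, h1, -, -⟩, -⟩ := hl
  have h2 := h1.left_mem.1
  exact four_dvd_of_mem h2.1 hx h2.2

/-- A chain of circuits has one level. -/
theorem chain_SQ_level {x : Hgt × Mk} (hx : Op x) {t : ℤ} (ht : 0 < t) {n : ℕ} {c : ℕ → ℤ × ℤ}
    (hc : IsCh t n c) (hA : ∀ i ≤ n, Ann (c i).1 (c i).2 t (SQ x)) :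
    ∃ l, 4 ∣ l ∧ ∀ i ≤ n, Ann (c i).1 (c i).2 t (fine (opl l x)) := by
  obtain ⟨l, hl⟩ := chain_lev hx.lev ht hc hA
  refine ⟨l, ?_, fun i hi => (IL_Ann _ _ t).1 _ _ (SQ_lev_sub hx l) (hl i hi)⟩
  obtain ⟨⟨a, b, h1, -, -⟩, -⟩ := hl 0 (Nat.zero_le n)
  have h2 := h1.left_mem.1
  exact four_dvd_of_mem h2.1 hx h2.2

/-! ### The family of the levels -/

theorem opl_sh (l j : ℤ) (x : Hgt × Mk) : opl (l + 2 * j) (sh j x) = opl l x := by
  ext w
  show (x.2 w = true ∧ x.1 (e1 w) + 2 * j = l + 2 * j ∧ x.1 (e2 w) + 2 * j = l + 2 * j) ↔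
    (x.2 w = true ∧ x.1 (e1 w) = l ∧ x.1 (e2 w) = l)
  rw [add_left_inj, add_left_inj]

theorem meas_opl (l : ℤ) (w : Pt) : MeasurableSet {x : Hgt × Mk | w ∈ opl l x} := by
  have h0 : ∀ q : Pt, Measurable fun x : Hgt × Mk => x.1 q := fun q =>
    (measurable_pi_apply q).comp measurable_fst
  have h2 : Measurable fun x : Hgt × Mk => (x.1 (e1 w), x.1 (e2 w), x.2 w) :=
    (h0 _).prodMk ((h0 _).prodMk ((measurable_pi_apply w).comp measurable_snd))
  have h3 : {x : Hgt × Mk | w ∈ opl l x} = (fun x : Hgt × Mk =>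
      (x.1 (e1 w), x.1 (e2 w), x.2 w)) ⁻¹' {y : ℤ × ℤ × Bool | y.2.2 = true ∧ y.1 = l ∧ y.2.1 = l} :=
    rfl
  rw [h3]
  exact h2 (Set.to_countable _).measurableSet

/-- A set of configurations which depends on finitely many bonds of `opl l` is measurable. -/
theorem meas_of_opl (l : ℤ) {Q : Set Pt → Prop}
    (hQ : ∃ F : Finset Pt, ∀ A B : Set Pt, (∀ w ∈ F, w ∈ A ↔ w ∈ B) → Q A → Q B) :
    MeasurableSet {x : Hgt × Mk | Q (opl l x)} := by
  classical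
  obtain ⟨F, hF⟩ := hQ
  have h1 : {x : Hgt × Mk | Q (opl l x)} =
      ⋃ T ∈ F.powerset.filter (fun T : Finset Pt => Q {w | w ∈ T}),
        ⋂ w ∈ F, {x : Hgt × Mk | w ∈ opl l x ↔ w ∈ T} := by
    ext x
    simp only [Set.mem_ofPred_eq, Set.mem_iUnion, Finset.mem_filter, Finset.mem_powerset,
      Set.mem_iInter, exists_prop]
    constructor
    · intro h
      refine ⟨F.filter (fun w => w ∈ opl l x), ⟨Finset.filter_subset _ _, ?_⟩, ?_⟩
      · exact hF _ _ (fun w hw => by simp [hw]) h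
      · intro w hw
        simp [hw]
    · rintro ⟨T, ⟨-, hT⟩, h⟩
      exact hF _ _ (fun w hw => by simpa using (h w hw).symm) hT
  rw [h1]
  refine Finset.measurableSet_biUnion _ fun T _ => Finset.measurableSet_biInter _ fun w _ => ?_
  by_cases hw : w ∈ T
  · have : {x : Hgt × Mk | w ∈ opl l x ↔ w ∈ T} = {x : Hgt × Mk | w ∈ opl l x} := by
      ext x; simp [hw]
    rw [this]
    exact meas_opl l w
  · have : {x : Hgt × Mk | w ∈ opl l x ↔ w ∈ T} = {x : Hgt × Mk | w ∈ opl l x}ᶜ := by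
      ext x; simp [hw]
    rw [this]
    exact (meas_opl l w).compl

theorem levFam_opl {Q : Set Pt → Prop}
    (hQ : ∃ F : Finset Pt, ∀ A B : Set Pt, (∀ w ∈ F, w ∈ A ↔ w ∈ B) → Q A → Q B) :
    LevFam fun l => {x : Hgt × Mk | Q (opl l x)} := by
  refine ⟨fun l => meas_of_opl l hQ, fun l j x => ?_⟩
  simp only [Set.mem_ofPred_eq, opl_sh]

theorem levFam_Ann (p q r : ℤ) : LevFam fun l => {x : Hgt × Mk | Ann p q r (fine (opl l x))} :=
  levFam_opl (Q := fun A => Ann p q r (fine A)) (loc_fine (IL_Ann p q r).2)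

/-- The circuit at level `0` has measure at least `2 c`. -/
theorem Jmu_Ann_ge {t : ℝ} {P : Measure (Ori (ℤ × ℤ))} [IsProbabilityMeasure P]
    (hice : ∀ᵐ a ∂P, ∀ x y, Ice a x y) {c : ℝ} {p q r : ℤ} (hr : 0 < r)
    (h : c ≤ (J t P).real {x | Ann p q r (SQ x)}) :
    ENNReal.ofReal (2 * c) ≤ Jmu t P {x | Ann p q r (fine (bl x))} := by
  refine le_trans ?_ (X.two_mul_J_le (levFam_Ann p q r))
  have h1 : J t P {x | Ann p q r (SQ x)} ≤
      J t P (some4 fun l => {x : Hgt × Mk | Ann p q r (fine (opl l x))}) := by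
    refine measure_mono_ae ?_
    filter_upwards [open_even t P hice] with x hx hA
    obtain ⟨l, h2, h3⟩ := Ann_SQ_level (x := x) hx hr hA
    exact ⟨l, h2, h3⟩
  rw [ENNReal.ofReal_mul (by norm_num), ENNReal.ofReal_ofNat]
  gcongr
  refine le_trans ?_ h1
  rw [← ENNReal.ofReal_toReal (measure_ne_top (J t P) {x | Ann p q r (SQ x)})]
  exact ENNReal.ofReal_le_ofReal h

/-- The circuit at level `0` has measure at most `2`. -/
theorem Jmu_Ann_le {t : ℝ} {P : Measure (Ori (ℤ × ℤ))} [IsProbabilityMeasure P] {p q r : ℤ}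
    (hr : 0 < r) : Jmu t P {x | Ann p q r (fine (bl x))} ≤ 2 := by
  have h1 := X.Jmu_eq_two_mul (t := t) (P := P) (levFam_Ann p q r)
    (fun x l l' h h' => opl_unique hr h h' (by simp [hr.le]) (by simp only [sub_self, abs_zero, Nat.ofNat_pos, mul_nonneg_iff_of_pos_left, hr.le]))
  have h2 : Jmu t P {x | Ann p q r (fine (bl x))} = 2 * J t P
      (some4 fun l => {x : Hgt × Mk | Ann p q r (fine (opl l x))}) := h1
  rw [h2]
  calc 2 * J t P (some4 fun l => {x : Hgt × Mk | Ann p q r (fine (opl l x))}) ≤ 2 * 1 := by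
        gcongr
        exact prob_le_one
    _ = 2 := mul_one 2

theorem MU_eq_Jmu {t : ℝ} {P : Measure (Ori (ℤ × ℤ))} [IsProbabilityMeasure P]
    (hice : ∀ᵐ a ∂P, ∀ x y, Ice a x y) : MU t P = Jmu t P := MU_eq hice

end Vale.Agent.P145.FB
end

section

/-!
P145, block F-X: objects and statements between the percolation input and the interface
`Top/Stmt.lean`.

Coordinates: `av v` is the (even) six-vertex face of the vertex `v` of `ℤ²`, `af f` the (odd)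
six-vertex face of the face `f` (unit square with lower left corner `f`) of `ℤ²`.
-/

namespace Vale.Agent.P145.X

open Filter Topology Set MeasureTheory
open Vale.Agent.P152 (Ori)
open Vale.Agent.P145.FA (Hgt)
open Vale.Agent.P145.FB (Pt Mk e1 e2 o1 o2 Ann MU bl fine mkm om)
open Vale.Agent.P145.Top (Om Cone vh EE hv hvl)
open Vale.Agent.P145.Dom (ze)
open Vale.Agent.P145.PT (TestOn)

/-- Level-`0` circuit in the annulus with centre `p` (vertex of `ℤ²`) and radii `r`, `2 r`. -/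
def Zr (p : ℤ × ℤ) (r : ℤ) (B : Set Pt) : Prop := Ann p.1 p.2 r (fine B)

/-- Six-vertex face of a vertex of `ℤ²`. -/
def av (v : ℤ × ℤ) : Pt := (v.1 + v.2, v.1 - v.2)

/-- Six-vertex face of a face of `ℤ²`. -/
def af (f : ℤ × ℤ) : Pt := (f.1 + f.2 + 1, f.1 - f.2)

/-- Edges with both faces in `F`. -/
def iE (F : Set (ℤ × ℤ)) : Set Pt := {w | ∃ f ∈ F, ∃ g ∈ F, o1 w = af f ∧ o2 w = af g}

/-- Edges with a face in `F`. -/
def tE (F : Set (ℤ × ℤ)) : Set Pt := {w | ∃ f ∈ F, o1 w = af f ∨ o2 w = af f}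

/-- Vertices all faces of which are in `F`. -/
def inV (F : Set (ℤ × ℤ)) : Set (ℤ × ℤ) :=
  {v | v ∈ F ∧ (v.1 - 1, v.2) ∈ F ∧ (v.1, v.2 - 1) ∈ F ∧ (v.1 - 1, v.2 - 1) ∈ F}

/-- A step of a path of faces which is not blocked by `B`. -/
def stp (B : Set Pt) (f g : ℤ × ℤ) : Prop :=
  ∃ w, w ∉ B ∧ ((o1 w = af f ∧ o2 w = af g) ∨ (o1 w = af g ∧ o2 w = af f))

/-- The faces joined to `S` by paths avoiding `B` are in `T`. -/
def Conf (B : Set Pt) (S T : Set (ℤ × ℤ)) : Prop :=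
  ∀ f ∈ S, ∀ g, Relation.ReflTransGen (stp B) f g → g ∈ T

/-- The faces in the square `[p - r, p + r]`. -/
def bx (p : ℤ × ℤ) (r : ℤ) : Set (ℤ × ℤ) :=
  {f | p.1 - r ≤ f.1 ∧ f.1 < p.1 + r ∧ p.2 - r ≤ f.2 ∧ f.2 < p.2 + r}

/-- `g` depends only on finitely many edges, in `A`. -/
def LocS (A : Set Pt) (g : Set Pt → ℝ) : Prop :=
  ∃ Λ : Finset Pt, (∀ w ∈ Λ, w ∈ A) ∧ ∀ B B' : Set Pt, (∀ w ∈ Λ, w ∈ B ↔ w ∈ B') → g B = g B'

/-- Nonnegative local function of the set of blocked edges which vanishes on the empty set. -/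
structure Fn (A : Set Pt) (g : Set Pt → ℝ) : Prop where
  nonneg : ∀ B, 0 ≤ g B
  loc : LocS A g
  pin : g ∅ = 0

/-- The heights `h / 2` at the vertices of `ℤ²`. -/
noncomputable def vm (h : Hgt) : Om := fun v => (h (av v) : ℝ) / 2

/-- `A` depends only on the heights of the vertices of `V`. -/
def On (V : Set (ℤ × ℤ)) (A : Om → ℝ) : Prop := ∀ ω ω' : Om, (∀ v ∈ V, ω v = ω' v) → A ω = A ω'

/-- `∫ g(bl) A(heights) dMU`. -/
noncomputable def II (t : ℝ) (P : Measure (Ori (ℤ × ℤ))) (g : Set Pt → ℝ) (A : Om → ℝ) : ℝ :=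
  ∫ x, g (bl x) * A (vm x.1) ∂(MU t P)

open Classical in
/-- Indicator of a property of sets of edges. -/
noncomputable def ind (Q : Set Pt → Prop) : Set Pt → ℝ := fun B => if Q B then 1 else 0

/-! ### Positive association in the plane -/

/-- Integrability. -/
def S_int (t : ℝ) (P : Measure (Ori (ℤ × ℤ))) : Prop :=
  ∀ (g : Set Pt → ℝ) (A : Om → ℝ), LocS univ g → g ∅ = 0 → Top.Alg A →
    Integrable (fun x => g (bl x) * A (vm x.1)) (MU t P)

/-- LOW (helper145). -/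
def S_low (c t : ℝ) (P : Measure (Ori (ℤ × ℤ))) : Prop :=
  ∀ (F : Finset (ℤ × ℤ)) (Θ : Set Pt → ℝ) (A : Om → ℝ), Fn (iE F)ᶜ Θ → Cone A →
    ze c F (fun x => A (vh x)) * II t P Θ (fun _ => 1) ≤ II t P Θ A

/-- UP (helper256). -/
def S_up (c t : ℝ) (P : Measure (Ori (ℤ × ℤ))) : Prop :=
  ∀ (F F' : Finset (ℤ × ℤ)) (g : Set Pt → ℝ) (A : Om → ℝ), F ⊆ F' → Fn (iE F)ᶜ g → Monotone g →
    (∀ B, g B ≠ 0 → Conf B (F' : Set (ℤ × ℤ))ᶜ (F : Set (ℤ × ℤ))ᶜ) → Cone A → On (inV F) A →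
    II t P g A ≤ ze c F' (fun x => A (vh x)) * II t P g (fun _ => 1)

/-- EXT (helper145): the cluster of the box `bx p r` is explored from inside. -/
def S_ext (t : ℝ) (P : Measure (Ori (ℤ × ℤ))) : Prop :=
  ∀ (p : ℤ × ℤ) (r : ℤ) (X Θ a : Set Pt → ℝ) (A : Om → ℝ), 1 ≤ r →
    Fn univ X → Monotone X → (∀ B, X B ≠ 0 → Conf B (bx p r) (bx p (2 * r))) →
    Fn (tE (bx p r)) Θ →
    (∀ B, 0 ≤ a B) → LocS (tE (bx p (3 * r)))ᶜ a → Antitone a →
    Cone A → On (inV (bx p (2 * r))ᶜ) A →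
    II t P (fun B => X B * a B) A * II t P Θ (fun _ => 1) ≤
      II t P X (fun _ => 1) * II t P (fun B => Θ B * a B) A

/-! ### Circuits -/

/-- RSW (helper720): circuits at level `0` exist with positive mass at all scales. -/
def S_rsw (t : ℝ) (P : Measure (Ori (ℤ × ℤ))) : Prop :=
  ∃ c₁ : ℝ, 0 < c₁ ∧ ∃ r₀ : ℤ, 1 ≤ r₀ ∧ ∀ r, r₀ ≤ r → ∀ p : ℤ × ℤ,
    c₁ ≤ II t P (ind (Zr p r)) (fun _ => 1) ∧ II t P (ind (Zr p r)) (fun _ => 1) ≤ 2

/-- A circuit confines the box inside (deterministic). -/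
def S_conf : Prop := ∀ (p : ℤ × ℤ) (r : ℤ) (B : Set Pt), 1 ≤ r → Zr p r B →
  Conf B (bx p r) (bx p (2 * r))

/-- Locality of `Zr` (deterministic). -/
def S_loc : Prop := ∀ (p : ℤ × ℤ) (r : ℤ), 1 ≤ r →
  Monotone (ind (Zr p r)) ∧ Fn {w | w ∈ tE (bx p (2 * r)) ∧ w ∉ iE (bx p r)} (ind (Zr p r))

/-- MOM (helper65, helper745): moments near a circuit, uniformly in the scale. -/
def S_mom (t : ℝ) (P : Measure (Ori (ℤ × ℤ))) : Prop :=
  ∀ (K : ℝ) (k : ℕ), 0 < K → ∃ C : ℝ, ∃ s₀ : ℤ, 1 ≤ s₀ ∧ ∀ s, s₀ ≤ s → ∀ (p : ℤ × ℤ)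
    (u : (ℤ × ℤ) →₀ ℝ), (∀ v, 0 ≤ u v ∧ u v ≤ K / (s : ℝ) ^ 2) →
    (∀ v, u v ≠ 0 → |((v.1 - p.1 : ℤ) : ℝ)| ≤ K * s ∧ |((v.2 - p.2 : ℤ) : ℝ)| ≤ K * s) →
    II t P (ind (Zr p s)) (fun ω => (u.sum fun v a => a * ω v) ^ (2 * k)) ≤ C

/-- COUNT: at one of the first `n` scales, given a circuit at level `0`, there is another one at a
larger scale, except with relative probability `η`. -/
def S_cnt (t : ℝ) (P : Measure (Ori (ℤ × ℤ))) : Prop :=
  ∀ η : ℝ, 0 < η → ∀ N : ℕ, ∃ n : ℕ, N ≤ n ∧ ∃ s₀ : ℤ, 1 ≤ s₀ ∧ ∀ s, s₀ ≤ s → ∃ j < n,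
    ∀ p : ℤ × ℤ,
      II t P (ind fun B => Zr p (4 ^ j * s) B ∧ ∀ i, j + 4 ≤ i → i ≤ 2 * n → ¬ Zr p (4 ^ i * s) B)
        (fun _ => 1) ≤ η * II t P (ind (Zr p (4 ^ j * s))) (fun _ => 1)

/-- GAP (from `S_ext`, `S_cnt`, `S_conf`, `S_loc`). -/
def S_gap (t : ℝ) (P : Measure (Ori (ℤ × ℤ))) : Prop :=
  ∀ η : ℝ, 0 < η → ∀ N : ℕ, ∃ n : ℕ, N ≤ n ∧ ∃ s₀ : ℤ, 1 ≤ s₀ ∧ ∀ s, s₀ ≤ s → ∃ j < n,
    ∀ (p : ℤ × ℤ) (X : Set Pt → ℝ), Fn univ X → Monotone X →
      (∀ B, X B ≠ 0 → Zr p (4 ^ (j + 1) * s) B) →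
      II t P (fun B => X B * ind (fun B => ∀ i, j + 4 ≤ i → i ≤ 2 * n → ¬ Zr p (4 ^ i * s) B) B)
        (fun _ => 1) ≤ η * II t P X (fun _ => 1)

/-- POS: the full grid of circuits, all at level `0`, together with a big one. -/
def S_pos (t : ℝ) (P : Measure (Ori (ℤ × ℤ))) : Prop :=
  ∀ N : ℕ, ∃ c : ℝ, 0 < c ∧ ∃ s₀ : ℤ, 1 ≤ s₀ ∧ ∀ s, s₀ ≤ s → ∀ (y₀ : ℤ × ℤ) (m : ℤ), 1 ≤ m →
    |y₀.1| + 2 * m ≤ N → |y₀.2| + 2 * m ≤ N →
    c ≤ II t P (ind fun B => (∀ y : ℤ × ℤ, |y.1| ≤ N → |y.2| ≤ N → Zr (s * y.1, s * y.2) s B) ∧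
      Zr (s * y₀.1, s * y₀.2) (m * s) B) (fun _ => 1)

/-- Moments given a monotone event which contains a circuit (from `S_ext`). -/
def S_emom (t : ℝ) (P : Measure (Ori (ℤ × ℤ))) : Prop :=
  ∀ (p : ℤ × ℤ) (s : ℤ) (X : Set Pt → ℝ) (A : Om → ℝ), 1 ≤ s → Fn univ X → Monotone X →
    (∀ B, X B ≠ 0 → Zr p (4 * s) B) → Cone A → On (inV (bx p (8 * s))ᶜ) A →
    II t P X A * II t P (ind (Zr p s)) (fun _ => 1) ≤
      II t P X (fun _ => 1) * II t P (ind (Zr p s)) A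

/-- MM: moments of the heights given a macroscopic circuit at level `0`. -/
def S_mm (t : ℝ) (P : Measure (Ori (ℤ × ℤ))) (δ : ℕ → ℝ) : Prop := ∀ R : ℝ, 1 ≤ R → ∀ k : ℕ,
  ∃ C : ℝ, 0 ≤ C ∧ ∀ f : ℝ × ℝ → ℝ, TestOn (Metric.ball 0 R) f → ∀ ε : ℝ, 0 < ε →
    ∀ᶠ n in atTop, ∀ (p : ℤ × ℤ) (s : ℤ), |δ n * p.1| ≤ R → |δ n * p.2| ≤ R →
      R⁻¹ ≤ δ n * s → δ n * s ≤ R →
        II t P (ind (Zr p s)) (fun ω => hv (δ n) f ω ^ (2 * k)) ≤ C * ((∫ z, f z ^ 2) + ε) ^ k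

/-! ### Functionals of the heights -/

/-- Conditional expectation of `g(bl)` given the heights. -/
noncomputable def avg (t : ℝ) (g : Set Pt → ℝ) (h : Hgt) : ℝ :=
  ∫ ξ, g (bl (h, om h ξ)) ∂(mkm t)

/-- AVG: properties of `avg`. -/
structure S_avg (t : ℝ) (P : Measure (Ori (ℤ × ℤ))) : Prop where
  loc : ∀ (A : Set Pt) (g : Set Pt → ℝ), LocS A g →
    FA.Loc {q | ∃ w ∈ A, q = e1 w ∨ q = e2 w ∨ q = o1 w ∨ q = o2 w} (avg t g)
  mul : ∀ (A A' : Set Pt) (g g' : Set Pt → ℝ), LocS A g → LocS A' g' → Disjoint A A' →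
    ∀ h, avg t (fun B => g B * g' B) h = avg t g h * avg t g' h
  nonneg : ∀ g : Set Pt → ℝ, (∀ B, 0 ≤ g B) → ∀ h, 0 ≤ avg t g h
  le_one : ∀ g : Set Pt → ℝ, LocS univ g → (∀ B, g B ≤ 1) → ∀ h, avg t g h ≤ 1
  int : ∀ (g : Set Pt → ℝ) (F : Hgt → ℂ), LocS univ g → g ∅ = 0 → FA.Loc univ F →
    ∫ h, ((avg t g h : ℝ) : ℂ) * F h ∂(FA.mu0 P) = ∫ x, ((g (bl x) : ℝ) : ℂ) * F x.1 ∂(MU t P)

/-! ### Geometry -/

/-- The regions of the pinwheel of the cell `[x₁, x₂] × [y₁, y₂]` (six-vertex coordinates). -/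
def Kq (x₁ x₂ y₁ y₂ e : ℝ) (i : Fin 4) : Set (ℝ × ℝ) :=
  {z | (i = 0 ∧ z.1 ≤ x₁ - e) ∨ (i = 1 ∧ y₂ + e ≤ z.2 ∧ x₁ ≤ z.1) ∨
    (i = 2 ∧ x₂ + e ≤ z.1 ∧ z.2 ≤ y₂) ∨ (i = 3 ∧ z.2 ≤ y₁ - e ∧ x₁ ≤ z.1 ∧ z.1 ≤ x₂)}

/-- All faces (of the six-vertex lattice) of the edges of `A` are in the region `K`. -/
def Fin6 (δ : ℝ) (A : Set Pt) (K : Set (ℝ × ℝ)) : Prop :=
  ∀ w ∈ A, ∀ q, (q = e1 w ∨ q = e2 w ∨ q = o1 w ∨ q = o2 w) → (δ * (q.1 : ℝ), δ * (q.2 : ℝ)) ∈ K

/-- The scales: `sc ε δ i = 4 ^ i ⌊ε / δ⌋`. -/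
noncomputable def sc (ε δ : ℝ) (i : ℕ) : ℤ := 4 ^ i * ⌊ε / δ⌋

/-- The centre `y`, for the spacing `w`. -/
def ce (w : ℤ) (y : ℤ × ℤ) : ℤ × ℤ := (w * y.1, w * y.2)

/-- SHELL (helper528): the net `Y` of circuits and the closing circuits at the centres `Q`. -/
def S_geom : Prop := ∀ D₁ D₂ : Set (ℝ × ℝ), IsOpen D₁ → IsOpen D₂ → Bornology.IsBounded D₂ →
  closure D₁ ⊆ D₂ → ∀ a b a' b' : ℝ, a < b → a' < b' → Top.ccell a b a' b' ⊆ D₁ →
  ∃ N₀ : ℕ, ∀ m : ℕ, ∃ ε₀ : ℝ, 0 < ε₀ ∧ ∀ ε : ℝ, 0 < ε → ε ≤ ε₀ → ∃ N : ℕ, ∃ e : ℝ, 0 < e ∧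
  ∀ j : ℕ, j + 4 ≤ m → ∀ᶠ δ in 𝓝[>] (0 : ℝ), ∃ Y Q : Finset (ℤ × ℤ), Q ⊆ Y ∧ Q.card ≤ N₀ ∧
    (∀ y ∈ Y, |y.1| ≤ N ∧ |y.2| ≤ N) ∧
    (∀ y ∈ Y, tE (bx (ce (sc ε δ (j + 1)) y) (2 * sc ε δ (j + 1))) ⊆
        (iE (Top.Fs δ D₁ : Set (ℤ × ℤ)))ᶜ ∧
      ∃ i, Fin6 δ (tE (bx (ce (sc ε δ (j + 1)) y) (2 * sc ε δ (j + 1)))) (Kq a b a' b' e i)) ∧
    (∀ y ∈ Q, tE (bx (ce (sc ε δ (j + 1)) y) (2 * sc ε δ m)) ⊆ (iE (Top.Fs δ D₁ : Set (ℤ × ℤ)))ᶜ) ∧
    ∀ B : Set Pt, (∀ y ∈ Y, Zr (ce (sc ε δ (j + 1)) y) (sc ε δ (j + 1)) B) →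
      (∀ y ∈ Q, ∃ i, j + 4 ≤ i ∧ i ≤ m ∧ Zr (ce (sc ε δ (j + 1)) y) (sc ε δ i) B) →
      Conf B (Top.Fs δ D₂ : Set (ℤ × ℤ))ᶜ (Top.Fs δ D₁ : Set (ℤ × ℤ))ᶜ

/-- FAR: a big circuit far away on the left, at a centre of the same net; `R` does not depend on
the spacing. -/
def S_far : Prop := ∀ (D : Set (ℝ × ℝ)) (x₁ : ℝ), Bornology.IsBounded D →
  ∃ R : ℝ, 1 ≤ R ∧ D ⊆ Metric.ball 0 R ∧ ∀ (m : ℕ) (ε : ℝ), 0 < ε → 4 ^ (m + 2) * ε ≤ 1 →
  ∃ N : ℕ, ∀ j : ℕ, j ≤ m → ∀ᶠ δ in 𝓝[>] (0 : ℝ), ∃ (y : ℤ × ℤ) (l : ℤ), 1 ≤ l ∧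
    |y.1| + 8 * l ≤ N ∧ |y.2| + 8 * l ≤ N ∧
    |δ * ((ce (sc ε δ (j + 1)) y).1 : ℝ)| ≤ R ∧ |δ * ((ce (sc ε δ (j + 1)) y).2 : ℝ)| ≤ R ∧
    R⁻¹ ≤ δ * ((l * sc ε δ (j + 1) : ℤ) : ℝ) ∧ δ * ((l * sc ε δ (j + 1) : ℤ) : ℝ) ≤ R ∧
    Fin6 δ (tE (bx (ce (sc ε δ (j + 1)) y) (8 * (l * sc ε δ (j + 1))))) {z | z.1 ≤ x₁ - 1} ∧
    ∀ v : ℤ × ℤ, (δ * (v.1 : ℝ), δ * (v.2 : ℝ)) ∈ D →
      v ∈ inV (bx (ce (sc ε δ (j + 1)) y) (8 * (l * sc ε δ (j + 1))))ᶜ

end Vale.Agent.P145.X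
end

section

/-!
P145, block F-A: lattice approximations of linear functionals on the even faces and their
characteristic functions in the plane.
-/

namespace Vale.Agent.P145.FA

open Finset Filter Topology MeasureTheory
open Vale.Agent.P152
open Vale.Agent.P152.GFF.S (hcell hbox hint Test gffCov)

/-- Lattice functionals that approximate `∫ h f` by `2 δ² ∑ h(q) f(δ q)` over the even faces. -/
def App (δ : ℕ → ℝ) (f : ℝ × ℝ → ℝ) (w : ℕ → (ℤ × ℤ) →₀ ℝ) : Prop :=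
  ∃ R C : ℝ, 0 < R ∧ 0 ≤ C ∧ ∀ n, (∀ q : ℤ × ℤ, w n q ≠ 0 → |δ n * q.1| ≤ R ∧ |δ n * q.2| ≤ R) ∧
    ∀ q : ℤ × ℤ, |w n q - 2 * δ n ^ 2 * (FP.ev q * f (δ n * q.1, δ n * q.2))| ≤ C * δ n ^ 3

section App

variable {δ : ℕ → ℝ} {f g : ℝ × ℝ → ℝ} {w v : ℕ → (ℤ × ℤ) →₀ ℝ}

lemma App.add (hw : App δ f w) (hv : App δ g v) :
    App δ (fun x => f x + g x) (fun n => w n + v n) := by
  obtain ⟨R, C, hR, hC, h⟩ := hw
  obtain ⟨R', C', hR', hC', h'⟩ := hv
  refine ⟨max R R', C + C', lt_max_of_lt_left hR, by positivity, fun n => ⟨fun q hq => ?_, fun q => ?_⟩⟩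
  · rw [Finsupp.add_apply] at hq
    by_cases h0 : w n q = 0
    · have h1 : v n q ≠ 0 := by
        intro h1
        rw [h0, h1, add_zero] at hq
        exact hq rfl
      have h2 := (h' n).1 q h1
      exact ⟨h2.1.trans (le_max_right _ _), h2.2.trans (le_max_right _ _)⟩
    · have h2 := (h n).1 q h0
      exact ⟨h2.1.trans (le_max_left _ _), h2.2.trans (le_max_left _ _)⟩
  · have h1 := (h n).2 q
    have h2 := (h' n).2 q
    rw [Finsupp.add_apply]
    have e : w n q + v n q - 2 * δ n ^ 2 * (FP.ev q * (f (δ n * q.1, δ n * q.2) +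
        g (δ n * q.1, δ n * q.2))) = (w n q - 2 * δ n ^ 2 * (FP.ev q * f (δ n * q.1, δ n * q.2))) +
        (v n q - 2 * δ n ^ 2 * (FP.ev q * g (δ n * q.1, δ n * q.2))) := by ring
    rw [e]
    refine (abs_add_le _ _).trans ?_
    rw [add_mul]
    exact add_le_add h1 h2

lemma App.smul (c : ℝ) (hw : App δ f w) : App δ (fun x => c * f x) (fun n => c • w n) := by
  obtain ⟨R, C, hR, hC, h⟩ := hw
  refine ⟨R, |c| * C, hR, by positivity, fun n => ⟨fun q hq => (h n).1 q ?_, fun q => ?_⟩⟩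
  · intro h0
    rw [Finsupp.smul_apply, h0, smul_zero] at hq
    exact hq rfl
  · rw [Finsupp.smul_apply, smul_eq_mul]
    have e : c * w n q - 2 * δ n ^ 2 * (FP.ev q * (c * f (δ n * q.1, δ n * q.2))) =
        c * (w n q - 2 * δ n ^ 2 * (FP.ev q * f (δ n * q.1, δ n * q.2))) := by ring
    rw [e, abs_mul, show |c| * C * δ n ^ 3 = |c| * (C * δ n ^ 3) by ring]
    exact mul_le_mul_of_nonneg_left ((h n).2 q) (abs_nonneg _)

lemma App.sub (hw : App δ f w) (hv : App δ g v) :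
    App δ (fun x => f x - g x) (fun n => w n - v n) := by
  have h := hw.add (hv.smul (-1))
  have e1 : (fun x => f x + -1 * g x) = fun x => f x - g x := by funext x; ring
  have e2 : (fun n => w n + (-1 : ℝ) • v n) = fun n => w n - v n := by
    funext n; ext q; simp only [neg_smul, one_smul, Finsupp.coe_add, Finsupp.coe_neg, Pi.add_apply, Pi.neg_apply, sub_eq_add_neg]
  rwa [e1, e2] at h

lemma rf_apply (w : (ℤ × ℤ) →₀ ℝ) (q : ℤ × ℤ) : rf w q = w (q.1, -q.2) := by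
  unfold rf
  have hinj : Function.Injective (fun q : ℤ × ℤ => (q.1, -q.2)) := by
    intro a b hab
    simp only [Prod.mk.injEq, neg_inj] at hab
    exact Prod.ext hab.1 hab.2
  have h := Finsupp.mapDomain_apply hinj w (q.1, -q.2)
  simpa using h

lemma App.rf (hw : App δ f w) : App δ (fun x => f (x.1, -x.2)) (fun n => FA.rf (w n)) := by
  obtain ⟨R, C, hR, hC, h⟩ := hw
  refine ⟨R, C, hR, hC, fun n => ⟨fun q hq => ?_, fun q => ?_⟩⟩
  · rw [rf_apply] at hq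
    have := (h n).1 _ hq
    simp only [Int.cast_neg, mul_neg, abs_neg] at this
    exact this
  · rw [rf_apply]
    have h1 := (h n).2 (q.1, -q.2)
    have e : FP.ev (q.1, -q.2) = FP.ev q := by
      unfold FP.ev
      by_cases hq : (q.1 + q.2) % 2 = 0
      · rw [if_pos hq, if_pos (by simp only; omega)]
      · rw [if_neg hq, if_neg (by simp only; omega)]
    rw [e] at h1
    simp only [Int.cast_neg, mul_neg] at h1
    exact h1

end App

variable {P : Measure (Ori (ℤ × ℤ))} [IsProbabilityMeasure P]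

lemma EA0 (S : Finset (ℤ × ℤ)) (K : ℤ × ℤ → ℝ) {k M : ℝ} (hk : ∀ q ∈ S, |K q| ≤ k)
    (hS : ∀ q ∈ S, ∫ ω, |(pth ω q : ℝ)| ∂P ≤ M) :
    ∫ ω, |∑ q ∈ S, K q * (pth ω q : ℝ)| ∂P ≤ S.card * (M * k) := by
  have hint : ∀ q ∈ S, Integrable (fun ω => |K q| * |(pth ω q : ℝ)|) P := fun q _ =>
    (pth_integrable q).abs.const_mul _
  have i1 : Integrable (fun ω => |∑ q ∈ S, K q * (pth ω q : ℝ)|) P :=
    (integrable_finsetSum _ (fun q _ => (pth_integrable q).const_mul _)).abs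
  calc ∫ ω, |∑ q ∈ S, K q * (pth ω q : ℝ)| ∂P
      ≤ ∫ ω, ∑ q ∈ S, |K q| * |(pth ω q : ℝ)| ∂P := by
        refine integral_mono i1 (integrable_finsetSum _ hint) (fun ω => ?_)
        refine (Finset.abs_sum_le_sum_abs _ _).trans (Finset.sum_le_sum (fun q _ => ?_))
        rw [abs_mul]
    _ = ∑ q ∈ S, |K q| * ∫ ω, |(pth ω q : ℝ)| ∂P := by
        rw [integral_finsetSum _ hint]
        exact Finset.sum_congr rfl (fun q _ => integral_const_mul _ _)
    _ ≤ ∑ q ∈ S, M * k := Finset.sum_le_sum (fun q hq => by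
        have h1 := hk q hq
        have h2 := hS q hq
        have h3 : 0 ≤ ∫ ω, |(pth ω q : ℝ)| ∂P := integral_nonneg fun ω => abs_nonneg _
        have h4 : |K q| * ∫ ω, |(pth ω q : ℝ)| ∂P ≤ k * M :=
          mul_le_mul h1 h2 h3 ((abs_nonneg _).trans h1)
        linarith)
    _ = S.card * (M * k) := by rw [Finset.sum_const, nsmul_eq_mul]

/-- The lattice functional is close to the integral. -/
theorem app_close (hP : FP.Hyp P) {δ : ℕ → ℝ} (hδ : Tendsto δ atTop (𝓝[>] 0)) {g : ℝ × ℝ → ℝ}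
    {v : ℕ → (ℤ × ℤ) →₀ ℝ} (hv : App δ g v) (hg : Integrable g) {R0 F L : ℝ} (hR0 : 0 < R0)
    (hR : ∀ x : ℝ × ℝ, g x ≠ 0 → |x.1| ≤ R0 ∧ |x.2| ≤ R0) (hF : ∀ x, |g x| ≤ F) (hL0 : 0 ≤ L)
    (hL : ∀ x y, |g x - g y| ≤ L * ‖x - y‖) :
    Tendsto (fun n => ∫ ω, |ev (v n) (pth ω) - hint (pth ω) (δ n) g| ∂P) atTop (𝓝 0) := by
  obtain ⟨R1, C0, hR1, hC0, hv⟩ := hv
  set R : ℝ := max R0 R1 with hRd
  have hRpos : 0 < R := lt_max_of_lt_left hR0
  have hR' : ∀ x : ℝ × ℝ, g x ≠ 0 → |x.1| ≤ R ∧ |x.2| ≤ R := fun x hx =>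
    ⟨(hR x hx).1.trans (le_max_left _ _), (hR x hx).2.trans (le_max_left _ _)⟩
  have hxs := (FP.xs_close hP hg hRpos hR' hF hL0 hL).comp hδ
  obtain ⟨C, hC, hmom⟩ := FP.pth_moment hP
  set A0 : ℝ := 2 * R + 7 with hA0
  have hA0' : 7 < A0 := by linarith only [hRpos]
  -- the error
  have t1 : Tendsto (fun δ : ℝ => A0 ^ 2 * C0 * (δ * ((1 + C + C * Real.log A0) / 2) -
      C / 2 * (Real.log δ * δ))) (𝓝[>] 0) (𝓝 0) := by
    have a1 : Tendsto (fun δ : ℝ => δ * ((1 + C + C * Real.log A0) / 2)) (𝓝[>] 0) (𝓝 0) := by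
      have := (tendsto_id (x := 𝓝 (0 : ℝ))).mul_const ((1 + C + C * Real.log A0) / 2)
      rw [zero_mul] at this
      exact this.mono_left nhdsWithin_le_nhds
    have a2 : Tendsto (fun δ : ℝ => Real.log δ * δ) (𝓝[>] 0) (𝓝 0) := by
      have := tendsto_log_mul_rpow_nhdsGT_zero zero_lt_one
      simpa only [Real.rpow_one] using this
    have := (a1.sub (a2.const_mul (C / 2))).const_mul (A0 ^ 2 * C0)
    simpa only [mul_zero, sub_self] using this
  have t2 := (t1.comp hδ).add hxs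
  rw [add_zero] at t2
  have hpos : ∀ᶠ n in atTop, 0 < δ n := hδ.eventually self_mem_nhdsWithin
  have hle : ∀ᶠ n in atTop, δ n ≤ 1 := hδ.eventually (mem_nhdsWithin_of_mem_nhds (Iic_mem_nhds one_pos))
  refine squeeze_zero' (Eventually.of_forall fun n => integral_nonneg fun ω => abs_nonneg _) ?_ t2
  filter_upwards [hpos, hle] with n hn hn1
  simp only [Function.comp_apply]
  set d := δ n with hd
  set N := FP.NN R d with hN
  have hNb := FP.NN_le hRpos hn hn1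
  rw [← hN] at hNb
  have hNge := FP.NN_ge R d
  rw [← hN] at hNge
  set Y : ℝ := 2 * ((N + 1 : ℕ) : ℝ) + 1 with hY
  have hY0 : 0 < Y := by (clear * -; positivity)
  have hlog : Real.log (2 * ((N + 1 : ℕ) : ℝ)) ≤ Real.log A0 - Real.log d := by
    rw [← Real.log_div (by linarith only [hRpos]) hn.ne']
    refine Real.log_le_log (by positivity) ?_
    rw [le_div_iff₀ hn]
    nlinarith only [hn, hNb]
  -- the difference as a sum
  have hmem : ∀ q : ℤ × ℤ, |d * q.1| ≤ R ∧ |d * q.2| ≤ R → q ∈ hbox (N + 1) := by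
    intro q hq
    have key : ∀ a : ℤ, |d * a| ≤ R → a ∈ Finset.Icc (-((N + 1 : ℕ) : ℤ)) ((N + 1 : ℕ) : ℤ) := by
      intro a ha
      rw [abs_mul, abs_of_pos hn] at ha
      have h1 : |(a : ℝ)| ≤ R / d := by rw [le_div_iff₀ hn]; linarith only [ha]
      have h2 : |(a : ℝ)| ≤ ((N + 1 : ℕ) : ℝ) := by push_cast; linarith only [hNge, h1]
      have h3 : |a| ≤ ((N + 1 : ℕ) : ℤ) := by exact_mod_cast h2
      rw [Finset.mem_Icc]
      exact abs_le.1 h3
    exact Finset.mem_product.2 ⟨key _ hq.1, key _ hq.2⟩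
  set K : ℤ × ℤ → ℝ := fun q => v n q - 2 * d ^ 2 * (FP.ev q * g (d * q.1, d * q.2)) with hK
  have hdiff : ∀ ω : Ori (ℤ × ℤ), ev (v n) (pth ω) - FP.xs (pth ω) d g (N + 1) =
      ∑ q ∈ hbox (N + 1), K q * (pth ω q : ℝ) := by
    intro ω
    have e1 : ev (v n) (pth ω) = ∑ q ∈ hbox (N + 1), v n q * (pth ω q : ℝ) := by
      unfold ev
      refine Finsupp.sum_of_support_subset _ (fun q hq => ?_) _ (fun q _ => by simp)
      rw [Finsupp.mem_support_iff] at hq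
      have := (hv n).1 q hq
      exact hmem q ⟨this.1.trans (le_max_right _ _), this.2.trans (le_max_right _ _)⟩
    rw [e1]
    unfold FP.xs
    rw [Finset.mul_sum, ← Finset.sum_sub_distrib]
    refine Finset.sum_congr rfl fun q _ => ?_
    rw [hK]; ring
  have hlog0 : 0 ≤ Real.log (2 * ((N + 1 : ℕ) : ℝ)) := by
    refine Real.log_nonneg ?_
    have : (1 : ℝ) ≤ ((N + 1 : ℕ) : ℝ) := by push_cast; linarith only []
    linarith only [this]
  have hA := EA0 (P := P) (hbox (N + 1)) K (k := C0 * d ^ 3)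
    (M := (1 + C * (1 + (Real.log A0 - Real.log d))) / 2) (fun q _ => (hv n).2 q)
    (fun q hq => by
      refine (FP.abs_pth_int q).trans ?_
      have h1 := hmom (N + 1) q hq (by omega)
      have h2 : C * (1 + Real.log (2 * ((N + 1 : ℕ) : ℝ))) ≤
          C * (1 + (Real.log A0 - Real.log d)) := mul_le_mul_of_nonneg_left (by linarith only [hlog]) hC
      linarith only [h1, h2])
  have hcard : (((hbox (N + 1)).card : ℕ) : ℝ) = Y ^ 2 := FP.hbox_card _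
  have hA' : ∫ ω, |∑ q ∈ hbox (N + 1), K q * (pth ω q : ℝ)| ∂P ≤
      A0 ^ 2 * C0 * (d * ((1 + C + C * Real.log A0) / 2) - C / 2 * (Real.log d * d)) := by
    refine hA.trans ?_
    rw [hcard]
    have h1 : 0 ≤ d * ((1 + C * (1 + (Real.log A0 - Real.log d))) / 2) := by
      refine mul_nonneg hn.le ?_
      have h3 : 0 ≤ C * (1 + (Real.log A0 - Real.log d)) := mul_nonneg hC (by linarith only [hlog, hlog0])
      linarith only [h3]
    have h4 : (d * Y) ^ 2 ≤ A0 ^ 2 := pow_le_pow_left₀ (by (clear * - hn; positivity)) hNb 2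
    calc Y ^ 2 * ((1 + C * (1 + (Real.log A0 - Real.log d))) / 2 * (C0 * d ^ 3))
        = (d * Y) ^ 2 * (C0 * (d * ((1 + C * (1 + (Real.log A0 - Real.log d))) / 2))) := by
          ring
      _ ≤ A0 ^ 2 * (C0 * (d * ((1 + C * (1 + (Real.log A0 - Real.log d))) / 2))) :=
          mul_le_mul_of_nonneg_right h4 (mul_nonneg hC0 h1)
      _ = _ := by ring
  have i1 : Integrable (fun ω => |∑ q ∈ hbox (N + 1), K q * (pth ω q : ℝ)|) P :=
    (integrable_finsetSum _ (fun q _ => (pth_integrable q).const_mul _)).abs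
  have i2 : Integrable (fun ω => |FP.xs (pth ω) d g (N + 1) - hint (pth ω) d g|) P := by
    have e : ∀ ω : Ori (ℤ × ℤ), FP.xs (pth ω) d g (N + 1) - hint (pth ω) d g =
        ∑ q ∈ hbox (N + 1), (2 * d ^ 2 * (FP.ev q * g (d * q.1, d * q.2)) - FP.cI g d q) *
          (pth ω q : ℝ) := by
      intro ω
      have hN' : R / d + 1 ≤ ((N + 1 : ℕ) : ℝ) := by push_cast; linarith only [hNge]
      rw [P152.GFF.S.hint_cells (pth ω) hn hg hR' hN']
      unfold FP.xs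
      rw [Finset.mul_sum, ← Finset.sum_sub_distrib]
      refine Finset.sum_congr rfl fun q _ => ?_
      unfold FP.cI
      ring
    simp only [e]
    exact (integrable_finsetSum _ (fun q _ => (pth_integrable q).const_mul _)).abs
  calc ∫ ω, |ev (v n) (pth ω) - hint (pth ω) d g| ∂P
      ≤ ∫ ω, (|∑ q ∈ hbox (N + 1), K q * (pth ω q : ℝ)| +
          |FP.xs (pth ω) d g (N + 1) - hint (pth ω) d g|) ∂P := by
        refine integral_mono_of_nonneg (Eventually.of_forall (fun ω => abs_nonneg _))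
          (i1.add i2) (Eventually.of_forall fun ω => ?_)
        simp only
        rw [← hdiff]
        refine le_trans (le_of_eq ?_) (abs_add_le _ _)
        congr 1
        ring
    _ = _ := integral_add i1 i2
    _ ≤ _ := add_le_add hA' le_rfl

/-- Comparison of characteristic functions in `L¹`. -/
lemma char_close1 {X Y : Ori (ℤ × ℤ) → ℝ} (hX : AEStronglyMeasurable X P)
    (hY : AEStronglyMeasurable Y P) (hi : Integrable (fun ω => |X ω - Y ω|) P) :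
    ‖∫ ω, Complex.exp (Complex.I * (X ω : ℂ)) ∂P - ∫ ω, Complex.exp (Complex.I * (Y ω : ℂ)) ∂P‖
      ≤ ∫ ω, |X ω - Y ω| ∂P := by
  have hmX : AEStronglyMeasurable (fun ω => Complex.exp (Complex.I * (X ω : ℂ))) P :=
    (Complex.continuous_exp.comp (continuous_const.mul
      Complex.continuous_ofReal)).comp_aestronglyMeasurable hX
  have hmY : AEStronglyMeasurable (fun ω => Complex.exp (Complex.I * (Y ω : ℂ))) P :=
    (Complex.continuous_exp.comp (continuous_const.mul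
      Complex.continuous_ofReal)).comp_aestronglyMeasurable hY
  have hn : ∀ x : ℝ, ‖Complex.exp (Complex.I * (x : ℂ))‖ = 1 := by
    intro x
    rw [mul_comm]
    exact Complex.norm_exp_ofReal_mul_I x
  have iX : Integrable (fun ω => Complex.exp (Complex.I * (X ω : ℂ))) P :=
    Integrable.of_bound hmX 1 (Eventually.of_forall (fun ω => (hn _).le))
  have iY : Integrable (fun ω => Complex.exp (Complex.I * (Y ω : ℂ))) P :=
    Integrable.of_bound hmY 1 (Eventually.of_forall (fun ω => (hn _).le))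
  rw [← integral_sub iX iY]
  refine (norm_integral_le_integral_norm _).trans (integral_mono (iX.sub iY).norm hi fun ω => ?_)
  simp only
  have e : Complex.exp (Complex.I * (X ω : ℂ)) - Complex.exp (Complex.I * (Y ω : ℂ))
      = Complex.exp (Complex.I * (Y ω : ℂ)) *
        (Complex.exp (Complex.I * ((X ω - Y ω : ℝ) : ℂ)) - 1) := by
    rw [mul_sub, ← Complex.exp_add, mul_one]
    congr 2
    push_cast; ring
  rw [e, norm_mul, hn, one_mul]
  have := Real.norm_exp_I_mul_ofReal_sub_one_le (x := X ω - Y ω)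
  rw [Real.norm_eq_abs] at this
  exact this

end Vale.Agent.P145.FA
end

section

/-!
P145, block F-A: the macroscopic input `SDseq` from the Gaussian limit in the plane.
-/

namespace Vale.Agent.P145.FA

open Finset Filter Topology MeasureTheory
open Vale.Agent.P152
open Vale.Agent.P152.GFF.S (hcell hbox hint Test gffCov gffCov_symm gffCov_add)
open Vale.Agent.P145.PT (Sm TestOn lap)

variable {P : Measure (Ori (ℤ × ℤ))} [IsProbabilityMeasure P]

/-- The Gaussian limit in the plane. -/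
def CLT (P : Measure (Ori (ℤ × ℤ))) (κ : ℝ) : Prop := ∀ F : ℝ × ℝ → ℝ, Test F →
  Tendsto (fun δ : ℝ => ∫ ω, Complex.exp (Complex.I * (hint (pth ω) δ F : ℂ)) ∂P) (𝓝[>] 0)
    (𝓝 (Complex.exp (-(((κ / 2) * gffCov F F : ℝ) : ℂ))))

lemma smooth_bounds {g : ℝ × ℝ → ℝ} (hg : Sm g) (cg : HasCompactSupport g) :
    ∃ R0 F L : ℝ, 0 < R0 ∧ (∀ x : ℝ × ℝ, g x ≠ 0 → |x.1| ≤ R0 ∧ |x.2| ≤ R0) ∧ (∀ x, |g x| ≤ F) ∧
      0 ≤ L ∧ ∀ x y, |g x - g y| ≤ L * ‖x - y‖ := by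
  obtain ⟨R0, hR0, hR⟩ := P152.GFF.S.bound_of_compact cg
  obtain ⟨F, hF⟩ := cg.exists_bound_of_continuous hg.continuous
  obtain ⟨L, hL⟩ := (cg.fderiv ℝ).exists_bound_of_continuous (hg.continuous_fderiv (by simp))
  refine ⟨R0, F, L, hR0, hR, fun x => by simpa using hF x, (norm_nonneg _).trans (hL 0), fun x y => ?_⟩
  have h := Convex.norm_image_sub_le_of_norm_fderiv_le (𝕜 := ℝ) (f := g) (C := L) (s := Set.univ)
    (fun x _ => hg.differentiable (by simp) x) (fun x _ => hL x) convex_univ (Set.mem_univ y)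
    (Set.mem_univ x)
  simpa only [ge_iff_le, Real.norm_eq_abs] using h

/-- Characteristic functions of the lattice functionals. -/
theorem app_char (hP : FP.Hyp P) {κ : ℝ} (hclt : CLT P κ) {δ : ℕ → ℝ}
    (hδ : Tendsto δ atTop (𝓝[>] 0)) {g : ℝ × ℝ → ℝ} (hg : Test g) {v : ℕ → (ℤ × ℤ) →₀ ℝ}
    (hv : App δ g v) :
    Tendsto (fun n => ∫ ω, Complex.exp (Complex.I * ((ev (v n) (pth ω) : ℝ) : ℂ)) ∂P) atTop
      (𝓝 (Complex.exp (-(((κ / 2) * gffCov g g : ℝ) : ℂ)))) := by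
  obtain ⟨R0, F, L, hR0, hR, hF, hL0, hL⟩ := smooth_bounds hg.1 hg.2.1
  have hgi : Integrable g := hg.1.continuous.integrable_of_hasCompactSupport hg.2.1
  have h1 := app_close hP hδ hv hgi hR0 hR hF hL0 hL
  have h2 := (hclt g hg).comp hδ
  have hpos : ∀ᶠ n in atTop, 0 < δ n := hδ.eventually self_mem_nhdsWithin
  have h3 : Tendsto (fun n => ∫ ω, Complex.exp (Complex.I * ((ev (v n) (pth ω) : ℝ) : ℂ)) ∂P -
      ∫ ω, Complex.exp (Complex.I * (hint (pth ω) (δ n) g : ℂ)) ∂P) atTop (𝓝 0) := by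
    refine squeeze_zero_norm' ?_ h1
    filter_upwards [hpos] with n hn
    obtain ⟨N, hN⟩ := exists_nat_ge (R0 / δ n + 1)
    have e : ∀ ω : Ori (ℤ × ℤ), hint (pth ω) (δ n) g =
        ∑ q ∈ hbox N, (pth ω q : ℝ) * ∫ x in hcell (δ n) q, g x := fun ω =>
      P152.GFF.S.hint_cells (pth ω) hn hgi hR hN
    have mY : Measurable fun ω : Ori (ℤ × ℤ) => hint (pth ω) (δ n) g := by
      simp only [e]
      refine Finset.measurable_sum _ fun q _ => Measurable.mul_const ?_ _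
      exact measurable_from_top.comp (measurable_pthq q)
    have mX : Measurable fun ω : Ori (ℤ × ℤ) => ev (v n) (pth ω) := by
      unfold ev Finsupp.sum
      refine Finset.measurable_sum _ fun q _ => Measurable.const_mul ?_ _
      exact measurable_from_top.comp (measurable_pthq q)
    have iX : Integrable (fun ω : Ori (ℤ × ℤ) => ev (v n) (pth ω)) P := by
      unfold ev Finsupp.sum
      exact integrable_finsetSum _ fun q _ => (pth_integrable q).const_mul _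
    have iY : Integrable (fun ω : Ori (ℤ × ℤ) => hint (pth ω) (δ n) g) P := by
      simp only [e]
      exact integrable_finsetSum _ fun q _ => (pth_integrable q).mul_const _
    exact char_close1 mX.aestronglyMeasurable mY.aestronglyMeasurable (iX.sub iY).abs
  have h4 := h3.add h2
  rw [zero_add] at h4
  refine h4.congr fun n => ?_
  simp only [Function.comp_apply]
  ring

/-! ### The reflection -/

/-- Reflection of the plane. -/
def rr (x : ℝ × ℝ) : ℝ × ℝ := (x.1, -x.2)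

lemma rr_rr (x : ℝ × ℝ) : rr (rr x) = x := by simp [rr]

lemma rr_cont : Continuous rr := continuous_fst.prodMk continuous_snd.neg

lemma rr_sm : ContDiff ℝ ((⊤ : ℕ∞) : WithTop ℕ∞) rr := contDiff_fst.prodMk contDiff_snd.neg

/-- The reflection as a homeomorphism. -/
def rrh : (ℝ × ℝ) ≃ₜ (ℝ × ℝ) where
  toFun := rr
  invFun := rr
  left_inv := rr_rr
  right_inv := rr_rr
  continuous_toFun := rr_cont
  continuous_invFun := rr_cont

lemma cs_rr {f : ℝ × ℝ → ℝ} (cf : HasCompactSupport f) : HasCompactSupport (fun x => f (rr x)) :=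
  cf.comp_homeomorph rrh

lemma int_rr (F : ℝ × ℝ → ℝ) : ∫ x, F (rr x) = ∫ x, F x := by
  have h : MeasurePreserving rr (volume : Measure (ℝ × ℝ)) volume := by
    rw [Measure.volume_eq_prod]
    exact (MeasurePreserving.id _).prod (Measure.measurePreserving_neg _)
  exact h.integral_comp rrh.measurableEmbedding F

lemma hasFDerivAt_rr (x : ℝ × ℝ) : HasFDerivAt rr
    ((ContinuousLinearMap.fst ℝ ℝ ℝ).prod (-(ContinuousLinearMap.snd ℝ ℝ ℝ))) x :=
  hasFDerivAt_fst.prodMk hasFDerivAt_snd.neg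

lemma dx_rr {f : ℝ × ℝ → ℝ} (hf : Sm f) (z : ℝ × ℝ) :
    PT.dx (fun x => f (rr x)) z = PT.dx f (rr z) := by
  unfold PT.dx
  have h := ((hf.differentiable (by simp)) (rr z)).hasFDerivAt.comp z (hasFDerivAt_rr z)
  have e : (f ∘ rr) = fun x => f (rr x) := rfl
  rw [e] at h
  rw [h.fderiv]
  simp only [ContinuousLinearMap.comp_apply, ContinuousLinearMap.prod_apply, ContinuousLinearMap.coe_fst', neg_apply, ContinuousLinearMap.coe_snd', neg_zero]

lemma dy_rr {f : ℝ × ℝ → ℝ} (hf : Sm f) (z : ℝ × ℝ) :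
    PT.dy (fun x => f (rr x)) z = - PT.dy f (rr z) := by
  unfold PT.dy
  have h := ((hf.differentiable (by simp)) (rr z)).hasFDerivAt.comp z (hasFDerivAt_rr z)
  have e : (f ∘ rr) = fun x => f (rr x) := rfl
  rw [e] at h
  rw [h.fderiv]
  have e2 : ((0 : ℝ), (-1 : ℝ)) = - ((0 : ℝ), (1 : ℝ)) := by simp
  simp only [ContinuousLinearMap.comp_apply, ContinuousLinearMap.prod_apply, ContinuousLinearMap.coe_fst', neg_apply, ContinuousLinearMap.coe_snd']
  rw [e2, map_neg]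

lemma dy_neg {f : ℝ × ℝ → ℝ} (z : ℝ × ℝ) : PT.dy (fun x => - f x) z = - PT.dy f z := by
  unfold PT.dy
  rw [fderiv_fun_neg]
  rfl

lemma dx_neg {f : ℝ × ℝ → ℝ} (z : ℝ × ℝ) : PT.dx (fun x => - f x) z = - PT.dx f z := by
  unfold PT.dx
  rw [fderiv_fun_neg]
  rfl

lemma lap_neg {f : ℝ × ℝ → ℝ} (z : ℝ × ℝ) : lap (fun x => - f x) z = - lap f z := by
  have e1 : PT.dx (fun x => - f x) = fun x => - PT.dx f x := funext fun x => dx_neg x
  have e2 : PT.dy (fun x => - f x) = fun x => - PT.dy f x := funext fun x => dy_neg x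
  unfold PT.lap
  rw [e1, e2, dx_neg, dy_neg]
  ring

lemma lap_rr {f : ℝ × ℝ → ℝ} (hf : Sm f) (z : ℝ × ℝ) :
    lap (fun x => f (rr x)) z = lap f (rr z) := by
  have e1 : PT.dx (fun x => f (rr x)) = fun x => (PT.dx f) (rr x) := funext fun x => dx_rr hf x
  have e2 : PT.dy (fun x => f (rr x)) = fun x => - (PT.dy f) (rr x) := funext fun x => dy_rr hf x
  unfold PT.lap
  rw [e1, e2, dx_rr hf.dx, dy_neg, dy_rr hf.dy]
  ring

lemma lap_zero {ψ : ℝ × ℝ → ℝ} (h : ∀ x : ℝ × ℝ, x.2 ≤ 0 → ψ x = 0) {x : ℝ × ℝ} (hx : x.2 < 0) :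
    lap ψ x = 0 := by
  have hopen : IsOpen {y : ℝ × ℝ | y.2 < 0} := isOpen_lt continuous_snd continuous_const
  have key : ∀ (f : ℝ × ℝ → ℝ), (∀ y : ℝ × ℝ, y.2 < 0 → f y = 0) → ∀ y : ℝ × ℝ, y.2 < 0 →
      fderiv ℝ f y = 0 := by
    intro f hf y hy
    have e : f =ᶠ[𝓝 y] fun _ => (0 : ℝ) := by
      filter_upwards [hopen.mem_nhds hy] with z hz using hf z hz
    rw [e.fderiv_eq]
    exact fderiv_const_apply 0
  have h1 : ∀ y : ℝ × ℝ, y.2 < 0 → PT.dx ψ y = 0 := fun y hy => by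
    unfold PT.dx
    rw [key ψ (fun y hy => h y hy.le) y hy]; rfl
  have h2 : ∀ y : ℝ × ℝ, y.2 < 0 → PT.dy ψ y = 0 := fun y hy => by
    unfold PT.dy
    rw [key ψ (fun y hy => h y hy.le) y hy]; rfl
  unfold PT.lap
  have e1 : PT.dx (PT.dx ψ) x = 0 := by
    unfold PT.dx
    rw [key (fun z => fderiv ℝ ψ z (1, 0)) h1 x hx]; rfl
  have e2 : PT.dy (PT.dy ψ) x = 0 := by
    unfold PT.dy
    rw [key (fun z => fderiv ℝ ψ z (0, 1)) h2 x hx]; rfl
  rw [e1, e2, add_zero]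

lemma int_lap {ψ : ℝ × ℝ → ℝ} (hψ : Sm ψ) (cψ : HasCompactSupport ψ) : ∫ x, lap ψ x = 0 := by
  have hT : TestOn Set.univ ψ := ⟨hψ, cψ, Set.subset_univ _⟩
  have h := lap_swap hT (L := fun _ => (1 : ℝ)) contDiff_const
  simp only [one_mul] at h
  rw [h]
  have : ∀ z : ℝ × ℝ, lap (fun _ => (1 : ℝ)) z = 0 := by
    intro z
    have e1 : PT.dx (fun _ : ℝ × ℝ => (1 : ℝ)) = fun _ => 0 := by
      funext y; unfold PT.dx; rw [fderiv_const_apply]; rfl
    have e2 : PT.dy (fun _ : ℝ × ℝ => (1 : ℝ)) = fun _ => 0 := by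
      funext y; unfold PT.dy; rw [fderiv_const_apply]; rfl
    unfold PT.lap
    rw [e1, e2]
    unfold PT.dx PT.dy
    rw [fderiv_const_apply]
    simp
  simp [this]

/-- Completing the square. -/
lemma gff_square {A ψ : ℝ × ℝ → ℝ} (hA : Continuous A) (cA : HasCompactSupport A) (hψ : Sm ψ)
    (cψ : HasCompactSupport ψ) :
    gffCov (fun x => A x + -lap ψ x) (fun x => A x + -lap ψ x) =
      gffCov A A + 2 * (∫ x, ψ x * A x) + ∫ x, ψ x * (-lap ψ x) := by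
  have hT : TestOn Set.univ ψ := ⟨hψ, cψ, Set.subset_univ _⟩
  have hV : Continuous (fun x => -lap ψ x) := hT.lap.cont.neg
  have cV : HasCompactSupport (fun x => -lap ψ x) := hT.lap.cs.neg
  have hAV : Continuous (fun x => A x + -lap ψ x) := hA.add hV
  have cAV : HasCompactSupport (fun x => A x + -lap ψ x) := cA.add cV
  rw [gffCov_add hA hV hAV cA cV cAV, gffCov_symm hA hAV cA cAV, gffCov_add hA hV hA cA cV cA,
    green_lap hψ cψ hA cA, green_lap hψ cψ hAV cAV]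
  have e : ∫ x, ψ x * (A x + -lap ψ x) = (∫ x, ψ x * A x) + ∫ x, ψ x * (-lap ψ x) := by
    rw [← integral_add]
    · refine integral_congr_ae (Eventually.of_forall fun x => ?_)
      simp only
      ring
    · exact (hψ.continuous.mul hA).integrable_of_hasCompactSupport (cψ.mul_right)
    · exact (hψ.continuous.mul hV).integrable_of_hasCompactSupport (cψ.mul_right)
  rw [e]
  ring

/-! ### The sequence -/

/-- The test function of the combination. -/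
noncomputable def gst (f ψ χ : ℝ × ℝ → ℝ) (s t z : ℝ) (x : ℝ × ℝ) : ℝ :=
  (((f x - f (rr x)) + s * (-lap ψ x)) - t * (-lap ψ (rr x))) + z * (χ (rr x) - χ x)

/-- Data for the half-plane statement. -/
structure SDdat (f ψ χ : ℝ × ℝ → ℝ) : Prop where
  f1 : Sm f
  f2 : HasCompactSupport f
  f3 : ∀ x : ℝ × ℝ, x.2 ≤ 0 → f x = 0
  p1 : Sm ψ
  p2 : HasCompactSupport ψ
  p3 : ∀ x : ℝ × ℝ, x.2 ≤ 0 → ψ x = 0
  c1 : Sm χ
  c2 : HasCompactSupport χ
  c3 : ∀ x : ℝ × ℝ, x.2 ≤ 0 → χ x = 0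
  c4 : ∫ x, ψ x * χ x = 0

variable {f ψ χ : ℝ × ℝ → ℝ}

lemma gst_sm (h : SDdat f ψ χ) (s t z : ℝ) : Sm (gst f ψ χ s t z) := by
  have hU : Sm (fun x => -lap ψ x) := (PT.Sm.lap h.p1).neg
  unfold gst
  exact ((((h.f1.sub (h.f1.comp rr_sm)).add (contDiff_const.mul hU)).sub
    (contDiff_const.mul (hU.comp rr_sm))).add (contDiff_const.mul ((h.c1.comp rr_sm).sub h.c1)))

lemma cs_sub {a b : ℝ × ℝ → ℝ} (ca : HasCompactSupport a) (cb : HasCompactSupport b) :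
    HasCompactSupport (fun x => a x - b x) := by
  show HasCompactSupport (a - b)
  rw [sub_eq_add_neg]
  exact ca.add cb.neg

lemma gst_cs (h : SDdat f ψ χ) (s t z : ℝ) : HasCompactSupport (gst f ψ χ s t z) := by
  have hT : TestOn Set.univ ψ := ⟨h.p1, h.p2, Set.subset_univ _⟩
  have cU : HasCompactSupport (fun x => -lap ψ x) := hT.lap.cs.neg
  unfold gst
  exact (cs_sub ((cs_sub h.f2 (cs_rr h.f2)).add cU.mul_left) (cs_rr cU).mul_left).add
    (cs_sub (cs_rr h.c2) h.c2).mul_left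

lemma gst_int (h : SDdat f ψ χ) (s t z : ℝ) : ∫ x, gst f ψ χ s t z x = 0 := by
  have hT : TestOn Set.univ ψ := ⟨h.p1, h.p2, Set.subset_univ _⟩
  have iU : Integrable (fun x => -lap ψ x) := hT.lap.int.neg
  have iU' : Integrable (fun x => -lap ψ (rr x)) :=
    (hT.lap.cont.comp rr_cont).neg.integrable_of_hasCompactSupport (cs_rr hT.lap.cs.neg)
  have iff : Integrable f := h.f1.continuous.integrable_of_hasCompactSupport h.f2
  have iff' : Integrable (fun x => f (rr x)) :=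
    (h.f1.continuous.comp rr_cont).integrable_of_hasCompactSupport (cs_rr h.f2)
  have iχ : Integrable χ := h.c1.continuous.integrable_of_hasCompactSupport h.c2
  have iχ' : Integrable (fun x => χ (rr x)) :=
    (h.c1.continuous.comp rr_cont).integrable_of_hasCompactSupport (cs_rr h.c2)
  have i1 : Integrable (fun x => f x - f (rr x)) := iff.sub iff'
  have i2 : Integrable (fun x => s * (-lap ψ x)) := iU.const_mul s
  have i3 : Integrable (fun x => t * (-lap ψ (rr x))) := iU'.const_mul t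
  have i4 : Integrable (fun x => z * (χ (rr x) - χ x)) := (iχ'.sub iχ).const_mul z
  have i5 : Integrable (fun x => (f x - f (rr x)) + s * (-lap ψ x)) := i1.add i2
  have i6 : Integrable (fun x => ((f x - f (rr x)) + s * (-lap ψ x)) - t * (-lap ψ (rr x))) :=
    i5.sub i3
  unfold gst
  rw [integral_add i6 i4, integral_sub i5 i3, integral_add i1 i2, integral_sub iff iff',
    integral_const_mul, integral_const_mul, integral_const_mul, integral_sub iχ' iχ, int_rr f,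
    int_rr χ, int_rr (fun x => -lap ψ x), integral_neg, int_lap h.p1 h.p2]
  ring

lemma gst_app {δ : ℕ → ℝ} {w u φ : ℕ → (ℤ × ℤ) →₀ ℝ} (hw : App δ f w)
    (hu : App δ (fun x => -lap ψ x) u) (hφ : App δ χ φ) (s t z : ℝ) :
    App δ (gst f ψ χ s t z) (fun n => w n - rf (w n) + s • u n - t • rf (u n)
      + z • (rf (φ n) - φ n)) :=
  ((((hw.sub hw.rf).add (hu.smul s)).sub (hu.rf.smul t)).add ((hφ.rf.sub hφ).smul z))

lemma disj (h : SDdat f ψ χ) (x : ℝ × ℝ) :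
    ψ x * f (rr x) = 0 ∧ ψ x * (-lap ψ (rr x)) = 0 ∧ ψ x * χ (rr x) = 0 := by
  by_cases hx : x.2 ≤ 0
  · rw [h.p3 x hx]; simp
  · push Not at hx
    have h1 : (rr x).2 < 0 := by show -x.2 < 0; linarith
    rw [h.f3 _ h1.le, h.c3 _ h1.le, lap_zero h.p3 h1]
    simp

lemma int_a (h : SDdat f ψ χ) (t z : ℝ) : ∫ x, ψ x * gst f ψ χ 0 t z x = ∫ x, ψ x * f x := by
  have e : ∀ x, ψ x * gst f ψ χ 0 t z x = ψ x * f x + (-z) * (ψ x * χ x) := by
    intro x
    obtain ⟨h1, h2, h3⟩ := disj h x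
    unfold gst
    linear_combination -h1 - t * h2 + z * h3
  simp only [e]
  rw [integral_add, integral_const_mul, h.c4, mul_zero, add_zero]
  · exact (h.p1.continuous.mul h.f1.continuous).integrable_of_hasCompactSupport h.p2.mul_right
  · exact ((h.p1.continuous.mul h.c1.continuous).integrable_of_hasCompactSupport
      h.p2.mul_right).const_mul _

lemma int_b (h : SDdat f ψ χ) (s z : ℝ) :
    ∫ x, (-ψ (rr x)) * gst f ψ χ s 0 z x = ∫ x, ψ x * f x := by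
  rw [← int_rr (fun x => (-ψ (rr x)) * gst f ψ χ s 0 z x)]
  have e : ∀ x, (-ψ (rr (rr x))) * gst f ψ χ s 0 z (rr x) = ψ x * f x + (-z) * (ψ x * χ x) := by
    intro x
    obtain ⟨h1, h2, h3⟩ := disj h x
    unfold gst
    rw [rr_rr]
    linear_combination -h1 - s * h2 + z * h3
  simp only [e]
  rw [integral_add, integral_const_mul, h.c4, mul_zero, add_zero]
  · exact (h.p1.continuous.mul h.f1.continuous).integrable_of_hasCompactSupport h.p2.mul_right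
  · exact ((h.p1.continuous.mul h.c1.continuous).integrable_of_hasCompactSupport
      h.p2.mul_right).const_mul _

/-- The macroscopic input of the half-plane statement. -/
theorem sdseq (hP : FP.Hyp P) {κ : ℝ} (hclt : CLT P κ) {δ : ℕ → ℝ}
    (hδ : Tendsto δ atTop (𝓝[>] 0)) (h : SDdat f ψ χ) {w u φ : ℕ → (ℤ × ℤ) →₀ ℝ}
    (hw : App δ f w) (hu : App δ (fun x => -lap ψ x) u) (hφ : App δ χ φ)
    (mu : ∀ n, mass (u n) = 0) (mφ : ∀ n, mass (φ n) = 1) :
    SDseq P w u φ (Real.exp (-(κ * ∫ x, ψ x * f x) - (κ / 2) * ∫ x, ψ x * (-lap ψ x))) := by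
  refine ⟨mu, mφ, fun s t z => Complex.exp (-(((κ / 2) * gffCov (gst f ψ χ s t z)
    (gst f ψ χ s t z) : ℝ) : ℂ)), fun s t z _ _ => ?_, fun t z ht => ?_, fun s z hs => ?_⟩
  · exact app_char hP hclt hδ ⟨gst_sm h s t z, gst_cs h s t z, gst_int h s t z⟩
      (gst_app hw hu hφ s t z)
  · have e : gst f ψ χ 1 t z = fun x => gst f ψ χ 0 t z x + -lap ψ x := by
      funext x; unfold gst; ring
    have h1 := gff_square (gst_sm h 0 t z).continuous (gst_cs h 0 t z) h.p1 h.p2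
    beta_reduce
    rw [e, h1, int_a h t z, Complex.ofReal_exp, ← Complex.exp_add]
    congr 1
    push_cast
    ring
  · have hψ' : Sm (fun x => -ψ (rr x)) := (h.p1.comp rr_sm).neg
    have cψ' : HasCompactSupport (fun x => -ψ (rr x)) := (cs_rr h.p2).neg
    have elap : ∀ x, lap (fun x => -ψ (rr x)) x = - lap ψ (rr x) := fun x => by
      rw [lap_neg (f := fun x => ψ (rr x)), lap_rr h.p1]
    have e : gst f ψ χ s 1 z = fun x => gst f ψ χ s 0 z x + -lap (fun x => -ψ (rr x)) x := by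
      funext x; rw [elap]; unfold gst; ring
    have h1 := gff_square (gst_sm h s 0 z).continuous (gst_cs h s 0 z) hψ' cψ'
    have h2 : ∫ x, (-ψ (rr x)) * (-lap (fun x => -ψ (rr x)) x) = ∫ x, ψ x * (-lap ψ x) := by
      rw [← int_rr (fun x => ψ x * (-lap ψ x))]
      refine integral_congr_ae (Eventually.of_forall fun x => ?_)
      simp only
      rw [elap]
      ring
    beta_reduce
    rw [e, h1, int_b h s z, h2, Complex.ofReal_exp, ← Complex.exp_add]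
    congr 1
    push_cast
    ring

end Vale.Agent.P145.FA
end

section

/-!
P145, decay at the boundary: geometry. Boxes outside of the domain near a boundary point.
-/

namespace Vale.Agent.P145.X

open Filter Topology Set MeasureTheory
open Vale.Agent.P145.FB (Pt o1 o2)
open Vale.Agent.P145.Top (Fs sq)

private theorem dg_af_inj {f g : ℤ × ℤ} (h : af f = af g) : f = g := by
  unfold af at h
  simp only [Prod.mk.injEq] at h
  exact Prod.ext (by omega) (by omega)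

theorem mem_FsD {δ : ℝ} {D : Set (ℝ × ℝ)} {f : ℤ × ℤ} (h : f ∈ Fs δ D) : sq δ f ⊆ D := by
  unfold Fs at h
  split_ifs at h with hf
  · exact (Set.Finite.mem_toFinset hf).1 h
  · simp at h

theorem sq_ne {δ : ℝ} (hδ : 0 < δ) (f : ℤ × ℤ) : (sq δ f).Nonempty :=
  ⟨(δ * f.1, δ * f.2), le_rfl, by linarith, le_rfl, by linarith⟩

/-- Edges at faces outside of `D` are not inside `D`. -/
theorem tE_compl {δ : ℝ} (hδ : 0 < δ) {D : Set (ℝ × ℝ)} {S : Set (ℤ × ℤ)}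
    (hS : ∀ f ∈ S, Disjoint (sq δ f) D) : tE S ⊆ (iE (Fs δ D : Set (ℤ × ℤ)))ᶜ := by
  rintro w ⟨f, hf, hw⟩ ⟨a, ha, b, hb, h1, h2⟩
  have key : f ∉ (Fs δ D : Set (ℤ × ℤ)) := by
    intro h
    obtain ⟨z, hz⟩ := sq_ne hδ f
    exact Set.disjoint_left.1 (hS f hf) hz (mem_FsD h hz)
  rcases hw with hw | hw
  · rw [hw] at h1
    rw [dg_af_inj h1] at key
    exact key ha
  · rw [hw] at h2
    rw [dg_af_inj h2] at key
    exact key hb

theorem LocS.monoD {A A' : Set Pt} {g : Set Pt → ℝ} (h : LocS A g) (hA : A ⊆ A') : LocS A' g := by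
  obtain ⟨Λ, h1, h2⟩ := h
  exact ⟨Λ, fun w hw => hA (h1 w hw), h2⟩

theorem Fn.monoD {A A' : Set Pt} {g : Set Pt → ℝ} (h : Fn A g) (hA : A ⊆ A') : Fn A' g :=
  ⟨h.nonneg, h.loc.monoD hA, h.pin⟩

theorem LocS.mulD {A : Set Pt} {g g' : Set Pt → ℝ} (h : LocS A g) (h' : LocS A g') :
    LocS A (fun B => g B * g' B) := by
  classical
  obtain ⟨Λ, h1, h2⟩ := h
  obtain ⟨Λ', h1', h2'⟩ := h'
  refine ⟨Λ ∪ Λ', fun w hw => ?_, fun B B' hB => ?_⟩
  · rcases Finset.mem_union.1 hw with h | h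
    · exact h1 w h
    · exact h1' w h
  · show g B * g' B = g B' * g' B'
    rw [h2 B B' fun w hw => hB w (Finset.mem_union_left _ hw),
      h2' B B' fun w hw => hB w (Finset.mem_union_right _ hw)]

/-- A box of half side `2 W` outside of `D` near the point `z₀`. -/
theorem exists_box {D : Set (ℝ × ℝ)} {g : ℝ} (hg : 0 < g)
    (hT : ∀ x ∉ D, ∃ y : ℝ × ℝ, x ∈ Metric.closedBall y g ∧ Disjoint (Metric.closedBall y g) D)
    {z₀ : ℝ × ℝ} (hz : z₀ ∉ D) {δ : ℝ} (hδ : 0 < δ) {W : ℤ} (hW : 0 < W)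
    (h : 2 * (δ * W) + 3 * δ ≤ g) :
    ∃ p : ℤ × ℤ, (∀ f ∈ bx p (2 * W), Disjoint (sq δ f) D) ∧
      |δ * p.1 - z₀.1| ≤ 2 * (δ * W) + 4 * δ ∧ |δ * p.2 - z₀.2| ≤ 2 * (δ * W) + 4 * δ := by
  obtain ⟨y, hy, hyD⟩ := hT z₀ hz
  have hW' : (0 : ℝ) < W := by exact_mod_cast hW
  set ρ : ℝ := 2 * (δ * W) + 3 * δ with hρ
  have hρ0 : 0 < ρ := by positivity
  set u : ℝ := ρ / g with hu
  have hu0 : 0 ≤ u := by positivity
  have hu1 : u ≤ 1 := (div_le_one hg).2 h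
  have hug : u * g = ρ := div_mul_cancel₀ _ hg.ne'
  rw [Metric.mem_closedBall, Prod.dist_eq, max_le_iff, Real.dist_eq, Real.dist_eq] at hy
  obtain ⟨hy1, hy2⟩ := hy
  set q : ℝ × ℝ := (z₀.1 + u * (y.1 - z₀.1), z₀.2 + u * (y.2 - z₀.2)) with hq
  -- one coordinate
  have c1 : ∀ a b : ℝ, |a - b| ≤ g → |a + u * (b - a) - a| ≤ ρ ∧ |a + u * (b - a) - b| ≤ g - ρ := by
    intro a b hab
    constructor
    · have : a + u * (b - a) - a = -(u * (a - b)) := by ring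
      rw [this, abs_neg, abs_mul, abs_of_nonneg hu0, ← hug]
      exact mul_le_mul_of_nonneg_left hab hu0
    · have : a + u * (b - a) - b = (1 - u) * (a - b) := by ring
      rw [this, abs_mul, abs_of_nonneg (by linarith only [hu1])]
      have := mul_le_mul_of_nonneg_left hab (by linarith only [hu1] : 0 ≤ 1 - u)
      calc (1 - u) * |a - b| ≤ (1 - u) * g := this
        _ = g - ρ := by rw [← hug]; ring
  have c2 : ∀ r : ℝ, δ * (⌊r / δ⌋ : ℝ) ≤ r ∧ r - δ ≤ δ * (⌊r / δ⌋ : ℝ) := by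
    intro r
    have h1 := Int.floor_le (r / δ)
    have h2 := Int.lt_floor_add_one (r / δ)
    have e : δ * (r / δ) = r := mul_div_cancel₀ _ hδ.ne'
    constructor
    · calc δ * (⌊r / δ⌋ : ℝ) ≤ δ * (r / δ) := mul_le_mul_of_nonneg_left h1 hδ.le
        _ = r := e
    · have h3 : δ * (r / δ) ≤ δ * ((⌊r / δ⌋ : ℝ) + 1) := mul_le_mul_of_nonneg_left h2.le hδ.le
      rw [e] at h3
      linarith only [h3]
  obtain ⟨a1, a2⟩ := c1 z₀.1 y.1 hy1
  obtain ⟨b1, b2⟩ := c1 z₀.2 y.2 hy2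
  obtain ⟨f1, f2⟩ := c2 q.1
  obtain ⟨g1, g2⟩ := c2 q.2
  rw [abs_le] at a1 a2 b1 b2
  refine ⟨(⌊q.1 / δ⌋, ⌊q.2 / δ⌋), fun f hf => ?_, ?_, ?_⟩
  · refine Set.disjoint_left.2 fun z hz => Set.disjoint_left.1 hyD ?_
    obtain ⟨k1, k2, k3, k4⟩ := hf
    obtain ⟨l1, l2, l3, l4⟩ := hz
    rw [Metric.mem_closedBall, Prod.dist_eq, max_le_iff, Real.dist_eq, Real.dist_eq]
    have m1 : ((⌊q.1 / δ⌋ : ℤ) : ℝ) - 2 * W ≤ f.1 := by exact_mod_cast k1
    have m2 : (f.1 : ℝ) + 1 ≤ ((⌊q.1 / δ⌋ : ℤ) : ℝ) + 2 * W := by exact_mod_cast k2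
    have m3 : ((⌊q.2 / δ⌋ : ℤ) : ℝ) - 2 * W ≤ f.2 := by exact_mod_cast k3
    have m4 : (f.2 : ℝ) + 1 ≤ ((⌊q.2 / δ⌋ : ℤ) : ℝ) + 2 * W := by exact_mod_cast k4
    have n1 := mul_le_mul_of_nonneg_left m1 hδ.le
    have n2 := mul_le_mul_of_nonneg_left m2 hδ.le
    have n3 := mul_le_mul_of_nonneg_left m3 hδ.le
    have n4 := mul_le_mul_of_nonneg_left m4 hδ.le
    have q1 : q.1 = z₀.1 + u * (y.1 - z₀.1) := rfl
    have q2 : q.2 = z₀.2 + u * (y.2 - z₀.2) := rfl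
    constructor
    · rw [abs_le]
      constructor <;> linarith only [hδ, a2, f1, l2, n2, f2, l1, n1]
    · rw [abs_le]
      constructor <;> linarith only [hδ, b2, g1, l4, n4, g2, l3, n3]
  · have q1 : q.1 = z₀.1 + u * (y.1 - z₀.1) := rfl
    rw [abs_le]
    constructor <;> simp only <;> linarith only [a1, f2, hδ, f1]
  · have q2 : q.2 = z₀.2 + u * (y.2 - z₀.2) := rfl
    rw [abs_le]
    constructor <;> simp only <;> linarith only [b1, g2, hδ, g1]

end Vale.Agent.P145.X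
end

section

/-!
# P145, block F-B: the regions enclosed by the cluster of the arm event

On the event `Arm s R` one cluster of the fine-lattice set separates the inner box from the outer
box in the annuli around `(0, 0)` and `(3R, 0)`. The set `Uf C p q t` consists of the odd faces of
the outer box which are not joined to its complement by dual paths avoiding the cluster `C`.
-/

namespace Vale.Agent.P145.FB

open Relation Vale.Agent.P153 Vale.Agent.P153.Topo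

/-- The big box. -/
def bigB (R : ℤ) : Set Pt := rc (-(4 * R)) (5 * R) (-(4 * R)) (4 * R)

/-- The cluster of `x` in `T`. -/
def clu (T : Set Pt) (x : Pt) : Set Pt := {y | NC T x y}

theorem clu_sub {T : Set Pt} {x : Pt} : clu T x ⊆ T := fun _ h => h.right_mem

/-- A step between two dual points through an edge point outside `C`. -/
def DS (C : Set Pt) (f g : Pt) : Prop := ∃ e : Pt, NN f e ∧ NN e g ∧ e ∉ C ∧ e - f = g - e

/-- Strictly inside the box with centre `(p, q)` and half side `2t`. -/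
def inB (p q t : ℤ) (g : Pt) : Prop :=
  2 * (p - 2 * t) < g.1 ∧ g.1 < 2 * (p + 2 * t) ∧ 2 * (q - 2 * t) < g.2 ∧ g.2 < 2 * (q + 2 * t)

/-- Dual paths which avoid `C` and start in the box with centre `(p, q)` and half side `t` stay
strictly inside the box with half side `2t`. -/
def Cut (C : Set Pt) (p q t : ℤ) : Prop :=
  ∀ f g : Pt, Odd f.1 → Odd f.2 → f ∈ rc (p - t) (p + t) (q - t) (q + t) →
    ReflTransGen (DS C) f g → inB p q t g

theorem DS.symm {C : Set Pt} {f g : Pt} (h : DS C f g) : DS C g f := by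
  obtain ⟨e, h1, h2, h3, h4⟩ := h
  refine ⟨e, h2.symm, h1.symm, h3, ?_⟩
  rw [← neg_sub g e, ← neg_sub e f, h4]

theorem DS.odd {C : Set Pt} {f g : Pt} (h : DS C f g) (hf : Odd f.1 ∧ Odd f.2) :
    Odd g.1 ∧ Odd g.2 := by
  obtain ⟨e, h1, h2, -, h4⟩ := h
  have h41 : e.1 - f.1 = g.1 - e.1 := congrArg Prod.fst h4
  have h42 : e.2 - f.2 = g.2 - e.2 := congrArg Prod.snd h4
  obtain ⟨⟨a, ha⟩, ⟨b, hb⟩⟩ := hf
  exact ⟨⟨e.1 - a - 1, by (clear * - h41 ha; omega)⟩, ⟨e.2 - b - 1, by omega⟩⟩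

theorem cut_of_sep {C : Set Pt} {p q t : ℤ} (h : Sep C p q t)
    (hC : ∀ z ∈ C, ¬ (Odd z.1 ∧ Odd z.2)) : Cut C p q t := by
  intro f g hf1 hf2 hf hfg
  by_contra hg
  let D : Set Pt := {z | (Odd z.1 ∧ Odd z.2) ∨ z ∉ C}
  have key : ∀ w, ReflTransGen (DS C) f w → NC D f w ∧ Odd w.1 ∧ Odd w.2 := by
    intro w hw
    induction hw with
    | refl => exact ⟨NC.refl (Or.inl ⟨hf1, hf2⟩), hf1, hf2⟩
    | @tail b c hab hbc ih =>
      have hc := hbc.odd ih.2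
      obtain ⟨e, e1, e2, e3, -⟩ := hbc
      refine ⟨(ih.1.tail e1 (Or.inr e3)).tail e2 (Or.inl hc), hc⟩
  obtain ⟨z, hz1, hz2⟩ := h D f g (key g hfg).1.conn hf (by unfold inB at hg; omega)
  rcases hz1 with h1 | h1
  · exact hC z hz2 h1
  · exact h1 hz2

/-- The arm event gives one cluster which cuts both annuli. -/
theorem arm_cut {s R : ℤ} (hs : 0 < s) (hsR : s ≤ 2 * R) {S : Set Pt}
    (hodd : ∀ z ∈ S, ¬ (Odd z.1 ∧ Odd z.2)) (h : Arm s R S) :
    ∃ o ∈ S ∩ bigB R, Cut (clu (S ∩ bigB R) o) 0 0 s ∧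
      Cut (clu (S ∩ bigB R) o) (3 * R) 0 R := by
  obtain ⟨o, ho, h1, -, h3⟩ := h.joined hs hsR
  have hc : ∀ z ∈ clu (S ∩ bigB R) o, ¬ (Odd z.1 ∧ Odd z.2) := fun z hz =>
    hodd z (clu_sub hz).1
  exact ⟨o, ho, cut_of_sep h1 hc, cut_of_sep h3 hc⟩

/-! ### Faces -/

/-- The fine point of a face. -/
def fi (q : Pt) : Pt := (q.1 + q.2, q.1 - q.2)

/-- The fine point of a vertex. -/
def ep (w : Pt) : Pt := (w.1 + w.2 - 1, w.1 - w.2)

theorem vx_ep (w : Pt) : vx (ep w) = w := by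
  unfold vx ep; ext <;> dsimp only <;> omega

theorem ep_odd (w : Pt) : Odd ((ep w).1 + (ep w).2) := by
  unfold ep; exact ⟨w.1 - 1, by dsimp only; ring⟩

theorem fc_fi (q : Pt) : fc (fi q) = q := by
  unfold fc fi; ext <;> dsimp only <;> omega

/-- The odd faces of the box with centre `(p, q)` and half side `2t` which are not joined to the
complement of the box by a dual path avoiding `C`. -/
def UU (C : Set Pt) (p q t : ℤ) : Set Pt :=
  {f | Odd (f.1 + f.2) ∧ ∀ g, ReflTransGen (DS C) (fi f) g → inB p q t g}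

theorem UU_fin (C : Set Pt) (p q t : ℤ) : (UU C p q t).Finite := by
  have h1 : UU C p q t ⊆ fi ⁻¹' (Set.Icc (2 * (p - 2 * t)) (2 * (p + 2 * t)) ×ˢ
      Set.Icc (2 * (q - 2 * t)) (2 * (q + 2 * t))) := by
    intro f hf
    have := hf.2 (fi f) ReflTransGen.refl
    unfold inB at this
    rw [Set.mem_preimage, Set.mem_prod, Set.mem_Icc, Set.mem_Icc]
    exact ⟨⟨this.1.le, this.2.1.le⟩, ⟨this.2.2.1.le, this.2.2.2.le⟩⟩
  refine Set.Finite.subset (Set.Finite.preimage ?_ ((Set.finite_Icc _ _).prod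
    (Set.finite_Icc _ _))) h1
  intro a _ b _ hab
  rw [← fc_fi a, ← fc_fi b, hab]

/-- `UU` as a finite set. -/
noncomputable def Uf (C : Set Pt) (p q t : ℤ) : Finset Pt := (UU_fin C p q t).toFinset

theorem mem_Uf {C : Set Pt} {p q t : ℤ} {f : Pt} :
    f ∈ Uf C p q t ↔ Odd (f.1 + f.2) ∧ ∀ g, ReflTransGen (DS C) (fi f) g → inB p q t g := by
  unfold Uf; rw [Set.Finite.mem_toFinset]; rfl

theorem Uf_odd {C : Set Pt} {p q t : ℤ} {f : Pt} (h : f ∈ Uf C p q t) : Odd (f.1 + f.2) :=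
  (mem_Uf.1 h).1

theorem fi_odd {f : Pt} (h : Odd (f.1 + f.2)) : Odd (fi f).1 ∧ Odd (fi f).2 := by
  obtain ⟨k, hk⟩ := h
  exact ⟨⟨k, hk⟩, ⟨k - f.2, by unfold fi; dsimp only; omega⟩⟩

theorem Uf_step {C : Set Pt} {p q t : ℤ} {f g : Pt} (h : f ∈ Uf C p q t) (hg : Odd (g.1 + g.2))
    (hfg : DS C (fi f) (fi g)) : g ∈ Uf C p q t :=
  mem_Uf.2 ⟨hg, fun _ hk => (mem_Uf.1 h).2 _ (ReflTransGen.head hfg hk)⟩

theorem o1_odd (w : Pt) : Odd ((o1 w).1 + (o1 w).2) := by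
  unfold o1
  split_ifs with h
  · obtain ⟨k, hk⟩ := h
    exact ⟨k - 1, by dsimp only; omega⟩
  · rwa [Int.not_even_iff_odd] at h

theorem o2_odd (w : Pt) : Odd ((o2 w).1 + (o2 w).2) := by
  unfold o2
  split_ifs with h
  · obtain ⟨k, hk⟩ := h
    exact ⟨k - 1, by dsimp only; omega⟩
  · rw [Int.not_even_iff_odd] at h
    obtain ⟨k, hk⟩ := h
    exact ⟨k - 1, by dsimp only; omega⟩

theorem DS_o {C : Set Pt} {w : Pt} (h : ep w ∉ C) : DS C (fi (o1 w)) (fi (o2 w)) := by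
  refine ⟨ep w, ?_, ?_, h, ?_⟩
  · unfold NN fi ep o1
    split_ifs <;> dsimp only <;> omega
  · unfold NN fi ep o2
    split_ifs <;> dsimp only <;> omega
  · unfold fi ep o1 o2
    split_ifs <;> ext <;> dsimp only [Prod.fst_sub, Prod.snd_sub] <;> omega

/-- The boundary of `Uf` belongs to `C`. -/
theorem Uf_bd {C : Set Pt} {p q t : ℤ} {w : Pt}
    (h : (o1 w ∈ Uf C p q t ∧ o2 w ∉ Uf C p q t) ∨ (o2 w ∈ Uf C p q t ∧ o1 w ∉ Uf C p q t)) :
    ep w ∈ C := by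
  by_contra hw
  have h1 := DS_o hw
  rcases h with h | h
  · exact h.2 (Uf_step h.1 (o2_odd w) h1)
  · exact h.2 (Uf_step h.1 (o1_odd w) h1.symm)

theorem Uf_in {C : Set Pt} {p q t : ℤ} (hcut : Cut C p q t) {f : Pt} (hf : Odd (f.1 + f.2))
    (hin : fi f ∈ rc (p - t) (p + t) (q - t) (q + t)) : f ∈ Uf C p q t :=
  mem_Uf.2 ⟨hf, fun g hg => hcut _ g (fi_odd hf).1 (fi_odd hf).2 hin hg⟩

/-- Faces of the inner box are reflected. -/
theorem nb_in {C : Set Pt} {p q t : ℤ} (ht : 0 < t) (hcut : Cut C p q t) {f : Pt}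
    (hin : fi f ∈ rc (p - t) (p + t) (q - t) (q + t)) : nb (Uf C p q t) f := by
  by_cases hf : Even (f.1 + f.2)
  · right
    refine ⟨hf, ?_⟩
    obtain ⟨h1, h2, h3, h4⟩ := hin
    unfold fi at h1 h2 h3 h4
    dsimp only at h1 h2 h3 h4
    obtain ⟨k, hk⟩ := hf
    by_cases c1 : f.1 + f.2 + 1 ≤ 2 * (p + t) <;> by_cases c2 : f.1 - f.2 + 1 ≤ 2 * (q + t)
    · left
      refine Uf_in hcut ⟨k, by simp only [Prod.fst_add, Prod.snd_add]; omega⟩ ?_
      unfold rc fi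
      simp only [Prod.fst_add, Prod.snd_add]
      exact ⟨by omega, by (clear * - hk c1; omega), by omega, by omega⟩
    · right; right; left
      refine Uf_in hcut ⟨k, by simp only [Prod.fst_add, Prod.snd_add]; omega⟩ ?_
      unfold rc fi
      simp only [Prod.fst_add, Prod.snd_add]
      exact ⟨by (clear * - h1 h4 hk c2; omega), by omega, by omega, by omega⟩
    · right; right; right
      refine Uf_in hcut ⟨k - 1, by simp only [Prod.fst_sub, Prod.snd_sub]; omega⟩ ?_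
      unfold rc fi
      simp only [Prod.fst_sub, Prod.snd_sub]
      exact ⟨by omega, by omega, by (clear * - h2 h3 hk c1; omega), by (clear * - h2 hk c1 c2; omega)⟩
    · right; left
      refine Uf_in hcut ⟨k - 1, by simp only [Prod.fst_sub, Prod.snd_sub]; omega⟩ ?_
      unfold rc fi
      simp only [Prod.fst_sub, Prod.snd_sub]
      exact ⟨by omega, by omega, by omega, by (clear * - h2 h4 hk c1 c2; omega)⟩
  · left
    rw [Int.not_even_iff_odd] at hf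
    exact Uf_in hcut hf hin

/-- Faces outside the outer box are not reflected. -/
theorem nb_out {C : Set Pt} {p q t : ℤ} {f : Pt}
    (hout : fi f ∉ rc (p - 2 * t) (p + 2 * t) (q - 2 * t) (q + 2 * t)) :
    ¬ nb (Uf C p q t) f := by
  have key : ∀ g : Pt, |(fi g).1 - (fi f).1| ≤ 1 → |(fi g).2 - (fi f).2| ≤ 1 →
      g ∉ Uf C p q t := by
    intro g h1 h2 hg
    have := (mem_Uf.1 hg).2 _ ReflTransGen.refl
    unfold inB at this
    rw [abs_le] at h1 h2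
    apply hout
    exact ⟨by omega, by omega, by omega, by omega⟩
  rintro (h | ⟨-, h | h | h | h⟩)
  · exact key f (by simp only [sub_self, abs_zero, zero_le_one]) (by simp only [sub_self, abs_zero, zero_le_one]) h
  all_goals
    refine key _ ?_ ?_ h <;> unfold fi <;>
      simp only [Prod.fst_add, Prod.snd_add, Prod.fst_sub, Prod.snd_sub] <;> rw [abs_le] <;>
      constructor <;> omega

end Vale.Agent.P145.FB
end

section

/-!
P145, block F-X: integrability of local functionals of the blocked edges and of the heights with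
respect to `MU t P`.
-/

namespace Vale.Agent.P145.X

open Filter Topology Set MeasureTheory
open Vale.Agent.P152 (Ori pth)
open Vale.Agent.P145.FA (Hgt mu0)
open Vale.Agent.P145.FB (Pt Mk e1 e2 o1 o2 MU bl opl mkm om measurable_om measurable_pthk abs_pth_le)
open Vale.Agent.P145.Top (Om Alg)

/-! ### Local functions of the blocked edges -/

/-- Blocked edges in `Λ`. -/
def bvec (Λ : Finset Pt) (x : Hgt × Mk) : Λ → Bool := fun w =>
  x.2 w.1 && (decide (x.1 (e1 w.1) = 0) && decide (x.1 (e2 w.1) = 0))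

/-- `g` as a function of the blocked edges in `Λ`. -/
def gvec (Λ : Finset Pt) (g : Set Pt → ℝ) (b : Λ → Bool) : ℝ :=
  g {w | ∃ h : w ∈ Λ, b ⟨w, h⟩ = true}

theorem measurable_bvec (Λ : Finset Pt) : Measurable (bvec Λ) := by
  refine measurable_pi_lambda _ fun w => ?_
  have h0 : ∀ q : Pt, Measurable fun x : Hgt × Mk => x.1 q := fun q =>
    (measurable_pi_apply q).comp measurable_fst
  have h1 : Measurable fun x : Hgt × Mk => (x.2 w.1, x.1 (e1 w.1), x.1 (e2 w.1)) :=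
    ((measurable_pi_apply w.1).comp measurable_snd).prodMk ((h0 _).prodMk (h0 _))
  have h2 : (fun x : Hgt × Mk => bvec Λ x w) =
      (fun y : Bool × ℤ × ℤ => y.1 && (decide (y.2.1 = 0) && decide (y.2.2 = 0))) ∘
      fun x => (x.2 w.1, x.1 (e1 w.1), x.1 (e2 w.1)) := rfl
  rw [h2]
  exact (measurable_of_countable _).comp h1

theorem g_eq {Λ : Finset Pt} {g : Set Pt → ℝ}
    (hg : ∀ B B' : Set Pt, (∀ w ∈ Λ, w ∈ B ↔ w ∈ B') → g B = g B') (x : Hgt × Mk) :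
    g (bl x) = gvec Λ g (bvec Λ x) := by
  refine hg _ _ fun w hw => ?_
  have h1 : w ∈ bl x ↔ (x.2 w = true ∧ x.1 (e1 w) = 0 ∧ x.1 (e2 w) = 0) := Iff.rfl
  rw [h1]
  constructor
  · rintro ⟨a, b, c⟩
    exact ⟨hw, by simp [bvec, a, b, c]⟩
  · rintro ⟨_, h2⟩
    simpa only [bvec, Bool.and_eq_true, decide_eq_true_eq] using h2

theorem meas_g {A : Set Pt} {g : Set Pt → ℝ} (hg : LocS A g) :
    Measurable fun x : Hgt × Mk => g (bl x) := by
  obtain ⟨Λ, -, h⟩ := hg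
  have e : (fun x : Hgt × Mk => g (bl x)) = gvec Λ g ∘ bvec Λ := funext fun x => g_eq h x
  rw [e]
  exact (measurable_of_countable _).comp (measurable_bvec Λ)

theorem bdd_g {A : Set Pt} {g : Set Pt → ℝ} (hg : LocS A g) :
    ∃ C : ℝ, 0 ≤ C ∧ ∀ B, |g B| ≤ C := by
  classical
  obtain ⟨Λ, -, h⟩ := hg
  refine ⟨∑ b : Λ → Bool, |gvec Λ g b|, Finset.sum_nonneg fun _ _ => abs_nonneg _, fun B => ?_⟩
  have e : g B = gvec Λ g fun w => decide (w.1 ∈ B) := by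
    refine h _ _ fun w hw => ?_
    constructor
    · intro h1
      exact ⟨hw, by simpa using h1⟩
    · rintro ⟨_, h1⟩
      simpa using h1
  rw [e]
  exact Finset.single_le_sum (f := fun b => |gvec Λ g b|) (fun _ _ => abs_nonneg _)
    (Finset.mem_univ _)

/-! ### Local functionals of the heights -/

theorem meas_F {E : Type} [MeasurableSpace E] {A : Set (ℤ × ℤ)} {F : Hgt → E} (hF : FA.Loc A F) :
    Measurable F := by
  classical
  obtain ⟨Λ, -, h⟩ := hF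
  have e : F = (fun v : Λ → ℤ => F fun q => if hq : q ∈ Λ then v ⟨q, hq⟩ else 0) ∘
      fun h : Hgt => fun q : Λ => h q.1 := by
    funext h'
    refine h _ _ fun q hq => ?_
    simp [hq]
  rw [e]
  exact (measurable_of_countable _).comp (measurable_pi_lambda _ fun q => measurable_pi_apply q.1)

theorem bdd_F {E : Type} [NormedAddCommGroup E] {A : Set (ℤ × ℤ)} {F : Hgt → E}
    (hF : FA.Loc A F) (R : ℤ) :
    ∃ C : ℝ, 0 ≤ C ∧ ∀ h : Hgt, (∀ q, |h q| ≤ |q.1| + |q.2| + R) → ‖F h‖ ≤ C := by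
  classical
  obtain ⟨Λ, -, hh⟩ := hF
  let F' : (Λ → ℤ) → E := fun v => F fun q => if hq : q ∈ Λ then v ⟨q, hq⟩ else 0
  let b : Λ → ℤ := fun q => |q.1.1| + |q.1.2| + R
  have hfin : (Set.Icc (-b) b).Finite := Set.finite_Icc _ _
  obtain ⟨C, hC⟩ := (hfin.image fun v => ‖F' v‖).bddAbove
  refine ⟨max C 0, le_max_right _ _, fun h hb => ?_⟩
  have e : F h = F' fun q => h q.1 := by
    refine hh _ _ fun q hq => ?_
    simp [hq]
  rw [e]
  have hm : (fun q : Λ => h q.1) ∈ Set.Icc (-b) b :=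
    ⟨fun q => (abs_le.1 (hb q.1)).1, fun q => (abs_le.1 (hb q.1)).2⟩
  exact le_trans (hC (Set.mem_image_of_mem (fun v => ‖F' v‖) hm)) (le_max_left _ _)

/-- Heights with base value `2 k`. -/
def Sk (k : ℤ) : Set Hgt := {h | ∀ q, |h q - 2 * k| ≤ |q.1| + |q.2|}

theorem measurableSet_Sk (k : ℤ) : MeasurableSet (Sk k) := by
  unfold Sk
  rw [Set.ofPred_forall]
  refine MeasurableSet.iInter fun q => ?_
  have h1 : Measurable fun h : Hgt => h q := measurable_pi_apply q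
  exact h1 (MeasurableSet.of_discrete (s := {n : ℤ | |n - 2 * k| ≤ |q.1| + |q.2|}))

theorem ae_Sk (P : Measure (Ori (ℤ × ℤ))) (k : ℤ) :
    ∀ᵐ h ∂(P.map fun (ω : Ori (ℤ × ℤ)) q => pth ω q + 2 * k), h ∈ Sk k := by
  refine (ae_map_iff (p := fun h => h ∈ Sk k) (measurable_pthk k).aemeasurable
    (measurableSet_Sk k)).2 (Eventually.of_forall fun ω q => ?_)
  have h1 : pth ω q + 2 * k - 2 * k = pth ω q := by ring
  show |pth ω q + 2 * k - 2 * k| ≤ |q.1| + |q.2|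
  rw [h1]
  exact abs_pth_le ω q

/-- **Integrability.** -/
theorem integrable_loc {E : Type} [NormedAddCommGroup E] [NormedSpace ℝ E] [MeasurableSpace E]
    [BorelSpace E] [SecondCountableTopology E] {t : ℝ} {P : Measure (Ori (ℤ × ℤ))}
    [IsFiniteMeasure P] {A : Set Pt} {A' : Set (ℤ × ℤ)} {g : Set Pt → ℝ} {F : Hgt → E}
    (hg : LocS A g) (g0 : g ∅ = 0) (hF : FA.Loc A' F) :
    Integrable (fun x => g (bl x) • F x.1) (MU t P) := by
  classical
  have hm : Measurable fun x : Hgt × Mk => g (bl x) • F x.1 :=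
    (meas_g hg).smul ((meas_F hF).comp measurable_fst)
  unfold MU
  rw [integrable_map_measure hm.aestronglyMeasurable measurable_om.aemeasurable, mu0,
    Measure.prod_sum_left]
  refine ⟨(hm.comp measurable_om).aestronglyMeasurable, ?_⟩
  obtain ⟨Λ, -, hΛ⟩ := id hg
  obtain ⟨C, hC0, hC⟩ := bdd_g hg
  let R : ℤ := ∑ w ∈ Λ, (|(e1 w).1| + |(e1 w).2|)
  obtain ⟨C', hC'0, hC'⟩ := bdd_F hF R
  have hR : ∀ w ∈ Λ, |(e1 w).1| + |(e1 w).2| ≤ R := fun w hw =>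
    Finset.single_le_sum (f := fun w => |(e1 w).1| + |(e1 w).2|)
      (fun _ _ => by (clear * -; positivity)) hw
  have key : ∀ (k : ℤ) (h : Hgt) (o : Mk), h ∈ Sk k →
      ‖g (bl (h, o)) • F h‖ₑ ≤ if |2 * k| ≤ R then ENNReal.ofReal (C * C') else 0 := by
    intro k h o hk
    by_cases hz : ∀ w ∈ Λ, h (e1 w) ≠ 0
    · have h1 : g (bl (h, o)) = 0 := by
        rw [← g0]
        refine hΛ _ _ fun w hw => ?_
        constructor
        · rintro ⟨-, h2, -⟩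
          exact absurd h2 (hz w hw)
        · intro h2
          exact absurd h2 (Set.notMem_empty w)
      rw [h1, zero_smul, enorm_zero]
      exact zero_le
    · push Not at hz
      obtain ⟨w, hw, h0⟩ := hz
      have h1 : |2 * k| ≤ R := by
        have h2 := hk (e1 w)
        rw [h0, zero_sub, abs_neg] at h2
        exact h2.trans (hR w hw)
      rw [if_pos h1, ← ofReal_norm]
      refine ENNReal.ofReal_le_ofReal ?_
      rw [norm_smul]
      refine mul_le_mul (hC _) (hC' h fun q => ?_) (norm_nonneg _) hC0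
      have h2 : |h q| ≤ |h q - 2 * k| + |2 * k| := by
        have := abs_add_le (h q - 2 * k) (2 * k)
        rwa [sub_add_cancel] at this
      exact h2.trans (add_le_add (hk q) h1)
  have hkk : ∀ k : ℤ,
      ∫⁻ x, ‖g (bl (x.1, om x.1 x.2)) • F x.1‖ₑ
        ∂((P.map fun (ω : Ori (ℤ × ℤ)) q => pth ω q + 2 * k).prod (mkm t)) ≤
      if |2 * k| ≤ R then ENNReal.ofReal (C * C') * P univ else 0 := by
    intro k
    have hpf : IsFiniteMeasure (P.map fun (ω : Ori (ℤ × ℤ)) q => pth ω q + 2 * k) :=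
      Measure.isFiniteMeasure_map P _
    have h1 : ∀ᵐ x ∂((P.map fun (ω : Ori (ℤ × ℤ)) q => pth ω q + 2 * k).prod (mkm t)),
        x.1 ∈ Sk k := Measure.quasiMeasurePreserving_fst.ae (ae_Sk P k)
    refine (lintegral_mono_ae (h1.mono fun x hx => key k x.1 (om x.1 x.2) hx)).trans ?_
    by_cases h2 : |2 * k| ≤ R
    · simp only [if_pos h2, lintegral_const]
      rw [← Set.univ_prod_univ, Measure.prod_prod, measure_univ (μ := mkm t), mul_one,
        Measure.map_apply (measurable_pthk k) MeasurableSet.univ, Set.preimage_univ]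
    · simp only [if_neg h2, lintegral_zero, le_refl]
  rw [hasFiniteIntegral_iff_enorm, lintegral_sum_measure]
  refine lt_of_le_of_lt (ENNReal.tsum_le_tsum hkk) ?_
  rw [tsum_eq_sum (s := Finset.Icc (-R) R)]
  · refine ENNReal.sum_lt_top.2 fun k _ => ?_
    split_ifs
    · exact ENNReal.mul_lt_top ENNReal.ofReal_lt_top (measure_lt_top _ _)
    · exact ENNReal.zero_lt_top
  · intro k hk
    rw [if_neg]
    intro h2
    apply hk
    rw [abs_le] at h2
    rw [Finset.mem_Icc]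
    constructor <;> omega

/-- Polynomials in the heights are local. -/
theorem loc_alg {A : Om → ℝ} (hA : Alg A) : FA.Loc univ fun h : Hgt => A (vm h) := by
  classical
  have key : ∃ V : Finset (ℤ × ℤ), ∀ ω ω' : Om, (∀ v ∈ V, ω v = ω' v) → A ω = A ω' := by
    induction hA with
    | mon l =>
      refine ⟨l.toFinset, fun ω ω' h => ?_⟩
      have : l.map ω = l.map ω' := List.map_congr_left fun v hv => h v (List.mem_toFinset.2 hv)
      simp only [this]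
    | zero => exact ⟨∅, fun _ _ _ => rfl⟩
    | add _ _ h1 h2 =>
      obtain ⟨V, hV⟩ := h1
      obtain ⟨W, hW⟩ := h2
      refine ⟨V ∪ W, fun ω ω' h => ?_⟩
      have h3 := hV ω ω' fun v hv => h v (Finset.mem_union_left _ hv)
      have h4 := hW ω ω' fun v hv => h v (Finset.mem_union_right _ hv)
      simp only [h3, h4]
    | smul c _ _ h1 =>
      obtain ⟨V, hV⟩ := h1
      refine ⟨V, fun ω ω' h => ?_⟩
      have h3 := hV ω ω' h
      simp only [h3]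
  obtain ⟨V, hV⟩ := key
  refine ⟨V.image av, fun _ _ => Set.mem_univ _, fun h h' hh => hV _ _ fun v hv => ?_⟩
  unfold vm
  rw [hh _ (Finset.mem_image_of_mem _ hv)]

theorem s_int (t : ℝ) (P : Measure (Ori (ℤ × ℤ))) [IsFiniteMeasure P] : S_int t P := by
  intro g A hg g0 hA
  exact integrable_loc (E := ℝ) hg g0 (loc_alg hA)

/-- The part `int` of `S_avg`, with integrability. -/
theorem avg_int {t : ℝ} {P : Measure (Ori (ℤ × ℤ))} [IsFiniteMeasure P] {A : Set Pt}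
    {A' : Set (ℤ × ℤ)} {g : Set Pt → ℝ} {F : Hgt → ℂ} (hg : LocS A g) (g0 : g ∅ = 0)
    (hF : FA.Loc A' F) :
    Integrable (fun x => ((g (bl x) : ℝ) : ℂ) * F x.1) (MU t P) ∧
    Integrable (fun h => ((avg t g h : ℝ) : ℂ) * F h) (mu0 P) ∧
    ∫ h, ((avg t g h : ℝ) : ℂ) * F h ∂(mu0 P) = ∫ x, ((g (bl x) : ℝ) : ℂ) * F x.1 ∂(MU t P) := by
  have hi : Integrable (fun x => ((g (bl x) : ℝ) : ℂ) * F x.1) (MU t P) := by
    have h1 := integrable_loc (E := ℂ) (t := t) (P := P) hg g0 hF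
    simpa only [Complex.real_smul] using h1
  have hs : SFinite (mu0 P) := by unfold mu0; infer_instance
  have h2 : Integrable (fun x : Hgt × Mk => ((g (bl (x.1, om x.1 x.2)) : ℝ) : ℂ) * F x.1)
      ((mu0 P).prod (mkm t)) :=
    (integrable_map_measure hi.aestronglyMeasurable measurable_om.aemeasurable).1 hi
  have h3 : ∀ h : Hgt, ∫ ξ, ((g (bl (h, om h ξ)) : ℝ) : ℂ) * F h ∂(mkm t) =
      ((avg t g h : ℝ) : ℂ) * F h := by
    intro h
    rw [integral_mul_const]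
    congr 1
    exact integral_ofReal
  refine ⟨hi, ?_, ?_⟩
  · have h4 := h2.integral_prod_left
    simpa only [h3] using h4
  · unfold MU
    rw [integral_map measurable_om.aemeasurable hi.aestronglyMeasurable, integral_prod _ h2]
    simp only [h3]

end Vale.Agent.P145.X
end

section

/-!
# P145, block F-A: reflection positivity of finite sums
-/

open Finset

namespace Vale.Agent.P145.FA

theorem sq_sum_fiber {X Y : Type*} [Fintype X] [Fintype Y] [DecidableEq Y] (ρ : X → Y)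
    (f : X → ℝ) : 0 ≤ ∑ p : X × X, if ρ p.1 = ρ p.2 then f p.1 * f p.2 else 0 := by
  have h : (∑ p : X × X, if ρ p.1 = ρ p.2 then f p.1 * f p.2 else 0) =
      ∑ s : Y, (∑ x : X, if ρ x = s then f x else 0) ^ 2 := by
    simp_rw [sq, Finset.sum_mul_sum]
    rw [Fintype.sum_prod_type, Finset.sum_comm' (s := univ) (t := fun _ => univ) (t' := univ)
      (s' := fun _ => univ) (by simp only [mem_univ, and_self, implies_true])]
    rw [Finset.sum_comm]
    symm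
    rw [Finset.sum_comm]
    refine Finset.sum_congr rfl (fun x _ => ?_)
    rw [Finset.sum_comm]
    refine Finset.sum_congr rfl (fun y _ => ?_)
    have : ∀ s : Y, ((if ρ x = s then f x else 0) * if ρ y = s then f y else 0) =
        if ρ x = s then (if ρ y = s then f x * f y else 0) else 0 := by
      intro s
      by_cases h1 : ρ x = s <;> by_cases h2 : ρ y = s <;> simp [h1, h2]
    simp_rw [this]
    rw [Finset.sum_ite_eq]
    simp only [mem_univ, if_true]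
    by_cases h1 : ρ x = ρ y
    · rw [if_pos h1, if_pos h1.symm]
    · rw [if_neg h1, if_neg (Ne.symm h1)]
  rw [h]
  exact Finset.sum_nonneg (fun s _ => sq_nonneg _)

variable {E : Type*} [Fintype E] [DecidableEq E]

/-- Reflection positivity: `σ` is the reflection of the edges, `d` the flip, `A` one half (with the
edges on the mirror). -/
theorem rp_sum (σ : E → E) (hσ : ∀ e, σ (σ e) = e)
    (d : E → ZMod 2) (hd : ∀ e, d (σ e) = d e) (A : E → Prop) [DecidablePred A]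
    (hA : ∀ e, A e ∨ A (σ e))
    (hC : ∀ e, A e → A (σ e) → σ e = e ∧ d e = 0)
    (R : (E → ZMod 2) → ℝ) (hR : ∀ k k', (∀ e, A e → k e = k' e) → R k = R k') :
    0 ≤ ∑ k : E → ZMod 2, R k * R (fun e => k (σ e) + d e) := by
  classical
  have hz : ∀ x y : ZMod 2, x + y + y = x := by (clear * -; decide)
  -- extension by zero
  let ex : ({e // A e} → ZMod 2) → (E → ZMod 2) := fun x e => if h : A e then x ⟨e, h⟩ else 0
  let ρ : ({e // A e} → ZMod 2) → ({e : {e // A e} // A (σ e)} → ZMod 2) := fun x c => x c.1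
  let f : ({e // A e} → ZMod 2) → ℝ := fun x => R (ex x)
  have key : (∑ k : E → ZMod 2, R k * R (fun e => k (σ e) + d e)) =
      ∑ p : ({e // A e} → ZMod 2) × ({e // A e} → ZMod 2),
        if ρ p.1 = ρ p.2 then f p.1 * f p.2 else 0 := by
    rw [← Finset.sum_filter]
    refine Finset.sum_bij' (fun k _ => (fun e => k e.1, fun e => k (σ e.1) + d e.1))
      (fun p _ => fun e => if h : A e then p.1 ⟨e, h⟩ else
        if h' : A (σ e) then p.2 ⟨σ e, h'⟩ + d e else 0) ?_ ?_ ?_ ?_ ?_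
    · intro k _
      simp only [mem_filter, mem_univ, true_and]
      funext c
      show k c.1.1 = k (σ c.1.1) + d c.1.1
      obtain ⟨h1, h2⟩ := hC c.1.1 c.1.2 c.2
      rw [h1, h2, add_zero]
    · intro p _
      exact mem_univ _
    · intro k _
      funext e
      by_cases h : A e
      · simp only [h, dif_pos]
      · have h' : A (σ e) := (hA e).resolve_left h
        simp only [h, h', dif_pos, dif_neg, not_false_eq_true, hσ, hd, hz]
    · intro p hp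
      simp only [mem_filter, mem_univ, true_and] at hp
      refine Prod.ext ?_ ?_
      · funext e
        simp only [e.2, dif_pos]
      · funext e
        show (if h : A (σ e.1) then p.1 ⟨σ e.1, h⟩ else
          if h' : A (σ (σ e.1)) then p.2 ⟨σ (σ e.1), h'⟩ + d (σ e.1) else 0) + d e.1 = p.2 e
        by_cases h : A (σ e.1)
        · obtain ⟨h1, h2⟩ := hC e.1 e.2 h
          rw [dif_pos h, h2, add_zero]
          have h3 := congrFun hp ⟨e, h⟩
          have h4 : (⟨σ e.1, h⟩ : {e // A e}) = e := Subtype.ext h1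
          rw [h4]
          exact h3
        · rw [dif_neg h]
          have h5 : A (σ (σ e.1)) := by rw [hσ]; exact e.2
          have h6 : (⟨σ (σ e.1), h5⟩ : {e // A e}) = e := Subtype.ext (hσ e.1)
          rw [dif_pos h5, hd, hz, h6]
    · intro k _
      show R k * R (fun e => k (σ e) + d e) = R (ex _) * R (ex _)
      congr 1
      · refine hR _ _ (fun e he => ?_)
        simp only [ex, he, dif_pos]
      · refine hR _ _ (fun e he => ?_)
        simp only [ex, he, dif_pos]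
  rw [key]
  exact sq_sum_fiber ρ f

/-- The kernel coupling the two sides of a diagonal mirror. -/
theorem rp_sum_kernel {ι U : Type*} [Fintype ι] [DecidableEq ι] {a : ℕ} (σ : E → E)
    (hσ : ∀ e, σ (σ e) = e)
    (d : E → ZMod 2) (hd : ∀ e, d (σ e) = d e) (A : E → Prop) [DecidablePred A]
    (hA : ∀ e, A e ∨ A (σ e))
    (hC : ∀ e, A e → A (σ e) → σ e = e ∧ d e = 0)
    (R : (E → ZMod 2) → ℝ) (hR : ∀ k k', (∀ e, A e → k e = k' e) → R k = R k')
    (u : ι → (E → ZMod 2) → U) (hu : ∀ i k k', (∀ e, A e → k e = k' e) → u i k = u i k')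
    (K : U → U → ℝ) (g : Fin a → U → ℝ) (hK : ∀ x y, K x y = ∑ α, g α x * g α y) :
    0 ≤ ∑ k : E → ZMod 2, R k * R (fun e => k (σ e) + d e) *
      ∏ i, K (u i k) (u i (fun e => k (σ e) + d e)) := by
  have h1 : ∀ k : E → ZMod 2, R k * R (fun e => k (σ e) + d e) *
      ∏ i, K (u i k) (u i (fun e => k (σ e) + d e)) =
      ∑ α : ι → Fin a, (R k * ∏ i, g (α i) (u i k)) *
        (R (fun e => k (σ e) + d e) * ∏ i, g (α i) (u i (fun e => k (σ e) + d e))) := by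
    intro k
    simp_rw [hK]
    rw [Finset.prod_univ_sum, Finset.mul_sum]
    simp only [Fintype.piFinset_univ]
    refine Finset.sum_congr rfl (fun α _ => ?_)
    rw [Finset.prod_mul_distrib]
    ring
  simp_rw [h1]
  rw [Finset.sum_comm]
  refine Finset.sum_nonneg (fun α _ => ?_)
  refine rp_sum σ hσ d hd A hA hC (fun k => R k * ∏ i, g (α i) (u i k)) ?_
  intro k k' h
  show R k * ∏ i, g (α i) (u i k) = R k' * ∏ i, g (α i) (u i k')
  rw [hR k k' h]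
  congr 1
  exact Finset.prod_congr rfl (fun i _ => by rw [hu i k k' h])

end Vale.Agent.P145.FA
end

section

/-!
# P145, block F-A: reflection positivity of the six-vertex boxes with free arrows
-/

namespace Vale.Agent.P145.FA

open Finset Vale.Agent.P152 Vale.Agent.P152.GFF.B3

/-! ### Mirror = middle face column -/

/-- The right half of a box (with the arrows on the middle face column). -/
def RH (m r : ℕ) : BE m r → Prop
  | Sum.inl v => m ≤ 2 * v.1.val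
  | Sum.inr v => m ≤ 2 * v.1.val

instance (m r : ℕ) : DecidablePred (RH m r) := fun e => by
  rcases e with v | v
  · exact inferInstanceAs (Decidable (m ≤ 2 * v.1.val))
  · exact inferInstanceAs (Decidable (m ≤ 2 * v.1.val))

theorem box_col {w : Pairing → ℝ} (hw : w Pairing.t1 = w Pairing.t2) {m : ℕ} (hm : Even m) (r : ℕ)
    (F : (BE m r → ZMod 2) → ℝ) (hF : ∀ k k', (∀ e, RH m r e → k e = k' e) → F k = F k') :
    0 ≤ (boxNet m r).ar w (fun k => F k * F (syK m r k)) := by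
  obtain ⟨n, hn⟩ := hm
  unfold Net.ar
  set W : (BE m r → ZMod 2) → ℝ := fun k => ∏ v ∈ univ.filter (fun v : Fin m × Fin r =>
    m ≤ 2 * v.1.val), w6 w (k ((boxNet m r).l v)) (k ((boxNet m r).r v))
      (k ((boxNet m r).b v)) (k ((boxNet m r).a v)) with hW
  have hW6 : ∀ k, (boxNet m r).W6 w k = W k * W (syK m r k) := by
    intro k
    unfold Net.W6
    rw [← Finset.prod_filter_mul_prod_filter_not univ (fun v : Fin m × Fin r => m ≤ 2 * v.1.val)]
    congr 1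
    rw [hW]
    simp only [sy_w6_box hw]
    refine Finset.prod_bij' (fun v _ => syV m r v) (fun v _ => syV m r v) ?_ ?_ ?_ ?_ ?_
    · intro v hv
      simp only [mem_filter, mem_univ, true_and, not_le] at hv ⊢
      show m ≤ 2 * (v.1.rev).val
      rw [Fin.val_rev]
      omega
    · intro v hv
      simp only [mem_filter, mem_univ, true_and] at hv ⊢
      show ¬ m ≤ 2 * (v.1.rev).val
      rw [Fin.val_rev]
      have := v.1.2
      omega
    · intro v _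
      simp [syV]
    · intro v _
      simp [syV]
    · intro v _
      have : syV m r (syV m r v) = v := by simp [syV]
      rw [this]
  have hWloc : ∀ k k', (∀ e, RH m r e → k e = k' e) → W k = W k' := by
    intro k k' h
    refine Finset.prod_congr rfl (fun v hv => ?_)
    simp only [mem_filter, mem_univ, true_and] at hv
    rw [h ((boxNet m r).l v) (by show m ≤ 2 * v.1.castSucc.val; simpa only [Fin.val_castSucc] using hv),
      h ((boxNet m r).r v) (by show m ≤ 2 * v.1.succ.val; simp; omega),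
      h ((boxNet m r).b v) (by show m ≤ 2 * v.1.val; exact hv),
      h ((boxNet m r).a v) (by show m ≤ 2 * v.1.val; exact hv)]
  have h1 : ∀ k : BE m r → ZMod 2, F k * F (syK m r k) * (boxNet m r).W6 w k =
      (F k * W k) * (F (fun e => k (syR m r e) + syD m r e) *
        W (fun e => k (syR m r e) + syD m r e)) := by
    intro k
    rw [hW6, syK_apply]
    ring
  simp_rw [h1]
  refine rp_sum (syR m r) (syR_syR m r) (syD m r) (syD_syR m r) (RH m r)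
    ?_ ?_ (fun k => F k * W k) ?_
  · rintro (⟨i, j⟩ | ⟨i, j⟩)
    · show m ≤ 2 * i.val ∨ m ≤ 2 * i.rev.val
      rw [Fin.val_rev]
      omega
    · show m ≤ 2 * i.val ∨ m ≤ 2 * i.rev.val
      rw [Fin.val_rev]
      omega
  · rintro (⟨i, j⟩ | ⟨i, j⟩) h1 h2
    · have h1' : m ≤ 2 * i.val := h1
      have h2' : m ≤ 2 * i.rev.val := h2
      rw [Fin.val_rev] at h2'
      have h3 : i.rev = i := Fin.ext (by rw [Fin.val_rev]; omega)
      refine ⟨?_, rfl⟩
      show Sum.inl (i.rev, j) = Sum.inl (i, j)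
      rw [h3]
    · have h1' : m ≤ 2 * i.val := h1
      have h2' : m ≤ 2 * i.rev.val := h2
      rw [Fin.val_rev] at h2'
      have := i.2
      (clear * - hn h1' h2'; omega)
  · intro k k' h
    show F k * W k = F k' * W k'
    rw [hF k k' h, hWloc k k' h]

/-! ### Mirror = diagonal -/

/-- Diagonal reflection of the arrows of a square box (`(x,y) ↦ (y,x)` for the heights). -/
def dgK (m : ℕ) (k : BE m m → ZMod 2) : BE m m → ZMod 2 := fun e => k (sw m m e) + 1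

/-- The lower right half. -/
def DH (m : ℕ) : BE m m → Prop
  | Sum.inl v => v.2.val < v.1.val
  | Sum.inr v => v.2.val ≤ v.1.val

instance (m : ℕ) : DecidablePred (DH m) := fun e => by
  rcases e with v | v
  · exact inferInstanceAs (Decidable (v.2.val < v.1.val))
  · exact inferInstanceAs (Decidable (v.2.val ≤ v.1.val))

lemma sw_sw' (m : ℕ) (e : BE m m) : sw m m (sw m m e) = e := by
  rcases e with e | e <;> rfl

lemma w6_transp {w : Pairing → ℝ} (hw : w Pairing.t1 = w Pairing.t2) (l r b a : ZMod 2) :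
    w6 w (b + 1) (a + 1) (l + 1) (r + 1) = w6 w l r b a := by
  have hz : ∀ x : ZMod 2, x = 0 ∨ x = 1 := by decide
  have h11 : (1 : ZMod 2) + 1 = 0 := by decide
  have h01 : ¬ ((0 : ZMod 2) = 1) := by decide
  have h10 : ¬ ((1 : ZMod 2) = 0) := by decide
  rcases hz l with rfl | rfl <;> rcases hz r with rfl | rfl <;> rcases hz b with rfl | rfl <;>
    rcases hz a with rfl | rfl <;> simp [w6_val, hw, h11, h01, h10]

/-- The coupling of the two sides at a vertex on the diagonal. -/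
noncomputable def dgG (c : ℝ) : Fin 5 → (ZMod 2 × ZMod 2) → ℝ :=
  ![fun u => if u.1 = u.2 then 1 else 0,
    fun u => if u = (0, 0) then √(c - 1) else 0,
    fun u => if u = (1, 1) then √(c - 1) else 0,
    fun u => if u = (0, 1) then 1 else 0,
    fun u => if u = (1, 0) then 1 else 0]

lemma dgG_eq {c : ℝ} (hc : 1 ≤ c) (x y : ZMod 2 × ZMod 2) :
    w6 (wc c) (y.2 + 1) x.1 x.2 (y.1 + 1) = ∑ α, dgG c α x * dgG c α y := by
  have hz : ∀ x : ZMod 2, x = 0 ∨ x = 1 := by decide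
  have h11 : (1 : ZMod 2) + 1 = 0 := by decide
  have h01 : ¬ ((0 : ZMod 2) = 1) := by decide
  have h10 : ¬ ((1 : ZMod 2) = 0) := by decide
  have hs : √(c - 1) * √(c - 1) = c - 1 := Real.mul_self_sqrt (by linarith)
  obtain ⟨x1, x2⟩ := x
  obtain ⟨y1, y2⟩ := y
  rcases hz x1 with rfl | rfl <;> rcases hz x2 with rfl | rfl <;> rcases hz y1 with rfl | rfl <;>
    rcases hz y2 with rfl | rfl <;>
    simp [Fin.sum_univ_five, dgG, w6_val, wc, h11, h01, h10, hs]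

theorem box_diag {c : ℝ} (hc : 1 ≤ c) (m : ℕ)
    (F : (BE m m → ZMod 2) → ℝ) (hF : ∀ k k', (∀ e, DH m e → k e = k' e) → F k = F k') :
    0 ≤ (boxNet m m).ar (wc c) (fun k => F k * F (dgK m k)) := by
  have hw : wc c Pairing.t1 = wc c Pairing.t2 := rfl
  have hzz : ∀ x : ZMod 2, x + 1 + 1 = x := by decide
  unfold Net.ar
  set g : (BE m m → ZMod 2) → Fin m × Fin m → ℝ := fun k v =>
    w6 (wc c) (k ((boxNet m m).l v)) (k ((boxNet m m).r v)) (k ((boxNet m m).b v))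
      (k ((boxNet m m).a v)) with hg
  set W : (BE m m → ZMod 2) → ℝ := fun k => ∏ v ∈ univ.filter (fun v : Fin m × Fin m =>
    v.2 < v.1), g k v with hW
  have hgT : ∀ (k : BE m m → ZMod 2) (v : Fin m × Fin m), g (dgK m k) v = g k (v.2, v.1) := by
    intro k v
    show w6 (wc c) (k ((boxNet m m).b (v.2, v.1)) + 1) (k ((boxNet m m).a (v.2, v.1)) + 1)
      (k ((boxNet m m).l (v.2, v.1)) + 1) (k ((boxNet m m).r (v.2, v.1)) + 1) = _
    exact w6_transp hw _ _ _ _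
  have hWT : ∀ k : BE m m → ZMod 2, W (dgK m k) =
      ∏ v ∈ univ.filter (fun v : Fin m × Fin m => v.1 < v.2), g k v := by
    intro k
    rw [hW]
    simp only [hgT]
    refine Finset.prod_bij' (fun v _ => (v.2, v.1)) (fun v _ => (v.2, v.1)) ?_ ?_ ?_ ?_ ?_
    · intro v hv
      simpa only [mem_filter, mem_univ, true_and] using hv
    · intro v hv
      simpa only [mem_filter, mem_univ, true_and] using hv
    · intro v _; rfl
    · intro v _; rfl
    · intro v _; rfl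
  set u : Fin m → (BE m m → ZMod 2) → ZMod 2 × ZMod 2 := fun i k =>
    (k ((boxNet m m).r (i, i)), k ((boxNet m m).b (i, i))) with hu
  set K : ZMod 2 × ZMod 2 → ZMod 2 × ZMod 2 → ℝ := fun x y =>
    w6 (wc c) (y.2 + 1) x.1 x.2 (y.1 + 1) with hK
  have hD : ∀ k : BE m m → ZMod 2, ∏ v ∈ univ.filter (fun v : Fin m × Fin m => v.1 = v.2), g k v =
      ∏ i, K (u i k) (u i (dgK m k)) := by
    intro k
    symm
    refine Finset.prod_bij' (fun i _ => (i, i)) (fun v _ => v.1) ?_ ?_ ?_ ?_ ?_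
    · intro i _
      simp only [mem_filter, mem_univ, and_self]
    · intro v _
      exact mem_univ _
    · intro i _; rfl
    · intro v hv
      simp only [mem_filter, mem_univ, true_and] at hv
      exact Prod.ext rfl hv
    · intro i _
      show w6 (wc c) (k ((boxNet m m).l (i, i)) + 1 + 1) (k ((boxNet m m).r (i, i)))
        (k ((boxNet m m).b (i, i))) (k ((boxNet m m).a (i, i)) + 1 + 1) = _
      rw [hzz, hzz]
  have hW6 : ∀ k, (boxNet m m).W6 (wc c) k = W k * W (dgK m k) * ∏ i, K (u i k) (u i (dgK m k)) := by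
    intro k
    unfold Net.W6
    rw [← hD, hWT]
    rw [← Finset.prod_filter_mul_prod_filter_not univ (fun v : Fin m × Fin m => v.2 < v.1)]
    rw [← Finset.prod_filter_mul_prod_filter_not (univ.filter (fun v : Fin m × Fin m =>
      ¬ v.2 < v.1)) (fun v : Fin m × Fin m => v.1 < v.2), Finset.filter_filter,
      Finset.filter_filter, mul_assoc]
    have e1 : (univ.filter fun v : Fin m × Fin m => ¬ v.2 < v.1 ∧ v.1 < v.2) =
        univ.filter fun v : Fin m × Fin m => v.1 < v.2 := by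
      refine Finset.filter_congr (fun v _ => ?_)
      constructor
      · exact fun h => h.2
      · exact fun h => ⟨not_lt.2 h.le, h⟩
    have e2 : (univ.filter fun v : Fin m × Fin m => ¬ v.2 < v.1 ∧ ¬ v.1 < v.2) =
        univ.filter fun v : Fin m × Fin m => v.1 = v.2 := by
      refine Finset.filter_congr (fun v _ => ?_)
      constructor
      · exact fun h => le_antisymm (not_lt.1 h.1) (not_lt.1 h.2)
      · exact fun h => ⟨h ▸ lt_irrefl _, h ▸ lt_irrefl _⟩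
    rw [e1, e2]
  have hWloc : ∀ k k', (∀ e, DH m e → k e = k' e) → W k = W k' := by
    intro k k' h
    refine Finset.prod_congr rfl (fun v hv => ?_)
    simp only [mem_filter, mem_univ, true_and] at hv
    have hv' : v.2.val < v.1.val := hv
    show w6 (wc c) (k ((boxNet m m).l v)) (k ((boxNet m m).r v)) (k ((boxNet m m).b v))
      (k ((boxNet m m).a v)) = w6 (wc c) (k' ((boxNet m m).l v)) (k' ((boxNet m m).r v))
      (k' ((boxNet m m).b v)) (k' ((boxNet m m).a v))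
    rw [h ((boxNet m m).l v) (by show v.2.val < v.1.castSucc.val; simpa using hv'),
      h ((boxNet m m).r v) (by show v.2.val < v.1.succ.val; simp only [Fin.val_succ, Order.lt_add_one_iff, Fin.val_fin_le]; omega),
      h ((boxNet m m).b v) (by show v.2.castSucc.val ≤ v.1.val; simp only [Fin.val_castSucc, Fin.val_fin_le]; omega),
      h ((boxNet m m).a v) (by show v.2.succ.val ≤ v.1.val; simp; omega)]
  have h1 : ∀ k : BE m m → ZMod 2, F k * F (dgK m k) * (boxNet m m).W6 (wc c) k =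
      (F k * W k) * (F (fun e => k (sw m m e) + 1) * W (fun e => k (sw m m e) + 1)) *
        ∏ i, K (u i k) (u i (fun e => k (sw m m e) + 1)) := by
    intro k
    rw [hW6]
    show F k * F (dgK m k) * (W k * W (dgK m k) * ∏ i, K (u i k) (u i (dgK m k))) =
      (F k * W k) * (F (dgK m k) * W (dgK m k)) * ∏ i, K (u i k) (u i (dgK m k))
    ring
  simp_rw [h1]
  refine rp_sum_kernel (sw m m) (sw_sw' m) (fun _ => 1) (fun _ => rfl) (DH m) ?_ ?_
    (fun k => F k * W k) ?_ u ?_ K (dgG c) (fun x y => dgG_eq hc x y)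
  · rintro (⟨i, j⟩ | ⟨i, j⟩)
    · show j.val < i.val ∨ i.val ≤ j.val
      omega
    · show j.val ≤ i.val ∨ i.val < j.val
      omega
  · rintro (⟨i, j⟩ | ⟨i, j⟩) h1 h2
    · have h1' : j.val < i.val := h1
      have h2' : i.val ≤ j.val := h2
      omega
    · have h1' : j.val ≤ i.val := h1
      have h2' : i.val < j.val := h2
      omega
  · intro k k' h
    show F k * W k = F k' * W k'
    rw [hF k k' h, hWloc k k' h]
  · intro i k k' h
    show (k ((boxNet m m).r (i, i)), k ((boxNet m m).b (i, i))) =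
      (k' ((boxNet m m).r (i, i)), k' ((boxNet m m).b (i, i)))
    rw [h ((boxNet m m).r (i, i)) (by show i.val < i.succ.val; simp),
      h ((boxNet m m).b (i, i)) (by show i.castSucc.val ≤ i.val; simp)]

end Vale.Agent.P145.FA
end

section

/-!
# P145, block F-A: reflection positivity of the arrows in the plane, `c ^ 2 ≤ 2`
-/

namespace Vale.Agent.P145.FA

open Finset Filter Topology MeasureTheory
open Vale.Agent.P152 Vale.Agent.P152.GFF.B3

/-! ### From boxes to the infinite-volume state -/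

lemma W6_nonneg {c : ℝ} (hc : 0 < c) (hc2 : c ^ 2 ≤ 2) {V E : Type} [Fintype V] (N : Net V E)
    (k : E → ZMod 2) : 0 ≤ N.W6 (wc c) k := by
  have h0 : c < 2 := by nlinarith only [hc2]
  refine Finset.prod_nonneg (fun v _ => ?_)
  rw [w6_val]
  have h1 : 0 ≤ wc c Pairing.str := by
    show 0 ≤ 1 - c / 2
    linarith only [h0]
  have h2 : 0 ≤ wc c Pairing.t1 := by
    show 0 ≤ c / 2
    linarith only [hc]
  have h3 : 0 ≤ wc c Pairing.t2 := by
    show 0 ≤ c / 2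
    linarith only [hc]
  split_ifs <;> positivity

lemma mu_nonneg {c : ℝ} (hc : 0 < c) (hc2 : c ^ 2 ≤ 2) (m r : ℕ) (hm : 1 ≤ m) (hr : 1 ≤ r)
    (φ : (BE m r → ZMod 2) → ℝ)
    (h : ∀ q : ℕ, 0 ≤ (boxNet (q + m + q) (q + r + q)).ar (wc c)
      (fun k => φ (fun e => k (bxg q q (by omega) (by omega) e)))) : 0 ≤ mu (wc c) m r φ := by
  by_contra hneg
  push Not at hneg
  set ε := - mu (wc c) m r φ / 2 with hε
  have hε0 : 0 < ε := by rw [hε]; linarith only [hneg]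
  obtain ⟨q0, hq0⟩ := m_muI (wc c) (wc_good hc hc2) m r hm hr
    (fun x => φ x * (boxNet m r).W6 (wc c) x) ε hε0
  have h1 := hq0 (q0 + m + q0) (q0 + r + q0) q0 q0 (by omega) (by omega) le_rfl le_rfl
    (by omega) (by omega)
  rw [← m_loc _ _ _ _ _ _ _ _ _ (m_emb.2.2.1 m r (q0 + m + q0) (q0 + r + q0) q0 q0 (by omega)
    (by omega)) φ] at h1
  have h2 : 0 ≤ (boxNet (q0 + m + q0) (q0 + r + q0)).ar (wc c) (fun _ => 1) := by
    unfold Net.ar
    exact Finset.sum_nonneg (fun k _ => by rw [one_mul]; exact W6_nonneg hc hc2 _ _)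
  have h3 := div_nonneg (h q0) h2
  have h4 := (abs_le.1 h1).2
  have h5 : muI (wc c) m r (fun x => φ x * (boxNet m r).W6 (wc c) x) = mu (wc c) m r φ := rfl
  rw [h5] at h4
  linarith only [hε, hε0, h3, h4]

/-! ### Windows -/

/-- The orientation with prescribed arrows in a window. -/
noncomputable def ofW (m r : ℕ) (x0 y0 : ℤ) (x : BE m r → ZMod 2) : Ori (ℤ × ℤ) := by
  classical
  exact fun e => if h : ∃ e', lc m r x0 y0 e' = e then bz.symm (x h.choose) else true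

lemma window_rep (m r : ℕ) (x0 y0 : ℤ) (H : BE m r → Prop) (f : Ori (ℤ × ℤ) → ℝ)
    (Λ : Finset (Edge (ℤ × ℤ))) (hf : ∀ ω ω', (∀ e ∈ Λ, ω e = ω' e) → f ω = f ω')
    (hΛ : ∀ e ∈ Λ, (∃ e', lc m r x0 y0 e' = e) ∧ ∀ e', lc m r x0 y0 e' = e → H e') :
    (∀ ω, f ω = f (ofW m r x0 y0 (rd m r x0 y0 ω))) ∧
    ∀ x x' : BE m r → ZMod 2, (∀ e, H e → x e = x' e) →
      f (ofW m r x0 y0 x) = f (ofW m r x0 y0 x') := by
  constructor
  · intro ω
    refine hf _ _ (fun e he => ?_)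
    obtain ⟨h1, -⟩ := hΛ e he
    unfold ofW
    rw [dif_pos h1, rd_eq]
    show ω e = bz.symm (bz (ω (lc m r x0 y0 h1.choose)))
    rw [h1.choose_spec, Equiv.symm_apply_apply]
  · intro x x' hx
    refine hf _ _ (fun e he => ?_)
    obtain ⟨h1, h2⟩ := hΛ e he
    unfold ofW
    rw [dif_pos h1, dif_pos h1, hx _ (h2 _ h1.choose_spec)]

lemma edges_bdd (Λ : Finset (Edge (ℤ × ℤ))) : ∃ N : ℕ, ∀ e ∈ Λ,
    Sum.elim (fun v : ℤ × ℤ => |v.1| ≤ N ∧ |v.2| ≤ N) (fun v : ℤ × ℤ => |v.1| ≤ N ∧ |v.2| ≤ N) e := by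
  classical
  induction Λ using Finset.induction_on with
  | empty => exact ⟨0, by simp only [notMem_empty, CharP.cast_eq_zero, abs_nonpos_iff, IsEmpty.forall_iff, implies_true]⟩
  | insert a s _ ih =>
    obtain ⟨N, hN⟩ := ih
    have h1 : ∃ K : ℕ, Sum.elim (fun v : ℤ × ℤ => |v.1| ≤ K ∧ |v.2| ≤ K)
        (fun v : ℤ × ℤ => |v.1| ≤ K ∧ |v.2| ≤ K) a := by
      rcases a with v | v
      · refine ⟨v.1.natAbs + v.2.natAbs, ?_⟩
        show |v.1| ≤ _ ∧ |v.2| ≤ _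
        have h1 := Int.natCast_natAbs v.1
        have h2 := Int.natCast_natAbs v.2
        have h3 := abs_nonneg v.1
        have h4 := abs_nonneg v.2
        constructor <;> push_cast <;> linarith
      · refine ⟨v.1.natAbs + v.2.natAbs, ?_⟩
        show |v.1| ≤ _ ∧ |v.2| ≤ _
        have h1 := Int.natCast_natAbs v.1
        have h2 := Int.natCast_natAbs v.2
        have h3 := abs_nonneg v.1
        have h4 := abs_nonneg v.2
        constructor <;> push_cast <;> linarith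
    obtain ⟨K, hK⟩ := h1
    refine ⟨N + K, fun e he => ?_⟩
    rcases Finset.mem_insert.1 he with rfl | he
    · rcases e with v | v
      · obtain ⟨h2, h3⟩ : |v.1| ≤ (K : ℤ) ∧ |v.2| ≤ (K : ℤ) := hK
        show |v.1| ≤ ((N + K : ℕ) : ℤ) ∧ |v.2| ≤ ((N + K : ℕ) : ℤ)
        push_cast
        constructor <;> omega
      · obtain ⟨h2, h3⟩ : |v.1| ≤ (K : ℤ) ∧ |v.2| ≤ (K : ℤ) := hK
        show |v.1| ≤ ((N + K : ℕ) : ℤ) ∧ |v.2| ≤ ((N + K : ℕ) : ℤ)
        push_cast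
        constructor <;> omega
    · have := hN e he
      rcases e with v | v
      · obtain ⟨h2, h3⟩ : |v.1| ≤ (N : ℤ) ∧ |v.2| ≤ (N : ℤ) := this
        show |v.1| ≤ ((N + K : ℕ) : ℤ) ∧ |v.2| ≤ ((N + K : ℕ) : ℤ)
        push_cast
        constructor <;> omega
      · obtain ⟨h2, h3⟩ : |v.1| ≤ (N : ℤ) ∧ |v.2| ≤ (N : ℤ) := this
        show |v.1| ≤ ((N + K : ℕ) : ℤ) ∧ |v.2| ≤ ((N + K : ℕ) : ℤ)
        push_cast
        constructor <;> omega

/-! ### Columns -/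

lemma rd_RX (n r : ℕ) (y0 : ℤ) (ω : Ori (ℤ × ℤ)) :
    rd (n + n) r (-(n : ℤ) + 1) y0 (RX 0 ω) = syK (n + n) r (rd (n + n) r (-(n : ℤ) + 1) y0 ω) := by
  funext e
  rw [sy_rd, syK_apply]
  show syB (RX 0 ω (syE (n + n) r (-(n : ℤ) + 1) y0 e)) =
    rd (n + n) r (-(n : ℤ) + 1) y0 ω (syR (n + n) r e) + syD (n + n) r e
  rw [sy_rd]
  rcases e with ⟨i, j⟩ | ⟨i, j⟩
  · have h1 : ((i.rev : Fin (n + n + 1)) : ℤ) = n + n - i := by
      rw [Fin.val_rev]
      have := i.2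
      omega
    show syB (ω (Sum.inl (2 * 0 - (-(n : ℤ) + 1 + (i : ℤ) - 1), y0 + (j : ℤ)))) =
      syB (ω (Sum.inl (-(n : ℤ) + 1 + ((i.rev : Fin (n + n + 1)) : ℤ) - 1, y0 + (j : ℤ)))) + 0
    rw [h1, show 2 * 0 - (-(n : ℤ) + 1 + i - 1) = -(n : ℤ) + 1 + (n + n - i) - 1 by ring, add_zero]
  · have h1 : ((i.rev : Fin (n + n)) : ℤ) = n + n - 1 - i := by
      rw [Fin.val_rev]
      have := i.2
      omega
    show syB (!(ω (Sum.inr (2 * 0 - (-(n : ℤ) + 1 + (i : ℤ)) + 1, y0 + (j : ℤ) - 1)))) =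
      syB (ω (Sum.inr (-(n : ℤ) + 1 + ((i.rev : Fin (n + n)) : ℤ), y0 + (j : ℤ) - 1))) + 1
    rw [h1, show 2 * 0 - (-(n : ℤ) + 1 + i) + 1 = -(n : ℤ) + 1 + (n + n - 1 - i) by ring, syB_not]

lemma P_col {c : ℝ} (hc : 0 < c) (hc2 : c ^ 2 ≤ 2) {P : Measure (Ori (ℤ × ℤ))} (hP : IsP c P)
    (f : Ori (ℤ × ℤ) → ℝ) (Λ : Finset (Edge (ℤ × ℤ))) (hΛ : ∀ e ∈ Λ, e ∈ Half dX 0)
    (hf : ∀ ω ω', (∀ e ∈ Λ, ω e = ω' e) → f ω = f ω') : 0 ≤ ∫ ω, f ω * f (RX 0 ω) ∂P := by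
  obtain ⟨N, hN⟩ := edges_bdd Λ
  set n : ℕ := N + 1 with hn
  set r : ℕ := 2 * N + 2 with hr
  set x0 : ℤ := -(n : ℤ) + 1 with hx0
  set y0 : ℤ := -(N : ℤ) with hy0
  have hrep := window_rep (n + n) r x0 y0 (RH (n + n) r) f Λ hf (by
    intro e he
    have h1 := hN e he
    have h2 := hΛ e he
    rcases e with ⟨X, Y⟩ | ⟨X, Y⟩
    · obtain ⟨h3, h4⟩ : |X| ≤ (N : ℤ) ∧ |Y| ≤ (N : ℤ) := h1
      have h5 : (0 : ℤ) ≤ X := h2.1
      rw [abs_le] at h3 h4
      constructor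
      · refine ⟨Sum.inl (⟨(X + n).toNat, by omega⟩, ⟨(Y + N).toNat, by omega⟩), ?_⟩
        show Sum.inl (x0 + ((X + n).toNat : ℤ) - 1, y0 + ((Y + N).toNat : ℤ)) = _
        congr 1
        refine Prod.ext ?_ ?_
        · show x0 + ((X + n).toNat : ℤ) - 1 = X
          omega
        · show y0 + ((Y + N).toNat : ℤ) = Y
          omega
      · rintro (⟨i, j⟩ | ⟨i, j⟩) h
        · have h6 : (x0 + (i : ℤ) - 1, y0 + (j : ℤ)) = (X, Y) := Sum.inl.inj h
          have h7 := congrArg Prod.fst h6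
          show n + n ≤ 2 * i.val
          simp only at h7
          (clear * - h5 h7; omega)
        · exact absurd h (by simp only [lc, reduceCtorEq, not_false_eq_true])
    · obtain ⟨h3, h4⟩ : |X| ≤ (N : ℤ) ∧ |Y| ≤ (N : ℤ) := h1
      have h5 : (0 : ℤ) ≤ X - 1 := h2.2
      rw [abs_le] at h3 h4
      constructor
      · refine ⟨Sum.inr (⟨(X + n - 1).toNat, by omega⟩, ⟨(Y + N + 1).toNat, by omega⟩), ?_⟩
        show Sum.inr (x0 + ((X + n - 1).toNat : ℤ), y0 + ((Y + N + 1).toNat : ℤ) - 1) = _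
        congr 1
        refine Prod.ext ?_ ?_
        · show x0 + ((X + n - 1).toNat : ℤ) = X
          omega
        · show y0 + ((Y + N + 1).toNat : ℤ) - 1 = Y
          omega
      · rintro (⟨i, j⟩ | ⟨i, j⟩) h
        · exact absurd h (by simp only [lc, reduceCtorEq, not_false_eq_true])
        · have h6 : (x0 + (i : ℤ), y0 + (j : ℤ) - 1) = (X, Y) := Sum.inr.inj h
          have h7 := congrArg Prod.fst h6
          show n + n ≤ 2 * i.val
          simp only at h7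
          (clear * - h5 h7; omega))
  obtain ⟨hr1, hr2⟩ := hrep
  set φ : (BE (n + n) r → ZMod 2) → ℝ := fun x => f (ofW (n + n) r x0 y0 x) with hφ
  have h1 : ∀ ω, f ω * f (RX 0 ω) =
      (fun x => φ x * φ (syK (n + n) r x)) (rd (n + n) r x0 y0 ω) := by
    intro ω
    show f ω * f (RX 0 ω) = f (ofW (n + n) r x0 y0 (rd (n + n) r x0 y0 ω)) *
      f (ofW (n + n) r x0 y0 (syK (n + n) r (rd (n + n) r x0 y0 ω)))
    rw [← rd_RX n r y0 ω, ← hr1, ← hr1]
  have h3 : ∫ ω, f ω * f (RX 0 ω) ∂P = mu (wc c) (n + n) r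
      (fun x => φ x * φ (syK (n + n) r x)) := by
    rw [← hP.2.2 (n + n) r (by omega) (by omega) _ x0 y0]
    exact integral_congr_ae (Eventually.of_forall h1)
  rw [h3]
  refine mu_nonneg hc hc2 _ _ (by omega) (by omega) _ (fun q => ?_)
  have h2 := box_col (w := wc c) rfl (m := q + (n + n) + q) ⟨q + n, by ring⟩ (q + r + q)
    (fun k => φ (fun e => k (bxg q q (by omega) (by omega) e))) (by
      intro k k' h
      refine hr2 _ _ (fun e he => h _ ?_)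
      rcases e with ⟨i, j⟩ | ⟨i, j⟩
      · have he' : n + n ≤ 2 * i.val := he
        show q + (n + n) + q ≤ 2 * (q + i.val)
        omega
      · have he' : n + n ≤ 2 * i.val := he
        show q + (n + n) + q ≤ 2 * (q + i.val)
        omega)
  convert h2 using 4 with k
  refine congrArg φ ?_
  funext e
  rw [syK_apply, syK_apply]
  simp only [sy_R_bxg, sy_D_bxg]

/-! ### Diagonal -/

lemma rd_RD (m : ℕ) (a : ℤ) (ω : Ori (ℤ × ℤ)) :
    rd m m a a (RD 0 ω) = dgK m (rd m m a a ω) := by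
  funext e
  rw [sy_rd]
  show syB (RD 0 ω (syE m m a a e)) = rd m m a a ω (sw m m e) + 1
  rw [sy_rd]
  rcases e with ⟨i, j⟩ | ⟨i, j⟩
  · show syB (!(ω (Sum.inr (a + (j : ℤ) + 0, a + (i : ℤ) - 1 - 0)))) =
      syB (ω (Sum.inr (a + (j : ℤ), a + (i : ℤ) - 1))) + 1
    rw [add_zero, sub_zero, syB_not]
  · show syB (!(ω (Sum.inl (a + (j : ℤ) - 1 + 0, a + (i : ℤ) - 0)))) =
      syB (ω (Sum.inl (a + (j : ℤ) - 1, a + (i : ℤ)))) + 1
    rw [add_zero, sub_zero, syB_not]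

lemma P_diag {c : ℝ} (hc : 1 ≤ c) (hc2 : c ^ 2 ≤ 2) {P : Measure (Ori (ℤ × ℤ))} (hP : IsP c P)
    (f : Ori (ℤ × ℤ) → ℝ) (Λ : Finset (Edge (ℤ × ℤ))) (hΛ : ∀ e ∈ Λ, e ∈ Half dD 0)
    (hf : ∀ ω ω', (∀ e ∈ Λ, ω e = ω' e) → f ω = f ω') : 0 ≤ ∫ ω, f ω * f (RD 0 ω) ∂P := by
  obtain ⟨N, hN⟩ := edges_bdd Λ
  set r : ℕ := 2 * N + 2 with hr
  set y0 : ℤ := -(N : ℤ) with hy0
  have hrep := window_rep r r y0 y0 (DH r) f Λ hf (by
    intro e he
    have h1 := hN e he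
    have h2 := hΛ e he
    rcases e with ⟨X, Y⟩ | ⟨X, Y⟩
    · obtain ⟨h3, h4⟩ : |X| ≤ (N : ℤ) ∧ |Y| ≤ (N : ℤ) := h1
      have h5 : (0 : ℤ) ≤ X - Y := h2.1
      rw [abs_le] at h3 h4
      constructor
      · refine ⟨Sum.inl (⟨(X + N + 1).toNat, by omega⟩, ⟨(Y + N).toNat, by omega⟩), ?_⟩
        show Sum.inl (y0 + ((X + N + 1).toNat : ℤ) - 1, y0 + ((Y + N).toNat : ℤ)) = _
        congr 1
        refine Prod.ext ?_ ?_
        · show y0 + ((X + N + 1).toNat : ℤ) - 1 = X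
          omega
        · show y0 + ((Y + N).toNat : ℤ) = Y
          omega
      · rintro (⟨i, j⟩ | ⟨i, j⟩) h
        · have h6 : (y0 + (i : ℤ) - 1, y0 + (j : ℤ)) = (X, Y) := Sum.inl.inj h
          have h7 := congrArg Prod.fst h6
          have h8 := congrArg Prod.snd h6
          show j.val < i.val
          simp only at h7 h8
          omega
        · exact absurd h (by simp only [lc, reduceCtorEq, not_false_eq_true])
    · obtain ⟨h3, h4⟩ : |X| ≤ (N : ℤ) ∧ |Y| ≤ (N : ℤ) := h1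
      have h5 : (0 : ℤ) ≤ X - 1 - Y := h2.2
      rw [abs_le] at h3 h4
      constructor
      · refine ⟨Sum.inr (⟨(X + N).toNat, by (clear * - h3 h4 h5; omega)⟩, ⟨(Y + N + 1).toNat, by omega⟩), ?_⟩
        show Sum.inr (y0 + ((X + N).toNat : ℤ), y0 + ((Y + N + 1).toNat : ℤ) - 1) = _
        congr 1
        refine Prod.ext ?_ ?_
        · show y0 + ((X + N).toNat : ℤ) = X
          omega
        · show y0 + ((Y + N + 1).toNat : ℤ) - 1 = Y
          omega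
      · rintro (⟨i, j⟩ | ⟨i, j⟩) h
        · exact absurd h (by simp only [lc, reduceCtorEq, not_false_eq_true])
        · have h6 : (y0 + (i : ℤ), y0 + (j : ℤ) - 1) = (X, Y) := Sum.inr.inj h
          have h7 := congrArg Prod.fst h6
          have h8 := congrArg Prod.snd h6
          show j.val ≤ i.val
          simp only at h7 h8
          omega)
  obtain ⟨hr1, hr2⟩ := hrep
  set φ : (BE r r → ZMod 2) → ℝ := fun x => f (ofW r r y0 y0 x) with hφ
  have h1 : ∀ ω, f ω * f (RD 0 ω) =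
      (fun x => φ x * φ (dgK r x)) (rd r r y0 y0 ω) := by
    intro ω
    show f ω * f (RD 0 ω) = f (ofW r r y0 y0 (rd r r y0 y0 ω)) *
      f (ofW r r y0 y0 (dgK r (rd r r y0 y0 ω)))
    rw [← rd_RD r y0 ω, ← hr1, ← hr1]
  have h3 : ∫ ω, f ω * f (RD 0 ω) ∂P = mu (wc c) r r (fun x => φ x * φ (dgK r x)) := by
    rw [← hP.2.2 r r (by (clear * -; omega)) (by omega) _ y0 y0]
    exact integral_congr_ae (Eventually.of_forall h1)
  rw [h3]
  refine mu_nonneg (by linarith only [hc]) hc2 _ _ (by omega) (by omega) _ (fun q => ?_)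
  have h2 := box_diag hc (q + r + q)
    (fun k => φ (fun e => k (bxg q q (by omega) (by omega) e))) (by
      intro k k' h
      refine hr2 _ _ (fun e he => h _ ?_)
      rcases e with ⟨i, j⟩ | ⟨i, j⟩
      · have he' : j.val < i.val := he
        show q + j.val < q + i.val
        omega
      · have he' : j.val ≤ i.val := he
        show q + j.val ≤ q + i.val
        omega)
  convert h2 using 4 with k
  refine congrArg φ ?_
  funext e
  rcases e with ⟨i, j⟩ | ⟨i, j⟩ <;> rfl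

/-! ### All lines -/

/-- Change of variables by a measurable map preserving `P`. -/
lemma int_map {P : Measure (Ori (ℤ × ℤ))} (S : Ori (ℤ × ℤ) → Ori (ℤ × ℤ)) (hS : Measurable S)
    (hP : P.map S = P) (f g : Ori (ℤ × ℤ) → ℝ) (hf : Measurable f) (hg : Measurable g) :
    ∫ ω, f ω * g ω ∂P = ∫ ω, f (S ω) * g (S ω) ∂P := by
  conv_lhs => rw [← hP]
  exact integral_map hS.aemeasurable (hf.mul hg).aestronglyMeasurable

lemma meas_shO (a b : ℤ) : Measurable (shO a b) := by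
  refine measurable_pi_lambda _ (fun e => ?_)
  rcases e with e | e
  · exact measurable_pi_apply _
  · exact measurable_pi_apply _

lemma meas_trO : Measurable trO := by
  refine measurable_pi_lambda _ (fun e => ?_)
  rcases e with e | e
  · exact measurable_pi_apply _
  · exact measurable_pi_apply _

lemma meas_reO : Measurable reO := by
  refine measurable_pi_lambda _ (fun e => ?_)
  rcases e with e | e
  · exact measurable_pi_apply _
  · exact (measurable_of_countable (fun x : Bool => !x)).comp (measurable_pi_apply _)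

lemma meas_RX (m : ℤ) : Measurable (RX m : Ori (ℤ × ℤ) → Ori (ℤ × ℤ)) := by
  refine measurable_pi_lambda _ (fun e => ?_)
  rcases e with e | e
  · exact measurable_pi_apply _
  · exact (measurable_of_countable (fun x : Bool => !x)).comp (measurable_pi_apply _)

lemma meas_RD (m : ℤ) : Measurable (RD m : Ori (ℤ × ℤ) → Ori (ℤ × ℤ)) := by
  refine measurable_pi_lambda _ (fun e => ?_)
  rcases e with e | e
  · exact (measurable_of_countable (fun x : Bool => !x)).comp (measurable_pi_apply _)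
  · exact (measurable_of_countable (fun x : Bool => !x)).comp (measurable_pi_apply _)

theorem grp_X {c : ℝ} (hc : 0 < c) (hc2 : c ^ 2 ≤ 2) {P : Measure (Ori (ℤ × ℤ))} (hP : IsP c P) :
    GRP P dX RX := by
  intro m f Λ hΛ hf
  have hsh := (m_symP c hc hc2 P hP).1 (-m) 0
  have hfm := local_measurable Λ hf
  rw [int_map (shO (-m) 0) (meas_shO _ _) hsh f (fun ω => f (RX m ω)) hfm
    (hfm.comp (meas_RX m))]
  have h1 : ∀ ω : Ori (ℤ × ℤ), RX m (shO (-m) 0 ω) = shO (-m) 0 (RX 0 ω) := by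
    intro ω
    funext e
    rcases e with ⟨x, y⟩ | ⟨x, y⟩
    · show ω (Sum.inl (2 * m - x + -m, y + 0)) = ω (Sum.inl (2 * 0 - (x + -m), y + 0))
      rw [show 2 * m - x + -m = 2 * 0 - (x + -m) by ring]
    · show (!(ω (Sum.inr (2 * m - x + 1 + -m, y + 0)))) =
        (!(ω (Sum.inr (2 * 0 - (x + -m) + 1, y + 0))))
      rw [show 2 * m - x + 1 + -m = 2 * 0 - (x + -m) + 1 by ring]
  simp_rw [h1]
  let tr : Edge (ℤ × ℤ) → Edge (ℤ × ℤ) := Sum.map (fun v => (v.1 + -m, v.2 + 0))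
    (fun v => (v.1 + -m, v.2 + 0))
  refine P_col hc hc2 hP (fun ω => f (shO (-m) 0 ω)) (Λ.image tr) ?_ ?_
  · intro e he
    obtain ⟨e', he', rfl⟩ := Finset.mem_image.1 he
    have h2 := hΛ e' he'
    rcases e' with ⟨x, y⟩ | ⟨x, y⟩
    · obtain ⟨h3, h4⟩ : m ≤ x ∧ m ≤ x := h2
      show (0 : ℤ) ≤ x + -m ∧ (0 : ℤ) ≤ x + -m
      constructor <;> omega
    · obtain ⟨h3, h4⟩ : m ≤ x ∧ m ≤ x - 1 := h2
      show (0 : ℤ) ≤ x + -m ∧ (0 : ℤ) ≤ x + -m - 1
      constructor <;> omega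
  · intro ω ω' h
    refine hf _ _ (fun e he => ?_)
    have h2 := h (tr e) (Finset.mem_image_of_mem _ he)
    rcases e with v | v
    · exact h2
    · exact h2

theorem grp_D {c : ℝ} (hc : 1 ≤ c) (hc2 : c ^ 2 ≤ 2) {P : Measure (Ori (ℤ × ℤ))} (hP : IsP c P) :
    GRP P dD RD := by
  intro m f Λ hΛ hf
  have hsh := (m_symP c (by linarith only [hc]) hc2 P hP).1 (-m) 0
  have hfm := local_measurable Λ hf
  rw [int_map (shO (-m) 0) (meas_shO _ _) hsh f (fun ω => f (RD m ω)) hfm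
    (hfm.comp (meas_RD m))]
  have h1 : ∀ ω : Ori (ℤ × ℤ), RD m (shO (-m) 0 ω) = shO (-m) 0 (RD 0 ω) := by
    intro ω
    funext e
    rcases e with ⟨x, y⟩ | ⟨x, y⟩
    · show (!(ω (Sum.inr (y + m + -m, x - m + 0)))) = (!(ω (Sum.inr (y + 0 + 0, x + -m - 0))))
      rw [show y + m + -m = y + 0 + 0 by ring, show x - m + 0 = x + -m - 0 by ring]
    · show (!(ω (Sum.inl (y + m + -m, x - m + 0)))) = (!(ω (Sum.inl (y + 0 + 0, x + -m - 0))))
      rw [show y + m + -m = y + 0 + 0 by ring, show x - m + 0 = x + -m - 0 by ring]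
  simp_rw [h1]
  let tr : Edge (ℤ × ℤ) → Edge (ℤ × ℤ) := Sum.map (fun v => (v.1 + -m, v.2 + 0))
    (fun v => (v.1 + -m, v.2 + 0))
  refine P_diag hc hc2 hP (fun ω => f (shO (-m) 0 ω)) (Λ.image tr) ?_ ?_
  · intro e he
    obtain ⟨e', he', rfl⟩ := Finset.mem_image.1 he
    have h2 := hΛ e' he'
    rcases e' with ⟨x, y⟩ | ⟨x, y⟩
    · obtain ⟨h3, h4⟩ : m ≤ x - y ∧ m ≤ x - (y - 1) := h2
      show (0 : ℤ) ≤ x + -m - (y + 0) ∧ (0 : ℤ) ≤ x + -m - (y + 0 - 1)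
      constructor <;> omega
    · obtain ⟨h3, h4⟩ : m ≤ x - y ∧ m ≤ x - 1 - y := h2
      show (0 : ℤ) ≤ x + -m - (y + 0) ∧ (0 : ℤ) ≤ x + -m - 1 - (y + 0)
      constructor <;> omega
  · intro ω ω' h
    refine hf _ _ (fun e he => ?_)
    have h2 := h (tr e) (Finset.mem_image_of_mem _ he)
    rcases e with v | v
    · exact h2
    · exact h2

theorem grp_Y {c : ℝ} (hc : 0 < c) (hc2 : c ^ 2 ≤ 2) {P : Measure (Ori (ℤ × ℤ))} (hP : IsP c P) :
    GRP P dY RY := by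
  intro m f Λ hΛ hf
  have htr := (m_symP c hc hc2 P hP).2.1
  have hfm := local_measurable Λ hf
  have h1 : ∀ ω : Ori (ℤ × ℤ), RY m ω = trO (RX m (trO ω)) := by
    intro ω
    funext e
    rcases e with ⟨x, y⟩ | ⟨x, y⟩
    · rfl
    · rfl
  have htt : ∀ ω : Ori (ℤ × ℤ), trO (trO ω) = ω := by
    intro ω
    funext e
    rcases e with ⟨x, y⟩ | ⟨x, y⟩
    · rfl
    · rfl
  have hRY : Measurable (RY m : Ori (ℤ × ℤ) → Ori (ℤ × ℤ)) := by
    have : (RY m : Ori (ℤ × ℤ) → Ori (ℤ × ℤ)) = fun ω => trO (RX m (trO ω)) := funext h1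
    rw [this]
    exact meas_trO.comp ((meas_RX m).comp meas_trO)
  rw [int_map trO meas_trO htr f (fun ω => f (RY m ω)) hfm (hfm.comp hRY)]
  simp_rw [h1, htt]
  let tr : Edge (ℤ × ℤ) → Edge (ℤ × ℤ) := Sum.elim (fun v => Sum.inr (v.2, v.1))
    (fun v => Sum.inl (v.2, v.1))
  refine grp_X hc hc2 hP m (fun ω => f (trO ω)) (Λ.image tr) ?_ ?_
  · intro e he
    obtain ⟨e', he', rfl⟩ := Finset.mem_image.1 he
    have h2 := hΛ e' he'
    rcases e' with ⟨x, y⟩ | ⟨x, y⟩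
    · obtain ⟨h3, h4⟩ : m ≤ y ∧ m ≤ y - 1 := h2
      show m ≤ y ∧ m ≤ y - 1
      exact ⟨h3, h4⟩
    · obtain ⟨h3, h4⟩ : m ≤ y ∧ m ≤ y := h2
      show m ≤ y ∧ m ≤ y
      exact ⟨h3, h4⟩
  · intro ω ω' h
    refine hf _ _ (fun e he => ?_)
    have h2 := h (tr e) (Finset.mem_image_of_mem _ he)
    rcases e with v | v
    · exact h2
    · exact h2

theorem grp_A {c : ℝ} (hc : 1 ≤ c) (hc2 : c ^ 2 ≤ 2) {P : Measure (Ori (ℤ × ℤ))} (hP : IsP c P) :
    GRP P dA RA := by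
  intro m f Λ hΛ hf
  have hre := (m_symP c (by linarith) hc2 P hP).2.2.2
  have hfm := local_measurable Λ hf
  have h1 : ∀ ω : Ori (ℤ × ℤ), RA m ω = reO (RD (-m - 1) (reO ω)) := by
    intro ω
    funext e
    rcases e with ⟨x, y⟩ | ⟨x, y⟩
    · show ω (Sum.inr (m - y + 1, m - x)) =
        (!(!(ω (Sum.inr (-(y + (-m - 1)), -x - 1 - (-m - 1))))))
      rw [Bool.not_not, show m - y + 1 = -(y + (-m - 1)) by ring,
        show m - x = -x - 1 - (-m - 1) by ring]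
    · show ω (Sum.inl (m - y, m - x + 1)) =
        (!(!(ω (Sum.inl (-(y + (-m - 1)) - 1, -x - (-m - 1))))))
      rw [Bool.not_not, show m - y = -(y + (-m - 1)) - 1 by ring,
        show m - x + 1 = -x - (-m - 1) by ring]
  have hrr : ∀ ω : Ori (ℤ × ℤ), reO (reO ω) = ω := by
    intro ω
    funext e
    rcases e with ⟨x, y⟩ | ⟨x, y⟩
    · show ω (Sum.inl (-(-x - 1) - 1, y)) = _
      rw [show -(-x - 1) - 1 = x by ring]
    · show (!(!(ω (Sum.inr (- -x, y))))) = _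
      rw [Bool.not_not, neg_neg]
  have hdd : ∀ ω : Ori (ℤ × ℤ), RD (-m - 1) (RD (-m - 1) ω) = ω := by
    intro ω
    funext e
    rcases e with ⟨x, y⟩ | ⟨x, y⟩
    · show (!(!(ω (Sum.inl (x - (-m - 1) + (-m - 1), y + (-m - 1) - (-m - 1)))))) = _
      rw [Bool.not_not, sub_add_cancel, add_sub_cancel_right]
    · show (!(!(ω (Sum.inr (x - (-m - 1) + (-m - 1), y + (-m - 1) - (-m - 1)))))) = _
      rw [Bool.not_not, sub_add_cancel, add_sub_cancel_right]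
  have hRA : Measurable (RA m : Ori (ℤ × ℤ) → Ori (ℤ × ℤ)) := by
    have : (RA m : Ori (ℤ × ℤ) → Ori (ℤ × ℤ)) = fun ω => reO (RD (-m - 1) (reO ω)) := funext h1
    rw [this]
    exact meas_reO.comp ((meas_RD _).comp meas_reO)
  rw [int_map reO meas_reO hre f (fun ω => f (RA m ω)) hfm (hfm.comp hRA)]
  simp_rw [h1, hrr]
  have h2 : ∀ ω : Ori (ℤ × ℤ), f (reO ω) * f (reO (RD (-m - 1) ω)) =
      f (reO (RD (-m - 1) ω)) * f (reO (RD (-m - 1) (RD (-m - 1) ω))) := by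
    intro ω
    rw [hdd, mul_comm]
  rw [integral_congr_ae (Eventually.of_forall h2)]
  let tr : Edge (ℤ × ℤ) → Edge (ℤ × ℤ) := Sum.elim
    (fun v => Sum.inr (v.2 + (-m - 1), -v.1 - 1 - (-m - 1)))
    (fun v => Sum.inl (v.2 + (-m - 1), -v.1 - (-m - 1)))
  refine grp_D hc hc2 hP (-m - 1) (fun ω => f (reO (RD (-m - 1) ω))) (Λ.image tr) ?_ ?_
  · intro e he
    obtain ⟨e', he', rfl⟩ := Finset.mem_image.1 he
    have h2 := hΛ e' he'
    rcases e' with ⟨x, y⟩ | ⟨x, y⟩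
    · obtain ⟨h3, h4⟩ : m ≤ x + y ∧ m ≤ x + (y - 1) := h2
      show -m - 1 ≤ y + (-m - 1) - (-x - 1 - (-m - 1)) ∧
        -m - 1 ≤ y + (-m - 1) - 1 - (-x - 1 - (-m - 1))
      constructor <;> omega
    · obtain ⟨h3, h4⟩ : m ≤ x + y ∧ m ≤ x - 1 + y := h2
      show -m - 1 ≤ y + (-m - 1) - (-x - (-m - 1)) ∧
        -m - 1 ≤ y + (-m - 1) - (-x - (-m - 1) - 1)
      constructor <;> omega
  · intro ω ω' h
    refine hf _ _ (fun e he => ?_)
    have h2 := h (tr e) (Finset.mem_image_of_mem _ he)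
    rcases e with v | v
    · show (!(ω (tr (Sum.inl v)))) = (!(ω' (tr (Sum.inl v))))
      rw [h2]
    · show (!(!(ω (tr (Sum.inr v))))) = (!(!(ω' (tr (Sum.inr v)))))
      rw [h2]

/-- R3 for `c ^ 2 ≤ 2`. -/
theorem grp_all {c : ℝ} (hc : 1 ≤ c) (hc2 : c ^ 2 ≤ 2) {P : Measure (Ori (ℤ × ℤ))}
    (hP : IsP c P) : GRP P dX RX ∧ GRP P dY RY ∧ GRP P dD RD ∧ GRP P dA RA :=
  ⟨grp_X (by linarith) hc2 hP, grp_Y (by linarith) hc2 hP, grp_D hc hc2 hP, grp_A hc hc2 hP⟩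

end Vale.Agent.P145.FA
end

section

/-!
# P145, block F-A: reflection positivity of the arrows in the plane, `1 ≤ c ≤ 2`

Same proof as in `RpP.lean`, from the convergence of the boxes with free arrows for even
amplitudes (`UqC c`, field `box`) and the symmetries of `P`.
-/

namespace Vale.Agent.P145.FA

open Finset Filter Topology MeasureTheory
open Vale.Agent.P152 Vale.Agent.P152.GFF.B3 Vale.Agent.P152.GFF.E2

/-- Convergence of the centered boxes with free arrows. -/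
def BoxLim (c : ℝ) : Prop :=
  ∀ m r : ℕ, 1 ≤ m → 1 ≤ r → ∀ Ψ : (BE m r → ZMod 2) → ℝ, Evn m r Ψ → ∀ ε > 0, ∃ q0 : ℕ,
    ∀ q : ℕ, q0 ≤ q →
      |insW (boxNet (q + m + q) (q + r + q)) (wc c) (bxf (m := m) (r := r) q q (by omega) (by omega))
          (bxg q q (by omega) (by omega)) Ψ /
        (boxNet (q + m + q) (q + r + q)).ar (wc c) (fun _ => 1) - muI (wc c) m r Ψ| ≤ ε

/-- The symmetries of the plane measure. -/
def SymP (P : Measure (Ori (ℤ × ℤ))) : Prop :=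
  (∀ a b : ℤ, P.map (shO a b) = P) ∧ P.map trO = P ∧ P.map (fun ω e => !(ω e)) = P ∧
    P.map reO = P

theorem boxLim_of_uqC {c : ℝ} (hu : UqC c) : BoxLim c := by
  intro m r hm hr Ψ hΨ ε hε
  obtain ⟨q0, hq0⟩ := hu.box m r hm hr Ψ hΨ ε hε
  exact ⟨q0, fun q hq => hq0 (q + m + q) (q + r + q) q q (by omega) (by omega) hq hq (by omega)
    (by omega)⟩

lemma rg_tel {n : ℕ} (f : Fin (n + 1) → ZMod 2) :
    ∑ i : Fin n, (f i.castSucc + f i.succ) = f 0 + f (Fin.last n) := by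
  have h1 := Fin.sum_univ_castSucc f
  have h2 := Fin.sum_univ_succ f
  have h3 : (2 : ZMod 2) = 0 := by decide
  rw [Finset.sum_add_distrib]
  linear_combination (-1 : ZMod 2) * h1 + (-1 : ZMod 2) * h2 +
    (∑ i, f i - f 0 - f (Fin.last n)) * h3

lemma rg_par {w : Pairing → ℝ} {l r b a : ZMod 2} (h : w6 w l r b a ≠ 0) :
    (l + r) + (b + a) = 0 := by
  by_contra hne
  apply h
  rw [w6_val, if_neg, if_neg, if_neg]
  · norm_num
  · rintro ⟨h1, h2⟩
    subst h1 h2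
    exact hne ((by decide : ∀ x y : ZMod 2, x + y + (y + x) = 0) _ _)
  · rintro ⟨h1, h2⟩
    subst h1 h2
    exact hne ((by decide : ∀ x y : ZMod 2, x + 1 + (y + 1) + (x + y) = 0) _ _)
  · rintro ⟨h1, h2⟩
    subst h1 h2
    exact hne ((by decide : ∀ x y : ZMod 2, x + x + (y + y) = 0) _ _)

lemma rg_evn (m r : ℕ) (hm : 1 ≤ m) (hr : 1 ≤ r) (w : Pairing → ℝ)
    (φ : (BE m r → ZMod 2) → ℝ) : Evn m r (fun x => φ x * (boxNet m r).W6 w x) := by
  intro x hx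
  have hW : (boxNet m r).W6 w x ≠ 0 := right_ne_zero_of_mul hx
  unfold Net.W6 at hW
  rw [Finset.prod_ne_zero_iff] at hW
  have hv : ∀ v : Fin m × Fin r,
      (x (Sum.inl (v.1.castSucc, v.2)) + x (Sum.inl (v.1.succ, v.2))) +
      (x (Sum.inr (v.1, v.2.castSucc)) + x (Sum.inr (v.1, v.2.succ))) = 0 :=
    fun v => rg_par (hW v (Finset.mem_univ v))
  have hs : ∑ v : Fin m × Fin r,
      ((x (Sum.inl (v.1.castSucc, v.2)) + x (Sum.inl (v.1.succ, v.2))) +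
      (x (Sum.inr (v.1, v.2.castSucc)) + x (Sum.inr (v.1, v.2.succ)))) = 0 :=
    Finset.sum_eq_zero fun v _ => hv v
  rw [Finset.sum_add_distrib, Fintype.sum_prod_type_right
    (f := fun v : Fin m × Fin r => x (Sum.inl (v.1.castSucc, v.2)) + x (Sum.inl (v.1.succ, v.2))),
    Fintype.sum_prod_type
    (f := fun v : Fin m × Fin r => x (Sum.inr (v.1, v.2.castSucc)) + x (Sum.inr (v.1, v.2.succ)))]
    at hs
  rw [ev_sum_bd hm hr, ← Finset.sum_add_distrib, ← Finset.sum_add_distrib, ← hs]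
  congr 1
  · exact Finset.sum_congr rfl fun j _ => (rg_tel (fun i => x (Sum.inl (i, j)))).symm
  · exact Finset.sum_congr rfl fun i _ => (rg_tel (fun j => x (Sum.inr (i, j)))).symm

lemma rg_W6_nonneg {c : ℝ} (hc : 0 < c) (hc2 : c ≤ 2) {V E : Type} [Fintype V] (N : Net V E)
    (k : E → ZMod 2) : 0 ≤ N.W6 (wc c) k := by
  refine Finset.prod_nonneg (fun v _ => ?_)
  rw [w6_val]
  have h1 : 0 ≤ wc c Pairing.str := by
    show 0 ≤ 1 - c / 2
    linarith only [hc2]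
  have h2 : 0 ≤ wc c Pairing.t1 := by
    show 0 ≤ c / 2
    linarith only [hc]
  have h3 : 0 ≤ wc c Pairing.t2 := by
    show 0 ≤ c / 2
    linarith
  split_ifs <;> positivity

lemma rg_mu_nonneg {c : ℝ} (hc : 0 < c) (hc2 : c ≤ 2) (hb : BoxLim c) (m r : ℕ) (hm : 1 ≤ m)
    (hr : 1 ≤ r) (φ : (BE m r → ZMod 2) → ℝ)
    (h : ∀ q : ℕ, 0 ≤ (boxNet (q + m + q) (q + r + q)).ar (wc c)
      (fun k => φ (fun e => k (bxg q q (by omega) (by omega) e)))) : 0 ≤ mu (wc c) m r φ := by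
  by_contra hneg
  push Not at hneg
  set ε := - mu (wc c) m r φ / 2 with hε
  have hε0 : 0 < ε := by rw [hε]; linarith only [hneg]
  obtain ⟨q0, hq0⟩ := hb m r hm hr
    (fun x => φ x * (boxNet m r).W6 (wc c) x) (rg_evn m r hm hr (wc c) φ) ε hε0
  have h1 := hq0 q0 le_rfl
  rw [← m_loc _ _ _ _ _ _ _ _ _ (m_emb.2.2.1 m r (q0 + m + q0) (q0 + r + q0) q0 q0 (by omega)
    (by omega)) φ] at h1
  have h2 : 0 ≤ (boxNet (q0 + m + q0) (q0 + r + q0)).ar (wc c) (fun _ => 1) := by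
    unfold Net.ar
    exact Finset.sum_nonneg (fun k _ => by rw [one_mul]; exact rg_W6_nonneg hc hc2 _ _)
  have h3 := div_nonneg (h q0) h2
  have h4 := (abs_le.1 h1).2
  have h5 : muI (wc c) m r (fun x => φ x * (boxNet m r).W6 (wc c) x) = mu (wc c) m r φ := rfl
  rw [h5] at h4
  linarith only [hε, hε0, h3, h4]

lemma rg_P_col {c : ℝ} (hc : 0 < c) (hc2 : c ≤ 2) (hb : BoxLim c)
    {P : Measure (Ori (ℤ × ℤ))} (hP : IsP c P) (hs : SymP P)
    (f : Ori (ℤ × ℤ) → ℝ) (Λ : Finset (Edge (ℤ × ℤ))) (hΛ : ∀ e ∈ Λ, e ∈ Half dX 0)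
    (hf : ∀ ω ω', (∀ e ∈ Λ, ω e = ω' e) → f ω = f ω') : 0 ≤ ∫ ω, f ω * f (RX 0 ω) ∂P := by
  obtain ⟨N, hN⟩ := edges_bdd Λ
  set n : ℕ := N + 1 with hn
  set r : ℕ := 2 * N + 2 with hr
  set x0 : ℤ := -(n : ℤ) + 1 with hx0
  set y0 : ℤ := -(N : ℤ) with hy0
  have hrep := window_rep (n + n) r x0 y0 (RH (n + n) r) f Λ hf (by
    intro e he
    have h1 := hN e he
    have h2 := hΛ e he
    rcases e with ⟨X, Y⟩ | ⟨X, Y⟩
    · obtain ⟨h3, h4⟩ : |X| ≤ (N : ℤ) ∧ |Y| ≤ (N : ℤ) := h1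
      have h5 : (0 : ℤ) ≤ X := h2.1
      rw [abs_le] at h3 h4
      constructor
      · refine ⟨Sum.inl (⟨(X + n).toNat, by omega⟩, ⟨(Y + N).toNat, by omega⟩), ?_⟩
        show Sum.inl (x0 + ((X + n).toNat : ℤ) - 1, y0 + ((Y + N).toNat : ℤ)) = _
        congr 1
        refine Prod.ext ?_ ?_
        · show x0 + ((X + n).toNat : ℤ) - 1 = X
          omega
        · show y0 + ((Y + N).toNat : ℤ) = Y
          omega
      · rintro (⟨i, j⟩ | ⟨i, j⟩) h
        · have h6 : (x0 + (i : ℤ) - 1, y0 + (j : ℤ)) = (X, Y) := Sum.inl.inj h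
          have h7 := congrArg Prod.fst h6
          show n + n ≤ 2 * i.val
          simp only at h7
          omega
        · exact absurd h (by simp only [lc, reduceCtorEq, not_false_eq_true])
    · obtain ⟨h3, h4⟩ : |X| ≤ (N : ℤ) ∧ |Y| ≤ (N : ℤ) := h1
      have h5 : (0 : ℤ) ≤ X - 1 := h2.2
      rw [abs_le] at h3 h4
      constructor
      · refine ⟨Sum.inr (⟨(X + n - 1).toNat, by omega⟩, ⟨(Y + N + 1).toNat, by omega⟩), ?_⟩
        show Sum.inr (x0 + ((X + n - 1).toNat : ℤ), y0 + ((Y + N + 1).toNat : ℤ) - 1) = _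
        congr 1
        refine Prod.ext ?_ ?_
        · show x0 + ((X + n - 1).toNat : ℤ) = X
          omega
        · show y0 + ((Y + N + 1).toNat : ℤ) - 1 = Y
          omega
      · rintro (⟨i, j⟩ | ⟨i, j⟩) h
        · exact absurd h (by simp only [lc, reduceCtorEq, not_false_eq_true])
        · have h6 : (x0 + (i : ℤ), y0 + (j : ℤ) - 1) = (X, Y) := Sum.inr.inj h
          have h7 := congrArg Prod.fst h6
          show n + n ≤ 2 * i.val
          simp only at h7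
          (clear * - h5 h7; omega))
  obtain ⟨hr1, hr2⟩ := hrep
  set φ : (BE (n + n) r → ZMod 2) → ℝ := fun x => f (ofW (n + n) r x0 y0 x) with hφ
  have h1 : ∀ ω, f ω * f (RX 0 ω) =
      (fun x => φ x * φ (syK (n + n) r x)) (rd (n + n) r x0 y0 ω) := by
    intro ω
    show f ω * f (RX 0 ω) = f (ofW (n + n) r x0 y0 (rd (n + n) r x0 y0 ω)) *
      f (ofW (n + n) r x0 y0 (syK (n + n) r (rd (n + n) r x0 y0 ω)))
    rw [← rd_RX n r y0 ω, ← hr1, ← hr1]
  have h3 : ∫ ω, f ω * f (RX 0 ω) ∂P = mu (wc c) (n + n) r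
      (fun x => φ x * φ (syK (n + n) r x)) := by
    rw [← hP.2.2 (n + n) r (by omega) (by omega) _ x0 y0]
    exact integral_congr_ae (Eventually.of_forall h1)
  rw [h3]
  refine rg_mu_nonneg hc hc2 hb _ _ (by omega) (by omega) _ (fun q => ?_)
  have h2 := box_col (w := wc c) rfl (m := q + (n + n) + q) ⟨q + n, by ring⟩ (q + r + q)
    (fun k => φ (fun e => k (bxg q q (by omega) (by omega) e))) (by
      intro k k' h
      refine hr2 _ _ (fun e he => h _ ?_)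
      rcases e with ⟨i, j⟩ | ⟨i, j⟩
      · have he' : n + n ≤ 2 * i.val := he
        show q + (n + n) + q ≤ 2 * (q + i.val)
        omega
      · have he' : n + n ≤ 2 * i.val := he
        show q + (n + n) + q ≤ 2 * (q + i.val)
        omega)
  convert h2 using 4 with k
  refine congrArg φ ?_
  funext e
  rw [syK_apply, syK_apply]
  simp only [sy_R_bxg, sy_D_bxg]


lemma rg_P_diag {c : ℝ} (hc : 1 ≤ c) (hc2 : c ≤ 2) (hb : BoxLim c)
    {P : Measure (Ori (ℤ × ℤ))} (hP : IsP c P) (hs : SymP P)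
    (f : Ori (ℤ × ℤ) → ℝ) (Λ : Finset (Edge (ℤ × ℤ))) (hΛ : ∀ e ∈ Λ, e ∈ Half dD 0)
    (hf : ∀ ω ω', (∀ e ∈ Λ, ω e = ω' e) → f ω = f ω') : 0 ≤ ∫ ω, f ω * f (RD 0 ω) ∂P := by
  obtain ⟨N, hN⟩ := edges_bdd Λ
  set r : ℕ := 2 * N + 2 with hr
  set y0 : ℤ := -(N : ℤ) with hy0
  have hrep := window_rep r r y0 y0 (DH r) f Λ hf (by
    intro e he
    have h1 := hN e he
    have h2 := hΛ e he
    rcases e with ⟨X, Y⟩ | ⟨X, Y⟩
    · obtain ⟨h3, h4⟩ : |X| ≤ (N : ℤ) ∧ |Y| ≤ (N : ℤ) := h1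
      have h5 : (0 : ℤ) ≤ X - Y := h2.1
      rw [abs_le] at h3 h4
      constructor
      · refine ⟨Sum.inl (⟨(X + N + 1).toNat, by (clear * - h3; omega)⟩, ⟨(Y + N).toNat, by (clear * - h4; omega)⟩), ?_⟩
        show Sum.inl (y0 + ((X + N + 1).toNat : ℤ) - 1, y0 + ((Y + N).toNat : ℤ)) = _
        congr 1
        refine Prod.ext ?_ ?_
        · show y0 + ((X + N + 1).toNat : ℤ) - 1 = X
          omega
        · show y0 + ((Y + N).toNat : ℤ) = Y
          omega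
      · rintro (⟨i, j⟩ | ⟨i, j⟩) h
        · have h6 : (y0 + (i : ℤ) - 1, y0 + (j : ℤ)) = (X, Y) := Sum.inl.inj h
          have h7 := congrArg Prod.fst h6
          have h8 := congrArg Prod.snd h6
          show j.val < i.val
          simp only at h7 h8
          omega
        · exact absurd h (by simp [lc])
    · obtain ⟨h3, h4⟩ : |X| ≤ (N : ℤ) ∧ |Y| ≤ (N : ℤ) := h1
      have h5 : (0 : ℤ) ≤ X - 1 - Y := h2.2
      rw [abs_le] at h3 h4
      constructor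
      · refine ⟨Sum.inr (⟨(X + N).toNat, by omega⟩, ⟨(Y + N + 1).toNat, by omega⟩), ?_⟩
        show Sum.inr (y0 + ((X + N).toNat : ℤ), y0 + ((Y + N + 1).toNat : ℤ) - 1) = _
        congr 1
        refine Prod.ext ?_ ?_
        · show y0 + ((X + N).toNat : ℤ) = X
          omega
        · show y0 + ((Y + N + 1).toNat : ℤ) - 1 = Y
          omega
      · rintro (⟨i, j⟩ | ⟨i, j⟩) h
        · exact absurd h (by simp only [lc, reduceCtorEq, not_false_eq_true])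
        · have h6 : (y0 + (i : ℤ), y0 + (j : ℤ) - 1) = (X, Y) := Sum.inr.inj h
          have h7 := congrArg Prod.fst h6
          have h8 := congrArg Prod.snd h6
          show j.val ≤ i.val
          simp only at h7 h8
          omega)
  obtain ⟨hr1, hr2⟩ := hrep
  set φ : (BE r r → ZMod 2) → ℝ := fun x => f (ofW r r y0 y0 x) with hφ
  have h1 : ∀ ω, f ω * f (RD 0 ω) =
      (fun x => φ x * φ (dgK r x)) (rd r r y0 y0 ω) := by
    intro ω
    show f ω * f (RD 0 ω) = f (ofW r r y0 y0 (rd r r y0 y0 ω)) *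
      f (ofW r r y0 y0 (dgK r (rd r r y0 y0 ω)))
    rw [← rd_RD r y0 ω, ← hr1, ← hr1]
  have h3 : ∫ ω, f ω * f (RD 0 ω) ∂P = mu (wc c) r r (fun x => φ x * φ (dgK r x)) := by
    rw [← hP.2.2 r r (by omega) (by omega) _ y0 y0]
    exact integral_congr_ae (Eventually.of_forall h1)
  rw [h3]
  refine rg_mu_nonneg (by linarith only [hc]) hc2 hb _ _ (by omega) (by omega) _ (fun q => ?_)
  have h2 := box_diag hc (q + r + q)
    (fun k => φ (fun e => k (bxg q q (by omega) (by omega) e))) (by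
      intro k k' h
      refine hr2 _ _ (fun e he => h _ ?_)
      rcases e with ⟨i, j⟩ | ⟨i, j⟩
      · have he' : j.val < i.val := he
        show q + j.val < q + i.val
        omega
      · have he' : j.val ≤ i.val := he
        show q + j.val ≤ q + i.val
        omega)
  convert h2 using 4 with k
  refine congrArg φ ?_
  funext e
  rcases e with ⟨i, j⟩ | ⟨i, j⟩ <;> rfl


theorem rg_grp_X {c : ℝ} (hc : 0 < c) (hc2 : c ≤ 2) (hb : BoxLim c)
    {P : Measure (Ori (ℤ × ℤ))} (hP : IsP c P) (hs : SymP P) :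
    GRP P dX RX := by
  intro m f Λ hΛ hf
  have hsh := hs.1 (-m) 0
  have hfm := local_measurable Λ hf
  rw [int_map (shO (-m) 0) (meas_shO _ _) hsh f (fun ω => f (RX m ω)) hfm
    (hfm.comp (meas_RX m))]
  have h1 : ∀ ω : Ori (ℤ × ℤ), RX m (shO (-m) 0 ω) = shO (-m) 0 (RX 0 ω) := by
    intro ω
    funext e
    rcases e with ⟨x, y⟩ | ⟨x, y⟩
    · show ω (Sum.inl (2 * m - x + -m, y + 0)) = ω (Sum.inl (2 * 0 - (x + -m), y + 0))
      rw [show 2 * m - x + -m = 2 * 0 - (x + -m) by ring]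
    · show (!(ω (Sum.inr (2 * m - x + 1 + -m, y + 0)))) =
        (!(ω (Sum.inr (2 * 0 - (x + -m) + 1, y + 0))))
      rw [show 2 * m - x + 1 + -m = 2 * 0 - (x + -m) + 1 by ring]
  simp_rw [h1]
  let tr : Edge (ℤ × ℤ) → Edge (ℤ × ℤ) := Sum.map (fun v => (v.1 + -m, v.2 + 0))
    (fun v => (v.1 + -m, v.2 + 0))
  refine rg_P_col hc hc2 hb hP hs (fun ω => f (shO (-m) 0 ω)) (Λ.image tr) ?_ ?_
  · intro e he
    obtain ⟨e', he', rfl⟩ := Finset.mem_image.1 he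
    have h2 := hΛ e' he'
    rcases e' with ⟨x, y⟩ | ⟨x, y⟩
    · obtain ⟨h3, h4⟩ : m ≤ x ∧ m ≤ x := h2
      show (0 : ℤ) ≤ x + -m ∧ (0 : ℤ) ≤ x + -m
      constructor <;> omega
    · obtain ⟨h3, h4⟩ : m ≤ x ∧ m ≤ x - 1 := h2
      show (0 : ℤ) ≤ x + -m ∧ (0 : ℤ) ≤ x + -m - 1
      constructor <;> omega
  · intro ω ω' h
    refine hf _ _ (fun e he => ?_)
    have h2 := h (tr e) (Finset.mem_image_of_mem _ he)
    rcases e with v | v
    · exact h2
    · exact h2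

theorem rg_grp_D {c : ℝ} (hc : 1 ≤ c) (hc2 : c ≤ 2) (hb : BoxLim c)
    {P : Measure (Ori (ℤ × ℤ))} (hP : IsP c P) (hs : SymP P) :
    GRP P dD RD := by
  intro m f Λ hΛ hf
  have hsh := hs.1 (-m) 0
  have hfm := local_measurable Λ hf
  rw [int_map (shO (-m) 0) (meas_shO _ _) hsh f (fun ω => f (RD m ω)) hfm
    (hfm.comp (meas_RD m))]
  have h1 : ∀ ω : Ori (ℤ × ℤ), RD m (shO (-m) 0 ω) = shO (-m) 0 (RD 0 ω) := by
    intro ω
    funext e
    rcases e with ⟨x, y⟩ | ⟨x, y⟩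
    · show (!(ω (Sum.inr (y + m + -m, x - m + 0)))) = (!(ω (Sum.inr (y + 0 + 0, x + -m - 0))))
      rw [show y + m + -m = y + 0 + 0 by ring, show x - m + 0 = x + -m - 0 by ring]
    · show (!(ω (Sum.inl (y + m + -m, x - m + 0)))) = (!(ω (Sum.inl (y + 0 + 0, x + -m - 0))))
      rw [show y + m + -m = y + 0 + 0 by ring, show x - m + 0 = x + -m - 0 by ring]
  simp_rw [h1]
  let tr : Edge (ℤ × ℤ) → Edge (ℤ × ℤ) := Sum.map (fun v => (v.1 + -m, v.2 + 0))
    (fun v => (v.1 + -m, v.2 + 0))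
  refine rg_P_diag hc hc2 hb hP hs (fun ω => f (shO (-m) 0 ω)) (Λ.image tr) ?_ ?_
  · intro e he
    obtain ⟨e', he', rfl⟩ := Finset.mem_image.1 he
    have h2 := hΛ e' he'
    rcases e' with ⟨x, y⟩ | ⟨x, y⟩
    · obtain ⟨h3, h4⟩ : m ≤ x - y ∧ m ≤ x - (y - 1) := h2
      show (0 : ℤ) ≤ x + -m - (y + 0) ∧ (0 : ℤ) ≤ x + -m - (y + 0 - 1)
      constructor <;> omega
    · obtain ⟨h3, h4⟩ : m ≤ x - y ∧ m ≤ x - 1 - y := h2
      show (0 : ℤ) ≤ x + -m - (y + 0) ∧ (0 : ℤ) ≤ x + -m - 1 - (y + 0)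
      constructor <;> omega
  · intro ω ω' h
    refine hf _ _ (fun e he => ?_)
    have h2 := h (tr e) (Finset.mem_image_of_mem _ he)
    rcases e with v | v
    · exact h2
    · exact h2

theorem rg_grp_Y {c : ℝ} (hc : 0 < c) (hc2 : c ≤ 2) (hb : BoxLim c)
    {P : Measure (Ori (ℤ × ℤ))} (hP : IsP c P) (hs : SymP P) :
    GRP P dY RY := by
  intro m f Λ hΛ hf
  have htr := hs.2.1
  have hfm := local_measurable Λ hf
  have h1 : ∀ ω : Ori (ℤ × ℤ), RY m ω = trO (RX m (trO ω)) := by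
    intro ω
    funext e
    rcases e with ⟨x, y⟩ | ⟨x, y⟩
    · rfl
    · rfl
  have htt : ∀ ω : Ori (ℤ × ℤ), trO (trO ω) = ω := by
    intro ω
    funext e
    rcases e with ⟨x, y⟩ | ⟨x, y⟩
    · rfl
    · rfl
  have hRY : Measurable (RY m : Ori (ℤ × ℤ) → Ori (ℤ × ℤ)) := by
    have : (RY m : Ori (ℤ × ℤ) → Ori (ℤ × ℤ)) = fun ω => trO (RX m (trO ω)) := funext h1
    rw [this]
    exact meas_trO.comp ((meas_RX m).comp meas_trO)
  rw [int_map trO meas_trO htr f (fun ω => f (RY m ω)) hfm (hfm.comp hRY)]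
  simp_rw [h1, htt]
  let tr : Edge (ℤ × ℤ) → Edge (ℤ × ℤ) := Sum.elim (fun v => Sum.inr (v.2, v.1))
    (fun v => Sum.inl (v.2, v.1))
  refine rg_grp_X hc hc2 hb hP hs m (fun ω => f (trO ω)) (Λ.image tr) ?_ ?_
  · intro e he
    obtain ⟨e', he', rfl⟩ := Finset.mem_image.1 he
    have h2 := hΛ e' he'
    rcases e' with ⟨x, y⟩ | ⟨x, y⟩
    · obtain ⟨h3, h4⟩ : m ≤ y ∧ m ≤ y - 1 := h2
      show m ≤ y ∧ m ≤ y - 1
      exact ⟨h3, h4⟩
    · obtain ⟨h3, h4⟩ : m ≤ y ∧ m ≤ y := h2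
      show m ≤ y ∧ m ≤ y
      exact ⟨h3, h4⟩
  · intro ω ω' h
    refine hf _ _ (fun e he => ?_)
    have h2 := h (tr e) (Finset.mem_image_of_mem _ he)
    rcases e with v | v
    · exact h2
    · exact h2

theorem rg_grp_A {c : ℝ} (hc : 1 ≤ c) (hc2 : c ≤ 2) (hb : BoxLim c)
    {P : Measure (Ori (ℤ × ℤ))} (hP : IsP c P) (hs : SymP P) :
    GRP P dA RA := by
  intro m f Λ hΛ hf
  have hre := hs.2.2.2
  have hfm := local_measurable Λ hf
  have h1 : ∀ ω : Ori (ℤ × ℤ), RA m ω = reO (RD (-m - 1) (reO ω)) := by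
    intro ω
    funext e
    rcases e with ⟨x, y⟩ | ⟨x, y⟩
    · show ω (Sum.inr (m - y + 1, m - x)) =
        (!(!(ω (Sum.inr (-(y + (-m - 1)), -x - 1 - (-m - 1))))))
      rw [Bool.not_not, show m - y + 1 = -(y + (-m - 1)) by ring,
        show m - x = -x - 1 - (-m - 1) by ring]
    · show ω (Sum.inl (m - y, m - x + 1)) =
        (!(!(ω (Sum.inl (-(y + (-m - 1)) - 1, -x - (-m - 1))))))
      rw [Bool.not_not, show m - y = -(y + (-m - 1)) - 1 by ring,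
        show m - x + 1 = -x - (-m - 1) by ring]
  have hrr : ∀ ω : Ori (ℤ × ℤ), reO (reO ω) = ω := by
    intro ω
    funext e
    rcases e with ⟨x, y⟩ | ⟨x, y⟩
    · show ω (Sum.inl (-(-x - 1) - 1, y)) = _
      rw [show -(-x - 1) - 1 = x by ring]
    · show (!(!(ω (Sum.inr (- -x, y))))) = _
      rw [Bool.not_not, neg_neg]
  have hdd : ∀ ω : Ori (ℤ × ℤ), RD (-m - 1) (RD (-m - 1) ω) = ω := by
    intro ω
    funext e
    rcases e with ⟨x, y⟩ | ⟨x, y⟩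
    · show (!(!(ω (Sum.inl (x - (-m - 1) + (-m - 1), y + (-m - 1) - (-m - 1)))))) = _
      rw [Bool.not_not, sub_add_cancel, add_sub_cancel_right]
    · show (!(!(ω (Sum.inr (x - (-m - 1) + (-m - 1), y + (-m - 1) - (-m - 1)))))) = _
      rw [Bool.not_not, sub_add_cancel, add_sub_cancel_right]
  have hRA : Measurable (RA m : Ori (ℤ × ℤ) → Ori (ℤ × ℤ)) := by
    have : (RA m : Ori (ℤ × ℤ) → Ori (ℤ × ℤ)) = fun ω => reO (RD (-m - 1) (reO ω)) := funext h1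
    rw [this]
    exact meas_reO.comp ((meas_RD _).comp meas_reO)
  rw [int_map reO meas_reO hre f (fun ω => f (RA m ω)) hfm (hfm.comp hRA)]
  simp_rw [h1, hrr]
  have h2 : ∀ ω : Ori (ℤ × ℤ), f (reO ω) * f (reO (RD (-m - 1) ω)) =
      f (reO (RD (-m - 1) ω)) * f (reO (RD (-m - 1) (RD (-m - 1) ω))) := by
    intro ω
    rw [hdd, mul_comm]
  rw [integral_congr_ae (Eventually.of_forall h2)]
  let tr : Edge (ℤ × ℤ) → Edge (ℤ × ℤ) := Sum.elim
    (fun v => Sum.inr (v.2 + (-m - 1), -v.1 - 1 - (-m - 1)))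
    (fun v => Sum.inl (v.2 + (-m - 1), -v.1 - (-m - 1)))
  refine rg_grp_D hc hc2 hb hP hs (-m - 1) (fun ω => f (reO (RD (-m - 1) ω))) (Λ.image tr) ?_ ?_
  · intro e he
    obtain ⟨e', he', rfl⟩ := Finset.mem_image.1 he
    have h2 := hΛ e' he'
    rcases e' with ⟨x, y⟩ | ⟨x, y⟩
    · obtain ⟨h3, h4⟩ : m ≤ x + y ∧ m ≤ x + (y - 1) := h2
      show -m - 1 ≤ y + (-m - 1) - (-x - 1 - (-m - 1)) ∧
        -m - 1 ≤ y + (-m - 1) - 1 - (-x - 1 - (-m - 1))
      constructor <;> omega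
    · obtain ⟨h3, h4⟩ : m ≤ x + y ∧ m ≤ x - 1 + y := h2
      show -m - 1 ≤ y + (-m - 1) - (-x - (-m - 1)) ∧
        -m - 1 ≤ y + (-m - 1) - (-x - (-m - 1) - 1)
      constructor <;> omega
  · intro ω ω' h
    refine hf _ _ (fun e he => ?_)
    have h2 := h (tr e) (Finset.mem_image_of_mem _ he)
    rcases e with v | v
    · show (!(ω (tr (Sum.inl v)))) = (!(ω' (tr (Sum.inl v))))
      rw [h2]
    · show (!(!(ω (tr (Sum.inr v))))) = (!(!(ω' (tr (Sum.inr v)))))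
      rw [h2]


/-- R3, all `1 ≤ c ≤ 2`. -/
theorem grp_of_box {c : ℝ} (hc : 1 ≤ c) (hc2 : c ≤ 2) (hb : BoxLim c) {P : Measure (Ori (ℤ × ℤ))}
    (hP : IsP c P) (hs : SymP P) : GRP P dX RX ∧ GRP P dY RY ∧ GRP P dD RD ∧ GRP P dA RA :=
  ⟨rg_grp_X (by linarith) hc2 hb hP hs, rg_grp_Y (by linarith) hc2 hb hP hs,
    rg_grp_D hc hc2 hb hP hs, rg_grp_A hc hc2 hb hP hs⟩

/-- R3 from the output of block E2 of P152. -/
theorem grp_of_uqC {c : ℝ} (hc : 1 ≤ c) (hc2 : c ≤ 2) (hu : UqC c)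
    {P : Measure (Ori (ℤ × ℤ))} (hP : IsP c P) :
    GRP P dX RX ∧ GRP P dY RY ∧ GRP P dD RD ∧ GRP P dA RA :=
  grp_of_box hc hc2 (boxLim_of_uqC hu) hP (stB_sym2 c (by linarith) hc2 P hP)

end Vale.Agent.P145.FA
end

section

/-!
P145, block F-B: exponential moments of the vertex averages of the arrows, `0 < c ≤ 2`.
-/

namespace Vale.Agent.P145.FB.Mom

open Finset Filter Topology MeasureTheory
open Vale.Agent.P152 Vale.Agent.P152.GFF Vale.Agent.P152.GFF.B3 Vale.Agent.P152.GFF.E2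
open Vale.Agent.P152.GFF.S (ar)
open Vale.Agent.P145.FA (rg_evn)

lemma mh_tr (w : Pairing → ℝ) (m r : ℕ) (φ : (BE m r → ZMod 2) → ℝ) :
    mu w m r φ = mu w r m (fun x => φ (fun e => x (sw m r e))) := by
  unfold mu muI
  congr 1
  funext q
  rw [ts_insW_box m r (q + m + q) (q + r + q) q q (by omega) (by omega) w,
    (ts_isTr_box (q + m + q) (q + r + q)).ar_eq w (fun _ => 1)]
  congr 2
  funext x
  have h1 := (ts_isTr_box m r).W6_eq w x
  simp only [tsE_apply] at h1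
  rw [h1]

/-- Exponential moments in the infinite-volume state. -/
theorem mexpH {c : ℝ} (hu : UqC c) (w : Pairing → ℝ) (hwc : w = wc c) (hw : ∀ q, 0 ≤ w q)
    (hw12 : w Pairing.t1 = w Pairing.t2) (hA : A6 w) :
    ∃ C > 0, ∃ γ > 0, ∀ (m r : ℕ) (g : ℕ → ℕ → ℝ), 1 ≤ m → 1 ≤ r → Even m → Even r →
      (∀ i j, |g i j| ≤ γ) →
      mu w m r (fun x => Real.exp (fieldY m r g x)) ≤
        Real.exp (C * ∑ i ∈ range m, ∑ j ∈ range r, g i j ^ 2) := by
  obtain ⟨C0, hC0, γ0, hγ0, hG⟩ := m_GD0 w hw hw12 hA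
  refine ⟨C0, hC0, γ0, hγ0, fun m r g hm hr hme hre hgb => ?_⟩
  set S : ℝ := ∑ i ∈ range m, ∑ j ∈ range r, g i j ^ 2 with hS
  have hbd : ∀ p n i j, |secg m r p n 1 g i j| ≤ γ0 := by
    intro p n i j
    unfold secg
    split_ifs with h
    · rw [one_mul]
      exact hgb _ _
    · rw [abs_zero]
      exact hγ0.le
  -- the main estimate
  have key : ∀ ε : ℝ, 0 < ε → mu w m r (fun x => Real.exp (fieldY m r g x)) ≤
      Real.exp (C0 * S + ε) + ε := by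
    intro ε hε
    obtain ⟨q0, hq0⟩ := hu.box m r hm hr
      (fun x => Real.exp (fieldY m r g x) * (boxNet m r).W6 w x)
      (rg_evn m r hm hr w (fun x => Real.exp (fieldY m r g x))) ε hε
    rw [← hwc] at hq0
    have hl2 : 0 < Real.log 2 := Real.log_pos (by norm_num)
    obtain ⟨p0, hp0⟩ := exists_nat_ge ((r : ℝ) * m * Real.log 2 / ε)
    obtain ⟨p, hp⟩ : ∃ p, p = max (max q0 1) p0 := ⟨_, rfl⟩
    obtain ⟨n0, hn0⟩ := exists_nat_ge ((r : ℝ) * (2 * p + m) * Real.log 2 / ε)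
    obtain ⟨n, hn⟩ : ∃ n, n = max (max q0 1) n0 := ⟨_, rfl⟩
    have hp1 : 1 ≤ p := by (clear * - hp; omega)
    have hn1 : 1 ≤ n := by omega
    have hpq : q0 ≤ p := by omega
    have hnq : q0 ≤ n := by omega
    have hp2 : (p0 : ℝ) ≤ p := by exact_mod_cast (by omega : p0 ≤ p)
    have hn2 : (n0 : ℝ) ≤ n := by exact_mod_cast (by omega : n0 ≤ n)
    have hp3 : (0 : ℝ) < p := by exact_mod_cast hp1
    have hn3 : (0 : ℝ) < n := by exact_mod_cast hn1
    have e1 : (r : ℝ) * m * Real.log 2 / (2 * p) ≤ ε / 2 := by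
      have h1 : (r : ℝ) * m * Real.log 2 / ε ≤ p := le_trans hp0 hp2
      rw [div_le_iff₀ hε] at h1
      rw [div_le_iff₀ (by positivity)]
      linarith only [h1]
    have e2 : (r : ℝ) * (2 * p + m) * Real.log 2 / (2 * n) ≤ ε / 2 := by
      have h1 : (r : ℝ) * (2 * p + m) * Real.log 2 / ε ≤ n := le_trans hn0 hn2
      rw [div_le_iff₀ hε] at h1
      rw [div_le_iff₀ (by (clear * - hn1; positivity))]
      linarith only [h1]
    have hx : p + m ≤ p + m + p := by omega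
    have hy : n + r ≤ n + r + n := by omega
    have he : IsEmb (boxNet m r) (boxNet (p + m + p) (n + r + n)) (bxf p n hx hy)
        (bxg p n hx hy) := m_emb.2.2.1 m r _ _ p n hx hy
    have hE : (boxNet (p + m + p) (n + r + n)).Ea w
        (fun k => Real.exp (fieldY m r g (fun e => k (bxg p n hx hy e)))) ≤
        Real.exp (C0 * S + ε) := by
      have h1 := hG p m n r (secg m r p n 1 g) hp1 hme hn1 hre
        (fun i j h => secg_out 1 g h) (hbd p n)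
      have h2 : (fun k : BE (p + m + p) (n + r + n) → ZMod 2 =>
          Real.exp (fieldY (p + m + p) (n + r + n) (secg m r p n 1 g) k)) =
          fun k => Real.exp (fieldY m r g (fun e => k (bxg p n hx hy e))) := by
        funext k
        rw [secg_field hx hy 1 g he, one_mul]
      rw [h2, secg_sq hx hy] at h1
      refine le_trans h1 (Real.exp_le_exp.2 ?_)
      rw [← hS, one_pow, one_mul]
      linarith only [e1, e2]
    have h2 := hq0 (p + m + p) (n + r + n) p n hx hy hpq hnq (by omega) (by omega)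
    have h3 := m_loc _ _ _ _ (boxNet m r) (boxNet (p + m + p) (n + r + n)) (bxf p n hx hy)
      (bxg p n hx hy) w he (fun x => Real.exp (fieldY m r g x))
    unfold Net.Ea at hE
    rw [← h3] at h2
    have h4 := (abs_le.1 h2).1
    unfold mu
    linarith only [hE, h4]
  have hlim : Tendsto (fun ε : ℝ => Real.exp (C0 * S + ε) + ε)
      (𝓝[>] 0) (𝓝 (Real.exp (C0 * S + 0) + 0)) := by
    refine Tendsto.mono_left ?_ nhdsWithin_le_nhds
    have hc : Continuous (fun ε : ℝ => Real.exp (C0 * S + ε) + ε) := by fun_prop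
    exact hc.tendsto 0
  have h5 : mu w m r (fun x => Real.exp (fieldY m r g x)) ≤ Real.exp (C0 * S + 0) + 0 :=
    ge_of_tendsto hlim (eventually_nhdsWithin_of_forall fun ε hε => key ε hε)
  rwa [add_zero, add_zero] at h5

/-- The same for the vertical arrows. -/
theorem mexpVH {c : ℝ} (hu : UqC c) (w : Pairing → ℝ) (hwc : w = wc c) (hw : ∀ q, 0 ≤ w q)
    (hw12 : w Pairing.t1 = w Pairing.t2) (hA : A6 w) :
    ∃ C > 0, ∃ γ > 0, ∀ (m r : ℕ) (g : ℕ → ℕ → ℝ), 1 ≤ m → 1 ≤ r → Even m → Even r →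
      (∀ i j, |g i j| ≤ γ) →
      mu w m r (fun x => Real.exp (fieldY m r g x)) ≤
        Real.exp (C * ∑ i ∈ range m, ∑ j ∈ range r, g i j ^ 2) ∧
      mu w m r (fun x => Real.exp (∑ v : Fin m × Fin r, g v.1 v.2 / 2 *
        (sg (x (Sum.inr (v.1, v.2.castSucc))) + sg (x (Sum.inr (v.1, v.2.succ)))))) ≤
        Real.exp (C * ∑ i ∈ range m, ∑ j ∈ range r, g i j ^ 2) := by
  obtain ⟨C, hC, γ, hγ, h⟩ := mexpH hu w hwc hw hw12 hA
  refine ⟨C, hC, γ, hγ, fun m r g hm hr hme hre hg => ⟨h m r g hm hr hme hre hg, ?_⟩⟩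
  rw [mh_tr w m r]
  have h1 := h r m (fun i j => g j i) hr hm hre hme (fun i j => hg j i)
  have h2 : (fun x : BE r m → ZMod 2 => Real.exp (∑ v : Fin m × Fin r, g v.1 v.2 / 2 *
      (sg ((fun e => x (sw m r e)) (Sum.inr (v.1, v.2.castSucc))) +
        sg ((fun e => x (sw m r e)) (Sum.inr (v.1, v.2.succ)))))) =
      fun x => Real.exp (fieldY r m (fun i j => g j i) x) := by
    funext x
    congr 1
    unfold fieldY
    rw [← Equiv.sum_comp (Equiv.prodComm (Fin m) (Fin r))]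
    rfl
  rw [h2]
  refine le_trans h1 (le_of_eq ?_)
  rw [Finset.sum_comm]

/-- Gaussian domination (exponential moments) for vertex averages. -/
theorem egd_hi {c : ℝ} (hc : 0 < c) (hc2 : c ≤ 2) (hu : UqC c) (hA : A6 (wc c)) :
    ∃ C > 0, ∃ γ > 0, ∀ P : Measure (Ori (ℤ × ℤ)), IsP c P → EGD P C γ := by
  obtain ⟨C, hC, γ, hγ, hb⟩ := mexpVH hu (wc c) rfl (wc_nonneg2 hc hc2) rfl hA
  refine ⟨C, hC, γ, hγ, fun P hP s g hg => ?_⟩
  classical
  set N : ℕ := ∑ v ∈ s, (v.1.natAbs + v.2.natAbs) with hNdef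
  have hN : ∀ v ∈ s, v.1.natAbs + v.2.natAbs ≤ N := fun v hv =>
    Finset.single_le_sum (f := fun v : ℤ × ℤ => v.1.natAbs + v.2.natAbs)
      (fun _ _ => Nat.zero_le _) hv
  set G : ℕ → ℕ → ℝ := fun i j =>
    if ((i : ℤ) - N, (j : ℤ) - N) ∈ s then g ((i : ℤ) - N, (j : ℤ) - N) else 0 with hG
  have hGb : ∀ i j, |G i j| ≤ γ := by
    intro i j
    simp only [hG]
    split_ifs
    · exact hg _
    · rw [abs_zero]
      exact hγ.le
  have hsq : ∑ i ∈ range (2 * N + 2), ∑ j ∈ range (2 * N + 2), G i j ^ 2 = ∑ v ∈ s, g v ^ 2 := by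
    rw [win_sum s N hN (fun v => g v ^ 2), Fintype.sum_prod_type, Finset.sum_range]
    refine Finset.sum_congr rfl fun i _ => ?_
    rw [Finset.sum_range]
    refine Finset.sum_congr rfl fun j _ => ?_
    simp only [hG]
    split_ifs <;> simp
  obtain ⟨hb1, hb2⟩ := hb (2 * N + 2) (2 * N + 2) G (by (clear * -; omega)) (by omega) ⟨N + 1, by ring⟩
    ⟨N + 1, by ring⟩ hGb
  rw [hsq] at hb1 hb2
  have hx : ∀ a : ℤ, -(N : ℤ) + a = a - N := fun a => by ring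
  constructor
  · refine le_trans (le_of_eq ?_) hb1
    rw [← hP.2.2 (2 * N + 2) (2 * N + 2) (by omega) (by omega)
      (fun x => Real.exp (fieldY (2 * N + 2) (2 * N + 2) G x)) (-(N : ℤ)) (-(N : ℤ))]
    refine integral_congr_ae (Filter.Eventually.of_forall fun ω => ?_)
    beta_reduce
    congr 1
    rw [win_sum s N hN]
    unfold fieldY
    refine Finset.sum_congr rfl fun v _ => ?_
    rw [sg_rd_inl, sg_rd_inl]
    simp only [hG, hx, Fin.val_castSucc, Fin.val_succ]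
    split_ifs with h
    · have e2 : (((v.1 : ℕ) + 1 : ℕ) : ℤ) - N - 1 = ((v.1 : ℕ) : ℤ) - N := by push_cast; ring
      rw [e2]
      ring
    · ring
  · refine le_trans (le_of_eq ?_) hb2
    rw [← hP.2.2 (2 * N + 2) (2 * N + 2) (by omega) (by omega)
      (fun x => Real.exp (∑ v : Fin (2 * N + 2) × Fin (2 * N + 2), G v.1 v.2 / 2 *
        (sg (x (Sum.inr (v.1, v.2.castSucc))) + sg (x (Sum.inr (v.1, v.2.succ))))))
      (-(N : ℤ)) (-(N : ℤ))]
    refine integral_congr_ae (Filter.Eventually.of_forall fun ω => ?_)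
    beta_reduce
    congr 1
    rw [win_sum s N hN]
    refine Finset.sum_congr rfl fun v _ => ?_
    rw [sg_rd_inr, sg_rd_inr]
    simp only [hG, hx, Fin.val_castSucc, Fin.val_succ]
    split_ifs with h
    · have e2 : (((v.2 : ℕ) + 1 : ℕ) : ℤ) - N - 1 = ((v.2 : ℕ) : ℤ) - N := by push_cast; ring
      rw [e2]
      ring
    · ring

end Vale.Agent.P145.FB.Mom
end

section

/-!
The setting for the identification of the limit, and limits along an ultrafilter.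
-/

namespace Vale.Agent.P145.Top

open Filter Topology Set MeasureTheory
open Vale.Agent.P145.PT Vale.Agent.P145.FP Vale.Agent.P145.Dom

/-- Limit along an ultrafilter. -/
noncomputable def lm (U : Ultrafilter ℕ) (x : ℕ → ℝ) : ℝ := limUnder (U : Filter ℕ) x

theorem tend_lm {U : Ultrafilter ℕ} {x : ℕ → ℝ} {C : ℝ} (h : ∀ᶠ n in (U : Filter ℕ), |x n| ≤ C) :
    Tendsto x U (𝓝 (lm U x)) := by
  have h1 : (U.map x : Filter ℝ) ≤ 𝓟 (Icc (-C) C) := by
    rw [Ultrafilter.coe_map, le_principal_iff, mem_map]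
    filter_upwards [h] with n hn
    exact abs_le.1 hn
  obtain ⟨y, -, hy'⟩ := isCompact_Icc.ultrafilter_le_nhds _ h1
  exact tendsto_nhds_limUnder ⟨y, hy'⟩

theorem lm_eq {U : Ultrafilter ℕ} {x : ℕ → ℝ} {y : ℝ} (h : Tendsto x U (𝓝 y)) : lm U x = y :=
  h.limUnder_eq

/-- The setting. -/
structure Setup (c κ : ℝ) (δ : ℕ → ℝ) (R : ℝ) (B : ℕ → Finset (ℤ × ℤ)) (f0 : ℝ × ℝ → ℝ)
    (μ : ℕ → Set (ℝ × ℝ) → Measure Om) : Prop where
  inp : Inputs c κ δ
  Rpos : 0 < R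
  pos : ∀ n D, Pos (μ n D)
  ee : ∀ n D (A : Om → ℝ), ∫ ω, A ω ∂(μ n D) = EE c (δ n) D A
  mono : ∀ n D D', D ⊆ D' → D' ⊆ Metric.ball 0 R → ∀ v : List (ℤ × ℤ),
    ∫ ω, (v.map ω).prod ∂(μ n D) ≤ ∫ ω, (v.map ω).prod ∂(μ n D')
  mean : ∀ n D u, ∫ ω, ω u ∂(μ n D) = 0
  f0t : TestOn (Metric.ball 0 (2 * R)) f0
  f00 : ∀ z, 0 ≤ f0 z
  f01 : ∀ z ∈ Metric.ball (0 : ℝ × ℝ) R, 1 ≤ f0 z
  hvB : ∀ n f, (∀ z, f z ≠ 0 → z ∈ Metric.ball (0 : ℝ × ℝ) (2 * R)) → ∀ ω,
    hv (δ n) f ω = hB (B n) (δ n) f ω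

section

variable {c κ : ℝ} {δ : ℕ → ℝ} {R : ℝ} {B : ℕ → Finset (ℤ × ℤ)} {f0 : ℝ × ℝ → ℝ}
  {μ : ℕ → Set (ℝ × ℝ) → Measure Om}

theorem Setup.supp (S : Setup c κ δ R B f0 μ) {D : Set (ℝ × ℝ)} (hD : D ⊆ Metric.ball 0 R)
    {f : ℝ × ℝ → ℝ} (hf : TestOn D f) : ∀ z, f z ≠ 0 → z ∈ Metric.ball (0 : ℝ × ℝ) (2 * R) := by
  intro z hz
  have h1 : z ∈ D := hf.2.2 (subset_tsupport _ hz)
  exact Metric.ball_subset_ball (by linarith [S.Rpos]) (hD h1)

theorem Setup.supp0 (S : Setup c κ δ R B f0 μ) :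
    ∀ z, f0 z ≠ 0 → z ∈ Metric.ball (0 : ℝ × ℝ) (2 * R) := fun _ hz =>
  S.f0t.2.2 (subset_tsupport _ hz)

theorem Setup.hvl_eq (S : Setup c κ δ R B f0 μ) {D : Set (ℝ × ℝ)} (hD : D ⊆ Metric.ball 0 R)
    (n : ℕ) {l : List (ℝ × ℝ → ℝ)} (hl' : ∀ f ∈ l, TestOn D f) (ω : Om) :
    hvl (δ n) l ω = hl (B n) (δ n) l ω := by
  unfold hvl hl
  congr 1
  exact List.map_congr_left fun f hf => S.hvB n f (S.supp hD (hl' f hf)) ω

/-- A test function is dominated by `f0`. -/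
theorem Setup.le_f0 (S : Setup c κ δ R B f0 μ) {D : Set (ℝ × ℝ)} (hD : D ⊆ Metric.ball 0 R)
    {f : ℝ × ℝ → ℝ} (hf : TestOn D f) : ∃ C : ℝ, 0 ≤ C ∧ ∀ z, |f z| ≤ C * f0 z := by
  obtain ⟨C, hC⟩ := hf.cs.exists_bound_of_continuous hf.cont
  have hC0 : 0 ≤ C := (norm_nonneg _).trans (hC 0)
  refine ⟨C, hC0, fun z => ?_⟩
  by_cases hz : f z = 0
  · rw [hz, abs_zero]; exact mul_nonneg hC0 (S.f00 z)
  · have h1 : z ∈ D := hf.2.2 (subset_tsupport _ hz)
    have h2 := S.f01 z (hD h1)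
    have h3 := hC z
    rw [Real.norm_eq_abs] at h3
    nlinarith only [h3, hC0, h2]

/-- Boundedness of the moments. -/
theorem Setup.bdd_pow (S : Setup c κ δ R B f0 μ) {D : Set (ℝ × ℝ)} (hDo : IsOpen D)
    (hD : D ⊆ Metric.ball 0 R) {f : ℝ × ℝ → ℝ} (hf : HasCompactSupport f) (hfs : Sm f)
    (hf2 : ∀ z, f z ≠ 0 → z ∈ Metric.ball (0 : ℝ × ℝ) (2 * R)) (hf0 : ∀ z, 0 ≤ f z) (k : ℕ) :
    ∃ C : ℝ, ∀ᶠ n in atTop, ∫ ω, hB (B n) (δ n) f ω ^ k ∂(μ n D) ≤ C := by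
  obtain ⟨C, hC⟩ := S.inp.mb D hDo (Metric.isBounded_ball.subset hD) f
    ⟨hfs, hf, subset_univ _⟩ hf0 k
  refine ⟨C, ?_⟩
  filter_upwards [hC] with n hn
  rw [← S.ee n D (fun ω => hv (δ n) f ω ^ k)] at hn
  refine le_trans (le_of_eq ?_) hn
  congr 1
  funext ω
  rw [S.hvB n f hf2 ω]

/-- The `L²` bound for signed test functions. -/
theorem Setup.l2 (S : Setup c κ δ R B f0 μ)
    (hdom : ∀ {D : Set (ℝ × ℝ)}, IsOpen D → Bornology.IsBounded D → ∀ {f : ℝ × ℝ → ℝ},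
      TestOn D f → ∀ {ε : ℝ}, 0 < ε → ∃ g : ℝ × ℝ → ℝ, TestOn D g ∧ (∀ z, |f z| ≤ g z) ∧
        ∫ z, g z ^ 2 ≤ (∫ z, f z ^ 2) + ε) :
    ∃ C : ℝ, 0 ≤ C ∧ ∀ D : Set (ℝ × ℝ), IsOpen D → D ⊆ Metric.ball 0 R →
      ∀ f : ℝ × ℝ → ℝ, TestOn D f → ∀ ε : ℝ, 0 < ε → ∀ᶠ n in atTop,
        ∫ ω, hB (B n) (δ n) f ω ^ 2 ∂(μ n D) ≤ C * (∫ z, f z ^ 2) + ε := by
  obtain ⟨C, hC0, hC⟩ := S.inp.l2 R S.Rpos
  refine ⟨C, hC0, fun D hDo hD f hf ε hε => ?_⟩
  obtain ⟨g, hg, hfg, hI⟩ := hdom hDo (Metric.isBounded_ball.subset hD) hf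
    (show 0 < ε / (2 * (C + 1)) by (clear * - hε hC0; positivity))
  have hg0 : ∀ z, 0 ≤ g z := fun z => (abs_nonneg _).trans (hfg z)
  filter_upwards [hC D hDo hD g (hg.mono hD) hg0 (ε / 2) (by positivity)] with n hn
  rw [← S.ee n D (fun ω => hv (δ n) g ω ^ 2)] at hn
  have h1 : ∫ ω, hv (δ n) g ω ^ 2 ∂(μ n D) = ∫ ω, hB (B n) (δ n) g ω ^ 2 ∂(μ n D) := by
    congr 1; funext ω; rw [S.hvB n g (S.supp hD hg) ω]
  rw [h1] at hn
  have h2 := (S.pos n D).sq_le (B := B n) (δ := δ n) hfg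
  have h3 : C * (ε / (2 * (C + 1))) ≤ ε / 2 := by
    have : C * (ε / (2 * (C + 1))) = ε / 2 * (C / (C + 1)) := by field_simp
    rw [this]
    have : C / (C + 1) ≤ 1 := by rw [div_le_one (by linarith only [hC0])]; linarith only []
    have h5 : 0 < ε / 2 := by positivity
    nlinarith only [hε, this]
  have h4 := mul_le_mul_of_nonneg_left hI hC0
  rw [mul_add] at h4
  linarith

/-- A good parameter: the moments of `f0` vary little around it. -/
def Good (δ : ℕ → ℝ) (B : ℕ → Finset (ℤ × ℤ)) (f0 : ℝ × ℝ → ℝ)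
    (μ : ℕ → Set (ℝ × ℝ) → Measure Om) (a b : ℝ) (D : ℝ → Set (ℝ × ℝ)) (U : Ultrafilter ℕ)
    (s : ℝ) : Prop :=
  ∀ (K : ℕ) (ε : ℝ), 0 < ε → ∀ t ∈ Ioo a b, t < s → ∃ s₁ ∈ Ioo a b, ∃ s₂ ∈ Ioo a b,
    t < s₁ ∧ s₁ < s ∧ s < s₂ ∧ ∀ k ≤ K, ∀ᶠ n in (U : Filter ℕ),
      (∫ ω, hB (B n) (δ n) f0 ω ^ k ∂(μ n (D s₂))) - ∫ ω, hB (B n) (δ n) f0 ω ^ k ∂(μ n (D s₁)) ≤ ε

theorem Setup.exists_good (S : Setup c κ δ R B f0 μ) {a b : ℝ} {D : ℝ → Set (ℝ × ℝ)}
    (hN : Nest a b D) (hR : ∀ s ∈ Ioo a b, D s ⊆ Metric.ball 0 R) {U : Ultrafilter ℕ}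
    (hU : (U : Filter ℕ) ≤ atTop) : ∃ s ∈ Ioo a b, Good δ B f0 μ a b D U s := by
  set m : ℕ → ℝ → ℝ := fun k s => lm U fun n => ∫ ω, hB (B n) (δ n) f0 ω ^ k ∂(μ n (D s)) with hm
  have ht : ∀ k, ∀ s ∈ Ioo a b,
      Tendsto (fun n => ∫ ω, hB (B n) (δ n) f0 ω ^ k ∂(μ n (D s))) U (𝓝 (m k s)) := by
    intro k s hs
    obtain ⟨C, hC⟩ := S.bdd_pow (hN.op s hs) (hR s hs) S.f0t.2.1 S.f0t.1 S.supp0 S.f00 k
    refine tend_lm (C := C) ?_
    filter_upwards [hU hC] with n hn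
    rw [abs_of_nonneg ((S.pos n _).pow_nonneg S.f00 k)]
    exact hn
  have hsub : ∀ s ∈ Ioo a b, ∀ t ∈ Ioo a b, s ≤ t → D s ⊆ D t := by
    intro s hs t ht' hst
    rcases hst.eq_or_lt with h | h
    · rw [h]
    · exact subset_closure.trans (hN.nest s hs t ht' h)
  have hmono : ∀ k, MonotoneOn (m k) (Ioo a b) := by
    intro k s hs t ht' hst
    refine le_of_tendsto_of_tendsto' (ht k s hs) (ht k t ht') fun n => ?_
    exact pow_mono' (S.pos n _).mom (S.pos n _).mom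
      (S.mono n _ _ (hsub s hs t ht' hst) (hR t ht')) S.f00 k
  have hcount : (⋃ k, {s ∈ Ioo a b | ¬ ContinuousWithinAt (m k) (Ioo a b) s}).Countable :=
    countable_iUnion fun k => (hmono k).countable_not_continuousWithinAt
  obtain ⟨s, hs, hs'⟩ : ∃ s ∈ Ioo a b,
      s ∉ ⋃ k, {s ∈ Ioo a b | ¬ ContinuousWithinAt (m k) (Ioo a b) s} := by
    by_contra hcon
    push Not at hcon
    exact absurd (Cardinal.Real.Ioo_countable_iff.1 (hcount.mono hcon)) (not_le.2 hN.lt)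
  have hc : ∀ k, ContinuousAt (m k) s := by
    intro k
    have h1 : ContinuousWithinAt (m k) (Ioo a b) s := by
      by_contra h
      exact hs' (mem_iUnion.2 ⟨k, hs, h⟩)
    exact h1.continuousAt (isOpen_Ioo.mem_nhds hs)
  refine ⟨s, hs, fun K ε hε t htab hts => ?_⟩
  have hev : ∀ᶠ u in 𝓝 s, ∀ k ∈ Finset.range (K + 1), |m k u - m k s| < ε / 4 := by
    rw [Filter.eventually_all_finset]
    intro k _
    have := Metric.tendsto_nhds.1 (hc k) (ε / 4) (by (clear * - hε; positivity))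
    simpa only [Real.dist_eq] using this
  obtain ⟨r, hr, hball⟩ := Metric.eventually_nhds_iff.1 hev
  set s₁ : ℝ := max ((t + s) / 2) (s - r / 2) with hs1
  set s₂ : ℝ := min ((s + b) / 2) (s + r / 2) with hs2
  have e1 : t < s₁ := lt_of_lt_of_le (by linarith only [hts]) (le_max_left _ _)
  have e2 : s₁ < s := max_lt (by linarith only [hts]) (by linarith only [hr])
  have e3 : s < s₂ := lt_min (by linarith only [hs.2]) (by linarith only [hr])
  have e4 : s₂ < b := lt_of_le_of_lt (min_le_left _ _) (by linarith only [hs.2])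
  have h1 : s₁ ∈ Ioo a b := ⟨htab.1.trans e1, e2.trans hs.2⟩
  have h2 : s₂ ∈ Ioo a b := ⟨hs.1.trans e3, e4⟩
  refine ⟨s₁, h1, s₂, h2, e1, e2, e3, fun k hk => ?_⟩
  have d1 := hball (y := s₁) (by
    rw [Real.dist_eq, abs_lt]
    exact ⟨by linarith only [e2, le_max_right ((t + s) / 2) (s - r / 2)], by linarith only [hr, e2]⟩) k
    (Finset.mem_range.2 (by (clear * - hk; omega)))
  have d2 := hball (y := s₂) (by
    rw [Real.dist_eq, abs_lt]
    exact ⟨by linarith only [hr, e3], by linarith only [e3, min_le_right ((s + b) / 2) (s + r / 2)]⟩) k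
    (Finset.mem_range.2 (by omega))
  rw [abs_lt] at d1 d2
  have h3 := (ht k s₂ h2).sub (ht k s₁ h1)
  have h4 := h3.eventually (gt_mem_nhds (show m k s₂ - m k s₁ < ε by linarith only [d1, d2]))
  filter_upwards [h4] with n hn using hn.le

end

end Vale.Agent.P145.Top
end

section

/-!
The Schwinger-Dyson equation in `D s` for a good parameter `s`, in a cell.
-/

namespace Vale.Agent.P145.Top

open Filter Topology Set MeasureTheory
open Vale.Agent.P145.PT Vale.Agent.P145.FP Vale.Agent.P145.Dom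

section

variable {c κ : ℝ} {δ : ℕ → ℝ} {R : ℝ} {B : ℕ → Finset (ℤ × ℤ)} {f0 : ℝ × ℝ → ℝ}
  {μ : ℕ → Set (ℝ × ℝ) → Measure Om}

theorem ccell_closed (a b a' b' : ℝ) : IsClosed (ccell a b a' b') := by
  have h : ccell a b a' b' = {z : ℝ × ℝ | a ≤ z.1 + z.2} ∩ {z | z.1 + z.2 ≤ b} ∩
      {z | a' ≤ z.1 - z.2} ∩ {z | z.1 - z.2 ≤ b'} := by
    ext z
    simp only [ccell, mem_ofPred_eq, mem_inter_iff]
    tauto
  rw [h]
  exact (((isClosed_le continuous_const (continuous_fst.add continuous_snd)).inter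
    (isClosed_le (continuous_fst.add continuous_snd) continuous_const)).inter
    (isClosed_le continuous_const (continuous_fst.sub continuous_snd))).inter
    (isClosed_le (continuous_fst.sub continuous_snd) continuous_const)

theorem cell_sub_ccell (a b a' b' : ℝ) : cell a b a' b' ⊆ ccell a b a' b' :=
  fun _ h => ⟨h.1.le, h.2.1.le, h.2.2.1.le, h.2.2.2.le⟩

/-- The error in the Schwinger-Dyson equation. -/
noncomputable def sdE (κ : ℝ) (B : Finset (ℤ × ℤ)) (δ : ℝ) (μ : Measure Om) (ψ f : ℝ × ℝ → ℝ)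
    (k : ℕ) : ℝ :=
  (∫ ω, hB B δ (lap ψ) ω * hB B δ f ω ^ (k + 1) ∂μ) +
    κ * (k + 1) * (∫ z, ψ z * f z) * ∫ ω, hB B δ f ω ^ k ∂μ

/-- The comparison of two states on a list. -/
theorem close_of_sandwich {x e e₁ e₂ d η : ℝ} (h1 : e₁ ≤ x + η) (h2 : x ≤ e₂ + η) (h3 : e₁ ≤ e)
    (h4 : e ≤ e₂) (h5 : e₂ - e₁ ≤ d) (hη : 0 ≤ η) : |e - x| ≤ d + η := by
  rw [abs_le]
  constructor <;> linarith only [h1, h4, h5, h2, h3]

theorem Setup.sd_cell (S : Setup c κ δ R B f0 μ)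
    (hpp : ∀ {D : Set (ℝ × ℝ)}, IsOpen D → Bornology.IsBounded D → ∀ {f : ℝ × ℝ → ℝ},
      TestOn D f → D ⊆ Metric.ball (0 : ℝ × ℝ) R → ∃ (p m : ℝ × ℝ → ℝ) (C : ℝ), 0 ≤ C ∧
        TestOn D p ∧ TestOn D m ∧ (∀ z, 0 ≤ p z ∧ p z ≤ C * f0 z) ∧
        (∀ z, 0 ≤ m z ∧ m z ≤ C * f0 z) ∧ ∀ z, f z = p z - m z)
    {a b : ℝ} {D : ℝ → Set (ℝ × ℝ)}
    (hN : Nest a b D) (hR : ∀ s ∈ Ioo a b, D s ⊆ Metric.ball 0 R) {U : Ultrafilter ℕ}
    (hU : (U : Filter ℕ) ≤ atTop) {s : ℝ} (hs : s ∈ Ioo a b) (hG : Good δ B f0 μ a b D U s)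
    {x y x' y' : ℝ} (hxy : x < y) (hxy' : x' < y') (hcc : ccell x y x' y' ⊆ D s)
    {ψ f : ℝ × ℝ → ℝ} (hψ : TestOn (cell x y x' y') ψ) (hf : TestOn (D s) f)
    (hf0 : ∀ z, 0 ≤ f z) (k : ℕ) {ε : ℝ} (hε : 0 < ε) :
    ∀ᶠ n in (U : Filter ℕ), |sdE κ (B n) (δ n) (μ n (D s)) ψ f k| ≤ ε := by
  have hsub : ∀ s ∈ Ioo a b, ∀ t ∈ Ioo a b, s ≤ t → D s ⊆ D t := by
    intro s hs t ht' hst
    rcases hst.eq_or_lt with h | h
    · rw [h]
    · exact subset_closure.trans (hN.nest s hs t ht' h)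
  have hKc : IsCompact (ccell x y x' y' ∪ tsupport f) :=
    (Metric.isCompact_of_isClosed_isBounded (ccell_closed _ _ _ _)
      ((hN.bdd s hs).subset hcc)).union hf.2.1
  obtain ⟨t, ht, hts, hKt⟩ := hN.exh s hs _ (union_subset hcc hf.2.2) hKc
  have hcct : ccell x y x' y' ⊆ D t := subset_union_left.trans hKt
  have hft : TestOn (D t) f := ⟨hf.1, hf.2.1, subset_union_right.trans hKt⟩
  have hψt : TestOn (D t) ψ := hψ.mono ((cell_sub_ccell _ _ _ _).trans hcct)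
  obtain ⟨p, m, C₁, hC₁, hp, hm, hp', hm', hpm⟩ := hpp (hN.op t ht) (hN.bdd t ht) hψt.lap (hR t ht)
  obtain ⟨C₂, hC₂, hfC⟩ := S.le_f0 (hR t ht) hft
  set C : ℝ := C₁ + C₂ with hC
  have hC0 : 0 ≤ C := by (clear * - hC₁ hC₂; positivity)
  have hpC : ∀ z, 0 ≤ p z ∧ p z ≤ C * f0 z := fun z =>
    ⟨(hp' z).1, (hp' z).2.trans (mul_le_mul_of_nonneg_right (by linarith only [hC₂]) (S.f00 z))⟩
  have hmC : ∀ z, 0 ≤ m z ∧ m z ≤ C * f0 z := fun z =>
    ⟨(hm' z).1, (hm' z).2.trans (mul_le_mul_of_nonneg_right (by linarith only [hC₂]) (S.f00 z))⟩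
  have hfC' : ∀ z, 0 ≤ f z ∧ f z ≤ C * f0 z := fun z =>
    ⟨hf0 z, ((le_abs_self _).trans (hfC z)).trans
      (mul_le_mul_of_nonneg_right (by linarith only [hC₁]) (S.f00 z))⟩
  set lp : List (ℝ × ℝ → ℝ) := p :: List.replicate (k + 1) f with hlp
  set lq : List (ℝ × ℝ → ℝ) := m :: List.replicate (k + 1) f with hlq
  set lk : List (ℝ × ℝ → ℝ) := List.replicate k f with hlk
  set q : ℝ := κ * (k + 1) * ∫ z, ψ z * f z with hq
  have dlp : ∀ g ∈ lp, ∀ z, 0 ≤ g z ∧ g z ≤ C * f0 z := by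
    intro g hg
    rw [hlp, List.mem_cons] at hg
    rcases hg with rfl | hg
    · exact hpC
    · rw [List.eq_of_mem_replicate hg]; exact hfC'
  have dlq : ∀ g ∈ lq, ∀ z, 0 ≤ g z ∧ g z ≤ C * f0 z := by
    intro g hg
    rw [hlq, List.mem_cons] at hg
    rcases hg with rfl | hg
    · exact hmC
    · rw [List.eq_of_mem_replicate hg]; exact hfC'
  have dlk : ∀ g ∈ lk, ∀ z, 0 ≤ g z ∧ g z ≤ C * f0 z := by
    intro g hg
    rw [List.eq_of_mem_replicate hg]; exact hfC'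
  have tlp : ∀ g ∈ lp, TestOn (D t) g := by
    intro g hg
    rw [hlp, List.mem_cons] at hg
    rcases hg with rfl | hg
    · exact hp
    · rw [List.eq_of_mem_replicate hg]; exact hft
  have tlq : ∀ g ∈ lq, TestOn (D t) g := by
    intro g hg
    rw [hlq, List.mem_cons] at hg
    rcases hg with rfl | hg
    · exact hm
    · rw [List.eq_of_mem_replicate hg]; exact hft
  have tlk : ∀ g ∈ lk, TestOn (D t) g := by
    intro g hg
    rw [List.eq_of_mem_replicate hg]; exact hft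
  have llp : lp.length = k + 2 := by rw [hlp]; simp
  have llq : lq.length = k + 2 := by rw [hlq]; simp
  have llk : lk.length = k := by rw [hlk]; simp
  -- choice of the parameters
  set Λ : ℝ := 2 * C ^ (k + 2) + |q| * C ^ k + 1 with hΛ
  have hΛ0 : 0 < Λ := by (clear * - hC₁ hC₂; positivity)
  obtain ⟨s₁, h1, s₂, h2, e1, e2, e3, hdiff⟩ := hG (k + 2) (ε / (3 * Λ)) (by (clear * - hε hC₁ hC₂; positivity)) t ht hts
  have hts1 : D t ⊆ D s₁ := hsub t ht s₁ h1 e1.le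
  set Θ : ℝ := 3 + |q| with hΘ
  have hΘ0 : 0 < Θ := by (clear * -; positivity)
  obtain ⟨ν, hν, hsand, hsd⟩ := S.inp.xst (D s₁) (D s₂) (hN.op _ h1) (hN.op _ h2) (hN.bdd _ h2)
    (hN.nest s₁ h1 s₂ h2 (e2.trans e3)) x y x' y' hxy hxy' (hcct.trans (hsub t ht s₁ h1 e1.le))
    ψ f k hψ (hft.mono hts1) hf0 [lp, lq, lk] (by
      intro l hl' g hg
      simp only [List.mem_cons, List.not_mem_nil, or_false] at hl'
      rcases hl' with rfl | rfl | rfl
      · exact ⟨(tlp g hg).mono hts1, fun z => (dlp g hg z).1⟩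
      · exact ⟨(tlq g hg).mono hts1, fun z => (dlq g hg z).1⟩
      · exact ⟨(tlk g hg).mono hts1, fun z => (dlk g hg z).1⟩)
    (ε / (3 * Θ)) (by (clear * - hε; positivity))
  have sp := hsand lp (by simp)
  have sq := hsand lq (by simp)
  have sk := hsand lk (by simp)
  filter_upwards [hU sp, hU sq, hU sk, hU hsd, hdiff (k + 2) le_rfl, hdiff k (by omega), hU hν]
    with n hp1 hq1 hk1 hsd1 hd2 hdk hνn
  -- rewrite everything in terms of `hB`
  have eqX : ∀ l : List (ℝ × ℝ → ℝ), (∀ g ∈ l, TestOn (D t) g) →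
      ∀ ρ : Measure Om, ∫ ω, hvl (δ n) l ω ∂ρ = ∫ ω, hl (B n) (δ n) l ω ∂ρ := by
    intro l hl' ρ
    congr 1
    funext ω
    exact S.hvl_eq (hR t ht) n hl' ω
  rw [← S.ee, ← S.ee, eqX lp tlp, eqX lp tlp, eqX lp tlp] at hp1
  rw [← S.ee, ← S.ee, eqX lq tlq, eqX lq tlq, eqX lq tlq] at hq1
  rw [← S.ee, ← S.ee, eqX lk tlk, eqX lk tlk, eqX lk tlk] at hk1
  have mm : ∀ l : List (ℝ × ℝ → ℝ), (∀ g ∈ l, ∀ z, 0 ≤ g z) →
      ∫ ω, hl (B n) (δ n) l ω ∂(μ n (D s₁)) ≤ ∫ ω, hl (B n) (δ n) l ω ∂(μ n (D s)) ∧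
      ∫ ω, hl (B n) (δ n) l ω ∂(μ n (D s)) ≤ ∫ ω, hl (B n) (δ n) l ω ∂(μ n (D s₂)) := fun l hl' =>
    ⟨hl_mono (S.pos _ _).mom (S.pos _ _).mom
      (S.mono n _ _ (hsub _ h1 _ hs e2.le) (hR _ hs)) l hl',
     hl_mono (S.pos _ _).mom (S.pos _ _).mom
      (S.mono n _ _ (hsub _ hs _ h2 e3.le) (hR _ h2)) l hl'⟩
  have dd' : ∀ l : List (ℝ × ℝ → ℝ), (∀ g ∈ l, ∀ z, 0 ≤ g z ∧ g z ≤ C * f0 z) →
      (∫ ω, hl (B n) (δ n) l ω ∂(μ n (D s₂))) - ∫ ω, hl (B n) (δ n) l ω ∂(μ n (D s₁)) ≤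
      C ^ l.length * ((∫ ω, hB (B n) (δ n) f0 ω ^ l.length ∂(μ n (D s₂))) -
        ∫ ω, hB (B n) (δ n) f0 ω ^ l.length ∂(μ n (D s₁))) := fun l hl' =>
    dom_diff (S.pos _ _).mom (S.pos _ _).mom
      (S.mono n _ _ (hsub _ h1 _ h2 (e2.trans e3).le) (hR _ h2)) S.f00 hC0 l hl'
  have cp := close_of_sandwich hp1.1 hp1.2 (mm lp fun g hg z => (dlp g hg z).1).1
    (mm lp fun g hg z => (dlp g hg z).1).2 (dd' lp dlp) (by (clear * - hε; positivity))
  have cq := close_of_sandwich hq1.1 hq1.2 (mm lq fun g hg z => (dlq g hg z).1).1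
    (mm lq fun g hg z => (dlq g hg z).1).2 (dd' lq dlq) (by (clear * - hε; positivity))
  have ck := close_of_sandwich hk1.1 hk1.2 (mm lk fun g hg z => (dlk g hg z).1).1
    (mm lk fun g hg z => (dlk g hg z).1).2 (dd' lk dlk) (by (clear * - hε; positivity))
  rw [llp] at cp
  rw [llq] at cq
  rw [llk] at ck
  -- the identities
  have hlapB : ∀ ω, hv (δ n) (lap ψ) ω = hB (B n) (δ n) (lap ψ) ω :=
    S.hvB n _ (S.supp (hR t ht) hψt.lap)
  have hfB : ∀ ω, hv (δ n) f ω = hB (B n) (δ n) f ω := S.hvB n _ (S.supp (hR t ht) hft)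
  have hlapω : ∀ ω, hB (B n) (δ n) (lap ψ) ω * hB (B n) (δ n) f ω ^ (k + 1) =
      hl (B n) (δ n) lp ω - hl (B n) (δ n) lq ω := by
    intro ω
    have e : lap ψ = fun z => p z - m z := funext hpm
    rw [e, hB_sub, hlp, hlq, hl_cons, hl_cons, hl_replicate]
    ring
  have idX : ∀ ρ : Measure Om, Mom ρ →
      (∫ ω, hB (B n) (δ n) (lap ψ) ω * hB (B n) (δ n) f ω ^ (k + 1) ∂ρ) +
        κ * (k + 1) * (∫ z, ψ z * f z) * ∫ ω, hB (B n) (δ n) f ω ^ k ∂ρ =
      (∫ ω, hl (B n) (δ n) lp ω ∂ρ) - (∫ ω, hl (B n) (δ n) lq ω ∂ρ) +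
        q * ∫ ω, hl (B n) (δ n) lk ω ∂ρ := by
    intro ρ hρ
    have e1 : ∫ ω, hB (B n) (δ n) (lap ψ) ω * hB (B n) (δ n) f ω ^ (k + 1) ∂ρ =
        (∫ ω, hl (B n) (δ n) lp ω ∂ρ) - ∫ ω, hl (B n) (δ n) lq ω ∂ρ := by
      rw [← integral_sub (hρ.integrable (alg_hl _)) (hρ.integrable (alg_hl _))]
      congr 1
      funext ω
      exact hlapω ω
    have e2 : ∫ ω, hl (B n) (δ n) lk ω ∂ρ = ∫ ω, hB (B n) (δ n) f ω ^ k ∂ρ := by
      congr 1
      funext ω
      rw [hlk, hl_replicate]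
    rw [e1, e2]
  have eG : ∫ ω, hv (δ n) (lap ψ) ω * hv (δ n) f ω ^ (k + 1) ∂(ν n) +
        κ * (k + 1) * (∫ z, ψ z * f z) * ∫ ω, hv (δ n) f ω ^ k ∂(ν n) =
      (∫ ω, hl (B n) (δ n) lp ω ∂(ν n)) - (∫ ω, hl (B n) (δ n) lq ω ∂(ν n)) +
        q * ∫ ω, hl (B n) (δ n) lk ω ∂(ν n) := by
    rw [← idX (ν n) hνn]
    simp_rw [hlapB, hfB]
  rw [eG] at hsd1
  unfold sdE
  rw [idX _ (S.pos n _).mom]
  set P := ∫ ω, hl (B n) (δ n) lp ω ∂(μ n (D s)) with hP
  set Q := ∫ ω, hl (B n) (δ n) lq ω ∂(μ n (D s)) with hQ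
  set K := ∫ ω, hl (B n) (δ n) lk ω ∂(μ n (D s)) with hK
  set P' := ∫ ω, hl (B n) (δ n) lp ω ∂(ν n) with hP'
  set Q' := ∫ ω, hl (B n) (δ n) lq ω ∂(ν n) with hQ'
  set K' := ∫ ω, hl (B n) (δ n) lk ω ∂(ν n) with hK'
  set ε₁ : ℝ := ε / (3 * Λ) with hε₁
  set η : ℝ := ε / (3 * Θ) with hη
  have hε₁0 : 0 < ε₁ := by (clear * - hε hC₁ hC₂; positivity)
  have hη0 : 0 < η := by (clear * - hε; positivity)
  have cp' : |P - P'| ≤ C ^ (k + 2) * ε₁ + η :=
    cp.trans (by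
      have := mul_le_mul_of_nonneg_left hd2 (pow_nonneg hC0 (k + 2))
      linarith only [this])
  have cq' : |Q - Q'| ≤ C ^ (k + 2) * ε₁ + η :=
    cq.trans (by
      have := mul_le_mul_of_nonneg_left hd2 (pow_nonneg hC0 (k + 2))
      linarith only [this])
  have ck' : |K - K'| ≤ C ^ k * ε₁ + η :=
    ck.trans (by
      have := mul_le_mul_of_nonneg_left hdk (pow_nonneg hC0 k)
      linarith only [this])
  have tri : |P - Q + q * K| ≤ |P - P'| + |Q - Q'| + |q| * |K - K'| + |P' - Q' + q * K'| := by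
    have e : P - Q + q * K = (P - P') - (Q - Q') + q * (K - K') + (P' - Q' + q * K') := by ring
    rw [e]
    refine (abs_add_le _ _).trans (add_le_add ?_ le_rfl)
    refine (abs_add_le _ _).trans (add_le_add ?_ (abs_mul _ _).le)
    exact abs_sub _ _
  refine tri.trans ?_
  have f1 := mul_le_mul_of_nonneg_left ck' (abs_nonneg q)
  have f2 : Λ * ε₁ = ε / 3 := by rw [hε₁]; (clear * - hΛ0 hε; field_simp)
  have f3 : Θ * η = ε / 3 := by rw [hη]; (clear * - hΘ0 hε; field_simp)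
  have f4 : Λ * ε₁ = 2 * (C ^ (k + 2) * ε₁) + |q| * (C ^ k * ε₁) + ε₁ := by rw [hΛ]; ring
  have f5 : Θ * η = η + η + |q| * η + η := by rw [hΘ]; ring
  have f6 : |q| * (C ^ k * ε₁ + η) = |q| * (C ^ k * ε₁) + |q| * η := by ring
  linarith only [hε, hsd1, hε₁0, cp', cq', f1, f2, f3]

end

end Vale.Agent.P145.Top
end

section

/-!
The identification of the limit for a good parameter.
-/

namespace Vale.Agent.P145.Top

open Filter Topology Set MeasureTheory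
open Vale.Agent.P145.PT Vale.Agent.P145.FP Vale.Agent.P145.Dom

theorem lap_zero' (z : ℝ × ℝ) : lap (fun _ => (0 : ℝ)) z = 0 := by
  have h : Sm (fun _ : ℝ × ℝ => (0 : ℝ)) := contDiff_const
  have := lap_smul h 0 z
  simpa using this

theorem lap_sum {ι : Type*} (s : Finset ι) (g : ι → ℝ × ℝ → ℝ) (hg : ∀ i ∈ s, Sm (g i))
    (z : ℝ × ℝ) : lap (fun z => ∑ i ∈ s, g i z) z = ∑ i ∈ s, lap (g i) z := by
  classical
  induction s using Finset.induction_on with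
  | empty => simpa using lap_zero' z
  | insert a s ha ih =>
    have e : (fun z => ∑ i ∈ insert a s, g i z) = fun z => g a z + ∑ i ∈ s, g i z := by
      funext z; rw [Finset.sum_insert ha]
    rw [e, Finset.sum_insert ha, lap_add (hg a (Finset.mem_insert_self _ _)) ?_,
      ih fun i hi => hg i (Finset.mem_insert_of_mem hi)]
    exact ContDiff.sum fun i hi => hg i (Finset.mem_insert_of_mem hi)

theorem hB_sum {B : Finset (ℤ × ℤ)} {δ : ℝ} {ι : Type*} (s : Finset ι) (g : ι → ℝ × ℝ → ℝ)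
    (ω : Om) : hB B δ (fun z => ∑ i ∈ s, g i z) ω = ∑ i ∈ s, hB B δ (g i) ω := by
  unfold hB
  rw [← Finset.mul_sum, Finset.sum_comm]
  congr 1
  exact Finset.sum_congr rfl fun v _ => Finset.mul_sum _ _ _

theorem sdE_sum {κ : ℝ} {B : Finset (ℤ × ℤ)} {δ : ℝ} {μ : Measure Om} (hμ : Mom μ)
    {D : Set (ℝ × ℝ)} {ι : Type*} (s : Finset ι) (g : ι → ℝ × ℝ → ℝ) (hg : ∀ i ∈ s, TestOn D (g i))
    {f : ℝ × ℝ → ℝ} (hf : Continuous f) (k : ℕ) :
    sdE κ B δ μ (fun z => ∑ i ∈ s, g i z) f k = ∑ i ∈ s, sdE κ B δ μ (g i) f k := by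
  unfold sdE
  have e1 : lap (fun z => ∑ i ∈ s, g i z) = fun z => ∑ i ∈ s, lap (g i) z :=
    funext fun z => lap_sum s g (fun i hi => (hg i hi).sm) z
  have e2 : ∫ ω, hB B δ (lap fun z => ∑ i ∈ s, g i z) ω * hB B δ f ω ^ (k + 1) ∂μ =
      ∑ i ∈ s, ∫ ω, hB B δ (lap (g i)) ω * hB B δ f ω ^ (k + 1) ∂μ := by
    rw [← integral_finsetSum _ fun i _ => hμ.integrable (Alg.mul alg_hB (alg_hB.pow (k + 1)))]
    congr 1
    funext ω
    rw [e1, hB_sum, Finset.sum_mul]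
  have e3 : ∫ z, (∑ i ∈ s, g i z) * f z = ∑ i ∈ s, ∫ z, g i z * f z := by
    rw [← integral_finsetSum _ fun i hi => (hg i hi).intMul hf]
    congr 1
    funext z
    rw [Finset.sum_mul]
  rw [e2, e3, Finset.sum_add_distrib, Finset.mul_sum, Finset.sum_mul]

theorem sq_limit {U : Ultrafilter ℕ} {x : ℕ → ℝ} {A a C : ℝ} (hC : 0 ≤ C)
    (hx : Tendsto x U (𝓝 A))
    (h : ∀ ε : ℝ, 0 < ε → ∀ᶠ n in (U : Filter ℕ), x n ^ 2 ≤ (a + ε) * C) : A ^ 2 ≤ a * C := by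
  refine le_of_forall_pos_le_add fun η hη => ?_
  have h1 := h (η / (C + 1)) (by positivity)
  have h2 : A ^ 2 ≤ (a + η / (C + 1)) * C := le_of_tendsto (hx.pow 2) h1
  have h3 : η / (C + 1) * C ≤ η := by
    rw [div_mul_eq_mul_div, div_le_iff₀ (by linarith only [hC])]
    nlinarith only [hη]
  rw [add_mul] at h2
  linarith only [h2, h3]

section

variable {c κ : ℝ} {δ : ℕ → ℝ} {R : ℝ} {B : ℕ → Finset (ℤ × ℤ)} {f0 : ℝ × ℝ → ℝ}
  {μ : ℕ → Set (ℝ × ℝ) → Measure Om}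

/-- The facts about a fixed domain and a fixed ultrafilter which are used below. -/
structure Fix (κ : ℝ) (δ : ℕ → ℝ) (B : ℕ → Finset (ℤ × ℤ)) (μ : ℕ → Measure Om)
    (D : Set (ℝ × ℝ)) (U : Ultrafilter ℕ) : Prop where
  κpos : 0 < κ
  op : IsOpen D
  bdd : Bornology.IsBounded D
  pos : ∀ n, Pos (μ n)
  mean : ∀ n u, ∫ ω, ω u ∂(μ n) = 0
  mb : ∀ f, TestOn D f → (∀ z, 0 ≤ f z) → ∀ k : ℕ, ∃ C : ℝ, ∀ᶠ n in (U : Filter ℕ),
    ∫ ω, hB (B n) (δ n) f ω ^ k ∂(μ n) ≤ C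
  l2 : ∃ C : ℝ, 0 ≤ C ∧ ∀ f, TestOn D f → ∀ ε : ℝ, 0 < ε → ∀ᶠ n in (U : Filter ℕ),
    ∫ ω, hB (B n) (δ n) f ω ^ 2 ∂(μ n) ≤ C * (∫ z, f z ^ 2) + ε
  dec : ∀ f, TestOn D f → (∀ z, 0 ≤ f z) → ∀ (k : ℕ) (ε : ℝ), 0 < ε → ∃ r : ℝ, 0 < r ∧
    ∀ x ∈ D, dd D x < r → ∀ᶠ n in (U : Filter ℕ),
      ∫ ω, hB (B n) (δ n) (bump (dd D x / 2) x) ω * hB (B n) (δ n) f ω ^ k ∂(μ n) ≤ ε
  sd : ∀ ψ f, TestOn D ψ → TestOn D f → (∀ z, 0 ≤ f z) → ∀ k : ℕ,
    Tendsto (fun n => sdE κ (B n) (δ n) (μ n) ψ f k) U (𝓝 0)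

variable {ρ : ℕ → Measure Om} {D : Set (ℝ × ℝ)} {U : Ultrafilter ℕ}

theorem Fix.tend_mixed (F : Fix κ δ B ρ D U) {g f : ℝ × ℝ → ℝ} (hg : TestOn D g)
    (hf : TestOn D f) (hf0 : ∀ z, 0 ≤ f z) (k : ℕ) :
    Tendsto (fun n => ∫ ω, hB (B n) (δ n) g ω * hB (B n) (δ n) f ω ^ k ∂(ρ n)) U
      (𝓝 (lm U fun n => ∫ ω, hB (B n) (δ n) g ω * hB (B n) (δ n) f ω ^ k ∂(ρ n))) := by
  obtain ⟨C₂, hC₂, h2⟩ := F.l2
  obtain ⟨C', hC'⟩ := F.mb f hf hf0 (2 * k)
  refine tend_lm (C := Real.sqrt ((C₂ * (∫ z, g z ^ 2) + 1) * C')) ?_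
  filter_upwards [h2 g hg 1 one_pos, hC'] with n h3 h4
  refine Real.abs_le_sqrt (((F.pos n).mixed_sq_le g f k).trans ?_)
  exact mul_le_mul h3 h4 ((F.pos n).pow_nonneg hf0 _)
    ((integral_nonneg fun ω => sq_nonneg _).trans h3)

theorem Fix.tend_pair (F : Fix κ δ B ρ D U) {g f : ℝ × ℝ → ℝ} (hg : TestOn D g)
    (hf : TestOn D f) :
    Tendsto (fun n => ∫ ω, hB (B n) (δ n) g ω * hB (B n) (δ n) f ω ∂(ρ n)) U
      (𝓝 (lm U fun n => ∫ ω, hB (B n) (δ n) g ω * hB (B n) (δ n) f ω ∂(ρ n))) := by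
  obtain ⟨C₂, hC₂, h2⟩ := F.l2
  refine tend_lm (C := Real.sqrt ((C₂ * (∫ z, g z ^ 2) + 1) * (C₂ * (∫ z, f z ^ 2) + 1))) ?_
  filter_upwards [h2 g hg 1 one_pos, h2 f hf 1 one_pos] with n h3 h4
  refine Real.abs_le_sqrt (((F.pos n).mom.cs alg_hB alg_hB).trans ?_)
  exact mul_le_mul h3 h4 (integral_nonneg fun ω => sq_nonneg _)
    ((integral_nonneg fun ω => sq_nonneg _).trans h3)

theorem Fix.tend_pow (F : Fix κ δ B ρ D U) {f : ℝ × ℝ → ℝ}
    (hf : TestOn D f) (hf0 : ∀ z, 0 ≤ f z) (k : ℕ) :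
    Tendsto (fun n => ∫ ω, hB (B n) (δ n) f ω ^ k ∂(ρ n)) U
      (𝓝 (lm U fun n => ∫ ω, hB (B n) (δ n) f ω ^ k ∂(ρ n))) := by
  obtain ⟨C', hC'⟩ := F.mb f hf hf0 k
  refine tend_lm (C := C') ?_
  filter_upwards [hC'] with n h4
  rw [abs_of_nonneg ((F.pos n).pow_nonneg hf0 _)]
  exact h4

theorem Fix.l2fn_mixed (F : Fix κ δ B ρ D U) {f : ℝ × ℝ → ℝ}
    (hf : TestOn D f) (hf0 : ∀ z, 0 ≤ f z) (k : ℕ) :
    ∃ C, L2Fn D (fun g => lm U fun n =>
      ∫ ω, hB (B n) (δ n) g ω * hB (B n) (δ n) f ω ^ k ∂(ρ n)) C := by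
  obtain ⟨C₂, hC₂, h2⟩ := F.l2
  obtain ⟨C', hC'⟩ := F.mb f hf hf0 (2 * k)
  have hC'' : ∀ᶠ n in (U : Filter ℕ), ∫ ω, hB (B n) (δ n) f ω ^ (2 * k) ∂(ρ n) ≤ max C' 0 := by
    filter_upwards [hC'] with n h using h.trans (le_max_left _ _)
  refine ⟨Real.sqrt (C₂ * max C' 0), ?_, ?_, ?_⟩
  · intro g g' hg hg'
    refine lm_eq ?_
    refine ((F.tend_mixed hg hf hf0 k).add (F.tend_mixed hg' hf hf0 k)).congr fun n => ?_
    rw [← integral_add ((F.pos n).mom.integrable (Alg.mul alg_hB (alg_hB.pow k)))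
      ((F.pos n).mom.integrable (Alg.mul alg_hB (alg_hB.pow k)))]
    congr 1
    funext ω
    rw [hB_add]; ring
  · intro a g hg
    refine lm_eq ?_
    refine ((F.tend_mixed hg hf hf0 k).const_mul a).congr fun n => ?_
    rw [← integral_const_mul]
    congr 1
    funext ω
    rw [hB_smul]; ring
  · intro g hg
    have h3 : (lm U fun n => ∫ ω, hB (B n) (δ n) g ω * hB (B n) (δ n) f ω ^ k ∂(ρ n)) ^ 2 ≤
        (C₂ * ∫ z, g z ^ 2) * max C' 0 := by
      refine sq_limit (le_max_right _ _) (F.tend_mixed hg hf hf0 k) fun ε hε => ?_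
      filter_upwards [h2 g hg ε hε, hC''] with n h3 h4
      refine ((F.pos n).mixed_sq_le g f k).trans ?_
      exact mul_le_mul h3 h4 ((F.pos n).pow_nonneg hf0 _)
        ((integral_nonneg fun ω => sq_nonneg _).trans h3)
    have h4 := Real.abs_le_sqrt h3
    rw [show C₂ * (∫ z, g z ^ 2) * max C' 0 = (C₂ * max C' 0) * ∫ z, g z ^ 2 by ring,
      Real.sqrt_mul (mul_nonneg hC₂ (le_max_right _ _))] at h4
    exact h4

theorem Fix.l2fn_pair (F : Fix κ δ B ρ D U) {f : ℝ × ℝ → ℝ} (hf : TestOn D f) :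
    ∃ C, L2Fn D (fun g => lm U fun n =>
      ∫ ω, hB (B n) (δ n) g ω * hB (B n) (δ n) f ω ∂(ρ n)) C := by
  obtain ⟨C₂, hC₂, h2⟩ := F.l2
  set C' : ℝ := C₂ * (∫ z, f z ^ 2) + 1 with hC'
  have hC'0 : 0 ≤ C' := by
    have : 0 ≤ ∫ z, f z ^ 2 := integral_nonneg fun z => sq_nonneg _
    (clear * - hC₂; positivity)
  refine ⟨Real.sqrt (C₂ * C'), ?_, ?_, ?_⟩
  · intro g g' hg hg'
    refine lm_eq ?_
    refine ((F.tend_pair hg hf).add (F.tend_pair hg' hf)).congr fun n => ?_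
    rw [← integral_add ((F.pos n).mom.integrable (Alg.mul alg_hB alg_hB))
      ((F.pos n).mom.integrable (Alg.mul alg_hB alg_hB))]
    congr 1
    funext ω
    rw [hB_add]; ring
  · intro a g hg
    refine lm_eq ?_
    refine ((F.tend_pair hg hf).const_mul a).congr fun n => ?_
    rw [← integral_const_mul]
    congr 1
    funext ω
    rw [hB_smul]; ring
  · intro g hg
    have h3 : (lm U fun n => ∫ ω, hB (B n) (δ n) g ω * hB (B n) (δ n) f ω ∂(ρ n)) ^ 2 ≤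
        (C₂ * ∫ z, g z ^ 2) * C' := by
      refine sq_limit hC'0 (F.tend_pair hg hf) fun ε hε => ?_
      filter_upwards [h2 g hg ε hε, h2 f hf 1 one_pos] with n h3 h4
      refine ((F.pos n).mom.cs alg_hB alg_hB).trans ?_
      exact mul_le_mul h3 h4 (integral_nonneg fun ω => sq_nonneg _)
        ((integral_nonneg fun ω => sq_nonneg _).trans h3)
    have h4 := Real.abs_le_sqrt h3
    rw [show C₂ * (∫ z, g z ^ 2) * C' = (C₂ * C') * ∫ z, g z ^ 2 by ring,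
      Real.sqrt_mul (mul_nonneg hC₂ hC'0)] at h4
    exact h4

theorem Fix.sd_lim (F : Fix κ δ B ρ D U) {ψ f : ℝ × ℝ → ℝ} (hψ : TestOn D ψ)
    (hf : TestOn D f) (hf0 : ∀ z, 0 ≤ f z) (k : ℕ) :
    (lm U fun n => ∫ ω, hB (B n) (δ n) (lap ψ) ω * hB (B n) (δ n) f ω ^ (k + 1) ∂(ρ n)) =
      - (κ * (k + 1) * (∫ z, ψ z * f z) *
        lm U fun n => ∫ ω, hB (B n) (δ n) f ω ^ k ∂(ρ n)) := by
  have h1 := (F.tend_mixed hψ.lap hf hf0 (k + 1)).add
    ((F.tend_pow hf hf0 k).const_mul (κ * (k + 1) * ∫ z, ψ z * f z))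
  have h2 := tendsto_nhds_unique h1 (F.sd ψ f hψ hf hf0 k)
  linarith only [h2]

theorem Fix.mass (F : Fix κ δ B ρ D U) (f : ℝ × ℝ → ℝ) :
    (lm U fun n => ∫ ω, hB (B n) (δ n) f ω ^ 0 ∂(ρ n)) = 1 := by
  refine lm_eq ?_
  have : (fun n => ∫ ω, hB (B n) (δ n) f ω ^ 0 ∂(ρ n)) = fun _ => (1 : ℝ) := by
    funext n
    have := (F.pos n).mom.prob
    simp
  rw [this]
  exact tendsto_const_nhds

theorem bump_test' {D : Set (ℝ × ℝ)} (hD : IsOpen D) (hb : Bornology.IsBounded D) {x : ℝ × ℝ}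
    (hx : x ∈ D) : TestOn D (bump (dd D x / 2) x) := by
  have h1 : 0 < dd D x := (dd_pos hD hb).2 hx
  exact bump_test (by linarith) (ball_sub (by linarith only [h1]))

/-- The limit two-point function. -/
theorem Fix.cov (F : Fix κ δ B ρ D U) :
    Cov D κ fun g f => lm U fun n => ∫ ω, hB (B n) (δ n) g ω * hB (B n) (δ n) f ω ∂(ρ n) where
  symm := fun f g _ _ => by
    congr 1
    funext n
    congr 1
    funext ω
    ring
  pos := fun f hf => ge_of_tendsto' (F.tend_pair hf hf) fun n =>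
    integral_nonneg fun ω => mul_self_nonneg _
  bd := fun g hg => F.l2fn_pair hg
  sd := by
    intro ψ g hψ hg
    obtain ⟨p, m, hp, hm, hp0, hm0, hpm⟩ := exists_decomp F.op F.bdd hg
    have h1 := F.sd_lim hψ hp hp0 0
    have h2 := F.sd_lim hψ hm hm0 0
    rw [F.mass] at h1 h2
    have e : g = fun z => p z - m z := funext hpm
    have t1 := F.tend_mixed hψ.lap hp hp0 1
    have t2 := F.tend_mixed hψ.lap hm hm0 1
    simp only [zero_add] at h1 h2
    rw [h1] at t1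
    rw [h2] at t2
    have t3 := t1.sub t2
    have i1 : ∫ z, ψ z * g z = (∫ z, ψ z * p z) - ∫ z, ψ z * m z := by
      rw [← integral_sub (hψ.intMul hp.cont) (hψ.intMul hm.cont)]
      congr 1
      funext z
      rw [hpm]; ring
    refine lm_eq ?_
    have e2 : - (κ * ∫ z, ψ z * g z) =
        -(κ * ((0 : ℕ) + 1) * (∫ z, ψ z * p z) * 1) - -(κ * ((0 : ℕ) + 1) * (∫ z, ψ z * m z) * 1) := by
      rw [i1]; push_cast; ring
    rw [e2]
    refine t3.congr fun n => ?_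
    rw [← integral_sub ((F.pos n).mom.integrable (Alg.mul alg_hB (alg_hB.pow 1)))
      ((F.pos n).mom.integrable (Alg.mul alg_hB (alg_hB.pow 1)))]
    congr 1
    funext ω
    rw [e, hB_sub]; ring
  dec := by
    intro g hg hg0 ε hε
    obtain ⟨r, hr, h⟩ := F.dec g hg hg0 1 ε hε
    refine ⟨r, hr, fun x hx hxr => ?_⟩
    refine le_of_tendsto (F.tend_pair (bump_test' F.op F.bdd hx) hg) ?_
    filter_upwards [h x hx hxr] with n hn
    simpa only [pow_one] using hn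

/-- The moments are Gaussian in the limit. -/
theorem Fix.gauss (F : Fix κ δ B ρ D U) {f : ℝ × ℝ → ℝ} (hf : TestOn D f) (hf0 : ∀ z, 0 ≤ f z)
    (k : ℕ) : Tendsto (fun n => ∫ ω, hB (B n) (δ n) f ω ^ k ∂(ρ n)) U (𝓝 (gm (κ * V D f) k)) := by
  have h := moments_gauss F.op F.bdd F.κpos hf F.cov
    (fun k g => lm U fun n => ∫ ω, hB (B n) (δ n) g ω * hB (B n) (δ n) f ω ^ k ∂(ρ n))
    (fun k => lm U fun n => ∫ ω, hB (B n) (δ n) f ω ^ k ∂(ρ n)) ?_ (F.mass f) ?_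
    (fun k => F.l2fn_mixed hf hf0 k) ?_ ?_ ?_ k
  · rw [← h]
    exact F.tend_pow hf hf0 k
  · simp only [pow_one]
  · intro n
    congr 1
    funext j
    congr 1
    funext ω
    rw [pow_succ, mul_comm]
  · intro ψ hψ
    refine lm_eq ?_
    have : (fun n => ∫ ω, hB (B n) (δ n) (lap ψ) ω * hB (B n) (δ n) f ω ^ 0 ∂(ρ n)) =
        fun _ => (0 : ℝ) := by
      funext n
      simp only [pow_zero, mul_one]
      unfold hB
      rw [integral_const_mul, integral_finsetSum _ fun v _ => ?_]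
      · rw [Finset.sum_eq_zero fun v _ => ?_, mul_zero]
        rw [integral_mul_const, F.mean n v, zero_mul]
      · have := (F.pos n).mom.int [v]
        simp only [List.map_cons, List.map_nil, List.prod_cons, List.prod_nil, mul_one] at this
        exact this.mul_const _
    rw [this]
    exact tendsto_const_nhds
  · intro n ψ hψ
    exact F.sd_lim hψ hf hf0 n
  · intro n ε hε
    obtain ⟨r, hr, h⟩ := F.dec f hf hf0 n ε hε
    refine ⟨r, hr, fun x hx hxr => ?_⟩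
    have hb := bump_test' F.op F.bdd hx
    have t := F.tend_mixed hb hf hf0 n
    have h0 : 0 ≤ lm U fun j => ∫ ω, hB (B j) (δ j) (bump (dd D x / 2) x) ω *
        hB (B j) (δ j) f ω ^ n ∂(ρ j) :=
      ge_of_tendsto' t fun j => (F.pos j).mom.nonneg (F.pos j).pos
        (Cone.hB (cone_pow hf0 n) (bump_nonneg _ _))
    rw [abs_of_nonneg h0]
    exact le_of_tendsto t (h x hx hxr)

end

end Vale.Agent.P145.Top
end
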