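import Mathlib
import Vale.Agent.P145.Bdl.B1
import Vale.Agent.P152.Bd3.B24
import Vale.Agent.P152.Bd3.B17
import Vale.Agent.P152.Bd3.B18
import Vale.Agent.P145.Bdl.B2

set_option linter.all false

section

/-! P145, block F-A, half-plane statement: complex Cauchy-Schwarz inequality. -/

namespace Vale.Agent.P145.FA

open Finset Filter Topology MeasureTheory
open Vale.Agent.P152

variable {P : Measure (Ori (ℤ × ℤ))}

lemma Adm.comp_clm {A : Set (ℤ × ℤ)} {W : Hgt → ℂ} (hW : Adm P A W) (L : ℂ →L[ℝ] ℝ)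
    (hL : ∀ z, |L z| ≤ ‖z‖) : Adm P A (fun h => L (W h)) := by
  obtain ⟨Λ, h1, h2⟩ := hW.loc
  obtain ⟨C, hC⟩ := hW.bdd
  exact ⟨⟨Λ, h1, fun h h' hh => congrArg L (h2 h h' hh)⟩, ⟨C, fun h => (hL _).trans (hC h)⟩,
    L.integrable_comp hW.int⟩

lemma Adm.re {A : Set (ℤ × ℤ)} {W : Hgt → ℂ} (hW : Adm P A W) : Adm P A (fun h => (W h).re) :=
  hW.comp_clm Complex.reCLM Complex.abs_re_le_norm

lemma Adm.im {A : Set (ℤ × ℤ)} {W : Hgt → ℂ} (hW : Adm P A W) : Adm P A (fun h => (W h).im) :=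
  hW.comp_clm Complex.imCLM Complex.abs_im_le_norm

/-- real product of an upper and a lower functional -/
lemma rp_cross (hI : Inv P dY) (hR : RP P dY) {F G : Hgt → ℝ} (hF : Adm P {q | 0 ≤ q.2} F)
    (hG : Adm P {q | q.2 ≤ 0} G) :
    |∫ h, F h * G h ∂(mu0 P)| ≤ √(∫ h, F h * F (pb (dY.θ 0) h) ∂(mu0 P)) *
      √(∫ h, G h ^ 2 ∂(mu0 P)) := by
  have hD : ∀ q ∈ {q : ℤ × ℤ | q.2 ≤ 0}, dY.θ 0 q ∈ {q : ℤ × ℤ | 0 ≤ q.2} := by
    intro q hq
    simp only [Set.mem_ofPred_eq, dY] at hq ⊢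
    omega
  have hG' := hG.refl hI hD
  have h1 := rp_cs hI hR hF hG'
  simp only [pb_pb] at h1
  have hA : 0 ≤ ∫ h, F h * F (pb (dY.θ 0) h) ∂(mu0 P) := hR 0 F hF
  have iG2 : Integrable (fun h => G h ^ 2) (mu0 P) := by
    have := hG.int_mul hG
    simpa only [← pow_two] using this
  have iG2' : Integrable (fun h => G (pb (dY.θ 0) h) ^ 2) (mu0 P) := by
    have := hG'.int_mul hG'
    simpa only [← pow_two] using this
  have hB : ∫ h, G (pb (dY.θ 0) h) * G h ∂(mu0 P) ≤ ∫ h, G h ^ 2 ∂(mu0 P) := by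
    have e : ∫ h, G (pb (dY.θ 0) h) ^ 2 ∂(mu0 P) = ∫ h, G h ^ 2 ∂(mu0 P) := by
      have h2 := integral_map (μ := mu0 P) (φ := pb (dY.θ 0)) (measurable_pbH _).aemeasurable
        (f := fun h => G h ^ 2) (by rw [hI.1 0]; exact iG2.1)
      rw [hI.1 0] at h2
      exact h2.symm
    have h3 : ∫ h, G (pb (dY.θ 0) h) * G h ∂(mu0 P) ≤
        ∫ h, (1 / 2 * G (pb (dY.θ 0) h) ^ 2 + 1 / 2 * G h ^ 2) ∂(mu0 P) := by
      refine integral_mono (hG'.int_mul hG) ((iG2'.const_mul _).add (iG2.const_mul _)) fun h => ?_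
      nlinarith only [sq_nonneg (G (pb (dY.θ 0) h) - G h)]
    rw [integral_add (iG2'.const_mul _) (iG2.const_mul _), integral_const_mul,
      integral_const_mul, e] at h3
    linarith only [h3]
  rw [← Real.sqrt_mul hA]
  refine Real.abs_le_sqrt (h1.trans ?_)
  exact mul_le_mul_of_nonneg_left hB hA

/-- complex Cauchy-Schwarz inequality -/
theorem rp_csC (hI : Inv P dY) (hR : RP P dY) {W G : Hgt → ℂ} (hW : Adm P {q | 0 ≤ q.2} W)
    (hG : Adm P {q | q.2 ≤ 0} G) :
    ‖∫ h, W h * G h ∂(mu0 P)‖ ^ 2 ≤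
      4 * (∫ h, W h * (starRingEnd ℂ) (W (pb (dY.θ 0) h)) ∂(mu0 P)).re *
        ∫ h, ‖G h‖ ^ 2 ∂(mu0 P) := by
  have hU : ∀ q ∈ {q : ℤ × ℤ | 0 ≤ q.2}, dY.θ 0 q ∈ {q : ℤ × ℤ | q.2 ≤ 0} := by
    intro q hq
    simp only [Set.mem_ofPred_eq, dY] at hq ⊢
    omega
  have hW' := hW.refl hI hU
  set A1 := ∫ h, (W h).re * (W (pb (dY.θ 0) h)).re ∂(mu0 P) with hA1
  set A2 := ∫ h, (W h).im * (W (pb (dY.θ 0) h)).im ∂(mu0 P) with hA2
  set B1 := ∫ h, (G h).re ^ 2 ∂(mu0 P) with hB1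
  set B2 := ∫ h, (G h).im ^ 2 ∂(mu0 P) with hB2
  have a1 : 0 ≤ A1 := hR 0 _ hW.re
  have a2 : 0 ≤ A2 := hR 0 _ hW.im
  have b1 : 0 ≤ B1 := integral_nonneg fun h => sq_nonneg _
  have b2 : 0 ≤ B2 := integral_nonneg fun h => sq_nonneg _
  have i1 := hW.re.int_mul hG.re
  have i2 := hW.im.int_mul hG.im
  have i3 := hW.re.int_mul hG.im
  have i4 := hW.im.int_mul hG.re
  have c1 := rp_cross hI hR hW.re hG.re
  have c2 := rp_cross hI hR hW.im hG.im
  have c3 := rp_cross hI hR hW.re hG.im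
  have c4 := rp_cross hI hR hW.im hG.re
  have hint : ∫ h, W h * G h ∂(mu0 P) =
      ((∫ h, (W h).re * (G h).re ∂(mu0 P) - ∫ h, (W h).im * (G h).im ∂(mu0 P) : ℝ) : ℂ) +
      ((∫ h, (W h).re * (G h).im ∂(mu0 P) + ∫ h, (W h).im * (G h).re ∂(mu0 P) : ℝ) : ℂ) *
        Complex.I := by
    have hi1 : Integrable (fun h => (((W h).re * (G h).re - (W h).im * (G h).im : ℝ) : ℂ))
        (mu0 P) := (i1.sub i2).ofReal
    have hi2 : Integrable (fun h => (((W h).re * (G h).im + (W h).im * (G h).re : ℝ) : ℂ))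
        (mu0 P) := (i3.add i4).ofReal
    rw [← integral_sub i1 i2, ← integral_add i3 i4, ← integral_complex_ofReal,
      ← integral_complex_ofReal, ← integral_mul_const, ← integral_add hi1 (hi2.mul_const _)]
    refine integral_congr_ae (Eventually.of_forall fun h => ?_)
    simp only
    apply Complex.ext
    · simp only [Complex.mul_re, Complex.ofReal_sub, Complex.ofReal_mul, Complex.ofReal_add, Complex.add_re, Complex.sub_re, Complex.ofReal_re, Complex.ofReal_im, mul_zero, sub_zero, Complex.I_re, Complex.add_im, Complex.mul_im, zero_mul, add_zero, Complex.I_im, mul_one, sub_self]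
    · simp only [Complex.mul_im, Complex.ofReal_sub, Complex.ofReal_mul, Complex.ofReal_add, Complex.add_im, Complex.sub_im, Complex.ofReal_re, Complex.ofReal_im, mul_zero, zero_mul, add_zero, sub_self, Complex.add_re, Complex.mul_re, sub_zero, Complex.I_im, mul_one, Complex.I_re, zero_add]
  have hQ : (∫ h, W h * (starRingEnd ℂ) (W (pb (dY.θ 0) h)) ∂(mu0 P)).re = A1 + A2 := by
    have hi : Integrable (fun h => W h * (starRingEnd ℂ) (W (pb (dY.θ 0) h))) (mu0 P) := by
      obtain ⟨C, hC⟩ := hW.bdd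
      have hc : Integrable (fun h => (starRingEnd ℂ) (W (pb (dY.θ 0) h))) (mu0 P) :=
        Complex.conjCLE.integrable_comp_iff.2 hW'.int
      exact hc.bdd_mul hW.int.1 (Eventually.of_forall hC)
    have h1 := Complex.reCLM.integral_comp_comm hi
    have h2 : (∫ h, W h * (starRingEnd ℂ) (W (pb (dY.θ 0) h)) ∂(mu0 P)).re =
        ∫ h, (W h * (starRingEnd ℂ) (W (pb (dY.θ 0) h))).re ∂(mu0 P) := h1.symm
    rw [h2, hA1, hA2, ← integral_add (hW.re.int_mul hW'.re) (hW.im.int_mul hW'.im)]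
    refine integral_congr_ae (Eventually.of_forall fun h => ?_)
    simp only [Complex.mul_re, Complex.conj_re, Complex.conj_im, mul_neg, sub_neg_eq_add]
  have hG2 : ∫ h, ‖G h‖ ^ 2 ∂(mu0 P) = B1 + B2 := by
    have j1 : Integrable (fun h => (G h).re ^ 2) (mu0 P) := by
      have := hG.re.int_mul hG.re
      simpa only [← pow_two] using this
    have j2 : Integrable (fun h => (G h).im ^ 2) (mu0 P) := by
      have := hG.im.int_mul hG.im
      simpa only [← pow_two] using this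
    rw [hB1, hB2, ← integral_add j1 j2]
    refine integral_congr_ae (Eventually.of_forall fun h => ?_)
    simp only
    rw [← Complex.normSq_eq_norm_sq, Complex.normSq_apply]
    ring
  have hn : ‖∫ h, W h * G h ∂(mu0 P)‖ ≤ (√A1 + √A2) * (√B1 + √B2) := by
    rw [hint]
    refine (norm_add_le _ _).trans ?_
    rw [norm_mul, Complex.norm_I, mul_one, Complex.norm_real, Complex.norm_real,
      Real.norm_eq_abs, Real.norm_eq_abs]
    have e1 := abs_sub (∫ h, (W h).re * (G h).re ∂(mu0 P)) (∫ h, (W h).im * (G h).im ∂(mu0 P))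
    have e2 := abs_add_le (∫ h, (W h).re * (G h).im ∂(mu0 P))
      (∫ h, (W h).im * (G h).re ∂(mu0 P))
    linarith
  have hs1 := Real.sq_sqrt a1
  have hs2 := Real.sq_sqrt a2
  have ht1 := Real.sq_sqrt b1
  have ht2 := Real.sq_sqrt b2
  have h5 : (√A1 + √A2) ^ 2 ≤ 2 * (A1 + A2) := by
    nlinarith only [hs1, hs2, sq_nonneg (√A1 - √A2)]
  have h6 : (√B1 + √B2) ^ 2 ≤ 2 * (B1 + B2) := by
    nlinarith only [ht1, ht2, sq_nonneg (√B1 - √B2)]
  rw [hQ, hG2]
  calc ‖∫ h, W h * G h ∂(mu0 P)‖ ^ 2 ≤ ((√A1 + √A2) * (√B1 + √B2)) ^ 2 :=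
        pow_le_pow_left₀ (norm_nonneg _) hn 2
    _ = (√A1 + √A2) ^ 2 * (√B1 + √B2) ^ 2 := by ring
    _ ≤ (2 * (A1 + A2)) * (2 * (B1 + B2)) :=
        mul_le_mul h5 h6 (sq_nonneg _) (by (clear * - a1 a2; positivity))
    _ = 4 * (A1 + A2) * (B1 + B2) := by ring

end Vale.Agent.P145.FA
end

section

/-! P145, block F-A, half-plane statement: the reflected square of the null functional. -/

namespace Vale.Agent.P145.FA

open Finset Filter Topology MeasureTheory
open Vale.Agent.P152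

variable {P : Measure (Ori (ℤ × ℤ))}

lemma ev_congr {w : (ℤ × ℤ) →₀ ℝ} {h h' : Hgt} (hh : ∀ q ∈ w.support, h q = h' q) :
    ev w h = ev w h' := by
  unfold ev
  exact Finsupp.sum_congr fun q hq => by rw [hh q hq]

lemma norm_exp_ev (x : ℝ) : ‖Complex.exp (Complex.I * (x : ℂ))‖ = 1 := by
  rw [mul_comm]; exact Complex.norm_exp_ofReal_mul_I x

lemma norm_fac (x α : ℝ) : ‖Complex.exp (Complex.I * (x : ℂ)) - (α : ℂ)‖ ≤ 1 + |α| := by
  refine (norm_sub_le _ _).trans ?_
  rw [norm_exp_ev, Complex.norm_real, Real.norm_eq_abs]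

lemma norm_Yf (w u : (ℤ × ℤ) →₀ ℝ) (α : ℝ) (h : Hgt) : ‖Yf w u α h‖ ≤ 1 + |α| := by
  unfold Yf
  rw [norm_mul, norm_exp_ev, one_mul]
  exact norm_fac _ _

lemma measurable_Yf (w u : (ℤ × ℤ) →₀ ℝ) (α : ℝ) : Measurable (Yf w u α) := by
  have h1 : ∀ v : (ℤ × ℤ) →₀ ℝ, Measurable fun h : Hgt =>
      Complex.exp (Complex.I * (ev v h : ℂ)) := fun v =>
    Complex.measurable_exp.comp ((Complex.measurable_ofReal.comp (measurable_ev v)).const_mul _)
  exact (h1 w).mul ((h1 u).sub_const _)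

lemma norm_Wf (w u φ : (ℤ × ℤ) →₀ ℝ) (α K : ℝ) (h : Hgt) :
    ‖Wf w u φ α K h‖ ≤ (1 + |α|) * Real.exp (-((ev φ h) ^ 2 / (2 * K ^ 2))) := by
  unfold Wf
  rw [norm_mul, Complex.norm_real, Real.norm_eq_abs, abs_of_pos (Real.exp_pos _)]
  exact mul_le_mul_of_nonneg_right (norm_Yf _ _ _ _) (Real.exp_pos _).le

lemma measurable_Wf (w u φ : (ℤ × ℤ) →₀ ℝ) (α K : ℝ) : Measurable (Wf w u φ α K) :=
  (measurable_Yf w u α).mul (Complex.measurable_ofReal.comp (Real.measurable_exp.comp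
    (((measurable_ev φ).pow_const 2).div_const _).neg))

lemma integrable_gauss2 [IsProbabilityMeasure P] {φ : (ℤ × ℤ) →₀ ℝ} (hφ : mass φ = 1) {K : ℝ}
    (hK : 1 ≤ K) : Integrable (fun h => Real.exp (-((ev φ h) ^ 2 / (2 * K ^ 2)))) (mu0 P) := by
  have h2 : (1 : ℝ) ≤ √2 := by
    rw [show (1 : ℝ) = √1 by simp]
    exact Real.sqrt_le_sqrt (by norm_num)
  have h := integrable_gauss (P := P) hφ (K := √2 * K) (by nlinarith only [hK, h2])
  rwa [mul_pow, Real.sq_sqrt (by norm_num)] at h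

lemma adm_Wf [IsProbabilityMeasure P] {w u φ : (ℤ × ℤ) →₀ ℝ} (hφ : mass φ = 1) (α : ℝ) {K : ℝ}
    (hK : 1 ≤ K) {A : Set (ℤ × ℤ)}
    (hA : ∀ q, q ∈ w.support ∨ q ∈ u.support ∨ q ∈ φ.support → q ∈ A) :
    Adm P A (Wf w u φ α K) := by
  classical
  refine ⟨⟨w.support ∪ (u.support ∪ φ.support), fun q hq => ?_, fun h h' hh => ?_⟩,
    ⟨(1 + |α|), fun h => ?_⟩, ?_⟩
  · simp only [Finset.mem_union] at hq
    exact hA q hq
  · have e1 : ev w h = ev w h' := ev_congr fun q hq => hh q (Finset.mem_union_left _ hq)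
    have e2 : ev u h = ev u h' := ev_congr fun q hq =>
      hh q (Finset.mem_union_right _ (Finset.mem_union_left _ hq))
    have e3 : ev φ h = ev φ h' := ev_congr fun q hq =>
      hh q (Finset.mem_union_right _ (Finset.mem_union_right _ hq))
    unfold Wf Yf
    rw [e1, e2, e3]
  · refine (norm_Wf w u φ α K h).trans (mul_le_of_le_one_right (by positivity) ?_)
    exact Real.exp_le_one_iff.2 (neg_nonpos.2 (by positivity))
  · refine Integrable.mono' ((integrable_gauss2 hφ hK).const_mul (1 + |α|))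
      (measurable_Wf w u φ α K).aestronglyMeasurable (Eventually.of_forall (norm_Wf w u φ α K))

/-- gradient part of the reflected square -/
noncomputable def Zf (w u φ : (ℤ × ℤ) →₀ ℝ) (α : ℝ) (ω : Ori (ℤ × ℤ)) : ℂ :=
  Complex.exp (Complex.I * ((ev w (pth ω) - ev (rf w) (pth ω) : ℝ) : ℂ)) *
    (Complex.exp (Complex.I * (ev u (pth ω) : ℂ)) - (α : ℂ)) *
    (Complex.exp (Complex.I * ((-ev (rf u) (pth ω) : ℝ) : ℂ)) - (α : ℂ))

lemma measurable_evp (v : (ℤ × ℤ) →₀ ℝ) : Measurable fun ω => ev v (pth ω) :=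
  (measurable_ev v).comp (measurable_pi_iff.2 fun q => measurable_pthq q)

lemma measurable_expc {X : Ori (ℤ × ℤ) → ℝ} (hX : Measurable X) :
    Measurable fun ω => Complex.exp (Complex.I * (X ω : ℂ)) :=
  Complex.measurable_exp.comp ((Complex.measurable_ofReal.comp hX).const_mul _)

lemma measurable_Zf (w u φ : (ℤ × ℤ) →₀ ℝ) (α : ℝ) : Measurable (Zf w u φ α) :=
  ((measurable_expc ((measurable_evp w).sub (measurable_evp _))).mul
    ((measurable_expc (measurable_evp u)).sub_const _)).mul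
    ((measurable_expc (measurable_evp (rf u)).neg).sub_const _)

lemma norm_Zf (w u φ : (ℤ × ℤ) →₀ ℝ) (α : ℝ) (ω : Ori (ℤ × ℤ)) :
    ‖Zf w u φ α ω‖ ≤ (1 + |α|) ^ 2 := by
  unfold Zf
  rw [norm_mul, norm_mul, norm_exp_ev, one_mul, pow_two]
  exact mul_le_mul (norm_fac _ _) (norm_fac _ _) (norm_nonneg _) (by positivity)

/-- the reflected square, before summation over the levels -/
lemma Wf_refl {w u φ : (ℤ × ℤ) →₀ ℝ} (hu : mass u = 0) (hφ : mass φ = 1) (α K : ℝ) (hK : K ≠ 0)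
    (ω : Ori (ℤ × ℤ)) (k : ℤ) :
    Wf w u φ α K (fun q => pth ω q + 2 * k) *
      (starRingEnd ℂ) (Wf w u φ α K (pb (dY.θ 0) (fun q => pth ω q + 2 * k))) =
    (Zf w u φ α ω * ((Real.exp (-((ev (rf φ) (pth ω) - ev φ (pth ω)) ^ 2 / (4 * K ^ 2))) : ℝ) : ℂ)) *
      ((Real.exp (-(((ev φ (pth ω) + ev (rf φ) (pth ω)) / 2 + 2 * k) ^ 2 / K ^ 2)) : ℝ) : ℂ) := by
  have e : ∀ v : (ℤ × ℤ) →₀ ℝ, ev v (fun q => pth ω q + 2 * k) = ev v (pth ω) + mass v * (2 * k) := by
    intro v
    rw [ev_shift]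
    push_cast
    ring
  unfold Wf Yf Zf
  simp only [← ev_rf, e, hu, hφ, mass_rf]
  simp only [map_mul, map_sub, Complex.conj_ofReal, ← Complex.exp_conj, map_add, Complex.conj_I]
  have hexp : Real.exp (-((ev φ (pth ω) + 1 * (2 * k)) ^ 2 / (2 * K ^ 2))) *
      Real.exp (-((ev (rf φ) (pth ω) + 1 * (2 * k)) ^ 2 / (2 * K ^ 2))) =
      Real.exp (-((ev (rf φ) (pth ω) - ev φ (pth ω)) ^ 2 / (4 * K ^ 2))) *
      Real.exp (-(((ev φ (pth ω) + ev (rf φ) (pth ω)) / 2 + 2 * k) ^ 2 / K ^ 2)) := by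
    rw [← Real.exp_add, ← Real.exp_add]
    congr 1
    field_simp
    ring
  have hexpC : ((Real.exp (-((ev φ (pth ω) + 1 * (2 * k)) ^ 2 / (2 * K ^ 2))) : ℝ) : ℂ) *
      ((Real.exp (-((ev (rf φ) (pth ω) + 1 * (2 * k)) ^ 2 / (2 * K ^ 2))) : ℝ) : ℂ) =
      ((Real.exp (-((ev (rf φ) (pth ω) - ev φ (pth ω)) ^ 2 / (4 * K ^ 2))) : ℝ) : ℂ) *
      ((Real.exp (-(((ev φ (pth ω) + ev (rf φ) (pth ω)) / 2 + 2 * k) ^ 2 / K ^ 2)) : ℝ) : ℂ) := by
    rw [← Complex.ofReal_mul, ← Complex.ofReal_mul, hexp]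
  have hw : Complex.exp (Complex.I * ((ev w (pth ω) + mass w * (2 * k) : ℝ) : ℂ)) *
      Complex.exp (-Complex.I * ((ev (rf w) (pth ω) + mass w * (2 * k) : ℝ) : ℂ)) =
      Complex.exp (Complex.I * ((ev w (pth ω) - ev (rf w) (pth ω) : ℝ) : ℂ)) := by
    rw [← Complex.exp_add]
    congr 1
    push_cast
    ring
  have hu1 : Complex.exp (Complex.I * ((ev u (pth ω) + 0 * (2 * k) : ℝ) : ℂ)) =
      Complex.exp (Complex.I * (ev u (pth ω) : ℂ)) := by
    rw [zero_mul, add_zero]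
  have hu2 : Complex.exp (-Complex.I * ((ev (rf u) (pth ω) + 0 * (2 * k) : ℝ) : ℂ)) =
      Complex.exp (Complex.I * ((-ev (rf u) (pth ω) : ℝ) : ℂ)) := by
    rw [zero_mul, add_zero]
    congr 1
    push_cast
    ring
  rw [hu1, hu2]
  calc _ = (Complex.exp (Complex.I * ((ev w (pth ω) + mass w * (2 * k) : ℝ) : ℂ)) *
      Complex.exp (-Complex.I * ((ev (rf w) (pth ω) + mass w * (2 * k) : ℝ) : ℂ))) *
      (Complex.exp (Complex.I * (ev u (pth ω) : ℂ)) - (α : ℂ)) *
      (Complex.exp (Complex.I * ((-ev (rf u) (pth ω) : ℝ) : ℂ)) - (α : ℂ)) *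
      (((Real.exp (-((ev φ (pth ω) + 1 * (2 * k)) ^ 2 / (2 * K ^ 2))) : ℝ) : ℂ) *
      ((Real.exp (-((ev (rf φ) (pth ω) + 1 * (2 * k)) ^ 2 / (2 * K ^ 2))) : ℝ) : ℂ)) := by ring
    _ = _ := by
      rw [hw, hexpC]
      ring

end Vale.Agent.P145.FA
end

section

/-! P145, block F-A: the half-plane statement. -/

namespace Vale.Agent.P145.FA

open Finset Filter Topology MeasureTheory
open Vale.Agent.P152

variable {P : Measure (Ori (ℤ × ℤ))}

/-- the neutral exponentials -/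
noncomputable def En (w u φ : (ℤ × ℤ) →₀ ℝ) (s t z : ℝ) (ω : Ori (ℤ × ℤ)) : ℂ :=
  Complex.exp (Complex.I * ((ev (w - rf w + s • u - t • rf u + z • (rf φ - φ)) (pth ω) : ℝ) : ℂ))

lemma measurable_En (w u φ : (ℤ × ℤ) →₀ ℝ) (s t z : ℝ) : Measurable (En w u φ s t z) :=
  measurable_expc (measurable_evp _)

lemma norm_En (w u φ : (ℤ × ℤ) →₀ ℝ) (s t z : ℝ) (ω : Ori (ℤ × ℤ)) : ‖En w u φ s t z ω‖ = 1 :=
  norm_exp_ev _

lemma Zf_expand (w u φ : (ℤ × ℤ) →₀ ℝ) (α z : ℝ) (ω : Ori (ℤ × ℤ)) :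
    Zf w u φ α ω * Complex.exp (Complex.I *
      ((ev (rf φ) (pth ω) - ev φ (pth ω) : ℝ) : ℂ) * (z : ℂ)) =
    En w u φ 1 1 z ω - α * En w u φ 1 0 z ω - α * En w u φ 0 1 z ω + α ^ 2 * En w u φ 0 0 z ω := by
  have e : ∀ s t : ℝ, En w u φ s t z ω =
      Complex.exp (Complex.I * ((ev w (pth ω) - ev (rf w) (pth ω) : ℝ) : ℂ)) *
      Complex.exp (Complex.I * ((s * ev u (pth ω) : ℝ) : ℂ)) *
      Complex.exp (Complex.I * ((t * -ev (rf u) (pth ω) : ℝ) : ℂ)) *
      Complex.exp (Complex.I * ((ev (rf φ) (pth ω) - ev φ (pth ω) : ℝ) : ℂ) * (z : ℂ)) := by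
    intro s t
    unfold En
    rw [← Complex.exp_add, ← Complex.exp_add, ← Complex.exp_add]
    congr 1
    rw [ev_add, ev_smul, ev_sub, ev_sub, ev_add, ev_sub, ev_smul, ev_smul]
    push_cast
    ring
  rw [e, e, e, e]
  unfold Zf
  simp only [one_mul, zero_mul, Complex.ofReal_zero, mul_zero, Complex.exp_zero, mul_one]
  ring

lemma gauss_fourier {K : ℝ} (hK : 0 < K) (x : ℝ) :
    ((Real.exp (-(x ^ 2 / (4 * K ^ 2))) : ℝ) : ℂ) =
      ((K / √Real.pi : ℝ) : ℂ) * ∫ z : ℝ, Complex.exp (Complex.I * (x : ℂ) * (z : ℂ)) *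
        Complex.exp (-((K ^ 2 : ℝ) : ℂ) * (z : ℂ) ^ 2) := by
  have hb : 0 < (((K ^ 2 : ℝ) : ℂ)).re := by rw [Complex.ofReal_re]; positivity
  rw [fourierIntegral_gaussian hb (x : ℂ)]
  have hpi := Real.pi_pos
  have e1 : (((Real.pi : ℝ) : ℂ) / ((K ^ 2 : ℝ) : ℂ)) ^ (1 / 2 : ℂ) = ((√Real.pi / K : ℝ) : ℂ) := by
    rw [← Complex.ofReal_div]
    have h2 : (((Real.pi / K ^ 2 : ℝ)) : ℂ) ^ (1 / 2 : ℂ) =
        (((Real.pi / K ^ 2) ^ (1 / 2 : ℝ) : ℝ) : ℂ) := by
      rw [Complex.ofReal_cpow (by positivity)]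
      push_cast
      rfl
    rw [h2, ← Real.sqrt_eq_rpow, Real.sqrt_div hpi.le, Real.sqrt_sq hK.le]
  rw [e1, ← mul_assoc, ← Complex.ofReal_mul]
  have e2 : K / √Real.pi * (√Real.pi / K) = 1 := by
    have : √Real.pi ≠ 0 := (Real.sqrt_pos.2 hpi).ne'
    field_simp
  rw [e2, Complex.ofReal_one, one_mul, Complex.ofReal_exp]
  congr 1
  push_cast
  ring

/-- integral of the gradient part against a Gaussian -/
lemma integral_Zf [IsProbabilityMeasure P] (w u φ : (ℤ × ℤ) →₀ ℝ) (α : ℝ) {K : ℝ} (hK : 0 < K) :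
    ∫ ω, Zf w u φ α ω * ((Real.exp (-((ev (rf φ) (pth ω) - ev φ (pth ω)) ^ 2 / (4 * K ^ 2))) : ℝ) :
      ℂ) ∂P = ((K / √Real.pi : ℝ) : ℂ) * ∫ z : ℝ, (∫ ω, Zf w u φ α ω * Complex.exp (Complex.I *
      ((ev (rf φ) (pth ω) - ev φ (pth ω) : ℝ) : ℂ) * (z : ℂ)) ∂P) *
        Complex.exp (-((K ^ 2 : ℝ) : ℂ) * (z : ℂ) ^ 2) := by
  have hg : Integrable (fun z : ℝ => Real.exp (-(K ^ 2) * z ^ 2)) :=
    integrable_exp_neg_mul_sq (by positivity)
  have hnorm : ∀ z : ℝ, ‖Complex.exp (-((K ^ 2 : ℝ) : ℂ) * (z : ℂ) ^ 2)‖ =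
      Real.exp (-(K ^ 2) * z ^ 2) := by
    intro z
    rw [Complex.norm_exp]
    congr 1
    rw [← Complex.ofReal_pow, ← Complex.ofReal_neg, ← Complex.ofReal_mul, Complex.ofReal_re]
  have hmeas : Measurable fun p : Ori (ℤ × ℤ) × ℝ => Zf w u φ α p.1 * (Complex.exp (Complex.I *
      ((ev (rf φ) (pth p.1) - ev φ (pth p.1) : ℝ) : ℂ) * (p.2 : ℂ)) *
        Complex.exp (-((K ^ 2 : ℝ) : ℂ) * (p.2 : ℂ) ^ 2)) := by
    refine ((measurable_Zf w u φ α).comp measurable_fst).mul ?_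
    refine Measurable.mul ?_ ?_
    · refine Complex.measurable_exp.comp ?_
      refine Measurable.mul ?_ (Complex.measurable_ofReal.comp measurable_snd)
      refine Measurable.const_mul (Complex.measurable_ofReal.comp ?_) _
      exact (((measurable_evp (rf φ)).sub (measurable_evp φ)).comp measurable_fst)
    · refine Complex.measurable_exp.comp ?_
      exact ((Complex.measurable_ofReal.comp measurable_snd).pow_const 2).const_mul _
  have hint : Integrable (fun p : Ori (ℤ × ℤ) × ℝ => Zf w u φ α p.1 * (Complex.exp (Complex.I *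
      ((ev (rf φ) (pth p.1) - ev φ (pth p.1) : ℝ) : ℂ) * (p.2 : ℂ)) *
        Complex.exp (-((K ^ 2 : ℝ) : ℂ) * (p.2 : ℂ) ^ 2))) (P.prod volume) := by
    refine Integrable.mono' (((hg.comp_snd P)).const_mul ((1 + |α|) ^ 2)) hmeas.aestronglyMeasurable
      (Eventually.of_forall fun p => ?_)
    rw [norm_mul, norm_mul, hnorm]
    have h1 : ‖Complex.exp (Complex.I * ((ev (rf φ) (pth p.1) - ev φ (pth p.1) : ℝ) : ℂ) *
        (p.2 : ℂ))‖ = 1 := by
      rw [mul_assoc, ← Complex.ofReal_mul]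
      exact norm_exp_ev _
    rw [h1, one_mul]
    exact mul_le_mul_of_nonneg_right (norm_Zf _ _ _ _ _) (Real.exp_pos _).le
  have h1 : ∀ ω : Ori (ℤ × ℤ), Zf w u φ α ω *
      ((Real.exp (-((ev (rf φ) (pth ω) - ev φ (pth ω)) ^ 2 / (4 * K ^ 2))) : ℝ) : ℂ) =
      ((K / √Real.pi : ℝ) : ℂ) * ∫ z : ℝ, Zf w u φ α ω * (Complex.exp (Complex.I *
      ((ev (rf φ) (pth ω) - ev φ (pth ω) : ℝ) : ℂ) * (z : ℂ)) *
        Complex.exp (-((K ^ 2 : ℝ) : ℂ) * (z : ℂ) ^ 2)) := by
    intro ω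
    rw [gauss_fourier hK, integral_const_mul]
    ring
  simp only [h1]
  rw [integral_const_mul, integral_integral_swap hint]
  congr 1
  refine integral_congr_ae (Eventually.of_forall fun z => ?_)
  simp only
  rw [← integral_mul_const]
  refine integral_congr_ae (Eventually.of_forall fun ω => ?_)
  simp only
  ring

/-- the Gaussian integral of the gradient part tends to zero -/
lemma tendsto_Zf [IsProbabilityMeasure P] {w u φ : ℕ → (ℤ × ℤ) →₀ ℝ} {α : ℝ}
    (hS : SDseq P w u φ α) {K : ℝ} (hK : 0 < K) :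
    Tendsto (fun n => ∫ ω, Zf (w n) (u n) (φ n) α ω *
      ((Real.exp (-((ev (rf (φ n)) (pth ω) - ev (φ n) (pth ω)) ^ 2 / (4 * K ^ 2))) : ℝ) : ℂ) ∂P)
      atTop (𝓝 0) := by
  obtain ⟨L, hL1, hL2, hL3⟩ := hS.lim
  have hg : Integrable (fun z : ℝ => Real.exp (-(K ^ 2) * z ^ 2)) :=
    integrable_exp_neg_mul_sq (by positivity)
  have hnorm : ∀ z : ℝ, ‖Complex.exp (-((K ^ 2 : ℝ) : ℂ) * (z : ℂ) ^ 2)‖ =
      Real.exp (-(K ^ 2) * z ^ 2) := by
    intro z
    rw [Complex.norm_exp]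
    congr 1
    rw [← Complex.ofReal_pow, ← Complex.ofReal_neg, ← Complex.ofReal_mul, Complex.ofReal_re]
  have hinner : ∀ z : ℝ, Tendsto (fun n => ∫ ω, Zf (w n) (u n) (φ n) α ω *
      Complex.exp (Complex.I * ((ev (rf (φ n)) (pth ω) - ev (φ n) (pth ω) : ℝ) : ℂ) * (z : ℂ)) ∂P)
      atTop (𝓝 0) := by
    intro z
    have hi : ∀ (n : ℕ) (s t : ℝ), Integrable (En (w n) (u n) (φ n) s t z) P := fun n s t =>
      Integrable.of_bound (measurable_En _ _ _ _ _ _).aestronglyMeasurable 1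
        (Eventually.of_forall fun ω => (norm_En _ _ _ _ _ _ ω).le)
    have e : ∀ n, ∫ ω, Zf (w n) (u n) (φ n) α ω *
      Complex.exp (Complex.I * ((ev (rf (φ n)) (pth ω) - ev (φ n) (pth ω) : ℝ) : ℂ) * (z : ℂ)) ∂P =
      ∫ ω, En (w n) (u n) (φ n) 1 1 z ω ∂P - α * ∫ ω, En (w n) (u n) (φ n) 1 0 z ω ∂P -
        α * ∫ ω, En (w n) (u n) (φ n) 0 1 z ω ∂P + α ^ 2 * ∫ ω, En (w n) (u n) (φ n) 0 0 z ω ∂P := by
      intro n
      simp only [Zf_expand]
      have j10 : Integrable (fun ω => (α : ℂ) * En (w n) (u n) (φ n) 1 0 z ω) P :=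
        (hi n 1 0).const_mul _
      have j01 : Integrable (fun ω => (α : ℂ) * En (w n) (u n) (φ n) 0 1 z ω) P :=
        (hi n 0 1).const_mul _
      have j00 : Integrable (fun ω => (α : ℂ) ^ 2 * En (w n) (u n) (φ n) 0 0 z ω) P :=
        (hi n 0 0).const_mul _
      have ja : Integrable (fun ω => En (w n) (u n) (φ n) 1 1 z ω -
        (α : ℂ) * En (w n) (u n) (φ n) 1 0 z ω) P := (hi n 1 1).sub j10
      have jb : Integrable (fun ω => En (w n) (u n) (φ n) 1 1 z ω -
        (α : ℂ) * En (w n) (u n) (φ n) 1 0 z ω - (α : ℂ) * En (w n) (u n) (φ n) 0 1 z ω) P :=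
        ja.sub j01
      rw [integral_add jb j00, integral_sub ja j01, integral_sub (hi n 1 1) j10,
        integral_const_mul, integral_const_mul, integral_const_mul]
    simp only [e]
    have t11 := hL1 1 1 z (Or.inr rfl) (Or.inr rfl)
    have t10 := hL1 1 0 z (Or.inr rfl) (Or.inl rfl)
    have t01 := hL1 0 1 z (Or.inl rfl) (Or.inr rfl)
    have t00 := hL1 0 0 z (Or.inl rfl) (Or.inl rfl)
    have h := ((t11.sub (t10.const_mul (α : ℂ))).sub (t01.const_mul (α : ℂ))).add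
      (t00.const_mul ((α : ℂ) ^ 2))
    have h0 : L 1 1 z - α * L 1 0 z - α * L 0 1 z + (α : ℂ) ^ 2 * L 0 0 z = 0 := by
      have a1 := hL2 1 z (Or.inr rfl)
      have a2 := hL2 0 z (Or.inl rfl)
      have a3 := hL3 0 z (Or.inl rfl)
      rw [a1, a2, a3]
      ring
    rw [h0] at h
    exact h
  simp only [integral_Zf _ _ _ _ hK]
  have hdc := tendsto_integral_of_dominated_convergence (μ := (volume : Measure ℝ))
    (F := fun n (z : ℝ) => (∫ ω, Zf (w n) (u n) (φ n) α ω * Complex.exp (Complex.I *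
      ((ev (rf (φ n)) (pth ω) - ev (φ n) (pth ω) : ℝ) : ℂ) * (z : ℂ)) ∂P) *
        Complex.exp (-((K ^ 2 : ℝ) : ℂ) * (z : ℂ) ^ 2)) (f := fun _ => 0)
    (fun z => (1 + |α|) ^ 2 * Real.exp (-(K ^ 2) * z ^ 2)) ?_ (hg.const_mul _) ?_ ?_
  · have h := hdc.const_mul (((K / √Real.pi : ℝ) : ℂ))
    rw [integral_zero, mul_zero] at h
    exact h
  · intro n
    refine AEStronglyMeasurable.mul ?_ ?_
    · refine Measurable.aestronglyMeasurable ?_
      refine StronglyMeasurable.measurable ?_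
      refine StronglyMeasurable.integral_prod_left (f := fun (ω : Ori (ℤ × ℤ)) (z : ℝ) =>
        Zf (w n) (u n) (φ n) α ω * Complex.exp (Complex.I *
      ((ev (rf (φ n)) (pth ω) - ev (φ n) (pth ω) : ℝ) : ℂ) * (z : ℂ))) ?_
      refine Measurable.stronglyMeasurable ?_
      refine ((measurable_Zf _ _ _ _).comp measurable_fst).mul ?_
      refine Complex.measurable_exp.comp ?_
      refine Measurable.mul ?_ (Complex.measurable_ofReal.comp measurable_snd)
      refine Measurable.const_mul (Complex.measurable_ofReal.comp ?_) _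
      exact (((measurable_evp (rf (φ n))).sub (measurable_evp (φ n))).comp measurable_fst)
    · refine Measurable.aestronglyMeasurable (Complex.measurable_exp.comp ?_)
      exact (Complex.measurable_ofReal.pow_const 2).const_mul _
  · intro n
    refine Eventually.of_forall fun z => ?_
    rw [norm_mul, hnorm]
    refine mul_le_mul_of_nonneg_right ?_ (Real.exp_pos _).le
    refine (norm_integral_le_of_norm_le_const (C := (1 + |α|) ^ 2)
      (Eventually.of_forall fun ω => ?_)).trans ?_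
    · rw [norm_mul]
      have h1 : ‖Complex.exp (Complex.I * ((ev (rf (φ n)) (pth ω) - ev (φ n) (pth ω) : ℝ) : ℂ) *
          (z : ℂ))‖ = 1 := by
        rw [mul_assoc, ← Complex.ofReal_mul]
        exact norm_exp_ev _
      rw [h1, mul_one]
      exact norm_Zf _ _ _ _ _
    · rw [measureReal_def, measure_univ, ENNReal.toReal_one, mul_one]
  · refine Eventually.of_forall fun z => ?_
    have := (hinner z).mul_const (Complex.exp (-((K ^ 2 : ℝ) : ℂ) * (z : ℂ) ^ 2))
    rwa [zero_mul] at this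

/-- Half-plane statement. -/
theorem hp_main : S_hp2 := by
  intro P _ hI hR w u φ α hS hsupp
  obtain ⟨C, hC, hg⟩ := gauss_sum
  refine ⟨fun K => 4 * ((1 + |α|) ^ 2 * (C * (K * Real.exp (-K ^ 2)))), ?_, fun K hK => ?_⟩
  · have h1 : Tendsto (fun K : ℝ => K ^ 3 * Real.exp (-K)) atTop (𝓝 0) :=
      Real.tendsto_pow_mul_exp_neg_atTop_nhds_zero 3
    have h2 : Tendsto (fun K : ℝ => K ^ 3 * Real.exp (-K ^ 2)) atTop (𝓝 0) := by
      refine squeeze_zero' ?_ ?_ h1
      · filter_upwards [eventually_ge_atTop (0 : ℝ)] with K hK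
        (clear * - hK; positivity)
      · filter_upwards [eventually_ge_atTop (1 : ℝ)] with K hK
        refine mul_le_mul_of_nonneg_left (Real.exp_le_exp.2 ?_) (by positivity)
        nlinarith only [hK]
    have h3 := h2.const_mul (4 * ((1 + |α|) ^ 2 * C))
    rw [mul_zero] at h3
    refine h3.congr fun K => ?_
    ring
  · have hK0 : 0 < K := by linarith
    have hW : ∀ n, Adm P {q : ℤ × ℤ | 0 ≤ q.2} (Wf (w n) (u n) (φ n) α K) := fun n =>
      adm_Wf (hS.mφ n) α hK fun q hq => hsupp n q hq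
    refine ⟨hW, fun ε hε => ?_⟩
    have ht := tendsto_Zf hS hK0
    have hcpos : 0 < K * √Real.pi / 2 := by have := Real.pi_pos; positivity
    have hev := (Metric.tendsto_nhds.1 ht) (ε / 4 / (K * √Real.pi / 2)) (by positivity)
    filter_upwards [hev] with n hn
    intro G hG
    have hU : ∀ q ∈ {q : ℤ × ℤ | 0 ≤ q.2}, dY.θ 0 q ∈ {q : ℤ × ℤ | q.2 ≤ 0} := by
      intro q hq
      simp only [Set.mem_ofPred_eq, dY] at hq ⊢
      omega
    set Z : Ori (ℤ × ℤ) → ℂ := fun ω => Zf (w n) (u n) (φ n) α ω *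
      ((Real.exp (-((ev (rf (φ n)) (pth ω) - ev (φ n) (pth ω)) ^ 2 / (4 * K ^ 2))) : ℝ) : ℂ) with hZd
    set T : Ori (ℤ × ℤ) → ℝ := fun ω => (ev (φ n) (pth ω) + ev (rf (φ n)) (pth ω)) / 2 with hTd
    have hZn : ∀ ω, ‖Z ω‖ ≤ (1 + |α|) ^ 2 := by
      intro ω
      rw [hZd]
      simp only
      rw [norm_mul, Complex.norm_real, Real.norm_eq_abs, abs_of_pos (Real.exp_pos _)]
      refine (mul_le_of_le_one_right (norm_nonneg _) ?_).trans (norm_Zf _ _ _ _ _)
      exact Real.exp_le_one_iff.2 (neg_nonpos.2 (by (clear * - hK; positivity)))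
    have hZm : Measurable Z := (measurable_Zf _ _ _ _).mul (Complex.measurable_ofReal.comp
      (Real.measurable_exp.comp ((((measurable_evp (rf (φ n))).sub
        (measurable_evp (φ n))).pow_const 2).div_const _).neg))
    have hTm : Measurable T := ((measurable_evp (φ n)).add (measurable_evp _)).div_const _
    have hWi : Integrable (fun h => Wf (w n) (u n) (φ n) α K h *
        (starRingEnd ℂ) (Wf (w n) (u n) (φ n) α K (pb (dY.θ 0) h))) (mu0 P) := by
      obtain ⟨C', hC'⟩ := (hW n).bdd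
      have hc : Integrable (fun h => (starRingEnd ℂ) (Wf (w n) (u n) (φ n) α K (pb (dY.θ 0) h)))
        (mu0 P) := Complex.conjCLE.integrable_comp_iff.2 ((hW n).refl hI hU).int
      exact hc.bdd_mul (hW n).int.1 (Eventually.of_forall hC')
    have hQ := integral_gauss (P := P) hK hWi hZn hTm hZm (fun ω k =>
      Wf_refl (hS.mu n) (hS.mφ n) α K hK0.ne' ω k)
    have hSm : Measurable fun ω => ∑' k : ℤ, Real.exp (-((T ω + 2 * k) ^ 2 / K ^ 2)) := by
      have hme : ∀ k : ℤ, Measurable fun ω => ENNReal.ofReal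
        (Real.exp (-((T ω + 2 * k) ^ 2 / K ^ 2))) := fun k =>
        ENNReal.measurable_ofReal.comp (Real.measurable_exp.comp
          ((((hTm.add_const _).pow_const 2).div_const _).neg))
      have h1 := (Measurable.ennreal_tsum hme).ennreal_toReal
      have e : (fun ω => ∑' k : ℤ, Real.exp (-((T ω + 2 * k) ^ 2 / K ^ 2))) = fun ω =>
          (∑' k : ℤ, ENNReal.ofReal (Real.exp (-((T ω + 2 * k) ^ 2 / K ^ 2)))).toReal := by
        funext ω
        rw [← ENNReal.ofReal_tsum_of_nonneg (fun k => (Real.exp_pos _).le) (hg K hK (T ω)).1,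
          ENNReal.toReal_ofReal (tsum_nonneg fun k => (Real.exp_pos _).le)]
      rw [e]
      exact h1
    have hZi : Integrable Z P := Integrable.of_bound hZm.aestronglyMeasurable _
      (Eventually.of_forall hZn)
    have hbd : ∀ ω, ‖Z ω * (((∑' k : ℤ, Real.exp (-((T ω + 2 * k) ^ 2 / K ^ 2)) -
        K * √Real.pi / 2 : ℝ)) : ℂ)‖ ≤ (1 + |α|) ^ 2 * (C * (K * Real.exp (-K ^ 2))) := by
      intro ω
      rw [norm_mul, Complex.norm_real, Real.norm_eq_abs]
      exact mul_le_mul (hZn ω) (hg K hK (T ω)).2 (abs_nonneg _) (by (clear * -; positivity))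
    have hDi : Integrable (fun ω => Z ω * (((∑' k : ℤ, Real.exp (-((T ω + 2 * k) ^ 2 / K ^ 2)) -
        K * √Real.pi / 2 : ℝ)) : ℂ)) P := Integrable.of_bound
      (hZm.mul (Complex.measurable_ofReal.comp (hSm.sub_const _))).aestronglyMeasurable _
      (Eventually.of_forall hbd)
    have hsplit : ∫ h, Wf (w n) (u n) (φ n) α K h *
        (starRingEnd ℂ) (Wf (w n) (u n) (φ n) α K (pb (dY.θ 0) h)) ∂(mu0 P) =
        ((K * √Real.pi / 2 : ℝ) : ℂ) * ∫ ω, Z ω ∂P + ∫ ω, Z ω * (((∑' k : ℤ,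
          Real.exp (-((T ω + 2 * k) ^ 2 / K ^ 2)) - K * √Real.pi / 2 : ℝ)) : ℂ) ∂P := by
      rw [hQ, ← integral_const_mul, ← integral_add (hZi.const_mul _) hDi]
      refine integral_congr_ae (Eventually.of_forall fun ω => ?_)
      simp only
      push_cast
      ring
    have hre : (∫ h, Wf (w n) (u n) (φ n) α K h *
        (starRingEnd ℂ) (Wf (w n) (u n) (φ n) α K (pb (dY.θ 0) h)) ∂(mu0 P)).re ≤
        ε / 4 + (1 + |α|) ^ 2 * (C * (K * Real.exp (-K ^ 2))) := by
      refine (Complex.re_le_norm _).trans ?_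
      rw [hsplit]
      refine (norm_add_le _ _).trans (add_le_add ?_ ?_)
      · rw [norm_mul, Complex.norm_real, Real.norm_eq_abs, abs_of_pos hcpos]
        rw [dist_eq_norm, sub_zero] at hn
        have h1 := mul_le_mul_of_nonneg_left hn.le hcpos.le
        refine h1.trans (le_of_eq ?_)
        (clear * - hK hε; field_simp)
      · refine (norm_integral_le_of_norm_le_const (Eventually.of_forall hbd)).trans ?_
        rw [measureReal_def, measure_univ, ENNReal.toReal_one, mul_one]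
    refine (rp_csC hI hR (hW n) hG).trans ?_
    refine mul_le_mul_of_nonneg_right ?_ (integral_nonneg fun h => sq_nonneg _)
    linarith only [hre]

end Vale.Agent.P145.FA
end

section

/-! P145, block F-A: the half-plane statement for the unlocalised null functional. -/

namespace Vale.Agent.P145.FA

open Finset Filter Topology MeasureTheory
open Vale.Agent.P152

/-- H1 with the invariance as an additional input. -/
theorem s_hp {P : Measure (Ori (ℤ × ℤ))} [IsProbabilityMeasure P] (hI : Inv P dY) (hR : RP P dY)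
    (w u φ : ℕ → (ℤ × ℤ) →₀ ℝ) (α : ℝ) (hS : SDseq P w u φ α)
    (hsupp : ∀ n, ∀ q, q ∈ (w n).support ∨ q ∈ (u n).support ∨ q ∈ (φ n).support → 0 ≤ q.2)
    (G : ℕ → Hgt → ℂ) (C : ℝ) (hG : ∀ n, Adm P {q | q.2 ≤ 0} (G n)) (hG1 : ∀ n h, ‖G n h‖ ≤ 1)
    (hGC : ∀ n, ∫ h, ‖G n h‖ ∂(mu0 P) ≤ C) (hT : Tight P φ G) :
    Tendsto (fun n => ∫ h, Yf (w n) (u n) α h * G n h ∂(mu0 P)) atTop (𝓝 0) := by
  obtain ⟨e, he, hmain⟩ := hp_main P hI hR w u φ α hS hsupp
  have hC0 : 0 ≤ C := (integral_nonneg fun h => norm_nonneg _).trans (hGC 0)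
  rw [Metric.tendsto_nhds]
  intro ε hε
  set A : ℝ := 1 + |α| with hA
  have hA1 : 1 ≤ A := by rw [hA]; linarith only [abs_nonneg α]
  obtain ⟨K0, hK0⟩ := hT (ε / (4 * A)) (by (clear * - hε; positivity))
  -- choice of K
  have hev1 : ∀ᶠ K : ℝ in atTop, K ^ 2 * e K ≤ (ε / 4) ^ 2 / (2 * (C + 1)) := by
    have h := (Metric.tendsto_nhds.1 he) ((ε / 4) ^ 2 / (2 * (C + 1))) (by positivity)
    filter_upwards [h] with K hK
    rw [Real.dist_eq, sub_zero] at hK
    exact (le_abs_self _).trans hK.le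
  obtain ⟨K, hK1, hK2, hK3⟩ := (hev1.and ((eventually_ge_atTop (1 : ℝ)).and
    (eventually_ge_atTop K0))).exists
  have heK : e K ≤ (ε / 4) ^ 2 / (2 * (C + 1)) := by
    rcases le_or_gt (e K) 0 with h0 | h0
    · exact h0.trans (by (clear * - hε hC0; positivity))
    · refine le_trans ?_ hK1
      have : (1 : ℝ) ≤ K ^ 2 := one_le_pow₀ hK2
      nlinarith only [h0, this]
  obtain ⟨-, hW⟩ := hmain K hK2
  filter_upwards [hW ((ε / 4) ^ 2 / (2 * (C + 1))) (by (clear * - hε hC0; positivity)), hK0 K hK3] with n h1 h2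
  have h3 := h1 (G n) (hG n)
  have hmg : Measurable fun h : Hgt => Real.exp (-((ev (φ n) h) ^ 2 / (2 * K ^ 2))) :=
    Real.measurable_exp.comp (((measurable_ev _).pow_const 2).div_const _).neg
  have hle1 : ∀ h : Hgt, Real.exp (-((ev (φ n) h) ^ 2 / (2 * K ^ 2))) ≤ 1 := fun h =>
    Real.exp_le_one_iff.2 (neg_nonpos.2 (by (clear * - hK2; positivity)))
  have hint := (hG n).int
  have hsq : ∫ h, ‖G n h‖ ^ 2 ∂(mu0 P) ≤ C := by
    refine (integral_mono_of_nonneg (Eventually.of_forall fun h => sq_nonneg _) hint.norm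
      (Eventually.of_forall fun h => ?_)).trans (hGC n)
    simp only
    have := hG1 n h
    nlinarith only [this, norm_nonneg (G n h)]
  have hsq0 : 0 ≤ ∫ h, ‖G n h‖ ^ 2 ∂(mu0 P) := integral_nonneg fun h => sq_nonneg _
  -- first part
  have hp1 : ‖∫ h, Wf (w n) (u n) (φ n) α K h * G n h ∂(mu0 P)‖ ≤ ε / 4 := by
    have h4 : ‖∫ h, Wf (w n) (u n) (φ n) α K h * G n h ∂(mu0 P)‖ ^ 2 ≤ (ε / 4) ^ 2 := by
      refine h3.trans ?_
      have h5 : e K + (ε / 4) ^ 2 / (2 * (C + 1)) ≤ (ε / 4) ^ 2 / (C + 1) := by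
        have : (ε / 4) ^ 2 / (C + 1) = (ε / 4) ^ 2 / (2 * (C + 1)) +
            (ε / 4) ^ 2 / (2 * (C + 1)) := by field_simp; ring
        rw [this]
        linarith only [heK]
      calc (e K + (ε / 4) ^ 2 / (2 * (C + 1))) * ∫ h, ‖G n h‖ ^ 2 ∂(mu0 P)
          ≤ (ε / 4) ^ 2 / (C + 1) * ∫ h, ‖G n h‖ ^ 2 ∂(mu0 P) :=
            mul_le_mul_of_nonneg_right h5 hsq0
        _ ≤ (ε / 4) ^ 2 / (C + 1) * (C + 1) :=
            mul_le_mul_of_nonneg_left (by linarith only [hsq]) (by (clear * - hε hC0; positivity))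
        _ = (ε / 4) ^ 2 := by (clear * - hC0 hε; field_simp)
    exact le_of_sq_le_sq h4 (by positivity) |> fun h => h
  -- splitting
  have hYi : Integrable (fun h => Yf (w n) (u n) α h * G n h) (mu0 P) :=
    hint.bdd_mul (measurable_Yf _ _ _).aestronglyMeasurable
      (Eventually.of_forall (norm_Yf _ _ _))
  have hWi : Integrable (fun h => Wf (w n) (u n) (φ n) α K h * G n h) (mu0 P) := by
    refine hint.bdd_mul (c := A) (measurable_Wf _ _ _ _ _).aestronglyMeasurable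
      (Eventually.of_forall fun h => ?_)
    exact (norm_Wf _ _ _ _ _ _).trans (mul_le_of_le_one_right (by positivity) (hle1 h))
  have hdiff : ‖∫ h, Yf (w n) (u n) α h * G n h ∂(mu0 P) -
      ∫ h, Wf (w n) (u n) (φ n) α K h * G n h ∂(mu0 P)‖ ≤ ε / 4 := by
    rw [← integral_sub hYi hWi]
    have hti : Integrable (fun h => A * (‖G n h‖ *
        (1 - Real.exp (-((ev (φ n) h) ^ 2 / (2 * K ^ 2)))))) (mu0 P) := by
      refine Integrable.const_mul ?_ _
      have := hint.norm.bdd_mul (c := 1) (f := fun h : Hgt =>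
        1 - Real.exp (-((ev (φ n) h) ^ 2 / (2 * K ^ 2))))
        (measurable_const.sub hmg).aestronglyMeasurable (Eventually.of_forall fun h => by
          rw [Real.norm_eq_abs, abs_le]
          constructor
          · linarith only [hle1 h]
          · linarith only [Real.exp_pos (-((ev (φ n) h) ^ 2 / (2 * K ^ 2)))])
      refine this.congr (Eventually.of_forall fun h => ?_)
      simp only
      ring
    refine (norm_integral_le_of_norm_le hti (Eventually.of_forall fun h => ?_)).trans ?_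
    · have e1 : Yf (w n) (u n) α h * G n h - Wf (w n) (u n) (φ n) α K h * G n h =
          Yf (w n) (u n) α h * G n h *
            ((1 - Real.exp (-((ev (φ n) h) ^ 2 / (2 * K ^ 2))) : ℝ) : ℂ) := by
        unfold Wf
        push_cast
        ring
      rw [e1, norm_mul, norm_mul, Complex.norm_real, Real.norm_eq_abs,
        abs_of_nonneg (by linarith only [hle1 h]), mul_assoc]
      exact mul_le_mul_of_nonneg_right (norm_Yf _ _ _ _)
        (mul_nonneg (norm_nonneg _) (by linarith only [hle1 h]))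
    · rw [integral_const_mul]
      calc A * ∫ h, ‖G n h‖ * (1 - Real.exp (-((ev (φ n) h) ^ 2 / (2 * K ^ 2)))) ∂(mu0 P)
          ≤ A * (ε / (4 * A)) := mul_le_mul_of_nonneg_left h2 (by (clear * -; positivity))
        _ = ε / 4 := by (clear * - hA1 hε; field_simp)
  rw [dist_eq_norm, sub_zero]
  calc ‖∫ h, Yf (w n) (u n) α h * G n h ∂(mu0 P)‖
      = ‖(∫ h, Yf (w n) (u n) α h * G n h ∂(mu0 P) -
        ∫ h, Wf (w n) (u n) (φ n) α K h * G n h ∂(mu0 P)) +
        ∫ h, Wf (w n) (u n) (φ n) α K h * G n h ∂(mu0 P)‖ := by rw [sub_add_cancel]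
    _ ≤ ε / 4 + ε / 4 := (norm_add_le _ _).trans (add_le_add hdiff hp1)
    _ < ε := by linarith only [hε]

end Vale.Agent.P145.FA
end

section

/-!
# Hausdorff moment theorem (for reflection positivity)

`hausdorff`: a bounded real sequence `c` with both Hankel forms positive semidefinite is the moment
sequence of a finite measure on `[0,1]`.
-/

open MeasureTheory Polynomial Filter Topology
open scoped NNReal unitInterval

namespace Vale.Agent.P153.RP

/-! ### limits of measures on a compact space -/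

theorem exists_limit {E : Type*} [MeasurableSpace E] [TopologicalSpace E] [T2Space E] [BorelSpace E]
    [CompactSpace E] (μ : ℕ → FiniteMeasure E) (M : ℝ≥0) (hM : ∀ n, (μ n).mass = M) :
    ∃ ν : FiniteMeasure E, ν.mass = M ∧ ∀ (f : C(E, ℝ)) (l : ℝ),
      Tendsto (fun n => ∫ x, f x ∂(μ n : Measure E)) atTop (𝓝 l) →
      ∫ x, f x ∂(ν : Measure E) = l := by
  classical
  have hK := isCompact_setOfPred_finiteMeasure_eq_of_compactSpace E M
  let U : Ultrafilter ℕ := hyperfilter ℕ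
  have hU : (U : Filter ℕ) ≤ atTop := Nat.hyperfilter_le_atTop
  obtain ⟨ν, hν, hlim⟩ := hK.ultrafilter_le_nhds (U.map μ) (by
    rw [le_principal_iff]
    exact Filter.Eventually.of_forall (f := (U : Filter ℕ)) hM)
  refine ⟨ν, hν, fun f l hl => ?_⟩
  have h1 : Tendsto μ (U : Filter ℕ) (𝓝 ν) := hlim
  rw [FiniteMeasure.tendsto_iff_forall_integral_tendsto] at h1
  have h2 := h1 (BoundedContinuousFunction.mkOfCompact f)
  have h3 : Tendsto (fun n => ∫ x, f x ∂(μ n : Measure E)) (U : Filter ℕ) (𝓝 l) := hl.mono_left hU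
  exact tendsto_nhds_unique h2 h3

/-! ### positive functionals on polynomials -/

/-- positivity of `L` on `q²` and `X q²`, and boundedness of the moments -/
structure PosL (L : ℝ[X] →ₗ[ℝ] ℝ) : Prop where
  even : ∀ q : ℝ[X], 0 ≤ L (q * q)
  odd : ∀ q : ℝ[X], 0 ≤ L (X * (q * q))
  bdd : ∃ C : ℝ, ∀ n : ℕ, |L (X ^ n)| ≤ C

variable {L : ℝ[X] →ₗ[ℝ] ℝ}

theorem PosL.pow (h : PosL L) (n : ℕ) (q : ℝ[X]) : 0 ≤ L (X ^ n * (q * q)) := by
  obtain ⟨m, hm⟩ := Nat.even_or_odd' n
  rcases hm with rfl | rfl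
  · have := h.even (X ^ m * q)
    convert this using 2
    ring
  · have := h.odd (X ^ m * q)
    convert this using 2
    ring

theorem PosL.bdd_mul (h : PosL L) (p : ℝ[X]) : ∃ C : ℝ, ∀ n : ℕ, |L (X ^ n * p)| ≤ C := by
  induction p using Polynomial.induction_on' with
  | add p q hp hq =>
    obtain ⟨C, hC⟩ := hp
    obtain ⟨D, hD⟩ := hq
    refine ⟨C + D, fun n => ?_⟩
    rw [mul_add, map_add]
    exact (abs_add_le _ _).trans (add_le_add (hC n) (hD n))
  | monomial k a =>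
    obtain ⟨C, hC⟩ := h.bdd
    refine ⟨|a| * C, fun n => ?_⟩
    have : (X : ℝ[X]) ^ n * monomial k a = a • X ^ (n + k) := by
      rw [← C_mul_X_pow_eq_monomial, smul_eq_C_mul]; ring
    rw [this, map_smul, smul_eq_mul, abs_mul]
    exact mul_le_mul_of_nonneg_left (hC _) (abs_nonneg a)

/-- bounded convex sequences are nonincreasing -/
theorem convex_bdd {A : ℕ → ℝ} (hc : ∀ n, 0 ≤ A n - 2 * A (n + 1) + A (n + 2))
    {C : ℝ} (hb : ∀ n, |A n| ≤ C) : A 1 ≤ A 0 := by
  by_contra hlt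
  push Not at hlt
  have hd : ∀ n, A 1 - A 0 ≤ A (n + 1) - A n := by
    intro n
    induction n with
    | zero => simp
    | succ n ih => have := hc n; linarith only [ih, this]
  have hg : ∀ n : ℕ, A 0 + n * (A 1 - A 0) ≤ A n := by
    intro n
    induction n with
    | zero => simp
    | succ n ih =>
      have := hd n
      push_cast
      linarith
  obtain ⟨n, hn⟩ := exists_nat_gt ((C - A 0) / (A 1 - A 0))
  have h1 : C - A 0 < n * (A 1 - A 0) := by
    rwa [div_lt_iff₀ (by linarith)] at hn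
  have h2 := hg n
  have h3 := (abs_le.1 (hb n)).2
  linarith

theorem PosL.one_sub (h : PosL L) (q : ℝ[X]) : 0 ≤ L ((1 - X) * (q * q)) := by
  obtain ⟨C, hC⟩ := h.bdd_mul (q * q)
  have := convex_bdd (A := fun n => L (X ^ n * (q * q))) (fun n => by
    have h1 := h.pow n ((1 - X) * q)
    have h2 : (X : ℝ[X]) ^ n * ((1 - X) * q * ((1 - X) * q)) =
        X ^ n * (q * q) - (2 : ℝ) • (X ^ (n + 1) * (q * q)) + X ^ (n + 2) * (q * q) := by
      rw [smul_eq_C_mul, show (Polynomial.C (2 : ℝ) : ℝ[X]) = 2 from rfl]; ring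
    rw [h2, map_add, map_sub, map_smul, smul_eq_mul] at h1
    exact h1) hC
  have h3 : ((1 : ℝ[X]) - X) * (q * q) = X ^ 0 * (q * q) - X ^ 1 * (q * q) := by ring
  rw [h3, map_sub]
  linarith [this]

theorem PosL.shift (h : PosL L) : PosL (L ∘ₗ LinearMap.mulLeft ℝ (X : ℝ[X])) where
  even q := by simpa only [LinearMap.coe_comp, Function.comp_apply, LinearMap.mulLeft_apply] using h.odd q
  odd q := by
    have := h.pow 2 q
    simp only [LinearMap.comp_apply, LinearMap.mulLeft_apply]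
    convert this using 2
    ring
  bdd := by
    obtain ⟨C, hC⟩ := h.bdd
    refine ⟨C, fun n => ?_⟩
    simp only [LinearMap.comp_apply, LinearMap.mulLeft_apply]
    rw [← pow_succ']
    exact hC _

theorem PosL.basic (h : PosL L) (i j : ℕ) : 0 ≤ L (X ^ i * (1 - X) ^ j) := by
  obtain ⟨a, ha⟩ := Nat.even_or_odd' i
  obtain ⟨b, hb⟩ := Nat.even_or_odd' j
  rcases hb with rfl | rfl
  · have := h.pow i ((1 - X) ^ b)
    convert this using 2
    ring
  · rcases ha with rfl | rfl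
    · have := h.one_sub (X ^ a * (1 - X) ^ b)
      convert this using 2
      ring
    · have := h.shift.one_sub (X ^ a * (1 - X) ^ b)
      simp only [LinearMap.comp_apply, LinearMap.mulLeft_apply] at this
      convert this using 2
      ring

theorem PosL.bernstein (h : PosL L) (m ν : ℕ) : 0 ≤ L (bernsteinPolynomial ℝ m ν) := by
  have : bernsteinPolynomial ℝ m ν = ((m.choose ν : ℕ) : ℝ) • (X ^ ν * (1 - X) ^ (m - ν)) := by
    rw [bernsteinPolynomial, smul_eq_C_mul]
    simp only [mul_assoc, map_natCast]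
  rw [this, map_smul, smul_eq_mul]
  exact mul_nonneg (Nat.cast_nonneg _) (h.basic _ _)

/-! ### Bernstein factorial moments -/

theorem bernstein_choose (m i : ℕ) :
    ∑ ν ∈ Finset.range (m + 1), ((ν.choose i : ℕ) : ℝ) • bernsteinPolynomial ℝ m ν =
      ((m.choose i : ℕ) : ℝ) • X ^ i := by
  by_cases hi : i ≤ m
  · obtain ⟨r, rfl⟩ := Nat.exists_eq_add_of_le hi
    have hsplit : ∑ ν ∈ Finset.range (i + r + 1), ((ν.choose i : ℕ) : ℝ) •
        bernsteinPolynomial ℝ (i + r) ν =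
        ∑ k ∈ Finset.range (r + 1), (((i + k).choose i : ℕ) : ℝ) •
          bernsteinPolynomial ℝ (i + r) (i + k) := by
      rw [show i + r + 1 = i + (r + 1) by ring, Finset.sum_range_add]
      have : ∑ x ∈ Finset.range i, ((x.choose i : ℕ) : ℝ) • bernsteinPolynomial ℝ (i + r) x = 0 := by
        apply Finset.sum_eq_zero
        intro x hx
        rw [Nat.choose_eq_zero_of_lt (Finset.mem_range.1 hx)]
        simp
      rw [this, zero_add]
    rw [hsplit]
    have hterm : ∀ k ∈ Finset.range (r + 1), (((i + k).choose i : ℕ) : ℝ) •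
        bernsteinPolynomial ℝ (i + r) (i + k) =
        (((i + r).choose i : ℕ) : ℝ) • (X ^ i * bernsteinPolynomial ℝ r k) := by
      intro k hk
      have hk' : k ≤ r := Nat.lt_succ_iff.1 (Finset.mem_range.1 hk)
      have hch : (i + r).choose (i + k) * (i + k).choose i = (i + r).choose i * r.choose k := by
        have := Nat.choose_mul (n := i + r) (k := i + k) (s := i) (by omega)
        simpa only [add_tsub_cancel_left] using this
      rw [bernsteinPolynomial, bernsteinPolynomial]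
      have e1 : i + r - (i + k) = r - k := by omega
      rw [e1, smul_eq_C_mul, smul_eq_C_mul]
      have hch' : (((i + r).choose (i + k) : ℕ) : ℝ[X]) * (((i + k).choose i : ℕ) : ℝ[X]) =
          (((i + r).choose i : ℕ) : ℝ[X]) * ((r.choose k : ℕ) : ℝ[X]) := by
        exact_mod_cast congrArg (Nat.cast : ℕ → ℝ[X]) hch
      simp only [map_natCast]
      rw [pow_add]
      linear_combination (X ^ i * X ^ k * (1 - X) ^ (r - k)) * hch'
    rw [Finset.sum_congr rfl hterm, ← Finset.smul_sum, ← Finset.mul_sum, bernsteinPolynomial.sum,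
      mul_one]
  · push Not at hi
    rw [Nat.choose_eq_zero_of_lt hi]
    rw [Nat.cast_zero, zero_smul]
    apply Finset.sum_eq_zero
    intro x hx
    rw [Nat.choose_eq_zero_of_lt (by have := Finset.mem_range.1 hx; omega)]
    simp

theorem prod_sub_pow {i : ℕ} {r : ℕ → ℝ} {t e : ℝ} (ht0 : 0 ≤ t) (ht1 : t ≤ 1)
    (hr0 : ∀ s < i, 0 ≤ r s) (hr1 : ∀ s < i, r s ≤ 1) (he : ∀ s < i, |r s - t| ≤ e) :
    |∏ s ∈ Finset.range i, r s - t ^ i| ≤ i * e := by
  induction i with
  | zero => simp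
  | succ i ih =>
    have ih' := ih (fun s hs => hr0 s (by omega)) (fun s hs => hr1 s (by omega))
      (fun s hs => he s (by omega))
    rw [Finset.prod_range_succ, pow_succ]
    have h1 : (∏ s ∈ Finset.range i, r s) * r i - t ^ i * t =
        (∏ s ∈ Finset.range i, r s - t ^ i) * r i + t ^ i * (r i - t) := by ring
    rw [h1]
    refine (abs_add_le _ _).trans ?_
    rw [abs_mul, abs_mul]
    have h2 : |r i| ≤ 1 := abs_le.2 ⟨by linarith [hr0 i (by omega)], hr1 i (by omega)⟩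
    have h3 : |t ^ i| ≤ 1 := by
      rw [abs_of_nonneg (pow_nonneg ht0 _)]; exact pow_le_one₀ ht0 ht1
    have h4 := he i (by omega)
    have h5 : 0 ≤ e := (abs_nonneg _).trans h4
    calc |∏ s ∈ Finset.range i, r s - t ^ i| * |r i| + |t ^ i| * |r i - t|
        ≤ (i * e) * 1 + 1 * e := by
          apply add_le_add
          · exact mul_le_mul ih' h2 (abs_nonneg _) ((abs_nonneg _).trans ih')
          · exact mul_le_mul h3 h4 (abs_nonneg _) zero_le_one
      _ = ((i + 1 : ℕ) : ℝ) * e := by push_cast; ring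

theorem choose_ratio {i m ν : ℕ} (him : i < m) (hν : ν ≤ m) :
    |((ν.choose i : ℕ) : ℝ) / ((m.choose i : ℕ) : ℝ) - ((ν : ℝ) / m) ^ i| ≤
      i * ((i : ℝ) / ((m : ℝ) - i)) := by
  have hm0 : (0 : ℝ) < m := by exact_mod_cast (by omega : 0 < m)
  have hmi : (0 : ℝ) < (m : ℝ) - i := by
    have : (i : ℝ) < m := by exact_mod_cast him
    linarith
  have h1 : ((ν.choose i : ℕ) : ℝ) / ((m.choose i : ℕ) : ℝ) =
      ∏ s ∈ Finset.range i, (((ν - s : ℕ) : ℝ) / ((m - s : ℕ) : ℝ)) := by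
    have hf : ((i.factorial : ℕ) : ℝ) ≠ 0 := by exact_mod_cast i.factorial_ne_zero
    have hc : ((m.choose i : ℕ) : ℝ) ≠ 0 := by
      exact_mod_cast (Nat.choose_pos (by omega : i ≤ m)).ne'
    have e1 : ((i.factorial : ℕ) : ℝ) * ((ν.choose i : ℕ) : ℝ) =
        ∏ s ∈ Finset.range i, ((ν - s : ℕ) : ℝ) := by
      rw [← Nat.cast_mul, ← Nat.descFactorial_eq_factorial_mul_choose,
        Nat.descFactorial_eq_prod_range, Nat.cast_prod]
    have e2 : ((i.factorial : ℕ) : ℝ) * ((m.choose i : ℕ) : ℝ) =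
        ∏ s ∈ Finset.range i, ((m - s : ℕ) : ℝ) := by
      rw [← Nat.cast_mul, ← Nat.descFactorial_eq_factorial_mul_choose,
        Nat.descFactorial_eq_prod_range, Nat.cast_prod]
    rw [Finset.prod_div_distrib, ← e1, ← e2]
    field_simp
  rw [h1]
  apply prod_sub_pow
  · (clear * - hm0; positivity)
  · rw [div_le_one hm0]; exact_mod_cast hν
  · intro s hs; positivity
  · intro s hs
    have : (0 : ℝ) < ((m - s : ℕ) : ℝ) := by exact_mod_cast (by omega : 0 < m - s)
    rw [div_le_one this]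
    exact_mod_cast (by omega : ν - s ≤ m - s)
  · intro s hs
    have hms : (0 : ℝ) < ((m - s : ℕ) : ℝ) := by exact_mod_cast (by omega : 0 < m - s)
    have hms' : ((m - s : ℕ) : ℝ) = (m : ℝ) - s := by
      rw [Nat.cast_sub (by omega)]
    have hsi : (s : ℝ) < i := by exact_mod_cast hs
    have hs0 : (0 : ℝ) ≤ s := Nat.cast_nonneg s
    have hνm : (ν : ℝ) ≤ m := by exact_mod_cast hν
    have hν0 : (0 : ℝ) ≤ ν := Nat.cast_nonneg ν
    have key : (s : ℝ) / ((m : ℝ) - s) ≤ (i : ℝ) / ((m : ℝ) - i) := by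
      apply div_le_div₀ (by linarith only []) hsi.le hmi (by linarith only [hsi])
    rcases le_or_gt s ν with hsν | hsν
    · rw [Nat.cast_sub hsν, hms']
      have hms2 : (0 : ℝ) < (m : ℝ) - s := by linarith only [hmi, hsi]
      have e : ((ν : ℝ) - s) / ((m : ℝ) - s) - (ν : ℝ) / m =
          -((s * ((m : ℝ) - ν)) / (m * ((m : ℝ) - s))) := by
        field_simp
        ring
      rw [e, abs_neg, abs_of_nonneg (by
        apply div_nonneg (mul_nonneg hs0 (by linarith only [hνm])) (by (clear * - hm0 hms2; positivity)))]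
      refine le_trans ?_ key
      rw [div_le_div_iff₀ (by (clear * - hm0 hms2; positivity)) hms2]
      have : s * ((m : ℝ) - ν) ≤ s * m := mul_le_mul_of_nonneg_left (by linarith only []) hs0
      nlinarith only [this, hms2]
    · have : ν - s = 0 := by omega
      rw [this, Nat.cast_zero, zero_div, zero_sub, abs_neg, abs_of_nonneg (by (clear * - hm0; positivity))]
      refine le_trans ?_ key
      have hνs : (ν : ℝ) ≤ s := by exact_mod_cast hsν.le
      apply div_le_div₀ hs0 hνs (by linarith only [hmi, hsi]) (by linarith only [])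

/-! ### the approximating measures -/

/-- the point `ν / m` of `[0,1]` -/
noncomputable def pt (m ν : ℕ) : I :=
  ⟨min 1 ((ν : ℝ) / m), le_min zero_le_one (by positivity), min_le_left _ _⟩

theorem pt_val {m ν : ℕ} (h : ν ≤ m) : ((pt m ν : I) : ℝ) = (ν : ℝ) / m := by
  show min 1 ((ν : ℝ) / m) = _
  apply min_eq_right
  rcases Nat.eq_zero_or_pos m with rfl | hm
  · simp only [CharP.cast_eq_zero, div_zero, zero_le_one]
  · rw [div_le_one (by exact_mod_cast hm)]; exact_mod_cast h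

/-- atomic measure with the Bernstein weights of `L` -/
noncomputable def bmeas (L : ℝ[X] →ₗ[ℝ] ℝ) (m : ℕ) : Measure I :=
  ∑ ν ∈ Finset.range (m + 1), ENNReal.ofReal (L (bernsteinPolynomial ℝ m ν)) •
    Measure.dirac (pt m ν)

instance (L : ℝ[X] →ₗ[ℝ] ℝ) (m : ℕ) : IsFiniteMeasure (bmeas L m) := by
  unfold bmeas
  constructor
  rw [Measure.finsetSum_apply]
  simp only [Measure.smul_apply, measure_univ, smul_eq_mul, mul_one]
  exact ENNReal.sum_lt_top.2 (fun _ _ => ENNReal.ofReal_lt_top)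

theorem PosL.bmeas_univ (h : PosL L) (m : ℕ) : bmeas L m Set.univ = ENNReal.ofReal (L 1) := by
  unfold bmeas
  rw [Measure.finsetSum_apply]
  simp only [Measure.smul_apply, measure_univ, smul_eq_mul, mul_one]
  rw [← ENNReal.ofReal_sum_of_nonneg (fun ν _ => h.bernstein m ν), ← map_sum,
    bernsteinPolynomial.sum]

theorem PosL.bmeas_integral (h : PosL L) (m : ℕ) (f : C(I, ℝ)) :
    ∫ x, f x ∂(bmeas L m) =
      ∑ ν ∈ Finset.range (m + 1), L (bernsteinPolynomial ℝ m ν) * f (pt m ν) := by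
  unfold bmeas
  rw [integral_finsetSum_measure]
  · apply Finset.sum_congr rfl
    intro ν _
    rw [integral_smul_measure, integral_dirac, ENNReal.toReal_ofReal (h.bernstein m ν), smul_eq_mul]
  · intro ν _
    apply Integrable.smul_measure _ ENNReal.ofReal_ne_top
    exact integrable_dirac (by simp only [enorm_lt_top])

theorem PosL.moment_tendsto (h : PosL L) (i : ℕ) :
    Tendsto (fun m : ℕ => ∑ ν ∈ Finset.range (m + 1),
      L (bernsteinPolynomial ℝ m ν) * ((pt m ν : I) : ℝ) ^ i) atTop (𝓝 (L (X ^ i))) := by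
  have hL1 : 0 ≤ L 1 := by simpa only [mul_one] using h.even 1
  have hbound : ∀ m : ℕ, i < m → |∑ ν ∈ Finset.range (m + 1),
      L (bernsteinPolynomial ℝ m ν) * ((pt m ν : I) : ℝ) ^ i - L (X ^ i)| ≤
      L 1 * (i * ((i : ℝ) / ((m : ℝ) - i))) := by
    intro m hm
    have hc : ((m.choose i : ℕ) : ℝ) ≠ 0 := by
      exact_mod_cast (Nat.choose_pos hm.le).ne'
    have h1 : L (X ^ i) = ∑ ν ∈ Finset.range (m + 1),
        L (bernsteinPolynomial ℝ m ν) * (((ν.choose i : ℕ) : ℝ) / ((m.choose i : ℕ) : ℝ)) := by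
      have := congrArg L (bernstein_choose m i)
      rw [map_sum, map_smul, smul_eq_mul] at this
      rw [← mul_right_inj' hc, ← this, Finset.mul_sum]
      apply Finset.sum_congr rfl
      intro ν _
      rw [map_smul, smul_eq_mul]
      (clear * - hc; field_simp)
    rw [h1, ← Finset.sum_sub_distrib]
    refine (Finset.abs_sum_le_sum_abs _ _).trans ?_
    have h2 : ∀ ν ∈ Finset.range (m + 1), |L (bernsteinPolynomial ℝ m ν) *
        ((pt m ν : I) : ℝ) ^ i - L (bernsteinPolynomial ℝ m ν) *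
        (((ν.choose i : ℕ) : ℝ) / ((m.choose i : ℕ) : ℝ))| ≤
        L (bernsteinPolynomial ℝ m ν) * (i * ((i : ℝ) / ((m : ℝ) - i))) := by
      intro ν hν
      have hν' : ν ≤ m := Nat.lt_succ_iff.1 (Finset.mem_range.1 hν)
      rw [← mul_sub, abs_mul, abs_of_nonneg (h.bernstein m ν), pt_val hν', abs_sub_comm]
      exact mul_le_mul_of_nonneg_left (choose_ratio hm hν') (h.bernstein m ν)
    refine (Finset.sum_le_sum h2).trans ?_
    rw [← Finset.sum_mul, ← map_sum, bernsteinPolynomial.sum]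
  rw [tendsto_iff_norm_sub_tendsto_zero]
  have hlim : Tendsto (fun m : ℕ => L 1 * (i * ((i : ℝ) / ((m : ℝ) - i)))) atTop (𝓝 0) := by
    have h1 : Tendsto (fun m : ℕ => (m : ℝ) - i) atTop atTop :=
      tendsto_atTop_add_const_right _ _ tendsto_natCast_atTop_atTop
    have h2 := (h1.const_div_atTop (i : ℝ)).const_mul (i : ℝ)
    have h3 := h2.const_mul (L 1)
    simpa only [mul_zero] using h3
  refine squeeze_zero' (Eventually.of_forall fun _ => norm_nonneg _) ?_ hlim
  filter_upwards [eventually_gt_atTop i] with m hm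
  exact hbound m hm

/-- monomial as a continuous function on `[0,1]` -/
noncomputable def monoI (i : ℕ) : C(I, ℝ) := ⟨fun x => (x : ℝ) ^ i, by fun_prop⟩

/-- **Hausdorff moment theorem**, functional form. -/
theorem PosL.exists_measure (h : PosL L) : ∃ μ : FiniteMeasure I,
    ∀ i : ℕ, ∫ x : I, (x : ℝ) ^ i ∂(μ : Measure I) = L (X ^ i) := by
  have hL1 : 0 ≤ L 1 := by simpa only [mul_one] using h.even 1
  obtain ⟨ν, -, hν⟩ := exists_limit (E := I) (fun m => ⟨bmeas L m, inferInstance⟩)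
    (Real.toNNReal (L 1)) (fun m => by
      show ((bmeas L m) Set.univ).toNNReal = _
      rw [h.bmeas_univ]; rfl)
  refine ⟨ν, fun i => ?_⟩
  have := hν (monoI i) (L (X ^ i)) (by
    have h1 := h.moment_tendsto i
    refine h1.congr (fun m => ?_)
    exact (h.bmeas_integral m (monoI i)).symm)
  exact this

/-- the functional of a real sequence -/
noncomputable def Lf (c : ℕ → ℝ) : ℝ[X] →ₗ[ℝ] ℝ :=
  Polynomial.lsum fun n => c n • (LinearMap.id : ℝ →ₗ[ℝ] ℝ)

theorem Lf_apply (c : ℕ → ℝ) (p : ℝ[X]) : Lf c p = p.sum fun n a => c n * a := by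
  simp only [Lf, lsum_apply, LinearMap.smul_apply, LinearMap.id_coe, id_eq, smul_eq_mul]

theorem Lf_monomial (c : ℕ → ℝ) (n : ℕ) (a : ℝ) : Lf c (monomial n a) = c n * a := by
  rw [Lf_apply, Polynomial.sum_monomial_index]
  simp

theorem Lf_X_pow (c : ℕ → ℝ) (n : ℕ) : Lf c (X ^ n) = c n := by
  rw [X_pow_eq_monomial, Lf_monomial, mul_one]

theorem Lf_mul (c : ℕ → ℝ) (k : ℕ) (p q : ℝ[X]) :
    Lf c (X ^ k * (p * q)) = ∑ i ∈ p.support, ∑ j ∈ q.support,
      p.coeff i * q.coeff j * c (i + j + k) := by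
  conv_lhs => rw [p.as_sum_support, q.as_sum_support]
  rw [Finset.sum_mul_sum, Finset.mul_sum, map_sum]
  apply Finset.sum_congr rfl
  intro i _
  rw [Finset.mul_sum, map_sum]
  apply Finset.sum_congr rfl
  intro j _
  rw [monomial_mul_monomial, X_pow_eq_monomial, monomial_mul_monomial, Lf_monomial]
  rw [show k + (i + j) = i + j + k by ring]
  ring

/-- **Hausdorff moment theorem** for a bounded sequence with both Hankel forms `≥ 0`. -/
theorem hausdorff (c : ℕ → ℝ) (C : ℝ) (hb : ∀ n, |c n| ≤ C)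
    (h0 : ∀ (s : Finset ℕ) (a : ℕ → ℝ), 0 ≤ ∑ i ∈ s, ∑ j ∈ s, a i * a j * c (i + j))
    (h1 : ∀ (s : Finset ℕ) (a : ℕ → ℝ), 0 ≤ ∑ i ∈ s, ∑ j ∈ s, a i * a j * c (i + j + 1)) :
    ∃ μ : FiniteMeasure I, ∀ i : ℕ, ∫ x : I, (x : ℝ) ^ i ∂(μ : Measure I) = c i := by
  have h : PosL (Lf c) := by
    refine ⟨fun q => ?_, fun q => ?_, ⟨C, fun n => ?_⟩⟩
    · have := Lf_mul c 0 q q
      rw [pow_zero, one_mul] at this
      rw [this]
      exact h0 _ _
    · have := Lf_mul c 1 q q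
      rw [pow_one] at this
      rw [this]
      exact h1 _ _
    · rw [Lf_X_pow]; exact hb n
  obtain ⟨μ, hμ⟩ := h.exists_measure
  exact ⟨μ, fun i => by rw [hμ, Lf_X_pow]⟩

end Vale.Agent.P153.RP
end

section

/-!
# Legs: continuation in the position of a group of observables, from reflection positivity

`leg_ineq`: for a positive semidefinite form with a symmetric positive bounded shift `T`,
`|⟨x, p(T) y⟩| ≤ sup_{[0,1]} |p| ‖x‖ ‖y‖` for all real polynomials `p`.

`extrap`: a sequence `H` with this property is small at `m ≥ b / r` if it is small at the finitely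
many positions `m + (j + k) b`, uniformly in `b`.

`leg_limit`: the form used for families of observables at scale `N`.
-/

open MeasureTheory Polynomial Filter Topology
open scoped NNReal unitInterval
open Vale.Agent.P153.RP

namespace Vale.Agent.P145.FA

/-- polynomial bound for a sequence: `|L_H p| ≤ sup_{[0,1]} |p| · C` -/
def PolyBdd (H : ℕ → ℝ) (C : ℝ) : Prop :=
  ∀ (p : ℝ[X]) (M : ℝ), (∀ x ∈ Set.Icc (0 : ℝ) 1, |p.eval x| ≤ M) → |Lf H p| ≤ M * C

section form

variable {V : Type*} [AddCommGroup V] [Module ℝ V]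

/-- data for a leg: a symmetric positive semidefinite form and a positive symmetric shift with
bounded diagonal correlations -/
structure LegForm (B : V →ₗ[ℝ] V →ₗ[ℝ] ℝ) (T : V →ₗ[ℝ] V) : Prop where
  symm : ∀ x y, B x y = B y x
  nonneg : ∀ x, 0 ≤ B x x
  shift : ∀ x y, B (T x) y = B x (T y)
  shift_nonneg : ∀ x, 0 ≤ B x (T x)
  bdd : ∀ x, ∃ C : ℝ, ∀ n : ℕ, B x ((T ^ n) x) ≤ C

variable {B : V →ₗ[ℝ] V →ₗ[ℝ] ℝ} {T : V →ₗ[ℝ] V}

theorem LegForm.shift_pow (h : LegForm B T) (i : ℕ) (x y : V) :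
    B ((T ^ i) x) y = B x ((T ^ i) y) := by
  induction i generalizing x y with
  | zero => simp only [pow_zero, Module.End.one_apply]
  | succ i ih =>
    rw [pow_succ, Module.End.mul_apply, ih, h.shift, ← Module.End.mul_apply, ← pow_succ',
      ← pow_succ]

theorem LegForm.cs (h : LegForm B T) (x y : V) : B x y ^ 2 ≤ B x x * B y y := by
  have key : ∀ t : ℝ, 0 ≤ B y y * t ^ 2 + 2 * B x y * t + B x x := by
    intro t
    have := h.nonneg (x + t • y)
    simp only [map_add, map_smul, LinearMap.add_apply, LinearMap.smul_apply, smul_eq_mul,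
      h.symm y x] at this
    linarith
  have := discrim_le_zero (a := B y y) (b := 2 * B x y) (c := B x x) (fun t => by
    have := key t
    linarith)
  unfold discrim at this
  linarith

theorem LegForm.abs_le (h : LegForm B T) (x y : V) :
    |B x y| ≤ √(B x x) * √(B y y) := by
  rw [← Real.sqrt_mul (h.nonneg x)]
  exact Real.abs_le_sqrt (h.cs x y)

theorem LegForm.exists_measure (h : LegForm B T) (x : V) :
    ∃ μ : FiniteMeasure I, ∀ i : ℕ,
      ∫ t : I, (t : ℝ) ^ i ∂(μ : Measure I) = B x ((T ^ i) x) := by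
  obtain ⟨C, hC⟩ := h.bdd x
  have hsum : ∀ (s : Finset ℕ) (a : ℕ → ℝ) (k : ℕ),
      ∑ i ∈ s, ∑ j ∈ s, a i * a j * B x ((T ^ (i + j + k)) x) =
      B (∑ i ∈ s, a i • (T ^ i) x) ((T ^ k) (∑ i ∈ s, a i • (T ^ i) x)) := by
    intro s a k
    simp only [map_sum, map_smul, LinearMap.sum_apply, LinearMap.smul_apply, smul_eq_mul,
      Finset.mul_sum]
    rw [Finset.sum_comm]
    refine Finset.sum_congr rfl fun i _ => Finset.sum_congr rfl fun j _ => ?_
    rw [h.shift_pow, ← Module.End.mul_apply, ← Module.End.mul_apply, ← pow_add, ← pow_add]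
    rw [show j + i + k = j + (k + i) by ring]
    ring_nf
  apply hausdorff _ C
  · intro n
    have h0 : 0 ≤ B x ((T ^ n) x) := by
      obtain ⟨m, hm⟩ := Nat.even_or_odd' n
      rcases hm with rfl | rfl
      · rw [two_mul, pow_add, Module.End.mul_apply, ← h.shift_pow]
        exact h.nonneg _
      · rw [show 2 * m + 1 = m + (1 + m) by ring, pow_add, Module.End.mul_apply, ← h.shift_pow,
          pow_add, pow_one, Module.End.mul_apply]
        exact h.shift_nonneg _
    rw [abs_of_nonneg h0]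
    exact hC n
  · intro s a
    have := hsum s a 0
    simp only [add_zero, pow_zero] at this
    rw [this]
    exact h.nonneg _
  · intro s a
    have := hsum s a 1
    simp only [pow_one] at this
    rw [this]
    exact h.shift_nonneg _

theorem LegForm.aeval_eq_Lf (x y : V) (p : ℝ[X]) :
    B x (aeval T p y) = Lf (fun i => B x ((T ^ i) y)) p := by
  rw [Lf_apply, aeval_eq_sum_range, Polynomial.sum_over_range]
  · simp only [LinearMap.coe_sum, LinearMap.coe_smul, Finset.sum_apply, Pi.smul_apply, map_sum, map_smul, smul_eq_mul, mul_comm]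
  · simp only [mul_zero, implies_true]

theorem LegForm.int_eq (x : V) (μ : FiniteMeasure I)
    (hμ : ∀ i : ℕ, ∫ t : I, (t : ℝ) ^ i ∂(μ : Measure I) = B x ((T ^ i) x)) (p : ℝ[X]) :
    B x (aeval T p x) = ∫ t : I, p.eval (t : ℝ) ∂(μ : Measure I) := by
  rw [aeval_eq_sum_range]
  simp only [LinearMap.sum_apply, map_sum, LinearMap.smul_apply, map_smul, smul_eq_mul]
  simp_rw [eval_eq_sum_range]
  rw [integral_finsetSum]
  · refine Finset.sum_congr rfl fun i _ => ?_
    rw [← hμ i, integral_const_mul]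
  · intro i _
    apply Integrable.const_mul
    apply Continuous.integrable_of_hasCompactSupport
    · fun_prop
    · exact HasCompactSupport.of_compactSpace _

/-- **leg inequality** -/
theorem LegForm.leg_ineq (h : LegForm B T) (x y : V) (p : ℝ[X]) (M : ℝ)
    (hM : ∀ t ∈ Set.Icc (0 : ℝ) 1, |p.eval t| ≤ M) :
    |B x (aeval T p y)| ≤ M * (√(B x x) * √(B y y)) := by
  have hM0 : 0 ≤ M := (abs_nonneg _).trans (hM 0 (by simp only [Set.mem_Icc, Std.le_refl, zero_le_one, and_self]))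
  obtain ⟨μ, hμ⟩ := h.exists_measure y
  have h1 : B (aeval T p y) (aeval T p y) ≤ M ^ 2 * B y y := by
    have e1 : B (aeval T p y) (aeval T p y) = B y (aeval T (p * p) y) := by
      rw [map_mul, Module.End.mul_apply]
      have : ∀ (q : ℝ[X]) (u v : V), B (aeval T q u) v = B u (aeval T q v) := by
        intro q u v
        rw [aeval_eq_sum_range]
        simp only [LinearMap.sum_apply, LinearMap.smul_apply, map_sum, map_smul, h.shift_pow, smul_eq_mul]
      rw [this]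
    rw [e1, LegForm.int_eq y μ hμ]
    have e2 : B y y = ∫ t : I, (1 : ℝ) ∂(μ : Measure I) := by
      have := hμ 0
      simpa only [integral_const, FiniteMeasure.measureReal_eq_coe_coeFn, FiniteMeasure.self_eq_mass_mul_normalize,     ProbabilityMeasure.coeFn_univ, mul_one, smul_eq_mul, pow_zero, Module.End.one_apply] using this.symm
    rw [e2, ← integral_const_mul]
    apply integral_mono
    · apply Continuous.integrable_of_hasCompactSupport
      · fun_prop
      · exact HasCompactSupport.of_compactSpace _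
    · exact integrable_const _
    · intro t
      simp only [eval_mul, mul_one]
      have := hM t t.2
      nlinarith only [this, abs_nonneg (p.eval (t : ℝ)), sq_abs (p.eval (t : ℝ))]
  calc |B x (aeval T p y)| ≤ √(B x x) * √(B (aeval T p y) (aeval T p y)) := h.abs_le _ _
    _ ≤ √(B x x) * √(M ^ 2 * B y y) := by gcongr
    _ = M * (√(B x x) * √(B y y)) := by
      rw [Real.sqrt_mul (sq_nonneg M), Real.sqrt_sq hM0]; ring

/-- the off-diagonal correlations of a leg are `PolyBdd` -/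
theorem LegForm.polyBdd (h : LegForm B T) (x y : V) {C : ℝ} (hC : √(B x x) * √(B y y) ≤ C) :
    PolyBdd (fun i => B x ((T ^ i) y)) C := by
  intro p M hM
  have hM0 : 0 ≤ M := (abs_nonneg _).trans (hM 0 (by simp only [Set.mem_Icc, Std.le_refl, zero_le_one, and_self]))
  rw [← LegForm.aeval_eq_Lf]
  exact (h.leg_ineq x y p M hM).trans (by (clear * - hC hM0; gcongr))

end form

/-! ### extrapolation -/

theorem one_sub_pow_le {x : ℝ} (hx1 : x ≤ 1) (j : ℕ) :
    1 - (1 - x) ^ j ≤ j * x := by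
  have := one_add_mul_le_pow (a := -x) (by linarith) j
  have e : (1 + -x) ^ j = (1 - x) ^ j := by ring
  rw [e] at this
  nlinarith only [this]

/-- choice of the exponent -/
theorem exists_exp (η : ℝ) (hη : 0 < η) (r : ℕ) :
    ∃ n : ℕ, ∀ u ∈ Set.Icc (0 : ℝ) 1, u * (1 - u ^ r) ^ n ≤ η := by
  rcases le_or_gt 1 η with h1 | h1
  · refine ⟨0, fun u hu => ?_⟩
    simpa only [pow_zero, mul_one] using hu.2.trans h1
  obtain ⟨n, hn⟩ := exists_pow_lt_of_lt_one hη (show 1 - η ^ r < 1 by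
    have := pow_pos hη r; linarith)
  refine ⟨n, fun u hu => ?_⟩
  have hur : u ^ r ≤ 1 := pow_le_one₀ hu.1 hu.2
  have hur0 : 0 ≤ u ^ r := pow_nonneg hu.1 r
  rcases le_or_gt u η with h2 | h2
  · calc u * (1 - u ^ r) ^ n ≤ u * 1 := by
          gcongr
          · exact hu.1
          · exact pow_le_one₀ (by linarith only [hur]) (by linarith)
      _ ≤ η := by linarith
  · calc u * (1 - u ^ r) ^ n ≤ 1 * (1 - η ^ r) ^ n := by
          have : η ^ r ≤ u ^ r := by (clear * - hη h2; gcongr)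
          apply mul_le_mul hu.2 _ (pow_nonneg (by linarith) n) zero_le_one
          (clear * - hur this; gcongr)
      _ ≤ η := by linarith

/-- **extrapolation**: uniform in the sequence `H`, in the unit `b` and in the position `m` -/
theorem extrap (r j : ℕ) (η : ℝ) (hη : 0 < η) :
    ∃ (D : ℕ) (K : ℝ), 0 ≤ K ∧ ∀ (H : ℕ → ℝ) (C ε : ℝ), 0 ≤ ε → PolyBdd H C →
      ∀ b m : ℕ, b ≤ r * m → (∀ k ≤ D, |H (m + (j + k) * b)| ≤ ε) →
        |H m| ≤ η * C + K * ε := by
  classical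
  obtain ⟨n, hn⟩ := exists_exp (η / (j + 1)) (by positivity) r
  -- `1 - (1 - Y)^n = Y * g`
  obtain ⟨g, hg⟩ : ∃ g : ℝ[X], 1 - (1 - X) ^ n = X * g := by
    have : (1 : ℝ[X]) - (1 - X) ∣ 1 ^ n - (1 - X) ^ n := sub_dvd_pow_sub_pow _ _ _
    rw [one_pow, sub_sub_cancel] at this
    exact this
  set q : ℝ[X] := g ^ j with hq
  refine ⟨q.natDegree, ∑ k ∈ Finset.range (q.natDegree + 1), |q.coeff k|,
    Finset.sum_nonneg fun _ _ => abs_nonneg _, ?_⟩
  intro H C ε hε hH b m hbm hsmall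
  set p : ℝ[X] := X ^ m - X ^ m * X ^ (j * b) * expand ℝ b q with hp
  have hC : 0 ≤ C := by
    have := hH 1 1 (by intro x _; simp)
    have h2 := abs_nonneg (Lf H 1)
    linarith
  have hbd : ∀ x ∈ Set.Icc (0 : ℝ) 1, |p.eval x| ≤ η := by
    intro x hx
    set y : ℝ := x ^ b with hy
    have hy0 : 0 ≤ y := pow_nonneg hx.1 b
    have hy1 : y ≤ 1 := pow_le_one₀ hx.1 hx.2
    set u : ℝ := x ^ m with hu
    have hu0 : 0 ≤ u := pow_nonneg hx.1 m
    have hu1 : u ≤ 1 := pow_le_one₀ hx.1 hx.2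
    have hge : y * g.eval y = 1 - (1 - y) ^ n := by
      have := congrArg (eval y) hg
      simpa only [eval_mul, eval_X, eval_sub, eval_one, eval_pow] using this.symm
    have hpe : p.eval x = u * (1 - (1 - (1 - y) ^ n) ^ j) := by
      have hyj : x ^ (j * b) = y ^ j := by rw [hy, ← pow_mul, mul_comm]
      simp only [hp, hq, eval_sub, eval_pow, eval_X, eval_mul, hyj, expand_eval]
      rw [← hge, mul_pow]
      ring
    have hz0 : 0 ≤ (1 - y) ^ n := pow_nonneg (by linarith only [hy1]) n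
    have hz1 : (1 - y) ^ n ≤ 1 := pow_le_one₀ (by linarith only [hy1]) (by linarith only [hy0])
    have h1 : (1 - (1 - y) ^ n) ^ j ≤ 1 := pow_le_one₀ (by linarith only [hz1]) (by linarith only [hz0])
    have h2 : 1 - (1 - (1 - y) ^ n) ^ j ≤ j * (1 - y) ^ n := one_sub_pow_le hz1 j
    rw [hpe, abs_of_nonneg (mul_nonneg hu0 (by linarith only [h1]))]
    have h3 : u ^ r ≤ y := by
      rw [hu, hy, ← pow_mul, mul_comm m r]
      exact pow_le_pow_of_le_one hx.1 hx.2 hbm
    have h4 : (1 - y) ^ n ≤ (1 - u ^ r) ^ n := by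
      (clear * - hy1 h3; gcongr)
    calc u * (1 - (1 - (1 - y) ^ n) ^ j) ≤ u * (j * (1 - u ^ r) ^ n) := by
          apply mul_le_mul_of_nonneg_left _ hu0
          exact h2.trans (mul_le_mul_of_nonneg_left h4 (by positivity))
      _ = j * (u * (1 - u ^ r) ^ n) := by ring
      _ ≤ j * (η / (j + 1)) := by
          gcongr
          exact hn u ⟨hu0, hu1⟩
      _ ≤ η := by
          rw [mul_div_assoc', div_le_iff₀ (by (clear * -; positivity))]
          nlinarith only [hη]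
  have hL : Lf H p = H m - ∑ k ∈ Finset.range (q.natDegree + 1),
      q.coeff k * H (m + (j + k) * b) := by
    rw [hp, map_sub, Lf_X_pow]
    congr 1
    have e : expand ℝ b q = ∑ k ∈ Finset.range (q.natDegree + 1),
        q.coeff k • (X : ℝ[X]) ^ (b * k) := by
      conv_lhs => rw [q.as_sum_range_C_mul_X_pow]
      simp only [map_sum, map_mul, expand_C, map_pow, expand_X]
      refine Finset.sum_congr rfl fun k _ => ?_
      rw [← pow_mul, smul_eq_C_mul]
    rw [e, Finset.mul_sum, map_sum]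
    refine Finset.sum_congr rfl fun k _ => ?_
    rw [mul_smul_comm, map_smul, ← pow_add, ← pow_add, Lf_X_pow, smul_eq_mul]
    congr 2
    ring
  have h1 := hH p η hbd
  rw [hL] at h1
  have h2 : |∑ k ∈ Finset.range (q.natDegree + 1), q.coeff k * H (m + (j + k) * b)| ≤
      (∑ k ∈ Finset.range (q.natDegree + 1), |q.coeff k|) * ε := by
    rw [Finset.sum_mul]
    refine (Finset.abs_sum_le_sum_abs _ _).trans (Finset.sum_le_sum fun k hk => ?_)
    rw [abs_mul]
    apply mul_le_mul_of_nonneg_left _ (abs_nonneg _)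
    exact hsmall k (Nat.lt_succ_iff.mp (Finset.mem_range.mp hk))
  have h3 := abs_sub_abs_le_abs_sub (H m)
    (∑ k ∈ Finset.range (q.natDegree + 1), q.coeff k * H (m + (j + k) * b))
  linarith only [h1, h2, h3]

/-- **leg in the limit** `N → ∞`. `F N g n` is the value for the observables `g` (admissible at
scale `N`) when one group has been moved by `n` lattice steps; the two groups are separated by
`s N g ≥ N / r` lattice steps. If the values at every large integer macroscopic distance `k`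
(that is `n = k N`) tend to zero uniformly in `g`, then so do the values at `n = 0`. -/
theorem leg_limit {ι : ℕ → Type*} (F : ∀ N : ℕ, ι N → ℕ → ℝ) (C : ℝ) (r : ℕ)
    (hF : ∀ᶠ N : ℕ in atTop, ∀ g : ι N, ∃ (H : ℕ → ℝ) (m : ℕ), PolyBdd H C ∧ N ≤ r * m ∧
      ∀ n, F N g n = H (m + n))
    (j : ℕ) (hlarge : ∀ k, j ≤ k → ∀ ε > 0, ∀ᶠ N : ℕ in atTop, ∀ g : ι N, |F N g (k * N)| ≤ ε) :
    ∀ ε > 0, ∀ᶠ N : ℕ in atTop, ∀ g : ι N, |F N g 0| ≤ ε := by
  intro ε hε
  obtain ⟨D, K, hK, hD⟩ := extrap r j (ε / (2 * (|C| + 1))) (by (clear * - hε; positivity))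
  have h1 : ∀ k : ℕ, ∀ᶠ N : ℕ in atTop, ∀ g : ι N,
      |F N g ((j + k) * N)| ≤ ε / (2 * (K + 1)) := fun k =>
    hlarge (j + k) (Nat.le_add_right _ _) _ (by positivity)
  have h2 : ∀ᶠ N : ℕ in atTop, ∀ k ∈ Finset.range (D + 1), ∀ g : ι N,
      |F N g ((j + k) * N)| ≤ ε / (2 * (K + 1)) := by
    rw [Filter.eventually_all_finset]
    exact fun k _ => h1 k
  filter_upwards [hF, h2] with N hN h2N g
  obtain ⟨H, m, hH, hm, hFH⟩ := hN g
  have h3 := hD H C (ε / (2 * (K + 1))) (by (clear * - hε hK; positivity)) hH N m hm (fun k hk => by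
    rw [← hFH]
    exact h2N k (Finset.mem_range.mpr (Nat.lt_succ_of_le hk)) g)
  rw [hFH 0, add_zero]
  refine h3.trans ?_
  have h4 : ε / (2 * (|C| + 1)) * C ≤ ε / 2 := by
    rw [div_mul_eq_mul_div, div_le_div_iff₀ (by positivity) (by positivity)]
    have := le_abs_self C
    nlinarith only [hε, this]
  have h5 : K * (ε / (2 * (K + 1))) ≤ ε / 2 := by
    rw [mul_div_assoc', div_le_div_iff₀ (by positivity) (by positivity)]
    nlinarith only [hε]
  linarith

end Vale.Agent.P145.FA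
end

section

/-!
P145, block F-A: proof of `S_leg` (reflection positivity of the height law in a direction implies
the leg inequality and the extrapolation along that direction).
-/

namespace Vale.Agent.P145.FA

open Finset Filter Topology MeasureTheory Polynomial
open Vale.Agent.P152

/-! ### sequences -/

theorem leg_limit_seq (F : ℕ → ℕ → ℝ) (N : ℕ → ℕ) (C : ℝ)
    (hF : ∀ n, ∃ H : ℕ → ℝ, PolyBdd H C ∧ ∀ i, F n i = H (N n + i))
    (k0 : ℕ) (hlarge : ∀ k, k0 ≤ k → Tendsto (fun n => F n (k * N n)) atTop (𝓝 0)) :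
    Tendsto (fun n => F n 0) atTop (𝓝 0) := by
  rw [Metric.tendsto_atTop]
  intro ε hε
  obtain ⟨D, K, hK, hD⟩ := extrap 1 k0 (ε / (4 * (|C| + 1))) (by positivity)
  have h1 : ∀ k : ℕ, ∀ᶠ n : ℕ in atTop, |F n ((k0 + k) * N n)| ≤ ε / (4 * (K + 1)) := by
    intro k
    have := hlarge (k0 + k) (Nat.le_add_right _ _)
    rw [Metric.tendsto_atTop] at this
    obtain ⟨M, hM⟩ := this (ε / (4 * (K + 1))) (by positivity)
    filter_upwards [eventually_ge_atTop M] with n hn
    have := hM n hn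
    rw [Real.dist_eq, sub_zero] at this
    exact this.le
  have h2 : ∀ᶠ n : ℕ in atTop, ∀ k ∈ Finset.range (D + 1),
      |F n ((k0 + k) * N n)| ≤ ε / (4 * (K + 1)) := by
    rw [Filter.eventually_all_finset]
    exact fun k _ => h1 k
  obtain ⟨M, hM⟩ := eventually_atTop.mp h2
  refine ⟨M, fun n hn => ?_⟩
  obtain ⟨H, hH, hFH⟩ := hF n
  have h3 := hD H C (ε / (4 * (K + 1))) (by positivity) hH (N n) (N n) (by omega) (fun k hk => by
    rw [← hFH]
    exact hM n hn k (Finset.mem_range.mpr (Nat.lt_succ_of_le hk)))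
  rw [Real.dist_eq, sub_zero, hFH 0, add_zero]
  refine lt_of_le_of_lt h3 ?_
  have h4 : ε / (4 * (|C| + 1)) * C ≤ ε / 4 := by
    rw [div_mul_eq_mul_div, div_le_div_iff₀ (by (clear * -; positivity)) (by positivity)]
    have := le_abs_self C
    nlinarith only [hε, this]
  have h5 : K * (ε / (4 * (K + 1))) ≤ ε / 4 := by
    rw [mul_div_assoc', div_le_div_iff₀ (by positivity) (by positivity)]
    nlinarith only [hε]
  linarith

theorem Lf_add (H H' : ℕ → ℝ) (p : ℝ[X]) :
    P153.RP.Lf (fun i => H i + H' i) p = P153.RP.Lf H p + P153.RP.Lf H' p := by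
  simp only [P153.RP.Lf_apply, Polynomial.sum_def, add_mul, Finset.sum_add_distrib]

theorem Lf_sub (H H' : ℕ → ℝ) (p : ℝ[X]) :
    P153.RP.Lf (fun i => H i - H' i) p = P153.RP.Lf H p - P153.RP.Lf H' p := by
  simp only [P153.RP.Lf_apply, Polynomial.sum_def, sub_mul, Finset.sum_sub_distrib]

theorem PolyBdd.add {H H' : ℕ → ℝ} {C C' : ℝ} (h : PolyBdd H C) (h' : PolyBdd H' C') :
    PolyBdd (fun i => H i + H' i) (C + C') := by
  intro p M hM
  rw [Lf_add, mul_add]
  exact (abs_add_le _ _).trans (add_le_add (h p M hM) (h' p M hM))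

theorem PolyBdd.sub {H H' : ℕ → ℝ} {C C' : ℝ} (h : PolyBdd H C) (h' : PolyBdd H' C') :
    PolyBdd (fun i => H i - H' i) (C + C') := by
  intro p M hM
  rw [Lf_sub, mul_add]
  exact (abs_sub _ _).trans (add_le_add (h p M hM) (h' p M hM))

/-! ### local functionals -/

theorem measurable_pbS (g : ℤ × ℤ → ℤ × ℤ) : Measurable (pb g) := by
  unfold pb
  exact measurable_pi_lambda _ fun x => measurable_pi_apply _

theorem Loc.monoS {R : Type} {A A' : Set (ℤ × ℤ)} {F : Hgt → R} (h : Loc A F) (hA : A ⊆ A') :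
    Loc A' F := by
  obtain ⟨Λ, h1, h2⟩ := h
  exact ⟨Λ, fun q hq => hA (h1 q hq), h2⟩

theorem Loc.measS {A : Set (ℤ × ℤ)} {F : Hgt → ℝ} (h : Loc A F) : Measurable F := by
  classical
  obtain ⟨s, -, hs⟩ := h
  let g : (s → ℤ) → ℝ := fun y => F (fun x => if hx : x ∈ s then y ⟨x, hx⟩ else 0)
  have hg : Measurable g := measurable_of_countable g
  have hF : F = g ∘ (fun h : Hgt => fun x : s => h x) := by
    funext ω
    apply hs
    intro x hx
    simp [hx]
  rw [hF]
  exact hg.comp (measurable_pi_lambda _ fun x => measurable_pi_apply _)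

theorem Loc.comp₂ {R S U : Type} {A : Set (ℤ × ℤ)} {F : Hgt → R} {G : Hgt → S} (hF : Loc A F)
    (hG : Loc A G) (f : R → S → U) : Loc A (fun h => f (F h) (G h)) := by
  classical
  obtain ⟨s, hs, hds⟩ := hF
  obtain ⟨t, ht, hdt⟩ := hG
  refine ⟨s ∪ t, fun x hx => ?_, fun a b hab => ?_⟩
  · rcases Finset.mem_union.mp hx with h | h
    · exact hs x h
    · exact ht x h
  · have e1 : F a = F b := hds a b fun i hi => hab i (Finset.mem_union_left _ hi)
    have e2 : G a = G b := hdt a b fun i hi => hab i (Finset.mem_union_right _ hi)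
    show f (F a) (G a) = f (F b) (G b)
    rw [e1, e2]

theorem Loc.comp {R S : Type} {A : Set (ℤ × ℤ)} {F : Hgt → R} (hF : Loc A F)
    (f : R → S) : Loc A (fun h => f (F h)) :=
  hF.comp₂ hF (fun a _ => f a)

theorem Loc.pull {R : Type} {A A' : Set (ℤ × ℤ)} {F : Hgt → R} (hF : Loc A F)
    {r : ℤ × ℤ → ℤ × ℤ} (hr : ∀ x ∈ A, r x ∈ A') : Loc A' (fun h => F (pb r h)) := by
  classical
  obtain ⟨s, hs, hds⟩ := hF
  refine ⟨s.image r, fun x hx => ?_, fun a b hab => ?_⟩
  · obtain ⟨y, hy, rfl⟩ := Finset.mem_image.mp hx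
    exact hr y (hs y hy)
  · apply hds
    intro i hi
    exact hab _ (Finset.mem_image_of_mem r hi)

variable {P : Measure (Ori (ℤ × ℤ))}

theorem Adm.mono {R : Type} [NormedAddCommGroup R] {A A' : Set (ℤ × ℤ)} {F : Hgt → R}
    (h : Adm P A F) (hA : A ⊆ A') : Adm P A' F :=
  ⟨h.loc.monoS hA, h.bdd, h.int⟩

theorem Adm.measurable {A : Set (ℤ × ℤ)} {F : Hgt → ℝ} (h : Adm P A F) : Measurable F :=
  h.loc.measS

theorem Adm.sq_int {R : Type} [NormedAddCommGroup R] {A : Set (ℤ × ℤ)} {F : Hgt → R}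
    (h : Adm P A F) : Integrable (fun x => ‖F x‖ ^ 2) (mu0 P) := by
  obtain ⟨C, hC⟩ := h.bdd
  refine (h.int.norm.const_mul C).mono (h.int.norm.aestronglyMeasurable.pow 2) ?_
  refine Filter.Eventually.of_forall fun x => ?_
  rw [Real.norm_eq_abs, Real.norm_eq_abs, abs_of_nonneg (by positivity), sq,
    abs_of_nonneg (mul_nonneg ((norm_nonneg _).trans (hC x)) (norm_nonneg _))]
  exact mul_le_mul_of_nonneg_right (hC x) (norm_nonneg _)

theorem Adm.memLp {A : Set (ℤ × ℤ)} {F : Hgt → ℝ} (h : Adm P A F) : MemLp F 2 (mu0 P) := by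
  rw [memLp_two_iff_integrable_sq h.int.aestronglyMeasurable]
  have := h.sq_int
  simpa only [Real.norm_eq_abs, sq_abs] using this

theorem Adm.pull {A A' : Set (ℤ × ℤ)} {F : Hgt → ℝ} (hF : Adm P A F) {r : ℤ × ℤ → ℤ × ℤ}
    (hr : ∀ x ∈ A, r x ∈ A') (hm : (mu0 P).map (pb r) = mu0 P) :
    Adm P A' (fun h => F (pb r h)) := by
  obtain ⟨C, hC⟩ := hF.bdd
  refine ⟨hF.loc.pull hr, ⟨C, fun h => hC _⟩, ?_⟩
  have := hF.int
  rw [← hm] at this
  exact this.comp_measurable (measurable_pbS r)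

theorem Adm.reS {A : Set (ℤ × ℤ)} {F : Hgt → ℂ} (h : Adm P A F) :
    Adm P A (fun x => (F x).re) := by
  obtain ⟨C, hC⟩ := h.bdd
  exact ⟨h.loc.comp _, ⟨C, fun x => (Complex.abs_re_le_norm _).trans (hC x)⟩, h.int.re⟩

theorem Adm.imS {A : Set (ℤ × ℤ)} {F : Hgt → ℂ} (h : Adm P A F) :
    Adm P A (fun x => (F x).im) := by
  obtain ⟨C, hC⟩ := h.bdd
  exact ⟨h.loc.comp _, ⟨C, fun x => (Complex.abs_im_le_norm _).trans (hC x)⟩, h.int.im⟩

theorem int_pull {r : ℤ × ℤ → ℤ × ℤ} (hm : (mu0 P).map (pb r) = mu0 P) {F : Hgt → ℝ}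
    (hF : Measurable F) : ∫ h, F (pb r h) ∂(mu0 P) = ∫ h, F h ∂(mu0 P) := by
  have := integral_map (μ := mu0 P) (measurable_pbS r).aemeasurable (f := F)
    hF.aestronglyMeasurable
  rw [hm] at this
  exact this.symm

theorem int_mul_le {F G : Hgt → ℝ} (hF : MemLp F 2 (mu0 P)) (hG : MemLp G 2 (mu0 P)) :
    ∫ h, F h * G h ∂(mu0 P) ≤ ((∫ h, F h ^ 2 ∂(mu0 P)) + ∫ h, G h ^ 2 ∂(mu0 P)) / 2 := by
  rw [← integral_add hF.integrable_sq hG.integrable_sq, ← integral_div]
  apply integral_mono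
  · exact hF.integrable_mul hG
  · exact (hF.integrable_sq.add hG.integrable_sq).div_const 2
  · intro h
    simp only
    nlinarith only [sq_nonneg (F h - G h)]

/-! ### the form of a direction -/

variable {D : Dir}

theorem Dir.Good.θ_pred (hD : D.Good) (m : ℤ) (q : ℤ × ℤ) :
    D.θ m q - D.s = D.θ (m - 1) q := by
  have := hD.θ_succ (m - 1) q
  rw [sub_add_cancel] at this
  rw [this, add_sub_cancel_right]

theorem pb_pbS (g g' : ℤ × ℤ → ℤ × ℤ) (h : Hgt) : pb g (pb g' h) = pb (fun q => g' (g q)) h := rfl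

/-- the space of functionals above the line `l = m` -/
def Vsp (P : Measure (Ori (ℤ × ℤ))) (D : Dir) (m : ℤ) : Submodule ℝ (Hgt → ℝ) where
  carrier := {F | Adm P {q | m ≤ D.l q} F}
  add_mem' := by
    intro F G hF hG
    obtain ⟨C, hC⟩ := hF.bdd
    obtain ⟨E, hE⟩ := hG.bdd
    exact ⟨hF.loc.comp₂ hG.loc (fun a b => a + b),
      ⟨C + E, fun h => (norm_add_le _ _).trans (add_le_add (hC h) (hE h))⟩, hF.int.add hG.int⟩
  zero_mem' := ⟨⟨∅, by simp, fun _ _ _ => rfl⟩, ⟨0, fun h => by simp⟩, integrable_zero _ _ _⟩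
  smul_mem' := by
    intro c F hF
    obtain ⟨C, hC⟩ := hF.bdd
    refine ⟨hF.loc.comp (fun a => c • a), ⟨‖c‖ * C, fun h => ?_⟩, hF.int.smul c⟩
    rw [Pi.smul_apply, norm_smul]
    exact mul_le_mul_of_nonneg_left (hC h) (norm_nonneg _)

/-- the shift on `Vsp` -/
noncomputable def Tsp (hD : D.Good) (hI : Inv P D) (m : ℤ) : Vsp P D m →ₗ[ℝ] Vsp P D m where
  toFun F := ⟨fun h => F.1 (pb (fun q => q + D.s) h),
    F.2.pull (fun x hx => by
      show m ≤ D.l (x + D.s)
      rw [hD.l_add, hD.l_s]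
      have : m ≤ D.l x := hx
      linarith) hI.2⟩
  map_add' F G := by ext h; rfl
  map_smul' c F := by ext h; rfl

/-- the reflection form -/
noncomputable def Bsp (hI : Inv P D) (m : ℤ) : Vsp P D m →ₗ[ℝ] Vsp P D m →ₗ[ℝ] ℝ :=
  have hmem : ∀ G : Vsp P D m, MemLp (fun h => G.1 (pb (D.θ m) h)) 2 (mu0 P) := fun G =>
    (G.2.pull (A' := Set.univ) (fun _ _ => trivial) (hI.1 m)).memLp
  LinearMap.mk₂ ℝ (fun F G => ∫ h, F.1 h * G.1 (pb (D.θ m) h) ∂(mu0 P))
    (by
      intro F F' G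
      rw [← integral_add]
      · congr 1; ext h
        simp only [Submodule.coe_add, Pi.add_apply]; ring
      · exact F.2.memLp.integrable_mul (hmem G)
      · exact F'.2.memLp.integrable_mul (hmem G))
    (by
      intro c F G
      rw [smul_eq_mul, ← integral_const_mul]
      congr 1; ext h
      simp only [Submodule.coe_smul, Pi.smul_apply, smul_eq_mul]; ring)
    (by
      intro F G G'
      rw [← integral_add]
      · congr 1; ext h
        simp only [Submodule.coe_add, Pi.add_apply]; ring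
      · exact F.2.memLp.integrable_mul (hmem G)
      · exact F.2.memLp.integrable_mul (hmem G'))
    (by
      intro c F G
      rw [smul_eq_mul, ← integral_const_mul]
      congr 1; ext h
      simp only [Submodule.coe_smul, Pi.smul_apply, smul_eq_mul]; ring)

theorem Bsp_apply (hI : Inv P D) (m : ℤ) (F G : Vsp P D m) :
    Bsp hI m F G = ∫ h, F.1 h * G.1 (pb (D.θ m) h) ∂(mu0 P) := rfl

theorem Bsp_le (hI : Inv P D) (m : ℤ) (F G : Vsp P D m) :
    Bsp hI m F G ≤ ((∫ h, F.1 h ^ 2 ∂(mu0 P)) + ∫ h, G.1 h ^ 2 ∂(mu0 P)) / 2 := by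
  rw [Bsp_apply]
  refine (int_mul_le F.2.memLp
    (G.2.pull (A' := Set.univ) (fun _ _ => trivial) (hI.1 m)).memLp).trans ?_
  have : ∫ h, G.1 (pb (D.θ m) h) ^ 2 ∂(mu0 P) = ∫ h, G.1 h ^ 2 ∂(mu0 P) :=
    int_pull (hI.1 m) (F := fun h => G.1 h ^ 2) (G.2.measurable.pow_const 2)
  rw [this]

theorem Tsp_pow_apply (hD : D.Good) (hI : Inv P D) (m : ℤ) (F : Vsp P D m) (n : ℕ) (h : Hgt) :
    ((Tsp hD hI m ^ n) F).1 h = tr D n F.1 h := by
  induction n generalizing h with
  | zero =>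
    show F.1 h = F.1 (pb (fun q => q + 0 • D.s) h)
    exact congrArg F.1 (by funext q; simp [pb])
  | succ n ih =>
    rw [pow_succ', Module.End.mul_apply]
    show ((Tsp hD hI m ^ n) F).1 (pb (fun q => q + D.s) h) = _
    rw [ih]
    refine congrArg F.1 ?_
    funext q
    show h (q + n • D.s + D.s) = h (q + (n + 1) • D.s)
    rw [add_smul, one_smul, add_assoc]

theorem Tsp_sq (hD : D.Good) (hI : Inv P D) (m : ℤ) (F : Vsp P D m) (n : ℕ) :
    ∫ h, ((Tsp hD hI m ^ n) F).1 h ^ 2 ∂(mu0 P) = ∫ h, F.1 h ^ 2 ∂(mu0 P) := by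
  induction n with
  | zero => simp only [pow_zero, Module.End.one_apply]
  | succ n ih =>
    rw [pow_succ', Module.End.mul_apply]
    have h1 := int_pull hI.2 (F := fun h => ((Tsp hD hI m ^ n) F).1 h ^ 2)
      (((Tsp hD hI m ^ n) F).2.measurable.pow_const 2)
    rw [← ih, ← h1]
    rfl

/-- the reflection form with the shift is a leg -/
theorem legForm (hD : D.Good) (hI : Inv P D) (hR : RP P D) (m : ℤ) :
    LegForm (Bsp hI m) (Tsp hD hI m) where
  symm F G := by
    rw [Bsp_apply, Bsp_apply]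
    have hm : Measurable (fun h => F.1 h * G.1 (pb (D.θ m) h)) :=
      F.2.measurable.mul (G.2.measurable.comp (measurable_pbS _))
    rw [← int_pull (hI.1 m) hm]
    congr 1; ext h
    have : pb (D.θ m) (pb (D.θ m) h) = h := by
      funext q
      simp only [pb, hD.θθ]
    simp only [this]; ring
  nonneg F := hR m F.1 F.2
  shift F G := by
    rw [Bsp_apply, Bsp_apply]
    have hm : Measurable (fun h => F.1 h * G.1 (pb (fun q => D.θ m q - D.s) h)) :=
      F.2.measurable.mul (G.2.measurable.comp (measurable_pbS _))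
    have e : ∫ h, F.1 (pb (fun q => q + D.s) h) * G.1 (pb (D.θ m) h) ∂(mu0 P) =
        ∫ h, F.1 h * G.1 (pb (fun q => D.θ m q - D.s) h) ∂(mu0 P) := by
      rw [← int_pull hI.2 hm]
      congr 1; ext h
      have e3 : pb (D.θ m) h = pb (fun q => D.θ m q - D.s) (pb (fun q => q + D.s) h) := by
        funext q
        show h (D.θ m q) = h (D.θ m q - D.s + D.s)
        rw [sub_add_cancel]
      rw [← e3]
    have e2 : ∀ h, (Tsp hD hI m G).1 (pb (D.θ m) h) = G.1 (pb (fun q => D.θ m q - D.s) h) := by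
      intro h
      show G.1 (pb (fun q => q + D.s) (pb (D.θ m) h)) = _
      rw [pb_pbS]
      simp only [hD.θ_s]
    simp only [e2]
    exact e
  shift_nonneg F := by
    rw [Bsp_apply]
    have e2 : ∀ h, (Tsp hD hI m F).1 (pb (D.θ m) h) = F.1 (pb (D.θ (m - 1)) h) := by
      intro h
      show F.1 (pb (fun q => q + D.s) (pb (D.θ m) h)) = _
      rw [pb_pbS]
      simp only [hD.θ_s, hD.θ_pred]
    simp only [e2]
    exact hR (m - 1) F.1 (F.2.mono fun x hx => by
      have : m ≤ D.l x := hx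
      show m - 1 ≤ D.l x
      linarith only [this])
  bdd F := ⟨∫ h, F.1 h ^ 2 ∂(mu0 P), fun n => by
    refine (Bsp_le hI m F ((Tsp hD hI m ^ n) F)).trans ?_
    rw [Tsp_sq]
    linarith only []⟩

/-- correlations of `F` above and `G` below the line `l = m` -/
theorem legSeq (hD : D.Good) (hI : Inv P D) (hR : RP P D) {m : ℤ} {F G : Hgt → ℝ}
    (hF : Adm P {q | m ≤ D.l q} F) (hG : Adm P {q | D.l q ≤ m} G) :
    PolyBdd (fun i => ∫ h, G h * tr D i F h ∂(mu0 P))
      (√(∫ h, F h ^ 2 ∂(mu0 P)) * √(∫ h, G h ^ 2 ∂(mu0 P))) := by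
  have hG' : Adm P {q | m ≤ D.l q} (fun h => G (pb (D.θ m) h)) :=
    hG.pull (fun x hx => by
      have : D.l x ≤ m := hx
      show m ≤ D.l (D.θ m x)
      rw [hD.l_θ]
      linarith) (hI.1 m)
  let x : Vsp P D m := ⟨_, hG'⟩
  let y : Vsp P D m := ⟨_, hF⟩
  have hL := legForm hD hI hR m
  have b1 : Bsp hI m x x ≤ ∫ h, G h ^ 2 ∂(mu0 P) := by
    refine (Bsp_le hI m x x).trans ?_
    have e : ∫ h, x.1 h ^ 2 ∂(mu0 P) = ∫ h, G h ^ 2 ∂(mu0 P) :=
      int_pull (hI.1 m) (F := fun h => G h ^ 2) (hG.measurable.pow_const 2)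
    rw [e]; linarith only []
  have b2 : Bsp hI m y y ≤ ∫ h, F h ^ 2 ∂(mu0 P) := by
    refine (Bsp_le hI m y y).trans ?_
    show (_ + _) / 2 ≤ _
    linarith
  have key := hL.polyBdd x y (C := √(∫ h, F h ^ 2 ∂(mu0 P)) * √(∫ h, G h ^ 2 ∂(mu0 P))) (by
    rw [mul_comm]
    gcongr)
  have e : (fun i => ∫ h, G h * tr D i F h ∂(mu0 P)) =
      fun i => Bsp hI m x ((Tsp hD hI m ^ i) y) := by
    funext i
    rw [Bsp_apply]
    have hm2 : Measurable (fun h => G h * tr D i F h) :=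
      hG.measurable.mul (hF.measurable.comp (measurable_pbS _))
    rw [← int_pull (hI.1 m) hm2]
    congr 1; ext h
    rw [Tsp_pow_apply]
  rw [e]
  exact key

theorem map_tr (hI : Inv P D) (n : ℕ) :
    (mu0 P).map (pb (fun q => q + n • D.s)) = mu0 P := by
  induction n with
  | zero =>
    have : pb (fun q => q + 0 • D.s) = id := by
      funext h q; simp [pb]
    rw [this, Measure.map_id]
  | succ n ih =>
    have : pb (fun q => q + (n + 1) • D.s) = pb (fun q => q + n • D.s) ∘ pb (fun q => q + D.s) := by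
      funext h q
      simp only [pb, Function.comp]
      congr 1
      rw [add_smul, one_smul, add_assoc]
    rw [this, ← Measure.map_map (measurable_pbS _) (measurable_pbS _), hI.2, ih]

theorem map_tr_neg (hI : Inv P D) (n : ℕ) :
    (mu0 P).map (pb (fun q => q - n • D.s)) = mu0 P := by
  conv_lhs => rw [← map_tr hI n]
  rw [Measure.map_map (measurable_pbS _) (measurable_pbS _)]
  have : pb (fun q => q - n • D.s) ∘ pb (fun q => q + n • D.s) = id := by
    funext h q; simp [pb, Function.comp]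
  rw [this, Measure.map_id]

/-- the same with a strip of width `2 N` -/
theorem legSeq' (hD : D.Good) (hI : Inv P D) (hR : RP P D) {m : ℤ} {N : ℕ} {F G : Hgt → ℝ}
    {C : ℝ} (hF : Adm P {q | m + 2 * N ≤ D.l q} F) (hG : Adm P {q | D.l q ≤ m} G)
    (h1 : ∫ h, F h ^ 2 ∂(mu0 P) ≤ C) (h2 : ∫ h, G h ^ 2 ∂(mu0 P) ≤ C) :
    ∃ H : ℕ → ℝ, PolyBdd H C ∧ ∀ i, ∫ h, G h * tr D i F h ∂(mu0 P) = H (N + i) := by
  have hls : ∀ n : ℕ, D.l (n • D.s) = 2 * n := by
    intro n
    induction n with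
    | zero =>
      have h0 := hD.l_add 0 0
      rw [add_zero] at h0
      have : D.l 0 = 0 := by linarith only [h0]
      simpa using this
    | succ n ih =>
      rw [add_smul, one_smul, hD.l_add, ih, hD.l_s]
      push_cast; ring
  have hF' : Adm P {q | m ≤ D.l q} (fun h => F (pb (fun q => q - N • D.s) h)) :=
    hF.pull (fun x hx => by
      have h3 : m + 2 * N ≤ D.l x := hx
      have h4 := hD.l_add (x - N • D.s) (N • D.s)
      rw [sub_add_cancel, hls] at h4
      show m ≤ D.l (x - N • D.s)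
      linarith only [h3, h4]) (map_tr_neg hI N)
  have hC : 0 ≤ C := le_trans (integral_nonneg fun h => sq_nonneg _) h1
  refine ⟨fun i => ∫ h, G h * tr D i (fun h => F (pb (fun q => q - N • D.s) h)) h ∂(mu0 P),
    fun p M hM => ?_, fun i => ?_⟩
  · have hM0 : 0 ≤ M := (abs_nonneg _).trans (hM 0 (by simp only [Set.mem_Icc, Std.le_refl, zero_le_one, and_self]))
    refine (legSeq hD hI hR hF' hG p M hM).trans ?_
    have e : ∫ h, F (pb (fun q => q - N • D.s) h) ^ 2 ∂(mu0 P) = ∫ h, F h ^ 2 ∂(mu0 P) :=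
      int_pull (map_tr_neg hI N) (F := fun h => F h ^ 2) (hF.measurable.pow_const 2)
    rw [e]
    have : √(∫ h, F h ^ 2 ∂(mu0 P)) * √(∫ h, G h ^ 2 ∂(mu0 P)) ≤ C := by
      calc _ ≤ √C * √C := by (clear * - h1 h2; gcongr)
        _ = C := Real.mul_self_sqrt hC
    (clear * - this hM0; gcongr)
  · congr 1; ext h
    have e3 : pb (fun q => q + i • D.s) h =
        pb (fun q => q - N • D.s) (pb (fun q => q + (N + i) • D.s) h) := by
      funext q
      show h (q + i • D.s) = h (q - N • D.s + (N + i) • D.s)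
      rw [add_smul]
      congr 1
      abel
    show G h * F (pb (fun q => q + i • D.s) h) = G h * F (pb (fun q => q - N • D.s)
      (pb (fun q => q + (N + i) • D.s) h))
    rw [← e3]

theorem norm_sq_int_re {A : Set (ℤ × ℤ)} {F : Hgt → ℂ} (hF : Adm P A F) {C : ℝ}
    (h : ∫ x, ‖F x‖ ^ 2 ∂(mu0 P) ≤ C) : ∫ x, (F x).re ^ 2 ∂(mu0 P) ≤ C := by
  refine le_trans (integral_mono hF.reS.memLp.integrable_sq hF.sq_int fun x => ?_) h
  have := Complex.abs_re_le_norm (F x)
  show (F x).re ^ 2 ≤ ‖F x‖ ^ 2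
  rw [← sq_abs]
  gcongr

theorem norm_sq_int_im {A : Set (ℤ × ℤ)} {F : Hgt → ℂ} (hF : Adm P A F) {C : ℝ}
    (h : ∫ x, ‖F x‖ ^ 2 ∂(mu0 P) ≤ C) : ∫ x, (F x).im ^ 2 ∂(mu0 P) ≤ C := by
  refine le_trans (integral_mono hF.imS.memLp.integrable_sq hF.sq_int fun x => ?_) h
  have := Complex.abs_im_le_norm (F x)
  show (F x).im ^ 2 ≤ ‖F x‖ ^ 2
  rw [← sq_abs]
  gcongr

theorem s_leg : S_leg := by
  intro P _ D hD hI hR
  refine ⟨?_, ?_⟩
  · intro m F G hF hG p c hc
    have := legSeq hD hI hR hF hG p c hc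
    rw [P153.RP.Lf_apply, Polynomial.sum_def] at this
    rw [mul_assoc]
    refine le_trans (le_of_eq ?_) this
    congr 1
    exact Finset.sum_congr rfl fun _ _ => mul_comm _ _
  · intro N m F G C hF hG h1 h2 hlarge _
    obtain ⟨k0, hk⟩ := hlarge
    -- integrability of the product of two real admissible functionals
    have hprod : ∀ {A B : Set (ℤ × ℤ)} {f g : Hgt → ℝ}, Adm P A f → Adm P B g →
        Integrable (fun h => f h * g h) (mu0 P) := fun ha hb =>
      ha.memLp.integrable_mul hb.memLp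
    have htr : ∀ (n i : ℕ) {A : Set (ℤ × ℤ)} {f : Hgt → ℝ}, Adm P A f →
        Adm P Set.univ (tr D i f) := fun n i A f ha =>
      ha.pull (fun _ _ => trivial) (map_tr hI i)
    have hre : ∀ n i, (∫ h, G n h * tr D i (F n) h ∂(mu0 P)).re =
        (∫ h, (G n h).re * tr D i (fun h => (F n h).re) h ∂(mu0 P)) -
        ∫ h, (G n h).im * tr D i (fun h => (F n h).im) h ∂(mu0 P) := by
      intro n i
      have hI1 : Integrable (fun h => (G n h).re * tr D i (fun h => (F n h).re) h) (mu0 P) :=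
        hprod (hG n).reS (htr n i (hF n).reS)
      have hI2 : Integrable (fun h => (G n h).im * tr D i (fun h => (F n h).im) h) (mu0 P) :=
        hprod (hG n).imS (htr n i (hF n).imS)
      have hI3 : Integrable (fun h => (G n h).re * tr D i (fun h => (F n h).im) h) (mu0 P) :=
        hprod (hG n).reS (htr n i (hF n).imS)
      have hI4 : Integrable (fun h => (G n h).im * tr D i (fun h => (F n h).re) h) (mu0 P) :=
        hprod (hG n).imS (htr n i (hF n).reS)
      have e : (fun h => G n h * tr D i (F n) h) = fun h =>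
          (((G n h).re * tr D i (fun h => (F n h).re) h -
            (G n h).im * tr D i (fun h => (F n h).im) h : ℝ) : ℂ) +
          (((G n h).re * tr D i (fun h => (F n h).im) h +
            (G n h).im * tr D i (fun h => (F n h).re) h : ℝ) : ℂ) * Complex.I := by
        funext h
        apply Complex.ext <;> simp [tr, Complex.mul_re, Complex.mul_im]
      rw [e, integral_add (hI1.sub hI2).ofReal ((hI3.add hI4).ofReal.mul_const _),
        integral_mul_const, integral_complex_ofReal, integral_complex_ofReal,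
        integral_sub hI1 hI2]
      simp
    have him : ∀ n i, (∫ h, G n h * tr D i (F n) h ∂(mu0 P)).im =
        (∫ h, (G n h).re * tr D i (fun h => (F n h).im) h ∂(mu0 P)) +
        ∫ h, (G n h).im * tr D i (fun h => (F n h).re) h ∂(mu0 P) := by
      intro n i
      have hI1 : Integrable (fun h => (G n h).re * tr D i (fun h => (F n h).re) h) (mu0 P) :=
        hprod (hG n).reS (htr n i (hF n).reS)
      have hI2 : Integrable (fun h => (G n h).im * tr D i (fun h => (F n h).im) h) (mu0 P) :=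
        hprod (hG n).imS (htr n i (hF n).imS)
      have hI3 : Integrable (fun h => (G n h).re * tr D i (fun h => (F n h).im) h) (mu0 P) :=
        hprod (hG n).reS (htr n i (hF n).imS)
      have hI4 : Integrable (fun h => (G n h).im * tr D i (fun h => (F n h).re) h) (mu0 P) :=
        hprod (hG n).imS (htr n i (hF n).reS)
      have e : (fun h => G n h * tr D i (F n) h) = fun h =>
          (((G n h).re * tr D i (fun h => (F n h).re) h -
            (G n h).im * tr D i (fun h => (F n h).im) h : ℝ) : ℂ) +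
          (((G n h).re * tr D i (fun h => (F n h).im) h +
            (G n h).im * tr D i (fun h => (F n h).re) h : ℝ) : ℂ) * Complex.I := by
        funext h
        apply Complex.ext <;> simp [tr, Complex.mul_re, Complex.mul_im]
      rw [e, integral_add (hI1.sub hI2).ofReal ((hI3.add hI4).ofReal.mul_const _),
        integral_mul_const, integral_complex_ofReal, integral_complex_ofReal,
        integral_add hI3 hI4]
      simp
    have tr0 : ∀ n h, tr D 0 (F n) h = F n h := by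
      intro n h
      exact congrArg (F n) (by funext q; simp [pb])
    have key1 : Tendsto (fun n => (∫ h, G n h * tr D 0 (F n) h ∂(mu0 P)).re) atTop (𝓝 0) := by
      refine leg_limit_seq (fun n i => (∫ h, G n h * tr D i (F n) h ∂(mu0 P)).re) N (C + C)
        (fun n => ?_) k0 (fun k hk0 => ?_)
      · obtain ⟨H, hH, e⟩ := legSeq' hD hI hR (hF n).reS (hG n).reS
          (norm_sq_int_re (hF n) (h1 n)) (norm_sq_int_re (hG n) (h2 n))
        obtain ⟨H', hH', e'⟩ := legSeq' hD hI hR (hF n).imS (hG n).imS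
          (norm_sq_int_im (hF n) (h1 n)) (norm_sq_int_im (hG n) (h2 n))
        exact ⟨_, hH.sub hH', fun i => by rw [hre, e, e']⟩
      · exact (Complex.continuous_re.tendsto _).comp (hk k hk0)
    have key2 : Tendsto (fun n => (∫ h, G n h * tr D 0 (F n) h ∂(mu0 P)).im) atTop (𝓝 0) := by
      refine leg_limit_seq (fun n i => (∫ h, G n h * tr D i (F n) h ∂(mu0 P)).im) N (C + C)
        (fun n => ?_) k0 (fun k hk0 => ?_)
      · obtain ⟨H, hH, e⟩ := legSeq' hD hI hR (hF n).imS (hG n).reS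
          (norm_sq_int_im (hF n) (h1 n)) (norm_sq_int_re (hG n) (h2 n))
        obtain ⟨H', hH', e'⟩ := legSeq' hD hI hR (hF n).reS (hG n).imS
          (norm_sq_int_re (hF n) (h1 n)) (norm_sq_int_im (hG n) (h2 n))
        exact ⟨_, hH.add hH', fun i => by rw [him, e, e']⟩
      · exact (Complex.continuous_im.tendsto _).comp (hk k hk0)
    simp only [tr0] at key1 key2
    have key3 := (Complex.continuous_ofReal.tendsto _).comp key1
    have key4 := (Complex.continuous_ofReal.tendsto _).comp key2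
    have := key3.add (key4.mul_const Complex.I)
    simp only [Function.comp_def, Complex.re_add_im, Complex.ofReal_zero, zero_mul,
      add_zero] at this
    exact this

end Vale.Agent.P145.FA
end

section

/-!
P145, block F-A: product form of the null property, from the half-plane statement by six legs
(`six_legs`), and `S_fa` from `S_hp` (`s_fa`).
-/

namespace Vale.Agent.P145.FA

open Finset Filter Topology MeasureTheory
open Vale.Agent.P152

/-- translate of a functional -/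
def sf (a : ℤ × ℤ) (F : Hgt → ℂ) : Hgt → ℂ := fun h => F (pb (fun q => q + a) h)

theorem sf_zero (F : Hgt → ℂ) : sf 0 F = F := by
  funext h
  exact congrArg F (by funext q; simp [pb])

theorem tr_sf (D : Dir) (n : ℕ) (a : ℤ × ℤ) (F : Hgt → ℂ) (h : Hgt) :
    sf a F (pb (fun q => q + n • D.s) h) = sf (a + n • D.s) F h := by
  refine congrArg F ?_
  funext q
  show h (q + a + n • D.s) = h (q + (a + n • D.s))
  rw [add_assoc]

theorem Loc.measurableC {A : Set (ℤ × ℤ)} {F : Hgt → ℂ} (h : Loc A F) : Measurable F := by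
  classical
  obtain ⟨s, -, hs⟩ := h
  let g : (s → ℤ) → ℂ := fun y => F (fun x => if hx : x ∈ s then y ⟨x, hx⟩ else 0)
  have hg : Measurable g := measurable_of_countable g
  have hF : F = g ∘ (fun h : Hgt => fun x : s => h x) := by
    funext ω
    apply hs
    intro x hx
    simp [hx]
  rw [hF]
  exact hg.comp (measurable_pi_lambda _ fun x => measurable_pi_apply _)

variable {P : Measure (Ori (ℤ × ℤ))}

/-- product of an admissible functional and a bounded local one -/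
theorem Adm.mulLoc {A : Set (ℤ × ℤ)} {F G : Hgt → ℂ} (hF : Adm P A F) (hG : Loc A G) {B : ℝ}
    (hB : ∀ h, ‖G h‖ ≤ B) : Adm P A (fun h => F h * G h) := by
  obtain ⟨C, hC⟩ := hF.bdd
  refine ⟨hF.loc.comp₂ hG (fun a b => a * b), ⟨C * B, fun h => ?_⟩, ?_⟩
  · rw [norm_mul]
    exact mul_le_mul (hC h) (hB h) (norm_nonneg _) ((norm_nonneg _).trans (hC h))
  · exact hF.int.mul_bdd hG.measurableC.aestronglyMeasurable (Eventually.of_forall hB)

theorem Adm.sf {A A' : Set (ℤ × ℤ)} {F : Hgt → ℂ} (hF : Adm P A F) {a : ℤ × ℤ}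
    (ha : ∀ x ∈ A, x + a ∈ A') (hm : (mu0 P).map (pb (fun q => q + a)) = mu0 P) :
    Adm P A' (sf a F) := by
  obtain ⟨C, hC⟩ := hF.bdd
  refine ⟨hF.loc.pull ha, ⟨C, fun h => hC _⟩, ?_⟩
  have := hF.int
  rw [← hm] at this
  exact this.comp_measurable (measurable_pbS _)

theorem int_norm_sf {F : Hgt → ℂ} (hF : Measurable F) {a : ℤ × ℤ}
    (hm : (mu0 P).map (pb (fun q => q + a)) = mu0 P) :
    ∫ h, ‖sf a F h‖ ∂(mu0 P) = ∫ h, ‖F h‖ ∂(mu0 P) := by
  have := integral_map (μ := mu0 P) (measurable_pbS (fun q => q + a)).aemeasurable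
    (f := fun h => ‖F h‖) hF.norm.aestronglyMeasurable
  rw [hm] at this
  exact this.symm

section gen

variable {K1 K2 K3 K4 KQ : ℕ → Set (ℤ × ℤ)} {N : ℕ → ℕ} {Y G1 G2 G3 G4 : ℕ → Hgt → ℂ} {B C : ℝ}

/-- the statement with groups 1, 2, 3 translated by `N w1`, `N w2`, `N w3` -/
def TT (P : Measure (Ori (ℤ × ℤ))) (N : ℕ → ℕ) (Y G1 G2 G3 G4 : ℕ → Hgt → ℂ)
    (w1 w2 w3 : ℤ × ℤ) : Prop :=
  Tendsto (fun n => ∫ h, (Y n h * G4 n h) * (sf (N n • w1) (G1 n) h *
    (sf (N n • w2) (G2 n) h * sf (N n • w3) (G3 n) h)) ∂(mu0 P)) atTop (𝓝 0)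

/-- one leg: group 1 is moved, groups 2, 3 are moved according to `c2`, `c3` -/
theorem legGen
    (hinv : ∀ a : ℤ × ℤ, (2 : ℤ) ∣ a.1 + a.2 → (mu0 P).map (pb (fun q => q + a)) = mu0 P)
    (hN : ∀ n, 1 ≤ N n)
    (hY : ∀ n, Loc (KQ n) (Y n)) (hYB : ∀ n h, ‖Y n h‖ ≤ B)
    (hG1 : ∀ n, Adm P (K1 n) (G1 n)) (hG2 : ∀ n, Loc (K2 n) (G2 n))
    (hG3 : ∀ n, Loc (K3 n) (G3 n)) (hG4 : ∀ n, Adm P (K4 n) (G4 n))
    (b1 : ∀ n h, ‖G1 n h‖ ≤ 1) (b2 : ∀ n h, ‖G2 n h‖ ≤ 1) (b3 : ∀ n h, ‖G3 n h‖ ≤ 1)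
    (b4 : ∀ n h, ‖G4 n h‖ ≤ 1)
    (i1 : ∀ n, ∫ h, ‖G1 n h‖ ∂(mu0 P) ≤ C) (i4 : ∀ n, ∫ h, ‖G4 n h‖ ∂(mu0 P) ≤ C)
    (D : Dir) (hL : LegLim P D) (c2 c3 : Bool) (w1 w2 w3 : ℤ × ℤ)
    (e1 : (2 : ℤ) ∣ w1.1 + w1.2) (m : ℕ → ℤ)
    (hQ : ∀ n, ∀ q ∈ KQ n, D.l q ≤ m n) (h4 : ∀ n, ∀ q ∈ K4 n, D.l q ≤ m n)
    (h1 : ∀ n, ∀ q ∈ K1 n, m n + 2 * N n ≤ D.l (q + N n • w1))
    (h2 : ∀ n, ∀ q ∈ K2 n, if c2 then m n + 2 * N n ≤ D.l (q + N n • w2) else
      D.l (q + N n • w2) ≤ m n)
    (h3 : ∀ n, ∀ q ∈ K3 n, if c3 then m n + 2 * N n ≤ D.l (q + N n • w3) else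
      D.l (q + N n • w3) ≤ m n)
    (hlim : ∃ k0 : ℕ, ∀ k, k0 ≤ k → TT P N Y G1 G2 G3 G4 (w1 + k • D.s)
      (w2 + if c2 then k • D.s else 0) (w3 + if c3 then k • D.s else 0)) :
    TT P N Y G1 G2 G3 G4 w1 w2 w3 := by
  have hC0 : 0 ≤ C := (integral_nonneg fun h => norm_nonneg _).trans (i1 0)
  have hB0 : 0 ≤ B := (norm_nonneg _).trans (hYB 0 (fun _ => 0))
  have hev : ∀ n, (2 : ℤ) ∣ (N n • w1).1 + (N n • w1).2 := by
    intro n
    have : (N n • w1).1 + (N n • w1).2 = N n * (w1.1 + w1.2) := by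
      rw [Prod.smul_fst, Prod.smul_snd, nsmul_eq_mul, nsmul_eq_mul]; ring
    rw [this]
    exact Dvd.dvd.mul_left e1 _
  let F : ℕ → Hgt → ℂ := fun n h => sf (N n • w1) (G1 n) h *
    ((if c2 then sf (N n • w2) (G2 n) h else 1) * (if c3 then sf (N n • w3) (G3 n) h else 1))
  let G : ℕ → Hgt → ℂ := fun n h => (G4 n h * Y n h) *
    ((if c2 then 1 else sf (N n • w2) (G2 n) h) * (if c3 then 1 else sf (N n • w3) (G3 n) h))
  have hone : ∀ A : Set (ℤ × ℤ), Loc A (fun _ : Hgt => (1 : ℂ)) := fun A =>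
    ⟨∅, by simp, fun _ _ _ => rfl⟩
  have n2a : ∀ n h, ‖(if c2 then sf (N n • w2) (G2 n) h else 1 : ℂ)‖ ≤ 1 := by
    intro n h
    split_ifs
    · exact b2 n _
    · simp
  have n3a : ∀ n h, ‖(if c3 then sf (N n • w3) (G3 n) h else 1 : ℂ)‖ ≤ 1 := by
    intro n h
    split_ifs
    · exact b3 n _
    · simp
  have n2b : ∀ n h, ‖(if c2 then 1 else sf (N n • w2) (G2 n) h : ℂ)‖ ≤ 1 := by
    intro n h
    split_ifs
    · simp
    · exact b2 n _
  have n3b : ∀ n h, ‖(if c3 then 1 else sf (N n • w3) (G3 n) h : ℂ)‖ ≤ 1 := by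
    intro n h
    split_ifs
    · simp
    · exact b3 n _
  -- the moved factor
  have hF : ∀ n, Adm P {q | m n + 2 * N n ≤ D.l q} (F n) := by
    intro n
    have a1 : Adm P {q | m n + 2 * N n ≤ D.l q} (sf (N n • w1) (G1 n)) :=
      (hG1 n).sf (h1 n) (hinv _ (hev n))
    have l2 : Loc {q | m n + 2 * N n ≤ D.l q}
        (fun h => if c2 then sf (N n • w2) (G2 n) h else 1) := by
      cases c2
      · simpa only [Bool.false_eq_true, ↓reduceIte] using hone _
      · simp only [if_true] at h2 ⊢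
        exact (hG2 n).pull (h2 n)
    have l3 : Loc {q | m n + 2 * N n ≤ D.l q}
        (fun h => if c3 then sf (N n • w3) (G3 n) h else 1) := by
      cases c3
      · simpa only [Bool.false_eq_true, ↓reduceIte] using hone _
      · simp only [if_true] at h3 ⊢
        exact (hG3 n).pull (h3 n)
    refine a1.mulLoc (l2.comp₂ l3 (fun a b => a * b)) (B := 1) fun h => ?_
    rw [norm_mul]
    exact mul_le_one₀ (n2a n h) (norm_nonneg _) (n3a n h)
  have hG : ∀ n, Adm P {q | D.l q ≤ m n} (G n) := by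
    intro n
    have a4 : Adm P {q | D.l q ≤ m n} (fun h => G4 n h * Y n h) :=
      ((hG4 n).mono (h4 n)).mulLoc ((hY n).monoS (hQ n)) (hYB n)
    have l2 : Loc {q | D.l q ≤ m n}
        (fun h => if c2 then 1 else sf (N n • w2) (G2 n) h) := by
      cases c2
      · simp only [Bool.false_eq_true, if_false] at h2 ⊢
        exact (hG2 n).pull (h2 n)
      · simpa using hone _
    have l3 : Loc {q | D.l q ≤ m n}
        (fun h => if c3 then 1 else sf (N n • w3) (G3 n) h) := by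
      cases c3
      · simp only [Bool.false_eq_true, if_false] at h3 ⊢
        exact (hG3 n).pull (h3 n)
      · simpa using hone _
    refine a4.mulLoc (l2.comp₂ l3 (fun a b => a * b)) (B := 1) fun h => ?_
    rw [norm_mul]
    exact mul_le_one₀ (n2b n h) (norm_nonneg _) (n3b n h)
  have hFn : ∀ n, ∫ h, ‖F n h‖ ^ 2 ∂(mu0 P) ≤ C + B ^ 2 * C := by
    intro n
    have hi : Integrable (sf (N n • w1) (G1 n)) (mu0 P) :=
      ((hG1 n).sf (A' := Set.univ) (fun _ _ => trivial) (hinv _ (hev n))).int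
    calc ∫ h, ‖F n h‖ ^ 2 ∂(mu0 P) ≤ ∫ h, ‖sf (N n • w1) (G1 n) h‖ ∂(mu0 P) := by
          apply integral_mono (hF n).sq_int hi.norm
          intro h
          have hb : ‖sf (N n • w1) (G1 n) h‖ ≤ 1 := b1 n _
          have hle : ‖F n h‖ ≤ ‖sf (N n • w1) (G1 n) h‖ := by
            show ‖_ * (_ * _)‖ ≤ _
            rw [norm_mul, norm_mul]
            exact mul_le_of_le_one_right (norm_nonneg _)
              (mul_le_one₀ (n2a n h) (norm_nonneg _) (n3a n h))
          show ‖F n h‖ ^ 2 ≤ _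
          nlinarith only [hle, hb, norm_nonneg (F n h)]
      _ = ∫ h, ‖G1 n h‖ ∂(mu0 P) :=
          int_norm_sf (hG1 n).loc.measurableC (hinv _ (hev n))
      _ ≤ C := i1 n
      _ ≤ C + B ^ 2 * C := by nlinarith only [hC0]
  have hGn : ∀ n, ∫ h, ‖G n h‖ ^ 2 ∂(mu0 P) ≤ C + B ^ 2 * C := by
    intro n
    calc ∫ h, ‖G n h‖ ^ 2 ∂(mu0 P) ≤ ∫ h, B ^ 2 * ‖G4 n h‖ ∂(mu0 P) := by
          apply integral_mono (hG n).sq_int ((hG4 n).int.norm.const_mul _)
          intro h
          have hle : ‖G n h‖ ≤ ‖G4 n h‖ * B := by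
            show ‖_ * _ * (_ * _)‖ ≤ _
            rw [norm_mul, norm_mul, norm_mul]
            calc _ ≤ ‖G4 n h‖ * ‖Y n h‖ * 1 := by
                  apply mul_le_mul_of_nonneg_left _ (by (clear * -; positivity))
                  exact mul_le_one₀ (n2b n h) (norm_nonneg _) (n3b n h)
              _ ≤ _ := by
                  rw [mul_one]
                  exact mul_le_mul_of_nonneg_left (hYB n h) (norm_nonneg _)
          have h5 := b4 n h
          show ‖G n h‖ ^ 2 ≤ B ^ 2 * ‖G4 n h‖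
          calc ‖G n h‖ ^ 2 ≤ (‖G4 n h‖ * B) ^ 2 := by (clear * - hle; gcongr)
            _ = B ^ 2 * (‖G4 n h‖ * ‖G4 n h‖) := by ring
            _ ≤ B ^ 2 * ‖G4 n h‖ := by
                apply mul_le_mul_of_nonneg_left _ (sq_nonneg B)
                exact mul_le_of_le_one_right (norm_nonneg _) h5
      _ = B ^ 2 * ∫ h, ‖G4 n h‖ ∂(mu0 P) := integral_const_mul _ _
      _ ≤ B ^ 2 * C := mul_le_mul_of_nonneg_left (i4 n) (sq_nonneg B)
      _ ≤ C + B ^ 2 * C := by linarith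
  have key := hL N m F G (C + B ^ 2 * C) hF hG hFn hGn ?_ hN
  · refine key.congr fun n => ?_
    congr 1
    funext h
    show (G4 n h * Y n h) * ((if c2 then 1 else sf (N n • w2) (G2 n) h) *
      (if c3 then 1 else sf (N n • w3) (G3 n) h)) * (sf (N n • w1) (G1 n) h *
      ((if c2 then sf (N n • w2) (G2 n) h else 1) *
      (if c3 then sf (N n • w3) (G3 n) h else 1))) = _
    cases c2 <;> cases c3 <;>
      simp only [Bool.false_eq_true, if_true, if_false, mul_one, one_mul] <;> ring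
  · obtain ⟨k0, hk⟩ := hlim
    refine ⟨k0, fun k hk0 => (hk k hk0).congr fun n => ?_⟩
    congr 1
    funext h
    have hs : ∀ w : ℤ × ℤ, N n • (w + k • D.s) = N n • w + (k * N n) • D.s := by
      intro w
      rw [smul_add, smul_smul, mul_comm (N n) k]
    show _ = (G4 n h * Y n h) * ((if c2 then 1 else sf (N n • w2) (G2 n) h) *
      (if c3 then 1 else sf (N n • w3) (G3 n) h)) *
      (sf (N n • w1) (G1 n) (pb (fun q => q + (k * N n) • D.s) h) *
        ((if c2 then sf (N n • w2) (G2 n) (pb (fun q => q + (k * N n) • D.s) h) else 1) *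
        (if c3 then sf (N n • w3) (G3 n) (pb (fun q => q + (k * N n) • D.s) h) else 1)))
    simp only [tr_sf]
    cases c2 <;> cases c3 <;>
      simp only [hs, Bool.false_eq_true, if_false, add_zero, if_true, mul_one, one_mul] <;> ring

end gen

/-! ### the six legs -/

theorem sm1 (N : ℕ) (q w : ℤ × ℤ) : (q + N • w).1 = q.1 + N * w.1 := by
  rw [Prod.fst_add, Prod.smul_fst, nsmul_eq_mul]

theorem sm2 (N : ℕ) (q w : ℤ × ℤ) : (q + N • w).2 = q.2 + N * w.2 := by
  rw [Prod.snd_add, Prod.smul_snd, nsmul_eq_mul]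

/-- total displacement of group 1 -/
def W1 (k1 k2 k3 k4 k5 k6 : ℤ) : ℤ × ℤ :=
  (-2 * k1 - k2 + k4 + 2 * k5 + k6, k2 + 2 * k3 + k4 - k6)

/-- total displacement of group 2 -/
def W2 (k3 k4 k5 k6 : ℤ) : ℤ × ℤ := (k4 + 2 * k5 + k6, 2 * k3 + k4 - k6)

/-- total displacement of group 3 -/
def W3 (k5 k6 : ℤ) : ℤ × ℤ := (2 * k5 + k6, - k6)

theorem W1_even (k1 k2 k3 k4 k5 k6 : ℤ) :
    (2 : ℤ) ∣ (W1 k1 k2 k3 k4 k5 k6).1 + (W1 k1 k2 k3 k4 k5 k6).2 :=
  ⟨-k1 + k3 + k4 + k5, by simp only [W1]; ring⟩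

/-- **six legs**: the product statement for the pinwheel from the half-plane statement -/
theorem six_legs
    (hinv : ∀ a : ℤ × ℤ, (2 : ℤ) ∣ a.1 + a.2 → (mu0 P).map (pb (fun q => q + a)) = mu0 P)
    (hL : ∀ D ∈ [dX, dY, dD, dA, dX.neg, dY.neg, dD.neg, dA.neg], LegLim P D)
    (ρ : ℕ) (N : ℕ → ℕ) (xl xr yt : ℕ → ℤ) (hN : ∀ n, 1 ≤ N n)
    (hbox : ∀ n, |xl n| ≤ ρ * N n ∧ |xr n| ≤ ρ * N n ∧ |yt n| ≤ ρ * N n)
    (hlr : ∀ n, xl n ≤ xr n)
    (Y G1 G2 G3 G4 : ℕ → Hgt → ℂ) (B C : ℝ)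
    (hY : ∀ n, Loc {q | 0 ≤ q.2 ∧ q.2 ≤ yt n ∧ xl n ≤ q.1 ∧ q.1 ≤ xr n ∧ |q.1| ≤ ρ * N n ∧
      |q.2| ≤ ρ * N n} (Y n)) (hYB : ∀ n h, ‖Y n h‖ ≤ B)
    (hG1 : ∀ n, Adm P {q | q.1 ≤ xl n - 2 * N n ∧ |q.1| ≤ ρ * N n ∧ |q.2| ≤ ρ * N n} (G1 n))
    (hG2 : ∀ n, Loc {q | yt n + 2 * N n ≤ q.2 ∧ xl n ≤ q.1 ∧ |q.1| ≤ ρ * N n ∧
      |q.2| ≤ ρ * N n} (G2 n))
    (hG3 : ∀ n, Loc {q | xr n + 2 * N n ≤ q.1 ∧ q.2 ≤ yt n ∧ |q.1| ≤ ρ * N n ∧
      |q.2| ≤ ρ * N n} (G3 n))
    (hG4 : ∀ n, Adm P {q | q.2 ≤ 0 ∧ q.2 ≤ yt n ∧ xl n ≤ q.1 ∧ q.1 ≤ xr n ∧ |q.1| ≤ ρ * N n ∧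
      |q.2| ≤ ρ * N n} (G4 n))
    (b1 : ∀ n h, ‖G1 n h‖ ≤ 1) (b2 : ∀ n h, ‖G2 n h‖ ≤ 1) (b3 : ∀ n h, ‖G3 n h‖ ≤ 1)
    (b4 : ∀ n h, ‖G4 n h‖ ≤ 1)
    (i1 : ∀ n, ∫ h, ‖G1 n h‖ ∂(mu0 P) ≤ C) (i4 : ∀ n, ∫ h, ‖G4 n h‖ ∂(mu0 P) ≤ C)
    (hHP : ∀ G : ℕ → Hgt → ℂ, (∀ n, Adm P {q | q.2 ≤ 0} (G n)) →
      (∀ n h, ‖G n h‖ ≤ ‖G4 n h‖) →
      Tendsto (fun n => ∫ h, Y n h * G n h ∂(mu0 P)) atTop (𝓝 0)) :
    Tendsto (fun n => ∫ h, Y n h * G1 n h * G2 n h * G3 n h * G4 n h ∂(mu0 P)) atTop (𝓝 0) := by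
  have leg := fun (D : Dir) (hD : LegLim P D) (c2 c3 : Bool) (w1 w2 w3 : ℤ × ℤ)
      (e1 : (2 : ℤ) ∣ w1.1 + w1.2) (m : ℕ → ℤ) =>
    legGen hinv hN hY hYB hG1 hG2 hG3 hG4 b1 b2 b3 b4 i1 i4 D hD c2 c3 w1 w2 w3 e1 m
  -- after all legs
  have T6 : ∀ k1 k2 k3 k4 k5 k6 : ℕ, ρ + k2 + 2 * k3 + k4 ≤ k6 →
      TT P N Y G1 G2 G3 G4 (W1 k1 k2 k3 k4 k5 k6) (W2 k3 k4 k5 k6) (W3 k5 k6) := by
    intro k1 k2 k3 k4 k5 k6 hk
    have := hHP (fun n h => G4 n h * (sf (N n • W1 k1 k2 k3 k4 k5 k6) (G1 n) h *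
      (sf (N n • W2 k3 k4 k5 k6) (G2 n) h * sf (N n • W3 k5 k6) (G3 n) h))) (fun n => ?_)
      (fun n h => ?_)
    · refine this.congr fun n => ?_
      congr 1
      funext h
      ring
    · have hk' : ((ρ : ℤ) + k2 + 2 * k3 + k4) * N n ≤ k6 * N n :=
        mul_le_mul_of_nonneg_right (by exact_mod_cast hk) (by (clear * -; positivity))
      have hp3 : (0 : ℤ) ≤ k3 * N n := by (clear * -; positivity)
      have hp4 : (0 : ℤ) ≤ k4 * N n := by (clear * -; positivity)
      have hp2 : (0 : ℤ) ≤ k2 * N n := by (clear * -; positivity)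
      have l1 : Loc {q | q.2 ≤ 0} (sf (N n • W1 k1 k2 k3 k4 k5 k6) (G1 n)) :=
        (hG1 n).loc.pull (fun q hq => by
          obtain ⟨-, -, h2⟩ := hq
          have h2 := (abs_le.mp h2).2
          show (q + N n • W1 k1 k2 k3 k4 k5 k6).2 ≤ 0
          rw [sm2, W1]
          linarith)
      have l2 : Loc {q | q.2 ≤ 0} (sf (N n • W2 k3 k4 k5 k6) (G2 n)) :=
        (hG2 n).pull (fun q hq => by
          obtain ⟨-, -, -, h2⟩ := hq
          have h2 := (abs_le.mp h2).2
          show (q + N n • W2 k3 k4 k5 k6).2 ≤ 0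
          rw [sm2, W2]
          linarith)
      have l3 : Loc {q | q.2 ≤ 0} (sf (N n • W3 k5 k6) (G3 n)) :=
        (hG3 n).pull (fun q hq => by
          obtain ⟨-, -, -, h2⟩ := hq
          have h2 := (abs_le.mp h2).2
          show (q + N n • W3 k5 k6).2 ≤ 0
          rw [sm2, W3]
          linarith)
      refine ((hG4 n).mono fun q hq => hq.1).mulLoc (B := 1)
        (l1.comp₂ (l2.comp₂ l3 (fun a b => a * b)) (fun a b => a * b)) fun h => ?_
      rw [norm_mul, norm_mul]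
      exact mul_le_one₀ (b1 n _) (by (clear * -; positivity))
        (mul_le_one₀ (b2 n _) (norm_nonneg _) (b3 n _))
    · rw [norm_mul, norm_mul, norm_mul]
      exact mul_le_of_le_one_right (norm_nonneg _) (mul_le_one₀ (b1 n _) (by positivity)
        (mul_le_one₀ (b2 n _) (norm_nonneg _) (b3 n _)))
  -- leg 6
  have T5 : ∀ k1 k2 k3 k4 k5 : ℕ, 2 * ρ + 1 + k1 + k2 + k3 ≤ k5 →
      TT P N Y G1 G2 G3 G4 (W1 k1 k2 k3 k4 k5 0) (W2 k3 k4 k5 0) (W3 k5 0) := by
    intro k1 k2 k3 k4 k5 hk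
    have hk' : ∀ n, (2 * (ρ : ℤ) + 1 + k1 + k2 + k3) * N n ≤ k5 * N n := fun n =>
      mul_le_mul_of_nonneg_right (by exact_mod_cast hk) (by positivity)
    have hp : ∀ (k n : ℕ), (0 : ℤ) ≤ k * N n := fun k n => by (clear * -; positivity)
    refine leg dD (hL dD (by simp)) true true _ _ _ (W1_even _ _ _ _ _ _)
      (fun n => 2 * (ρ * N n)) ?_ ?_ ?_ ?_ ?_ ?_
    · rintro n q ⟨-, -, -, -, h1, h2⟩
      have h1 := (abs_le.mp h1).2
      have h2 := (abs_le.mp h2).1
      show q.1 - q.2 ≤ _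
      linarith only [h1, h2]
    · rintro n q ⟨-, -, -, -, h1, h2⟩
      have h1 := (abs_le.mp h1).2
      have h2 := (abs_le.mp h2).1
      show q.1 - q.2 ≤ _
      linarith only [h1, h2]
    · rintro n q ⟨-, h1, h2⟩
      have h1 := (abs_le.mp h1).1
      have h2 := (abs_le.mp h2).2
      show _ ≤ (q + N n • W1 k1 k2 k3 k4 k5 0).1 - (q + N n • W1 k1 k2 k3 k4 k5 0).2
      rw [sm1, sm2, W1]
      nlinarith only [h1, h2, hk' n]
    · rintro n q ⟨-, -, h1, h2⟩
      have h1 := (abs_le.mp h1).1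
      have h2 := (abs_le.mp h2).2
      rw [if_pos rfl]
      show _ ≤ (q + N n • W2 k3 k4 k5 0).1 - (q + N n • W2 k3 k4 k5 0).2
      rw [sm1, sm2, W2]
      nlinarith only [h1, h2, hk' n]
    · rintro n q ⟨-, -, h1, h2⟩
      have h1 := (abs_le.mp h1).1
      have h2 := (abs_le.mp h2).2
      rw [if_pos rfl]
      show _ ≤ (q + N n • W3 k5 0).1 - (q + N n • W3 k5 0).2
      rw [sm1, sm2, W3]
      nlinarith only [h1, h2, hk' n]
    · refine ⟨ρ + k2 + 2 * k3 + k4, fun k hk0 => ?_⟩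
      have e1 : W1 k1 k2 k3 k4 k5 0 + k • dD.s = W1 k1 k2 k3 k4 k5 k := by
        apply Prod.ext <;> simp only [W1, Int.reduceNeg, neg_mul, add_zero, sub_zero, dD, Prod.smul_mk, Int.nsmul_eq_mul, mul_one, mul_neg, Prod.mk_add_mk] <;> ring
      have e2 : W2 k3 k4 k5 0 + k • dD.s = W2 k3 k4 k5 k := by
        apply Prod.ext <;> simp only [W2, add_zero, sub_zero, dD, Int.reduceNeg, Prod.smul_mk, Int.nsmul_eq_mul, mul_one, mul_neg, Prod.mk_add_mk] <;> ring
      have e3 : W3 k5 0 + k • dD.s = W3 k5 k := by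
        apply Prod.ext <;> simp [W3, dD] <;> ring
      simp only [if_true]
      rw [e1, e2, e3]
      exact T6 k1 k2 k3 k4 k5 k hk0
  -- leg 5
  have T4 : ∀ k1 k2 k3 k4 : ℕ, 2 * ρ + 2 + 2 * k1 + k2 ≤ k4 →
      TT P N Y G1 G2 G3 G4 (W1 k1 k2 k3 k4 0 0) (W2 k3 k4 0 0) 0 := by
    intro k1 k2 k3 k4 hk
    have hk' : ∀ n, (2 * (ρ : ℤ) + 2 + 2 * k1 + k2) * N n ≤ k4 * N n := fun n =>
      mul_le_mul_of_nonneg_right (by exact_mod_cast hk) (by positivity)
    have hp : ∀ (k n : ℕ), (0 : ℤ) ≤ k * N n := fun k n => by (clear * -; positivity)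
    refine leg dX (hL dX (by simp)) true true _ _ _ (W1_even _ _ _ _ _ _)
      (fun n => xr n) ?_ ?_ ?_ ?_ ?_ ?_
    · rintro n q ⟨-, -, -, h3, -, -⟩
      exact h3
    · rintro n q ⟨-, -, -, h3, -, -⟩
      exact h3
    · rintro n q ⟨-, h1, -⟩
      have h1 := (abs_le.mp h1).1
      have h3 := (abs_le.mp (hbox n).2.1).2
      show _ ≤ (q + N n • W1 k1 k2 k3 k4 0 0).1
      rw [sm1, W1]
      nlinarith only [h1, h3, hk' n]
    · rintro n q ⟨-, -, h1, -⟩
      have h1 := (abs_le.mp h1).1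
      have h3 := (abs_le.mp (hbox n).2.1).2
      rw [if_pos rfl]
      show _ ≤ (q + N n • W2 k3 k4 0 0).1
      rw [sm1, W2]
      nlinarith only [h1, h3, hk' n]
    · rintro n q ⟨h1, -, -, -⟩
      rw [if_pos rfl]
      show _ ≤ (q + N n • (0 : ℤ × ℤ)).1
      rw [sm1]
      simpa only [Prod.fst_zero, mul_zero, add_zero] using h1
    · refine ⟨2 * ρ + 1 + k1 + k2 + k3, fun k hk0 => ?_⟩
      have e1 : W1 k1 k2 k3 k4 0 0 + k • dX.s = W1 k1 k2 k3 k4 k 0 := by
        apply Prod.ext <;> simp [W1, dX] <;> ring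
      have e2 : W2 k3 k4 0 0 + k • dX.s = W2 k3 k4 k 0 := by
        apply Prod.ext <;> simp [W2, dX] <;> ring
      have e3 : 0 + k • dX.s = W3 k 0 := by
        apply Prod.ext <;> simp [W3, dX] <;> ring
      simp only [if_true]
      rw [e1, e2, e3]
      exact T5 k1 k2 k3 k4 k hk0
  -- leg 4
  have T3 : ∀ k1 k2 k3 : ℕ, 2 * ρ + 1 + k1 ≤ k3 →
      TT P N Y G1 G2 G3 G4 (W1 k1 k2 k3 0 0 0) (W2 k3 0 0 0) 0 := by
    intro k1 k2 k3 hk
    have hk' : ∀ n, (2 * (ρ : ℤ) + 1 + k1) * N n ≤ k3 * N n := fun n =>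
      mul_le_mul_of_nonneg_right (by exact_mod_cast hk) (by positivity)
    have hp : ∀ (k n : ℕ), (0 : ℤ) ≤ k * N n := fun k n => by (clear * -; positivity)
    refine leg dA (hL dA (by simp)) true false _ _ _ (W1_even _ _ _ _ _ _)
      (fun n => 2 * (ρ * N n)) ?_ ?_ ?_ ?_ ?_ ?_
    · rintro n q ⟨-, -, -, -, h1, h2⟩
      have h1 := (abs_le.mp h1).2
      have h2 := (abs_le.mp h2).2
      show q.1 + q.2 ≤ _
      linarith only [h1, h2]
    · rintro n q ⟨-, -, -, -, h1, h2⟩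
      have h1 := (abs_le.mp h1).2
      have h2 := (abs_le.mp h2).2
      show q.1 + q.2 ≤ _
      linarith only [h1, h2]
    · rintro n q ⟨-, h1, h2⟩
      have h1 := (abs_le.mp h1).1
      have h2 := (abs_le.mp h2).1
      show _ ≤ (q + N n • W1 k1 k2 k3 0 0 0).1 + (q + N n • W1 k1 k2 k3 0 0 0).2
      rw [sm1, sm2, W1]
      nlinarith only [h1, h2, hk' n]
    · rintro n q ⟨-, -, h1, h2⟩
      have h1 := (abs_le.mp h1).1
      have h2 := (abs_le.mp h2).1
      rw [if_pos rfl]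
      show _ ≤ (q + N n • W2 k3 0 0 0).1 + (q + N n • W2 k3 0 0 0).2
      rw [sm1, sm2, W2]
      nlinarith only [h1, h2, hk' n]
    · rintro n q ⟨-, -, h1, h2⟩
      have h1 := (abs_le.mp h1).2
      have h2 := (abs_le.mp h2).2
      rw [if_neg (by simp)]
      show (q + N n • (0 : ℤ × ℤ)).1 + (q + N n • (0 : ℤ × ℤ)).2 ≤ _
      rw [sm1, sm2]
      simp only [Prod.fst_zero, Prod.snd_zero, mul_zero, add_zero]
      linarith only [h1, h2]
    · refine ⟨2 * ρ + 2 + 2 * k1 + k2, fun k hk0 => ?_⟩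
      have e1 : W1 k1 k2 k3 0 0 0 + k • dA.s = W1 k1 k2 k3 k 0 0 := by
        apply Prod.ext <;> simp only [W1, Int.reduceNeg, neg_mul, add_zero, mul_zero, sub_zero, dA, Prod.smul_mk, Int.nsmul_eq_mul, mul_one, Prod.mk_add_mk]
      have e2 : W2 k3 0 0 0 + k • dA.s = W2 k3 k 0 0 := by
        apply Prod.ext <;> simp [W2, dA]
      simp only [if_true, Bool.false_eq_true, if_false]
      rw [e1, e2, add_zero]
      exact T4 k1 k2 k3 k hk0
  -- leg 3
  have T2 : ∀ k1 k2 : ℕ, 2 * ρ + 2 ≤ k2 →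
      TT P N Y G1 G2 G3 G4 (W1 k1 k2 0 0 0 0) 0 0 := by
    intro k1 k2 hk
    have hk' : ∀ n, (2 * (ρ : ℤ) + 2) * N n ≤ k2 * N n := fun n =>
      mul_le_mul_of_nonneg_right (by exact_mod_cast hk) (by positivity)
    refine leg dY (hL dY (by simp)) true false _ _ _ (W1_even _ _ _ _ _ _)
      (fun n => yt n) ?_ ?_ ?_ ?_ ?_ ?_
    · rintro n q ⟨-, h3, -, -, -, -⟩
      exact h3
    · rintro n q ⟨-, h3, -, -, -, -⟩
      exact h3
    · rintro n q ⟨-, -, h2⟩
      have h2 := (abs_le.mp h2).1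
      have h3 := (abs_le.mp (hbox n).2.2).2
      show _ ≤ (q + N n • W1 k1 k2 0 0 0 0).2
      rw [sm2, W1]
      nlinarith only [h2, h3, hk' n]
    · rintro n q ⟨h1, -, -, -⟩
      rw [if_pos rfl]
      show _ ≤ (q + N n • (0 : ℤ × ℤ)).2
      rw [sm2]
      simpa using h1
    · rintro n q ⟨-, h1, -, -⟩
      rw [if_neg (by simp)]
      show (q + N n • (0 : ℤ × ℤ)).2 ≤ _
      rw [sm2]
      simpa using h1
    · refine ⟨2 * ρ + 1 + k1, fun k hk0 => ?_⟩
      have e1 : W1 k1 k2 0 0 0 0 + k • dY.s = W1 k1 k2 k 0 0 0 := by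
        apply Prod.ext <;> simp [W1, dY] <;> ring
      have e2 : 0 + k • dY.s = W2 k 0 0 0 := by
        apply Prod.ext <;> simp [W2, dY] <;> ring
      simp only [if_true, Bool.false_eq_true, if_false]
      rw [e1, e2, add_zero]
      exact T3 k1 k2 k hk0
  -- leg 2
  have T1 : ∀ k1 : ℕ, 2 * ρ + 1 ≤ k1 →
      TT P N Y G1 G2 G3 G4 (W1 k1 0 0 0 0 0) 0 0 := by
    intro k1 hk
    have hk' : ∀ n, (2 * (ρ : ℤ) + 1) * N n ≤ k1 * N n := fun n =>
      mul_le_mul_of_nonneg_right (by exact_mod_cast hk) (by (clear * -; positivity))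
    refine leg dD.neg (hL dD.neg (by simp)) false false _ _ _ (W1_even _ _ _ _ _ _)
      (fun n => 2 * (ρ * N n)) ?_ ?_ ?_ ?_ ?_ ?_
    · rintro n q ⟨-, -, -, -, h1, h2⟩
      have h1 := (abs_le.mp h1).1
      have h2 := (abs_le.mp h2).2
      show -(q.1 - q.2) ≤ _
      linarith only [h1, h2]
    · rintro n q ⟨-, -, -, -, h1, h2⟩
      have h1 := (abs_le.mp h1).1
      have h2 := (abs_le.mp h2).2
      show -(q.1 - q.2) ≤ _
      linarith only [h1, h2]
    · rintro n q ⟨-, h1, h2⟩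
      have h1 := (abs_le.mp h1).2
      have h2 := (abs_le.mp h2).1
      show _ ≤ -((q + N n • W1 k1 0 0 0 0 0).1 - (q + N n • W1 k1 0 0 0 0 0).2)
      rw [sm1, sm2, W1]
      nlinarith only [h1, h2, hk' n]
    · rintro n q ⟨-, -, h1, h2⟩
      have h1 := (abs_le.mp h1).1
      have h2 := (abs_le.mp h2).2
      rw [if_neg (by simp)]
      show -((q + N n • (0 : ℤ × ℤ)).1 - (q + N n • (0 : ℤ × ℤ)).2) ≤ _
      rw [sm1, sm2]
      simp only [Prod.fst_zero, Prod.snd_zero, mul_zero, add_zero]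
      linarith only [h1, h2]
    · rintro n q ⟨-, -, h1, h2⟩
      have h1 := (abs_le.mp h1).1
      have h2 := (abs_le.mp h2).2
      rw [if_neg (by simp)]
      show -((q + N n • (0 : ℤ × ℤ)).1 - (q + N n • (0 : ℤ × ℤ)).2) ≤ _
      rw [sm1, sm2]
      simp only [Prod.fst_zero, Prod.snd_zero, mul_zero, add_zero]
      linarith only [h1, h2]
    · refine ⟨2 * ρ + 2, fun k hk0 => ?_⟩
      have e1 : W1 k1 0 0 0 0 0 + k • dD.neg.s = W1 k1 k 0 0 0 0 := by
        apply Prod.ext <;> simp only [W1, Int.reduceNeg, neg_mul, sub_zero, add_zero, mul_zero, sub_self, Dir.neg, dD, neg_sub, sub_neg_eq_add, Prod.neg_mk, neg_neg, Prod.smul_mk, Int.nsmul_eq_mul, mul_neg, mul_one, Prod.mk_add_mk, zero_add] <;> ring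
      simp only [Bool.false_eq_true, if_false]
      rw [e1, add_zero]
      exact T2 k1 k hk0
  -- leg 1
  have T0 : TT P N Y G1 G2 G3 G4 0 0 0 := by
    refine leg dX.neg (hL dX.neg (by simp)) false false _ _ _ (by simp)
      (fun n => -xl n) ?_ ?_ ?_ ?_ ?_ ?_
    · rintro n q ⟨-, -, h1, -, -, -⟩
      show -q.1 ≤ _
      linarith
    · rintro n q ⟨-, -, h1, -, -, -⟩
      show -q.1 ≤ _
      linarith
    · rintro n q ⟨h1, -, -⟩
      show _ ≤ -(q + N n • (0 : ℤ × ℤ)).1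
      rw [sm1]
      simp only [Prod.fst_zero, mul_zero, add_zero]
      linarith
    · rintro n q ⟨-, h1, -, -⟩
      rw [if_neg (by simp)]
      show -(q + N n • (0 : ℤ × ℤ)).1 ≤ _
      rw [sm1]
      simp only [Prod.fst_zero, mul_zero, add_zero]
      linarith
    · rintro n q ⟨h1, -, -, -⟩
      rw [if_neg (by simp)]
      show -(q + N n • (0 : ℤ × ℤ)).1 ≤ _
      rw [sm1]
      simp only [Prod.fst_zero, mul_zero, add_zero]
      have := hlr n
      have h5 : (0 : ℤ) ≤ N n := by (clear * -; positivity)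
      linarith only [h1, this]
    · refine ⟨2 * ρ + 1, fun k hk0 => ?_⟩
      have e1 : 0 + k • dX.neg.s = W1 k 0 0 0 0 0 := by
        apply Prod.ext <;> simp [W1, dX, Dir.neg] <;> ring
      simp only [Bool.false_eq_true, if_false]
      rw [e1, add_zero]
      exact T1 k hk0
  refine T0.congr fun n => ?_
  congr 1
  funext h
  simp only [smul_zero, sf_zero]
  ring

/-! ### the product statement for the null functional -/

theorem ev_loc (w : (ℤ × ℤ) →₀ ℝ) {A : Set (ℤ × ℤ)} (h : ∀ q ∈ w.support, q ∈ A) :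
    Loc A (ev w) := by
  refine ⟨w.support, h, fun a b hab => ?_⟩
  unfold ev Finsupp.sum
  refine Finset.sum_congr rfl fun q hq => ?_
  show w q * ((a q : ℤ) : ℝ) = w q * ((b q : ℤ) : ℝ)
  rw [hab q hq]

theorem Yf_loc (w u : (ℤ × ℤ) →₀ ℝ) (α : ℝ) {A : Set (ℤ × ℤ)} (h1 : ∀ q ∈ w.support, q ∈ A)
    (h2 : ∀ q ∈ u.support, q ∈ A) : Loc A (Yf w u α) := by
  have := (ev_loc w h1).comp₂ (ev_loc u h2) (fun x y : ℝ =>
    Complex.exp (Complex.I * (x : ℂ)) * (Complex.exp (Complex.I * (y : ℂ)) - (α : ℂ)))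
  exact this

theorem Yf_norm (w u : (ℤ × ℤ) →₀ ℝ) (α : ℝ) (h : Hgt) : ‖Yf w u α h‖ ≤ 1 + |α| := by
  unfold Yf
  rw [norm_mul, mul_comm Complex.I, Complex.norm_exp_ofReal_mul_I, one_mul]
  refine (norm_sub_le _ _).trans ?_
  rw [mul_comm Complex.I, Complex.norm_exp_ofReal_mul_I, Complex.norm_real, Real.norm_eq_abs]

/-- product statement from the half-plane statement, for one null functional -/
theorem s_fa_of [IsProbabilityMeasure P]
    (hinv : ∀ a : ℤ × ℤ, (2 : ℤ) ∣ a.1 + a.2 → (mu0 P).map (pb (fun q => q + a)) = mu0 P)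
    (hL : ∀ D ∈ [dX, dY, dD, dA, dX.neg, dY.neg, dD.neg, dA.neg], LegLim P D)
    {w u φ : ℕ → (ℤ × ℤ) →₀ ℝ} {α : ℝ} (hφ : ∀ n, mass (φ n) = 1)
    (hhp : ∀ (G : ℕ → Hgt → ℂ) (C : ℝ), (∀ n, Adm P {q | q.2 ≤ 0} (G n)) →
      (∀ n h, ‖G n h‖ ≤ 1) → (∀ n, ∫ h, ‖G n h‖ ∂(mu0 P) ≤ C) → Tight P φ G →
      Tendsto (fun n => ∫ h, Yf (w n) (u n) α h * G n h ∂(mu0 P)) atTop (𝓝 0))
    (ρ : ℕ) (N : ℕ → ℕ) (xl xr yt : ℕ → ℤ) (hN : ∀ n, 1 ≤ N n)
    (hbox : ∀ n, |xl n| ≤ ρ * N n ∧ |xr n| ≤ ρ * N n ∧ |yt n| ≤ ρ * N n)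
    (hsupp : ∀ n, ∀ q, q ∈ (w n).support ∨ q ∈ (u n).support ∨ q ∈ (φ n).support →
      0 ≤ q.2 ∧ q.2 ≤ yt n ∧ xl n ≤ q.1 ∧ q.1 ≤ xr n ∧ |q.1| ≤ ρ * N n ∧ |q.2| ≤ ρ * N n)
    (G1 G2 G3 G4 : ℕ → Hgt → ℂ) (C : ℝ)
    (hG1 : ∀ n, Adm P {q | q.1 ≤ xl n - 2 * N n ∧ |q.1| ≤ ρ * N n ∧ |q.2| ≤ ρ * N n} (G1 n))
    (hG2 : ∀ n, Loc {q | yt n + 2 * N n ≤ q.2 ∧ xl n ≤ q.1 ∧ |q.1| ≤ ρ * N n ∧
      |q.2| ≤ ρ * N n} (G2 n))
    (hG3 : ∀ n, Loc {q | xr n + 2 * N n ≤ q.1 ∧ q.2 ≤ yt n ∧ |q.1| ≤ ρ * N n ∧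
      |q.2| ≤ ρ * N n} (G3 n))
    (hG4 : ∀ n, Adm P {q | q.2 ≤ 0 ∧ q.2 ≤ yt n ∧ xl n ≤ q.1 ∧ q.1 ≤ xr n ∧ |q.1| ≤ ρ * N n ∧
      |q.2| ≤ ρ * N n} (G4 n))
    (b1 : ∀ n h, ‖G1 n h‖ ≤ 1) (b2 : ∀ n h, ‖G2 n h‖ ≤ 1) (b3 : ∀ n h, ‖G3 n h‖ ≤ 1)
    (b4 : ∀ n h, ‖G4 n h‖ ≤ 1)
    (i1 : ∀ n, ∫ h, ‖G1 n h‖ ∂(mu0 P) ≤ C) (i4 : ∀ n, ∫ h, ‖G4 n h‖ ∂(mu0 P) ≤ C)
    (hT : Tight P φ G4) :
    Tendsto (fun n => ∫ h, Yf (w n) (u n) α h * G1 n h * G2 n h * G3 n h * G4 n h ∂(mu0 P))
      atTop (𝓝 0) := by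
  have hlr : ∀ n, xl n ≤ xr n := by
    intro n
    have hne : (φ n).support.Nonempty := by
      rw [Finset.nonempty_iff_ne_empty]
      intro h0
      have h1 : φ n = 0 := by rwa [Finsupp.support_eq_empty] at h0
      have h2 := hφ n
      rw [h1] at h2
      simp [mass] at h2
    obtain ⟨q, hq⟩ := hne
    obtain ⟨-, -, h1, h2, -, -⟩ := hsupp n q (Or.inr (Or.inr hq))
    exact h1.trans h2
  refine six_legs hinv hL ρ N xl xr yt hN hbox hlr (fun n => Yf (w n) (u n) α) G1 G2 G3 G4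
    (1 + |α|) C ?_ (fun n h => Yf_norm _ _ _ _) hG1 hG2 hG3 hG4 b1 b2 b3 b4 i1 i4 ?_
  · intro n
    exact Yf_loc _ _ _ (fun q hq => hsupp n q (Or.inl hq))
      (fun q hq => hsupp n q (Or.inr (Or.inl hq)))
  · intro G hG hle
    refine hhp G C hG (fun n h => (hle n h).trans (b4 n h)) (fun n => ?_) ?_
    · exact (integral_mono (hG n).int.norm (hG4 n).int.norm (hle n)).trans (i4 n)
    · intro ε hε
      obtain ⟨K0, hK0⟩ := hT ε hε
      refine ⟨K0, fun K hK => ?_⟩
      filter_upwards [hK0 K hK] with n hn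
      refine le_trans ?_ hn
      have hm : Measurable (fun h : Hgt => 1 - Real.exp (-((ev (φ n) h) ^ 2 / (2 * K ^ 2)))) :=
        ((ev_loc (φ n) (A := Set.univ) (fun _ _ => trivial)).comp
          (fun x : ℝ => 1 - Real.exp (-(x ^ 2 / (2 * K ^ 2))))).measS
      have h0 : ∀ h : Hgt, 0 ≤ 1 - Real.exp (-((ev (φ n) h) ^ 2 / (2 * K ^ 2))) := by
        intro h
        have : Real.exp (-((ev (φ n) h) ^ 2 / (2 * K ^ 2))) ≤ 1 :=
          Real.exp_le_one_iff.mpr (by
            have : 0 ≤ (ev (φ n) h) ^ 2 / (2 * K ^ 2) := by (clear * -; positivity)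
            linarith only [this])
        linarith only [this]
      have h1 : ∀ h : Hgt, ‖1 - Real.exp (-((ev (φ n) h) ^ 2 / (2 * K ^ 2)))‖ ≤ 1 := by
        intro h
        rw [Real.norm_eq_abs, abs_of_nonneg (h0 h)]
        have := Real.exp_pos (-((ev (φ n) h) ^ 2 / (2 * K ^ 2)))
        linarith only [this]
      apply integral_mono
      · exact (hG n).int.norm.mul_bdd hm.aestronglyMeasurable (Eventually.of_forall h1)
      · exact (hG4 n).int.norm.mul_bdd hm.aestronglyMeasurable (Eventually.of_forall h1)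
      · intro h
        exact mul_le_mul_of_nonneg_right (hle n h) (h0 h)

theorem s_fa (hhp : S_hp) : S_fa := by
  intro P _ hinv hL hRP w u φ α hSD ρ N xl xr yt hN hbox hsupp G1 G2 G3 G4 C hG1 hG2 hG3 hG4
    b1 b2 b3 b4 i1 i4 hT
  exact s_fa_of hinv hL hSD.mφ
    (fun G C' hG hb hi hTG => hhp P hRP w u φ α hSD (fun n q hq => (hsupp n q hq).1) G C' hG hb hi
      hTG) ρ N xl xr yt hN hbox hsupp G1 G2 G3 G4 C hG1 hG2 hG3 hG4 b1 b2 b3 b4 i1 i4 hT

end Vale.Agent.P145.FA
end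

section

/-!
P145, block F-A: the product form of the null property for the six-vertex measure.
-/

namespace Vale.Agent.P145.FA

open Finset Filter Topology MeasureTheory
open Vale.Agent.P152

/-- all legs, from the reflection positivity of the arrows -/
theorem legs_all {c : ℝ} {P : Measure (Ori (ℤ × ℤ))} (hPl : Pl c P)
    (hG : GRP P dX RX ∧ GRP P dY RY ∧ GRP P dD RD ∧ GRP P dA RA) :
    (∀ a : ℤ × ℤ, (2 : ℤ) ∣ a.1 + a.2 → (mu0 P).map (pb (fun q => q + a)) = mu0 P) ∧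
    (∀ D ∈ [dX, dY, dD, dA, dX.neg, dY.neg, dD.neg, dA.neg], LegLim P D) ∧
    Inv P dY ∧ RP P dY := by
  haveI := hPl.prob
  obtain ⟨h0, iX, iY, iD, iA⟩ := s_inv c P hPl
  obtain ⟨rX, rY, rD, rA⟩ := s_rp c P hPl
  obtain ⟨⟨gX, gY, gD, gA⟩, gneg⟩ := s_good
  have pX := rX hG.1
  have pY := rY hG.2.1
  have pD := rD hG.2.2.1
  have pA := rA hG.2.2.2
  have key : ∀ D : Dir, D.Good → Inv P D → RP P D → LegLim P D ∧ LegLim P D.neg := by
    intro D hD hI hR
    have hn := s_neg P D hD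
    exact ⟨(s_leg P D hD hI hR).2, (s_leg P D.neg (gneg D hD) (hn.2 hI) (hn.1 hR)).2⟩
  refine ⟨h0, ?_, iY, pY⟩
  intro D hD
  simp only [List.mem_cons, List.not_mem_nil, or_false] at hD
  rcases hD with rfl | rfl | rfl | rfl | rfl | rfl | rfl | rfl
  · exact (key _ gX iX pX).1
  · exact (key _ gY iY pY).1
  · exact (key _ gD iD pD).1
  · exact (key _ gA iA pA).1
  · exact (key _ gX iX pX).2
  · exact (key _ gY iY pY).2
  · exact (key _ gD iD pD).2
  · exact (key _ gA iA pA).2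

/-- **Product form of the null property** for a plane measure with reflection-positive arrows. -/
theorem fa_pl {c : ℝ} {P : Measure (Ori (ℤ × ℤ))} (hPl : Pl c P)
    (hG : GRP P dX RX ∧ GRP P dY RY ∧ GRP P dD RD ∧ GRP P dA RA)
    {w u φ : ℕ → (ℤ × ℤ) →₀ ℝ} {α : ℝ} (hSD : SDseq P w u φ α)
    (ρ : ℕ) (N : ℕ → ℕ) (xl xr yt : ℕ → ℤ) (hN : ∀ n, 1 ≤ N n)
    (hbox : ∀ n, |xl n| ≤ ρ * N n ∧ |xr n| ≤ ρ * N n ∧ |yt n| ≤ ρ * N n)
    (hsupp : ∀ n, ∀ q, q ∈ (w n).support ∨ q ∈ (u n).support ∨ q ∈ (φ n).support →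
      0 ≤ q.2 ∧ q.2 ≤ yt n ∧ xl n ≤ q.1 ∧ q.1 ≤ xr n ∧ |q.1| ≤ ρ * N n ∧ |q.2| ≤ ρ * N n)
    (G1 G2 G3 G4 : ℕ → Hgt → ℂ) (C : ℝ)
    (hG1 : ∀ n, Adm P {q | q.1 ≤ xl n - 2 * N n ∧ |q.1| ≤ ρ * N n ∧ |q.2| ≤ ρ * N n} (G1 n))
    (hG2 : ∀ n, Loc {q | yt n + 2 * N n ≤ q.2 ∧ xl n ≤ q.1 ∧ |q.1| ≤ ρ * N n ∧
      |q.2| ≤ ρ * N n} (G2 n))
    (hG3 : ∀ n, Loc {q | xr n + 2 * N n ≤ q.1 ∧ q.2 ≤ yt n ∧ |q.1| ≤ ρ * N n ∧
      |q.2| ≤ ρ * N n} (G3 n))
    (hG4 : ∀ n, Adm P {q | q.2 ≤ 0 ∧ q.2 ≤ yt n ∧ xl n ≤ q.1 ∧ q.1 ≤ xr n ∧ |q.1| ≤ ρ * N n ∧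
      |q.2| ≤ ρ * N n} (G4 n))
    (b1 : ∀ n h, ‖G1 n h‖ ≤ 1) (b2 : ∀ n h, ‖G2 n h‖ ≤ 1) (b3 : ∀ n h, ‖G3 n h‖ ≤ 1)
    (b4 : ∀ n h, ‖G4 n h‖ ≤ 1)
    (i1 : ∀ n, ∫ h, ‖G1 n h‖ ∂(mu0 P) ≤ C) (i4 : ∀ n, ∫ h, ‖G4 n h‖ ∂(mu0 P) ≤ C)
    (hT : Tight P φ G4) :
    Tendsto (fun n => ∫ h, Yf (w n) (u n) α h * G1 n h * G2 n h * G3 n h * G4 n h ∂(mu0 P))
      atTop (𝓝 0) := by
  haveI := hPl.prob
  obtain ⟨hinv, hL, hI, hR⟩ := legs_all hPl hG
  exact s_fa_of hinv hL hSD.mφ
    (fun G C' a1 a2 a3 a4 => s_hp hI hR w u φ α hSD (fun n q hq => (hsupp n q hq).1) G C' a1 a2 a3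
      a4) ρ N xl xr yt hN hbox hsupp G1 G2 G3 G4 C hG1 hG2 hG3 hG4 b1 b2 b3 b4 i1 i4 hT

end Vale.Agent.P145.FA
end

section

/-!
# P145, block F-B: symmetries of the six-vertex plane measure and of the height function

The even faces of the six-vertex lattice are the vertices of the Ashkin-Teller lattice: the vertex
`(i, j)` is the face `(i - j, i + j)`. The translation of the Ashkin-Teller lattice by `(a, b)` and its
reflections `(i, j) ↦ (j, i)`, `(i, j) ↦ (-i, j)`, `(i, j) ↦ (i, -j)`, as maps of the arrows.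
-/

namespace Vale.Agent.P145.FB

open Finset Filter Topology MeasureTheory
open Vale.Agent.P152 (Edge Ori Ice sgb pth pth_isHeight IsHeight height_eq_pth)
open Vale.Agent.P152.GFF.B3 (shO trO reO IsP symP)

/-- Reflection `q ↦ (-q.1, q.2)` of the faces. -/
def swA (ω : Ori (ℤ × ℤ)) : Ori (ℤ × ℤ)
  | Sum.inl v => ω (Sum.inl (-v.1, v.2))
  | Sum.inr v => !(ω (Sum.inr (1 - v.1, v.2)))

/-- Reflection `q ↦ (q.2, q.1)` of the faces. -/
def ryA (ω : Ori (ℤ × ℤ)) : Ori (ℤ × ℤ)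
  | Sum.inl v => !(ω (Sum.inr (v.2, v.1)))
  | Sum.inr v => !(ω (Sum.inl (v.2, v.1)))

/-- Reflection `q ↦ (-q.2, -q.1)` of the faces. -/
def rxA (ω : Ori (ℤ × ℤ)) : Ori (ℤ × ℤ)
  | Sum.inl v => ω (Sum.inr (1 - v.2, -v.1))
  | Sum.inr v => ω (Sum.inl (-v.2, 1 - v.1))

/-- Reflection `q ↦ (q.1, -q.2)` of the faces. -/
def szA (ω : Ori (ℤ × ℤ)) : Ori (ℤ × ℤ)
  | Sum.inl v => !(ω (Sum.inl (v.1, 1 - v.2)))
  | Sum.inr v => ω (Sum.inr (v.1, -v.2))

theorem szA_eq (ω : Ori (ℤ × ℤ)) : szA ω = ryA (swA (ryA ω)) := by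
  funext e
  rcases e with ⟨i, j⟩ | ⟨i, j⟩
  · show (!ω (Sum.inl (i, 1 - j))) = !(!(!ω (Sum.inl (i, 1 - j))))
    rw [Bool.not_not]
  · show ω (Sum.inr (i, -j)) = !(!ω (Sum.inr (i, -j)))
    rw [Bool.not_not]

theorem swA_eq (ω : Ori (ℤ × ℤ)) : swA ω = shO (-1) 0 (reO ω) := by
  funext e
  rcases e with ⟨i, j⟩ | ⟨i, j⟩
  · show ω (Sum.inl (-i, j)) = ω (Sum.inl (-(i + -1) - 1, j + 0))
    rw [show -(i + -1) - 1 = -i by ring, add_zero]
  · show (!ω (Sum.inr (1 - i, j))) = !ω (Sum.inr (-(i + -1), j + 0))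
    rw [show -(i + -1) = 1 - i by ring, add_zero]

theorem ryA_eq (ω : Ori (ℤ × ℤ)) : ryA ω = fun e => !(trO ω e) := by
  funext e
  rcases e with ⟨i, j⟩ | ⟨i, j⟩ <;> rfl

theorem rxA_eq (ω : Ori (ℤ × ℤ)) : rxA ω = swA (ryA (swA ω)) := by
  funext e
  rcases e with ⟨i, j⟩ | ⟨i, j⟩
  · show ω (Sum.inr (1 - j, -i)) = !(!ω (Sum.inr (1 - j, -i)))
    rw [Bool.not_not]
  · show ω (Sum.inl (-j, 1 - i)) = !(!ω (Sum.inl (-j, 1 - i)))
    rw [Bool.not_not]

theorem sh_meas (a b : ℤ) : Measurable (shO a b) := by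
  refine measurable_pi_lambda _ (fun e => ?_)
  rcases e with e | e <;> exact measurable_pi_apply _

theorem bnot_meas : Measurable (fun b : Bool => !b) := measurable_of_countable _

theorem swA_meas : Measurable swA := by
  refine measurable_pi_lambda _ (fun e => ?_)
  rcases e with e | e
  · exact measurable_pi_apply _
  · exact bnot_meas.comp (measurable_pi_apply _)

theorem ryA_meas : Measurable ryA := by
  refine measurable_pi_lambda _ (fun e => ?_)
  rcases e with e | e <;> exact bnot_meas.comp (measurable_pi_apply _)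

theorem szA_meas : Measurable szA := by
  refine measurable_pi_lambda _ (fun e => ?_)
  rcases e with e | e
  · exact bnot_meas.comp (measurable_pi_apply _)
  · exact measurable_pi_apply _

theorem rxA_meas : Measurable rxA := by
  refine measurable_pi_lambda _ (fun e => ?_)
  rcases e with e | e <;> exact measurable_pi_apply _

section

variable {P : Measure (Ori (ℤ × ℤ))}

/-- The symmetries of the measure used below. -/
structure SymM (P : Measure (Ori (ℤ × ℤ))) : Prop where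
  sh : ∀ a b : ℤ, P.map (shO a b) = P
  tr : P.map trO = P
  rev : P.map (fun ω e => !(ω e)) = P
  re : P.map reO = P

theorem symM_of_isP {c : ℝ} (hc : 0 < c) (hc2 : c ^ 2 ≤ 2) (hP : IsP c P) : SymM P := by
  obtain ⟨h1, h2, h3, h4⟩ := symP c hc hc2 P hP
  exact ⟨h1, h2, h3, h4⟩

theorem trO_meas : Measurable trO := by
  refine measurable_pi_lambda _ (fun e => ?_)
  rcases e with e | e <;> exact measurable_pi_apply _

theorem reO_meas : Measurable reO := by
  refine measurable_pi_lambda _ (fun e => ?_)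
  rcases e with e | e
  · exact measurable_pi_apply _
  · exact bnot_meas.comp (measurable_pi_apply _)

theorem revO_meas : Measurable (fun (ω : Ori (ℤ × ℤ)) e => !(ω e)) :=
  measurable_pi_lambda _ (fun e => bnot_meas.comp (measurable_pi_apply e))

theorem map_sw (h : SymM P) : P.map swA = P := by
  have e : swA = shO (-1) 0 ∘ reO := funext swA_eq
  rw [e, ← Measure.map_map (sh_meas _ _) reO_meas, h.re, h.sh]

theorem map_ry (h : SymM P) : P.map ryA = P := by
  have e : ryA = (fun (ω : Ori (ℤ × ℤ)) e => !(ω e)) ∘ trO := funext ryA_eq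
  rw [e, ← Measure.map_map revO_meas trO_meas, h.tr, h.rev]

theorem map_sz (h : SymM P) : P.map szA = P := by
  have e : szA = ryA ∘ (swA ∘ ryA) := funext szA_eq
  rw [e, ← Measure.map_map ryA_meas (swA_meas.comp ryA_meas),
    ← Measure.map_map swA_meas ryA_meas, map_ry h, map_sw h, map_ry h]

theorem map_rx (h : SymM P) : P.map rxA = P := by
  have e : rxA = swA ∘ (ryA ∘ swA) := funext rxA_eq
  rw [e, ← Measure.map_map swA_meas (ryA_meas.comp swA_meas),
    ← Measure.map_map ryA_meas swA_meas, map_sw h, map_ry h, map_sw h]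

end

/-! ### The height function -/

theorem hstep_v {ω : Ori (ℤ × ℤ)} (h : ∀ x y, Ice ω x y) (x y : ℤ) :
    pth ω (x, y) - pth ω (x, y - 1) = sgb (ω (Sum.inl (x, y))) :=
  (FP.isHeight_pth h x y).1

theorem hstep_h {ω : Ori (ℤ × ℤ)} (h : ∀ x y, Ice ω x y) (x y : ℤ) :
    pth ω (x - 1, y) - pth ω (x, y) = sgb (ω (Sum.inr (x, y))) :=
  (FP.isHeight_pth h x y).2

theorem sgb_not (b : Bool) : sgb (!b) = - sgb b := by cases b <;> rfl

theorem ht_sw {ω : Ori (ℤ × ℤ)} (h : ∀ x y, Ice ω x y) :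
    IsHeight (swA ω) (fun q => pth ω (-q.1, q.2)) := by
  intro x y
  constructor
  · exact hstep_v h (-x) y
  · have h1 := hstep_h h (1 - x) y
    show pth ω (-(x - 1), y) - pth ω (-x, y) = sgb (!(ω (Sum.inr (1 - x, y))))
    rw [sgb_not, ← h1, show -(x - 1) = 1 - x by ring, show 1 - x - 1 = -x by ring]
    ring

theorem pth_sw {ω : Ori (ℤ × ℤ)} (h : ∀ x y, Ice ω x y) (q : ℤ × ℤ) :
    pth (swA ω) q = pth ω (-q.1, q.2) := by
  have h2 := height_eq_pth (ht_sw h) q
  simp only [Prod.fst_zero, Prod.snd_zero, neg_zero] at h2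
  rw [← h2, show ((0 : ℤ), (0 : ℤ)) = 0 from rfl, P152.pth_zero, sub_zero]

theorem ht_ry {ω : Ori (ℤ × ℤ)} (h : ∀ x y, Ice ω x y) :
    IsHeight (ryA ω) (fun q => pth ω (q.2, q.1)) := by
  intro x y
  constructor
  · have h1 := hstep_h h y x
    show pth ω (y, x) - pth ω (y - 1, x) = sgb (!(ω (Sum.inr (y, x))))
    rw [sgb_not, ← h1]
    ring
  · have h1 := hstep_v h y x
    show pth ω (y, x - 1) - pth ω (y, x) = sgb (!(ω (Sum.inl (y, x))))
    rw [sgb_not, ← h1]
    ring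

theorem pth_ry {ω : Ori (ℤ × ℤ)} (h : ∀ x y, Ice ω x y) (q : ℤ × ℤ) :
    pth (ryA ω) q = pth ω (q.2, q.1) := by
  have h2 := height_eq_pth (ht_ry h) q
  simp only [Prod.fst_zero, Prod.snd_zero] at h2
  rw [← h2, show ((0 : ℤ), (0 : ℤ)) = 0 from rfl, P152.pth_zero, sub_zero]

theorem ht_rx {ω : Ori (ℤ × ℤ)} (h : ∀ x y, Ice ω x y) :
    IsHeight (rxA ω) (fun q => pth ω (-q.2, -q.1)) := by
  intro x y
  constructor
  · have h1 := hstep_h h (1 - y) (-x)
    show pth ω (-y, -x) - pth ω (-(y - 1), -x) = sgb (ω (Sum.inr (1 - y, -x)))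
    rw [← h1, show -(y - 1) = 1 - y by ring, show 1 - y - 1 = -y by ring]
  · have h1 := hstep_v h (-y) (1 - x)
    show pth ω (-y, -(x - 1)) - pth ω (-y, -x) = sgb (ω (Sum.inl (-y, 1 - x)))
    rw [← h1, show -(x - 1) = 1 - x by ring, show 1 - x - 1 = -x by ring]

theorem pth_rx {ω : Ori (ℤ × ℤ)} (h : ∀ x y, Ice ω x y) (q : ℤ × ℤ) :
    pth (rxA ω) q = pth ω (-q.2, -q.1) := by
  have h2 := height_eq_pth (ht_rx h) q
  simp only [Prod.fst_zero, Prod.snd_zero, neg_zero] at h2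
  rw [← h2, show ((0 : ℤ), (0 : ℤ)) = 0 from rfl, P152.pth_zero, sub_zero]

theorem ht_sz {ω : Ori (ℤ × ℤ)} (h : ∀ x y, Ice ω x y) :
    IsHeight (szA ω) (fun q => pth ω (q.1, -q.2)) := by
  intro x y
  constructor
  · have h1 := hstep_v h x (1 - y)
    show pth ω (x, -y) - pth ω (x, -(y - 1)) = sgb (!(ω (Sum.inl (x, 1 - y))))
    rw [sgb_not, ← h1, show -(y - 1) = 1 - y by ring, show 1 - y - 1 = -y by ring]
    ring
  · exact hstep_h h x (-y)

theorem ht_sh {ω : Ori (ℤ × ℤ)} (h : ∀ x y, Ice ω x y) (a b : ℤ) :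
    IsHeight (shO a b ω) (fun q => pth ω (q.1 + a, q.2 + b)) := by
  intro x y
  constructor
  · have h1 := hstep_v h (x + a) (y + b)
    show pth ω (x + a, y + b) - pth ω (x + a, y - 1 + b) = sgb (ω (Sum.inl (x + a, y + b)))
    rw [← h1, show y - 1 + b = y + b - 1 by ring]
  · have h1 := hstep_h h (x + a) (y + b)
    show pth ω (x - 1 + a, y + b) - pth ω (x + a, y + b) = sgb (ω (Sum.inr (x + a, y + b)))
    rw [← h1, show x - 1 + a = x + a - 1 by ring]

theorem pth_sh {ω : Ori (ℤ × ℤ)} (h : ∀ x y, Ice ω x y) (a b : ℤ) (q : ℤ × ℤ) :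
    pth (shO a b ω) q = pth ω (q.1 + a, q.2 + b) - pth ω (a, b) := by
  have h2 := height_eq_pth (ht_sh h a b) q
  simp only [Prod.fst_zero, Prod.snd_zero, zero_add] at h2
  rw [← h2]

/-! ### The ice rule is invariant -/

theorem ice_sh {ω : Ori (ℤ × ℤ)} (h : ∀ x y, Ice ω x y) (a b : ℤ) :
    ∀ x y, Ice (shO a b ω) x y := by
  intro x y
  have h1 := h (x + a) (y + b)
  unfold Ice at h1 ⊢
  show (ω (Sum.inl (x - 1 + a, y + b))).toNat + (ω (Sum.inr (x + a, y - 1 + b))).toNat =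
    (ω (Sum.inl (x + a, y + b))).toNat + (ω (Sum.inr (x + a, y + b))).toNat
  rw [show x - 1 + a = x + a - 1 by ring, show y - 1 + b = y + b - 1 by ring]
  exact h1

end Vale.Agent.P145.FB
end

section

/-!
# P145, block F-B: the symmetries of the Ashkin-Teller lattice preserve the law of `SP`
-/

set_option linter.unusedSimpArgs false

namespace Vale.Agent.P145.FB

open Finset Filter Topology MeasureTheory
open Vale.Agent.P152 Vale.Agent.P145.FA
open Vale.Agent.P152.GFF.B3 (shO trO reO)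

/-- Translations. -/
def psSh (a b : ℤ) : Pt ≃ Pt where
  toFun w := (w.1 + a, w.2 + b)
  invFun w := (w.1 - a, w.2 - b)
  left_inv w := by simp
  right_inv w := by simp

/-- `(x, y) ↦ (y, x)`. -/
def psRy : Pt ≃ Pt where
  toFun w := (w.2, w.1)
  invFun w := (w.2, w.1)
  left_inv w := by simp
  right_inv w := by simp

/-- `(x, y) ↦ (1 - y, 1 - x)`. -/
def psRx : Pt ≃ Pt where
  toFun w := (1 - w.2, 1 - w.1)
  invFun w := (1 - w.2, 1 - w.1)
  left_inv w := by simp
  right_inv w := by simp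

/-- `(x, y) ↦ (x, 1 - y)`. -/
def psSz : Pt ≃ Pt where
  toFun w := (w.1, 1 - w.2)
  invFun w := (w.1, 1 - w.2)
  left_inv w := by simp
  right_inv w := by simp

section

variable {P : Measure (Ori (ℤ × ℤ))}

theorem sy_sh (hP : SymM P) (a b : ℤ) : Sy P (shO (a + b) (a - b))
    (fun q => (q.1 + (a + b), q.2 + (a - b))) (psSh (a + b) (a - b))
    (fun z => (z.1 + 2 * a, z.2 + 2 * b)) where
  meas := sh_meas _ _
  inv := hP.sh _ _
  ht := fun ω h => ht_sh h _ _
  par := by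
    simp only [Int.even_iff, Prod.fst_zero, Prod.snd_zero]; omega
  ev := by
    rintro ⟨x, y⟩
    simp only [psSh, Equiv.coe_fn_mk, e1, e2, Int.even_iff]
    split_ifs <;> simp only [Prod.mk.injEq, true_and, and_true, true_or, or_true] <;> omega
  od := by
    rintro ⟨x, y⟩
    simp only [psSh, Equiv.coe_fn_mk, o1, o2, Int.even_iff]
    split_ifs <;> simp only [Prod.mk.injEq, true_and, and_true, true_or, or_true] <;> omega
  rv := by
    rintro ⟨x, y⟩ h1 h2
    simp only [Int.even_iff] at h1 h2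
    simp only [fc, Prod.mk.injEq]
    (clear * - h1 h2; omega)
  re := by
    rintro ⟨x, y⟩ h1
    simp only [Int.odd_iff] at h1
    simp only [psSh, Equiv.coe_fn_mk, vx, Prod.mk.injEq]
    omega
  p1 := by
    rintro ⟨x, y⟩
    simp only [Int.even_iff]; omega
  p2 := by
    rintro ⟨x, y⟩
    simp only [Int.odd_iff]; omega

theorem sy_ry (hP : SymM P) : Sy P ryA (fun q => (q.2, q.1)) psRy (fun z => (z.1, -z.2)) where
  meas := ryA_meas
  inv := map_ry hP
  ht := fun ω h => ht_ry h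
  par := by
    simp only [Int.even_iff, Prod.fst_zero, Prod.snd_zero]; omega
  ev := by
    rintro ⟨x, y⟩
    simp only [psRy, Equiv.coe_fn_mk, e1, e2, Int.even_iff]
    split_ifs <;> simp only [Prod.mk.injEq, true_and, and_true, true_or, or_true] <;> omega
  od := by
    rintro ⟨x, y⟩
    simp only [psRy, Equiv.coe_fn_mk, o1, o2, Int.even_iff]
    split_ifs <;> simp only [Prod.mk.injEq, true_and, and_true, true_or, or_true] <;> omega
  rv := by
    rintro ⟨x, y⟩ h1 h2
    simp only [Int.even_iff] at h1 h2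
    simp only [fc, Prod.mk.injEq]
    omega
  re := by
    rintro ⟨x, y⟩ h1
    simp only [Int.odd_iff] at h1
    simp only [psRy, Equiv.coe_fn_mk, vx, Prod.mk.injEq]
    omega
  p1 := by
    rintro ⟨x, y⟩
    simp only [Int.even_iff]; omega
  p2 := by
    rintro ⟨x, y⟩
    simp only [Int.odd_iff]; omega

theorem sy_rx (hP : SymM P) : Sy P rxA (fun q => (-q.2, -q.1)) psRx (fun z => (-z.1, z.2)) where
  meas := rxA_meas
  inv := map_rx hP
  ht := fun ω h => ht_rx h
  par := by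
    simp only [Int.even_iff, Prod.fst_zero, Prod.snd_zero]; omega
  ev := by
    rintro ⟨x, y⟩
    simp only [psRx, Equiv.coe_fn_mk, e1, e2, Int.even_iff]
    split_ifs <;> simp only [Prod.mk.injEq, true_and, and_true, true_or, or_true] <;> omega
  od := by
    rintro ⟨x, y⟩
    simp only [psRx, Equiv.coe_fn_mk, o1, o2, Int.even_iff]
    split_ifs <;> simp only [Prod.mk.injEq, true_and, and_true, true_or, or_true] <;> omega
  rv := by
    rintro ⟨x, y⟩ h1 h2
    simp only [Int.even_iff] at h1 h2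
    simp only [fc, Prod.mk.injEq]
    omega
  re := by
    rintro ⟨x, y⟩ h1
    simp only [Int.odd_iff] at h1
    simp only [psRx, Equiv.coe_fn_mk, vx, Prod.mk.injEq]
    omega
  p1 := by
    rintro ⟨x, y⟩
    simp only [Int.even_iff]; omega
  p2 := by
    rintro ⟨x, y⟩
    simp only [Int.odd_iff]; omega

theorem sy_sz (hP : SymM P) : Sy P szA (fun q => (q.1, -q.2)) psSz (fun z => (z.2, z.1)) where
  meas := szA_meas
  inv := map_sz hP
  ht := fun ω h => ht_sz h
  par := by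
    simp only [Int.even_iff, Prod.fst_zero, Prod.snd_zero]; omega
  ev := by
    rintro ⟨x, y⟩
    simp only [psSz, Equiv.coe_fn_mk, e1, e2, Int.even_iff]
    split_ifs <;> simp only [Prod.mk.injEq, true_and, and_true, true_or, or_true] <;> omega
  od := by
    rintro ⟨x, y⟩
    simp only [psSz, Equiv.coe_fn_mk, o1, o2, Int.even_iff]
    split_ifs <;> simp only [Prod.mk.injEq, true_and, and_true, true_or, or_true] <;> omega
  rv := by
    rintro ⟨x, y⟩ h1 h2
    simp only [Int.even_iff] at h1 h2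
    simp only [fc, Prod.mk.injEq]
    omega
  re := by
    rintro ⟨x, y⟩ h1
    simp only [Int.odd_iff] at h1
    simp only [psSz, Equiv.coe_fn_mk, vx, Prod.mk.injEq]
    omega
  p1 := by
    rintro ⟨x, y⟩
    simp only [Int.even_iff]; omega
  p2 := by
    rintro ⟨x, y⟩
    simp only [Int.odd_iff]; omega

variable [IsProbabilityMeasure P]

theorem SPev_shift (hP : SymM P) (hice : ∀ᵐ ω ∂P, ∀ x y, Ice ω x y) (t : ℝ) (a b : ℤ)
    {Q : Set Pt → Prop} (hQ : Loc Q) :
    (J t P).real {x | Q {z | (z.1 + 2 * a, z.2 + 2 * b) ∈ SP x}} = (J t P).real {x | Q (SP x)} :=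
  (sy_sh hP a b).main hice t hQ

theorem SPev_reflx (hP : SymM P) (hice : ∀ᵐ ω ∂P, ∀ x y, Ice ω x y) (t : ℝ)
    {Q : Set Pt → Prop} (hQ : Loc Q) :
    (J t P).real {x | Q {z | (-z.1, z.2) ∈ SP x}} = (J t P).real {x | Q (SP x)} :=
  (sy_rx hP).main hice t hQ

theorem SPev_refly (hP : SymM P) (hice : ∀ᵐ ω ∂P, ∀ x y, Ice ω x y) (t : ℝ)
    {Q : Set Pt → Prop} (hQ : Loc Q) :
    (J t P).real {x | Q {z | (z.1, -z.2) ∈ SP x}} = (J t P).real {x | Q (SP x)} :=
  (sy_ry hP).main hice t hQ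

theorem SPev_swap (hP : SymM P) (hice : ∀ᵐ ω ∂P, ∀ x y, Ice ω x y) (t : ℝ)
    {Q : Set Pt → Prop} (hQ : Loc Q) :
    (J t P).real {x | Q {z | (z.2, z.1) ∈ SP x}} = (J t P).real {x | Q (SP x)} :=
  (sy_sz hP).main hice t hQ

end

end Vale.Agent.P145.FB
end

section

/-!
P145, block F-B: moments of the smoothed heights of the vertices of the square lattice, from the
moments of the rescaled heights of the six-vertex model.
-/

namespace Vale.Agent.P145.FB.Mom

open Finset Filter Topology MeasureTheory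
open Vale.Agent.P152 (Edge Ori Ice sgb pth pth_isHeight pth_integrable sqp)
open Vale.Agent.P152.GFF.S (hcell hbox hint hint_cells cell_zero ar idx_mem ar_abs ar_measurable
  bound_of_compact)
open Vale.Agent.P145.FP

/-- Smooth functions with compact support. -/
def Sm (φ : ℝ × ℝ → ℝ) : Prop := ContDiff ℝ ((⊤ : ℕ∞) : WithTop ℕ∞) φ ∧ HasCompactSupport φ

lemma pow_add_two (a b : ℝ) (k : ℕ) :
    (a + b) ^ (2 * k) ≤ 2 ^ (2 * k) * (a ^ (2 * k) + b ^ (2 * k)) := by
  have he : Even (2 * k) := even_two_mul k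
  rw [← he.pow_abs (a + b), ← he.pow_abs a, ← he.pow_abs b]
  refine (pow_le_pow_left₀ (abs_nonneg _) (abs_add_le a b) _).trans ?_
  refine (add_pow_le (abs_nonneg a) (abs_nonneg b) (2 * k)).trans ?_
  refine mul_le_mul_of_nonneg_right ?_ (by positivity)
  exact pow_le_pow_right₀ (by norm_num) (Nat.sub_le _ _)

variable {P : Measure (Ori (ℤ × ℤ))} [IsProbabilityMeasure P]

/-- Families of random variables which are bounded and tend to zero in mean. -/
structure Neg (P : Measure (Ori (ℤ × ℤ))) (X : ℝ → Ori (ℤ × ℤ) → ℝ) : Prop where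
  meas : ∀ᶠ δ in 𝓝[>] (0 : ℝ), AEStronglyMeasurable (X δ) P
  bdd : ∃ K : ℝ, 0 ≤ K ∧ ∀ᶠ δ in 𝓝[>] (0 : ℝ), ∀ᵐ ω ∂P, |X δ ω| ≤ K
  lim : Tendsto (fun δ => ∫ ω, |X δ ω| ∂P) (𝓝[>] 0) (𝓝 0)

lemma Neg.int {X : ℝ → Ori (ℤ × ℤ) → ℝ} (h : Neg P X) :
    ∀ᶠ δ in 𝓝[>] (0 : ℝ), Integrable (X δ) P := by
  obtain ⟨K, _, hK⟩ := h.bdd
  filter_upwards [h.meas, hK] with δ h1 h2
  exact Integrable.of_bound h1 K (by simpa only [Real.norm_eq_abs] using h2)

lemma Neg.add {X Y : ℝ → Ori (ℤ × ℤ) → ℝ} (hX : Neg P X) (hY : Neg P Y) :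
    Neg P (fun δ ω => X δ ω + Y δ ω) where
  meas := by
    filter_upwards [hX.meas, hY.meas] with δ h1 h2 using h1.add h2
  bdd := by
    obtain ⟨K, hK0, hK⟩ := hX.bdd
    obtain ⟨L, hL0, hL⟩ := hY.bdd
    refine ⟨K + L, by positivity, ?_⟩
    filter_upwards [hK, hL] with δ h1 h2
    filter_upwards [h1, h2] with ω h3 h4
    exact (abs_add_le _ _).trans (add_le_add h3 h4)
  lim := by
    have h0 := hX.lim.add hY.lim
    rw [add_zero] at h0
    refine tendsto_of_tendsto_of_tendsto_of_le_of_le' tendsto_const_nhds h0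
      (Eventually.of_forall fun δ => integral_nonneg fun ω => abs_nonneg _) ?_
    filter_upwards [hX.int, hY.int] with δ h1 h2
    rw [← integral_add h1.abs h2.abs]
    exact integral_mono (h1.add h2).abs (h1.abs.add h2.abs) fun ω => abs_add_le _ _

omit [IsProbabilityMeasure P] in
lemma Neg.neg {X : ℝ → Ori (ℤ × ℤ) → ℝ} (hX : Neg P X) : Neg P (fun δ ω => - X δ ω) where
  meas := by
    filter_upwards [hX.meas] with δ h1 using h1.neg
  bdd := by simpa only [abs_neg] using hX.bdd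
  lim := by simpa only [abs_neg] using hX.lim

lemma Neg.pow {X : ℝ → Ori (ℤ × ℤ) → ℝ} (hX : Neg P X) {k : ℕ} (hk : k ≠ 0) {η : ℝ}
    (hη : 0 < η) : ∀ᶠ δ in 𝓝[>] (0 : ℝ), Integrable (fun ω => X δ ω ^ (2 * k)) P ∧
      ∫ ω, X δ ω ^ (2 * k) ∂P ≤ η := by
  obtain ⟨K, hK0, hK⟩ := hX.bdd
  have hlim := hX.lim.const_mul (K ^ (2 * k - 1))
  rw [mul_zero] at hlim
  filter_upwards [hX.meas, hX.int, hK, hlim.eventually_le_const hη] with δ h1 h2 h3 h4
  have hb : ∀ᵐ ω ∂P, X δ ω ^ (2 * k) ≤ K ^ (2 * k - 1) * |X δ ω| := by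
    filter_upwards [h3] with ω hω
    have he : Even (2 * k) := even_two_mul k
    rw [← he.pow_abs (X δ ω)]
    have e : 2 * k = (2 * k - 1) + 1 := by omega
    conv_lhs => rw [e, pow_succ]
    exact mul_le_mul_of_nonneg_right (pow_le_pow_left₀ (abs_nonneg _) hω _) (abs_nonneg _)
  have hn : ∀ ω, 0 ≤ X δ ω ^ (2 * k) := fun ω => (even_two_mul k).pow_nonneg _
  have hi : Integrable (fun ω => X δ ω ^ (2 * k)) P := by
    refine (h2.abs.const_mul (K ^ (2 * k - 1))).mono' (h1.pow _) ?_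
    filter_upwards [hb] with ω hω
    rw [Real.norm_eq_abs, abs_of_nonneg (hn ω)]
    exact hω
  refine ⟨hi, ?_⟩
  refine (integral_mono_ae hi (h2.abs.const_mul _) hb).trans ?_
  rw [integral_const_mul]
  exact h4

/-- Adding a negligible family. -/
lemma moment_add {X Y : ℝ → Ori (ℤ × ℤ) → ℝ} (hX : Neg P X)
    (hY : ∀ᶠ δ in 𝓝[>] (0 : ℝ), AEStronglyMeasurable (Y δ) P) {k : ℕ} {B : ℝ}
    (h : ∀ᶠ δ in 𝓝[>] (0 : ℝ), Integrable (fun ω => Y δ ω ^ (2 * k)) P ∧
      ∫ ω, Y δ ω ^ (2 * k) ∂P ≤ B) {η : ℝ} (hη : 0 < η) :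
    ∀ᶠ δ in 𝓝[>] (0 : ℝ), Integrable (fun ω => (Y δ ω + X δ ω) ^ (2 * k)) P ∧
      ∫ ω, (Y δ ω + X δ ω) ^ (2 * k) ∂P ≤ 2 ^ (2 * k) * (B + η) := by
  rcases Nat.eq_zero_or_pos k with rfl | hk
  · filter_upwards [h] with δ h1
    simp only [mul_zero, pow_zero, integral_const, smul_eq_mul, mul_one, one_mul] at h1 ⊢
    exact ⟨h1.1, by linarith [h1.2]⟩
  · filter_upwards [h, hX.pow hk.ne' hη, hX.meas, hY] with δ h1 h2 h3 h4
    have hn : ∀ ω, 0 ≤ (Y δ ω + X δ ω) ^ (2 * k) := fun ω => (even_two_mul k).pow_nonneg _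
    have hi : Integrable (fun ω => 2 ^ (2 * k) * (Y δ ω ^ (2 * k) + X δ ω ^ (2 * k))) P :=
      (h1.1.add h2.1).const_mul _
    have hI : Integrable (fun ω => (Y δ ω + X δ ω) ^ (2 * k)) P := by
      refine hi.mono' ((h4.add h3).pow _) (Eventually.of_forall fun ω => ?_)
      rw [Real.norm_eq_abs, abs_of_nonneg (hn ω)]
      exact pow_add_two _ _ _
    refine ⟨hI, (integral_mono hI hi fun ω => pow_add_two _ _ _).trans ?_⟩
    rw [integral_const_mul, integral_add h1.1 h2.1]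
    exact mul_le_mul_of_nonneg_left (add_le_add h1.2 h2.2) (by positivity)

/-! ### Linear functionals with small coefficients -/

lemma abs_pth_box {N : ℕ} {q : ℤ × ℤ} (hq : q ∈ hbox N) (ω : Ori (ℤ × ℤ)) :
    |(pth ω q : ℝ)| ≤ 2 * N := by
  have h1 := abs_pth_le ω q
  unfold hbox at hq
  rw [Finset.mem_product, Finset.mem_Icc, Finset.mem_Icc] at hq
  have a1 := abs_le.2 hq.1
  have a2 := abs_le.2 hq.2
  have h2 : |pth ω q| ≤ 2 * (N : ℤ) := by linarith only [h1, a1, a2]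
  exact_mod_cast h2

/-- A functional with coefficients of order `δ ^ 3` is bounded. -/
lemma small_bdd {R : ℝ} (hR : 0 < R) {δ : ℝ} (hδ : 0 < δ) (hδ1 : δ ≤ 1) {K : ℤ × ℤ → ℝ} {κ : ℝ}
    (hK : ∀ q, |K q| ≤ κ * δ ^ 3) (ω : Ori (ℤ × ℤ)) :
    |∑ q ∈ hbox (FP.NN R δ + 1), FP.ev q * ((pth ω q : ℝ) * K q)| ≤ (2 * R + 7) ^ 3 * κ := by
  have hκ : 0 ≤ κ * δ ^ 3 := (abs_nonneg _).trans (hK 0)
  have hκ0 : 0 ≤ κ := by
    by_contra h
    push Not at h
    have : κ * δ ^ 3 < 0 := mul_neg_of_neg_of_pos h (by positivity)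
    linarith
  have hY := NN_le hR hδ hδ1
  set Y : ℝ := 2 * (((FP.NN R δ) + 1 : ℕ) : ℝ) + 1 with hYd
  have hY0 : 0 < Y := by positivity
  calc |∑ q ∈ hbox (FP.NN R δ + 1), FP.ev q * ((pth ω q : ℝ) * K q)|
      ≤ ∑ q ∈ hbox (FP.NN R δ + 1), |FP.ev q * ((pth ω q : ℝ) * K q)| :=
        Finset.abs_sum_le_sum_abs _ _
    _ ≤ ∑ q ∈ hbox (FP.NN R δ + 1), Y * (κ * δ ^ 3) := by
        refine Finset.sum_le_sum fun q hq => ?_
        rw [abs_mul, abs_mul]
        have h1 := abs_pth_box hq ω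
        have h2 : |(pth ω q : ℝ)| ≤ Y := by rw [hYd]; push_cast at h1 ⊢; linarith
        calc |FP.ev q| * (|(pth ω q : ℝ)| * |K q|) ≤ 1 * (Y * (κ * δ ^ 3)) :=
              mul_le_mul (ev_abs q) (mul_le_mul h2 (hK q) (abs_nonneg _) hY0.le)
                (by (clear * -; positivity)) zero_le_one
          _ = _ := one_mul _
    _ = Y ^ 2 * (Y * (κ * δ ^ 3)) := by
        rw [Finset.sum_const, nsmul_eq_mul, hbox_card]
    _ = (δ * Y) ^ 3 * κ := by ring
    _ ≤ (2 * R + 7) ^ 3 * κ :=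
        mul_le_mul_of_nonneg_right (pow_le_pow_left₀ (by positivity) hY 3) hκ0

/-- A functional with coefficients of order `δ ^ 3` is small in mean. -/
lemma small_lim (hP : Hyp P) {R : ℝ} (hR : 0 < R) (κ : ℝ) :
    ∃ u : ℝ → ℝ, Tendsto u (𝓝[>] 0) (𝓝 0) ∧ ∀ δ : ℝ, 0 < δ → δ ≤ 1 → ∀ K : ℤ × ℤ → ℝ,
      (∀ q, |K q| ≤ κ * δ ^ 3) →
      ∫ ω, |∑ q ∈ hbox (FP.NN R δ + 1), FP.ev q * ((pth ω q : ℝ) * K q)| ∂P ≤ u δ := by
  obtain ⟨C, hC, hmom⟩ := pth_moment hP
  set A0 : ℝ := 2 * R + 7 with hA0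
  have hA0' : 7 < A0 := by linarith
  refine ⟨fun δ : ℝ => A0 ^ 2 * κ * (δ * ((1 + C + C * Real.log A0) / 2) -
      C / 2 * (Real.log δ * δ)), ?_, ?_⟩
  · have a1 : Tendsto (fun δ : ℝ => δ * ((1 + C + C * Real.log A0) / 2)) (𝓝[>] 0) (𝓝 0) := by
      have := (tendsto_id (x := 𝓝 (0 : ℝ))).mul_const ((1 + C + C * Real.log A0) / 2)
      rw [zero_mul] at this
      exact this.mono_left nhdsWithin_le_nhds
    have a2 : Tendsto (fun δ : ℝ => Real.log δ * δ) (𝓝[>] 0) (𝓝 0) := by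
      have := tendsto_log_mul_rpow_nhdsGT_zero zero_lt_one
      simpa only [Real.rpow_one] using this
    have := (a1.sub (a2.const_mul (C / 2))).const_mul (A0 ^ 2 * κ)
    simpa only [mul_zero, sub_self] using this
  · intro δ hδ hδ1 K hK
    have hκ : 0 ≤ κ * δ ^ 3 := (abs_nonneg _).trans (hK 0)
    have hκ0 : 0 ≤ κ := by
      by_contra h
      push Not at h
      have : κ * δ ^ 3 < 0 := mul_neg_of_neg_of_pos h (by positivity)
      linarith
    set N := FP.NN R δ with hN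
    have hNb := NN_le hR hδ hδ1
    rw [← hN] at hNb
    have hcard : (((hbox (N + 1)).card : ℕ) : ℝ) = (2 * ((N + 1 : ℕ) : ℝ) + 1) ^ 2 := hbox_card _
    set Y : ℝ := 2 * ((N + 1 : ℕ) : ℝ) + 1 with hY
    have hY0 : 0 < Y := by positivity
    have hlog : Real.log (2 * ((N + 1 : ℕ) : ℝ)) ≤ Real.log A0 - Real.log δ := by
      rw [← Real.log_div (by linarith only [hR]) hδ.ne']
      refine Real.log_le_log (by positivity) ?_
      rw [le_div_iff₀ hδ]
      nlinarith only [hδ, hNb]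
    have h0 : 0 ≤ Real.log (2 * ((N + 1 : ℕ) : ℝ)) := by
      refine Real.log_nonneg ?_
      have : (1 : ℝ) ≤ ((N + 1 : ℕ) : ℝ) := by push_cast; linarith only []
      linarith only [this]
    have hA := EA (P := P) (hbox (N + 1)) K (k := κ * δ ^ 3)
      (M := (1 + C * (1 + (Real.log A0 - Real.log δ))) / 2) hK
      (by
        have h2 : 0 ≤ C * (1 + (Real.log A0 - Real.log δ)) := mul_nonneg hC (by linarith only [hlog, h0])
        linarith only [h2])
      (fun q hq => by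
        refine (abs_pth_int q).trans ?_
        have h1 := hmom (N + 1) q hq (by omega)
        have h2 : C * (1 + Real.log (2 * ((N + 1 : ℕ) : ℝ))) ≤
            C * (1 + (Real.log A0 - Real.log δ)) := mul_le_mul_of_nonneg_left (by linarith only [hlog]) hC
        linarith only [h1, h2])
    refine hA.trans ?_
    rw [hcard]
    have h1 : 0 ≤ δ * ((1 + C * (1 + (Real.log A0 - Real.log δ))) / 2) := by
      refine mul_nonneg hδ.le ?_
      have h3 : 0 ≤ C * (1 + (Real.log A0 - Real.log δ)) := mul_nonneg hC (by linarith only [hlog, h0])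
      linarith only [h3]
    have h4 : (δ * Y) ^ 2 ≤ A0 ^ 2 := pow_le_pow_left₀ (by positivity) hNb 2
    calc Y ^ 2 * ((1 + C * (1 + (Real.log A0 - Real.log δ))) / 2 * (κ * δ ^ 3))
        = (δ * Y) ^ 2 * (κ * (δ * ((1 + C * (1 + (Real.log A0 - Real.log δ))) / 2))) := by
          ring
      _ ≤ A0 ^ 2 * (κ * (δ * ((1 + C * (1 + (Real.log A0 - Real.log δ))) / 2))) :=
          mul_le_mul_of_nonneg_right h4 (mul_nonneg hκ0 h1)
      _ = _ := by ring

/-! ### Constants of a test function -/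

/-- Bounds for `rot φ`. -/
lemma rot_const {φ : ℝ × ℝ → ℝ} (hφ : Sm φ) : ∃ R F L : ℝ, 0 < R ∧ 0 ≤ F ∧ 0 ≤ L ∧
    (∀ x : ℝ × ℝ, rot φ x ≠ 0 → |x.1| ≤ R ∧ |x.2| ≤ R) ∧ (∀ x, |rot φ x| ≤ F) ∧
    (∀ x y, |rot φ x - rot φ y| ≤ L * ‖x - y‖) ∧ Integrable (rot φ) ∧ Continuous (rot φ) ∧
    HasCompactSupport (rot φ) := by
  have hc : Continuous (rot φ) := (rot_smooth hφ.1).continuous
  have hs := rot_compact hφ.2
  obtain ⟨R, hR0, hR⟩ := bound_of_compact hs
  obtain ⟨F, hF⟩ := hc.bounded_above_of_compact_support hs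
  obtain ⟨L, hL⟩ := ((rot_smooth hφ.1).of_le (m := 1) (by
    exact_mod_cast le_top)).lipschitzWith_of_hasCompactSupport hs one_ne_zero
  refine ⟨R, F, L, hR0, (norm_nonneg _).trans (hF 0), L.coe_nonneg, hR, fun x => ?_, fun x y => ?_,
    hc.integrable_of_hasCompactSupport hs, hc, hs⟩
  · have := hF x
    rwa [Real.norm_eq_abs] at this
  · have := hL.dist_le_mul x y
    rwa [Real.dist_eq, dist_eq_norm] at this

/-- The field and the integral of the rescaled height differ by a negligible quantity. -/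
theorem neg_fld (hP : Hyp P) {φ : ℝ × ℝ → ℝ} (hφ : Sm φ) :
    Neg P (fun δ ω => fld (FP.Hc ω) δ φ - hint (pth ω) δ (rot φ)) := by
  obtain ⟨R, F, L, hR0, hF0, hL0, hR, hF, hL, hi, hc, hs⟩ := rot_const hφ
  have hfx : ∀ δ : ℝ, 0 < δ → ∀ ω, fld (FP.Hc ω) δ φ = xs (pth ω) δ (rot φ) (FP.NN R δ + 1) := by
    intro δ hδ ω
    have hN := NN_ge R δ
    exact fld_eq (h := pth ω) (H := FP.Hc ω) (fun v => rfl) hR hδ (N := FP.NN R δ + 1)
      (by push_cast; linarith only [hN])
  refine ⟨?_, ?_, ?_⟩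
  · filter_upwards [self_mem_nhdsWithin] with δ hδ
    have hδ0 : 0 < δ := hδ
    exact ((fld_integrable hφ.2 hδ0).sub (hint_integrable hc hs hδ0)).aestronglyMeasurable
  · refine ⟨(2 * R + 7) ^ 3 * (3 * L) + (2 * R + 7) ^ 2 * F, by (clear * - hR0 hL0 hF0; positivity), ?_⟩
    filter_upwards [self_mem_nhdsWithin, mem_nhdsWithin_of_mem_nhds (Iic_mem_nhds one_pos)]
      with δ hδ hδ1
    have hδ0 : 0 < δ := hδ
    have hδ1' : δ ≤ 1 := hδ1
    filter_upwards [hP.ice] with ω hω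
    rw [hfx δ hδ0 ω, xs_sub (pth_isHeight hω) hδ0 hi hR (NN_ge R δ)]
    have e : ∑ q ∈ hbox (FP.NN R δ + 1), FP.ev q *
        ((pth ω q : ℝ) * (2 * δ ^ 2 * rot φ (δ * q.1, δ * q.2) - cI (rot φ) δ q -
          cI (rot φ) δ (q.1, q.2 - 1)) + ar ω (Sum.inl q) * cI (rot φ) δ (q.1, q.2 - 1)) =
        (∑ q ∈ hbox (FP.NN R δ + 1), FP.ev q * ((pth ω q : ℝ) *
          (2 * δ ^ 2 * rot φ (δ * q.1, δ * q.2) - cI (rot φ) δ q -
          cI (rot φ) δ (q.1, q.2 - 1)))) +
        ∑ q ∈ hbox (FP.NN R δ + 1), FP.ev q * (ar ω (Sum.inl q) * cI (rot φ) δ (q.1, q.2 - 1)) := by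
      rw [← Finset.sum_add_distrib]
      exact Finset.sum_congr rfl fun q _ => by ring
    rw [e]
    refine (abs_add_le _ _).trans (add_le_add ?_ ?_)
    · exact small_bdd hR0 hδ0 hδ1' (κ := 3 * L)
        (K := fun q => 2 * δ ^ 2 * rot φ (δ * q.1, δ * q.2) - cI (rot φ) δ q -
          cI (rot φ) δ (q.1, q.2 - 1)) (fun q => K_abs hi hL0 hL hδ0 q) ω
    · have hY := NN_le hR0 hδ0 hδ1'
      set Y : ℝ := 2 * (((FP.NN R δ) + 1 : ℕ) : ℝ) + 1 with hYd
      have hY0 : 0 < Y := by positivity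
      calc |∑ q ∈ hbox (FP.NN R δ + 1), FP.ev q * (ar ω (Sum.inl q) * cI (rot φ) δ (q.1, q.2 - 1))|
          ≤ ∑ q ∈ hbox (FP.NN R δ + 1),
            |FP.ev q * (ar ω (Sum.inl q) * cI (rot φ) δ (q.1, q.2 - 1))| :=
            Finset.abs_sum_le_sum_abs _ _
        _ ≤ ∑ q ∈ hbox (FP.NN R δ + 1), F * δ ^ 2 := by
            refine Finset.sum_le_sum fun q _ => ?_
            rw [abs_mul, abs_mul, ar_abs, one_mul]
            calc |FP.ev q| * |cI (rot φ) δ (q.1, q.2 - 1)| ≤ 1 * (F * δ ^ 2) :=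
                  mul_le_mul (ev_abs q) (cI_abs hF hδ0 _) (abs_nonneg _) zero_le_one
              _ = _ := one_mul _
        _ = (δ * Y) ^ 2 * F := by
            rw [Finset.sum_const, nsmul_eq_mul, hbox_card]
            ring
        _ ≤ _ := mul_le_mul_of_nonneg_right (pow_le_pow_left₀ (by (clear * - hδ0; positivity)) hY 2) hF0
  · refine (xs_close hP hi hR0 hR hF hL0 hL).congr' ?_
    filter_upwards [self_mem_nhdsWithin] with δ hδ
    have hδ0 : 0 < δ := hδ
    refine integral_congr_ae (Eventually.of_forall fun ω => ?_)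
    show |xs (pth ω) δ (rot φ) (FP.NN R δ + 1) - hint (pth ω) δ (rot φ)| =
      |fld (FP.Hc ω) δ φ - hint (pth ω) δ (rot φ)|
    rw [hfx δ hδ0 ω]

/-! ### The mass -/

/-- `δ² ∑_v φ(δ v)`. -/
noncomputable def sm (δ : ℝ) (φ : ℝ × ℝ → ℝ) : ℝ := fld (fun _ => 1) δ φ

lemma sm_eq (δ : ℝ) (φ : ℝ × ℝ → ℝ) : sm δ φ = δ ^ 2 * ∑' v : ℤ × ℤ, φ (δ * v.1, δ * v.2) := by
  unfold sm fld
  simp only [one_mul]

lemma sm_rate {φ : ℝ × ℝ → ℝ} (hφ : Sm φ) : ∃ K : ℝ, 0 ≤ K ∧ ∀ δ : ℝ, 0 < δ → δ ≤ 1 →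
    |sm δ φ - ∫ x, φ x| ≤ K * δ := by
  obtain ⟨R, F, L, hR0, hF0, hL0, hR, hF, hL, hi, hc, hs⟩ := rot_const hφ
  refine ⟨2 * ((2 * R + 7) ^ 2 * (3 * L)), by (clear * - hR0 hL0; positivity), fun δ hδ hδ1 => ?_⟩
  have hNge := NN_ge R δ
  have hY := NN_le hR0 hδ hδ1
  set N := FP.NN R δ with hN
  have e1 : sm δ φ = xs (fun _ => 2) δ (rot φ) (N + 1) :=
    fld_eq (h := fun _ => 2) (H := fun _ => 1) (fun v => by norm_num) hR hδ (N := N + 1)
      (by push_cast; linarith only [hNge])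
  have e2 : ∫ x, φ x = 2 * ∫ x, rot φ x := by
    rw [int_Th (rot φ)]
    simp only [rot_Th]
    rw [integral_const_mul]
    ring
  have hN' : R / δ + 1 ≤ ((N + 1 : ℕ) : ℝ) := by push_cast; linarith only [hNge]
  have hz : ∀ v, v ∉ hbox N → cI (rot φ) δ v = 0 := fun v hv => cell_zero hδ hNge hR hv
  have h1 : ∫ x, rot φ x = ∑ q ∈ hbox (N + 1), cI (rot φ) δ q := by
    have := hint_cells (fun _ => 1) hδ hi hR hN'
    unfold hint P152.GFF.S.hd at this
    simpa only [cI, Int.cast_one, one_mul] using this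
  set g : ℤ × ℤ → ℝ := fun q => (1 - FP.ev q) * cI (rot φ) δ q with hg
  have g1 : ∑' q, g q = ∑ q ∈ hbox (N + 1), g q := by
    refine tsum_eq_sum (fun q hq => ?_)
    show (1 - FP.ev q) * cI (rot φ) δ q = 0
    rw [hz q (fun h => hq (hbox_mono h)), mul_zero]
  have g2 : ∑' q : ℤ × ℤ, g (q.1, q.2 - 1) = ∑ q ∈ hbox (N + 1), g (q.1, q.2 - 1) := by
    refine tsum_eq_sum (fun q hq => ?_)
    show (1 - FP.ev (q.1, q.2 - 1)) * cI (rot φ) δ (q.1, q.2 - 1) = 0
    rw [hz _ (fun h => hq (hbox_succ h)), mul_zero]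
  have g3 : ∑' q : ℤ × ℤ, g (q.1, q.2 - 1) = ∑' q, g q := by
    have := (Equiv.subRight ((0, 1) : ℤ × ℤ)).tsum_eq g
    rw [← this]
    refine tsum_congr (fun q => ?_)
    rw [Equiv.subRight_apply]
    congr 1
    refine Prod.ext ?_ ?_ <;> simp
  have h2 : ∫ x, rot φ x = ∑ q ∈ hbox (N + 1), FP.ev q * (cI (rot φ) δ q +
      cI (rot φ) δ (q.1, q.2 - 1)) := by
    have e3 : ∑ q ∈ hbox (N + 1), cI (rot φ) δ q =
        ∑ q ∈ hbox (N + 1), FP.ev q * cI (rot φ) δ q + ∑ q ∈ hbox (N + 1), g q := by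
      rw [← Finset.sum_add_distrib]
      refine Finset.sum_congr rfl (fun q _ => ?_)
      rw [hg]; ring
    rw [h1, e3, ← g1, ← g3, g2, ← Finset.sum_add_distrib]
    refine Finset.sum_congr rfl (fun q _ => ?_)
    show FP.ev q * cI (rot φ) δ q + (1 - FP.ev (q.1, q.2 - 1)) * cI (rot φ) δ (q.1, q.2 - 1) = _
    rw [ev_shift]
    ring
  have e4 : sm δ φ - ∫ x, φ x = 2 * ∑ q ∈ hbox (N + 1), FP.ev q *
      (2 * δ ^ 2 * rot φ (δ * q.1, δ * q.2) - cI (rot φ) δ q - cI (rot φ) δ (q.1, q.2 - 1)) := by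
    rw [e1, e2, h2]
    unfold xs
    rw [Finset.mul_sum, Finset.mul_sum, Finset.mul_sum, ← Finset.sum_sub_distrib]
    refine Finset.sum_congr rfl (fun q _ => ?_)
    push_cast
    ring
  rw [e4, abs_mul, abs_two, mul_assoc]
  refine mul_le_mul_of_nonneg_left ?_ (by norm_num)
  set Y : ℝ := 2 * ((N + 1 : ℕ) : ℝ) + 1 with hYd
  have hY0 : 0 < Y := by (clear * -; positivity)
  calc |∑ q ∈ hbox (N + 1), FP.ev q * (2 * δ ^ 2 * rot φ (δ * q.1, δ * q.2) -
        cI (rot φ) δ q - cI (rot φ) δ (q.1, q.2 - 1))|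
      ≤ ∑ q ∈ hbox (N + 1), |FP.ev q * (2 * δ ^ 2 * rot φ (δ * q.1, δ * q.2) -
        cI (rot φ) δ q - cI (rot φ) δ (q.1, q.2 - 1))| := Finset.abs_sum_le_sum_abs _ _
    _ ≤ ∑ q ∈ hbox (N + 1), 3 * L * δ ^ 3 := by
        refine Finset.sum_le_sum fun q _ => ?_
        rw [abs_mul]
        calc |FP.ev q| * |2 * δ ^ 2 * rot φ (δ * q.1, δ * q.2) - cI (rot φ) δ q -
              cI (rot φ) δ (q.1, q.2 - 1)| ≤ 1 * (3 * L * δ ^ 3) :=
              mul_le_mul (ev_abs q) (K_abs hi hL0 hL hδ q) (abs_nonneg _) zero_le_one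
          _ = _ := one_mul _
    _ = (δ * Y) ^ 2 * (3 * L) * δ := by
        rw [Finset.sum_const, nsmul_eq_mul, hbox_card]
        ring
    _ ≤ (2 * R + 7) ^ 2 * (3 * L) * δ := by
        have := pow_le_pow_left₀ (by (clear * - hδ; positivity)) hY 2
        (clear * - this hL0 hδ; gcongr)

lemma sm_tendsto {φ : ℝ × ℝ → ℝ} (hφ : Sm φ) :
    Tendsto (fun δ : ℝ => sm δ φ) (𝓝[>] 0) (𝓝 (∫ x, φ x)) := by
  obtain ⟨K, hK, h⟩ := sm_rate hφ
  rw [tendsto_iff_dist_tendsto_zero]
  have h0 : Tendsto (fun δ : ℝ => K * δ) (𝓝[>] 0) (𝓝 0) := by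
    have := (tendsto_id (x := 𝓝 (0 : ℝ))).const_mul K
    rw [mul_zero] at this
    exact this.mono_left nhdsWithin_le_nhds
  refine tendsto_of_tendsto_of_tendsto_of_le_of_le' tendsto_const_nhds h0
    (Eventually.of_forall fun δ => dist_nonneg) ?_
  filter_upwards [self_mem_nhdsWithin, mem_nhdsWithin_of_mem_nhds (Iic_mem_nhds one_pos)]
    with δ hδ hδ1
  rw [Real.dist_eq]
  exact h δ hδ hδ1

/-- The normalisation is harmless. -/
theorem neg_norm (hP : Hyp P) {φ g : ℝ × ℝ → ℝ} (hφ : Sm φ) (hg : Sm g)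
    (hI : ∫ x, φ x = ∫ x, g x) (h0 : ∫ x, g x ≠ 0) :
    Neg P (fun δ ω => (1 - sm δ φ / sm δ g) * fld (FP.Hc ω) δ g) := by
  obtain ⟨K1, hK1, h1⟩ := sm_rate hφ
  obtain ⟨K2, hK2, h2⟩ := sm_rate hg
  obtain ⟨R, F, L, hR0, hF0, hL0, hR, hF, hL, hi, hc, hs⟩ := rot_const hg
  set m : ℝ := |∫ x, g x| with hm
  have hm0 : 0 < m := abs_pos.2 h0
  -- the ratio
  have hr : ∀ᶠ δ in 𝓝[>] (0 : ℝ), |1 - sm δ φ / sm δ g| ≤ 2 * (K1 + K2) / m * δ := by
    have hlim := (sm_tendsto hg).abs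
    have hev := hlim.eventually_const_lt (show m / 2 < |∫ x, g x| by rw [← hm]; linarith only [hm0])
    filter_upwards [hev, self_mem_nhdsWithin,
      mem_nhdsWithin_of_mem_nhds (Iic_mem_nhds one_pos)] with δ h3 hδ hδ1
    have hδ0 : 0 < δ := hδ
    have h4 : sm δ g ≠ 0 := by
      intro h
      rw [h, abs_zero] at h3
      linarith
    have e : 1 - sm δ φ / sm δ g = (sm δ g - sm δ φ) / sm δ g := by
      (clear * - h4; field_simp)
    rw [e, abs_div, div_le_iff₀ (abs_pos.2 h4)]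
    have h5 : |sm δ g - sm δ φ| ≤ (K1 + K2) * δ := by
      have e2 : sm δ g - sm δ φ = (sm δ g - ∫ x, g x) - (sm δ φ - ∫ x, φ x) := by
        rw [hI]; ring
      rw [e2]
      refine (abs_sub _ _).trans ?_
      linarith only [h1 δ hδ0 hδ1, h2 δ hδ0 hδ1]
    refine h5.trans ?_
    have h6 : 2 * (K1 + K2) / m * δ * (m / 2) ≤ 2 * (K1 + K2) / m * δ * |sm δ g| :=
      mul_le_mul_of_nonneg_left h3.le (by (clear * - hK1 hK2 h0 hδ0; positivity))
    refine le_trans (le_of_eq ?_) h6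
    (clear * - hm0 hδ0; field_simp)
  set κ : ℝ := 2 * (K1 + K2) / m * (2 * F) with hκ
  have hκ0 : 0 ≤ κ := by (clear * - hK1 hK2 h0 hF0; positivity)
  obtain ⟨u, hu, hu2⟩ := small_lim hP hR0 κ
  have hform : ∀ δ : ℝ, 0 < δ → ∀ ω, (1 - sm δ φ / sm δ g) * fld (FP.Hc ω) δ g =
      ∑ q ∈ hbox (FP.NN R δ + 1), FP.ev q * ((pth ω q : ℝ) *
        ((1 - sm δ φ / sm δ g) * (2 * δ ^ 2 * rot g (δ * q.1, δ * q.2)))) := by
    intro δ hδ ω
    have hN := NN_ge R δ
    rw [fld_eq (h := pth ω) (H := FP.Hc ω) (fun v => rfl) hR hδ (N := FP.NN R δ + 1)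
      (by push_cast; linarith only [hN])]
    unfold xs
    rw [Finset.mul_sum, Finset.mul_sum]
    exact Finset.sum_congr rfl fun q _ => by ring
  have hsmall : ∀ δ : ℝ, 0 < δ → |1 - sm δ φ / sm δ g| ≤ 2 * (K1 + K2) / m * δ → ∀ q : ℤ × ℤ,
      |(1 - sm δ φ / sm δ g) * (2 * δ ^ 2 * rot g (δ * q.1, δ * q.2))| ≤ κ * δ ^ 3 := by
    intro δ hδ h3 q
    rw [abs_mul, abs_mul, abs_of_nonneg (by positivity : (0 : ℝ) ≤ 2 * δ ^ 2)]
    calc |1 - sm δ φ / sm δ g| * (2 * δ ^ 2 * |rot g (δ * q.1, δ * q.2)|)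
        ≤ (2 * (K1 + K2) / m * δ) * (2 * δ ^ 2 * F) := by
          refine mul_le_mul h3 (mul_le_mul_of_nonneg_left (hF _) (by positivity)) (by (clear * - hδ; positivity))
            (by (clear * - hK1 hK2 h0 hδ; positivity))
      _ = κ * δ ^ 3 := by rw [hκ]; ring
  refine ⟨?_, ⟨(2 * R + 7) ^ 3 * κ, by (clear * - hR0 hK1 hK2 h0 hF0; positivity), ?_⟩, ?_⟩
  · filter_upwards [self_mem_nhdsWithin] with δ hδ
    have hδ0 : 0 < δ := hδ
    exact ((fld_integrable hg.2 hδ0).const_mul _).aestronglyMeasurable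
  · filter_upwards [hr, self_mem_nhdsWithin,
      mem_nhdsWithin_of_mem_nhds (Iic_mem_nhds one_pos)] with δ h3 hδ hδ1
    refine Eventually.of_forall fun ω => ?_
    rw [hform δ hδ ω]
    exact small_bdd hR0 hδ hδ1
      (K := fun q => (1 - sm δ φ / sm δ g) * (2 * δ ^ 2 * rot g (δ * q.1, δ * q.2)))
      (hsmall δ hδ h3) ω
  · refine tendsto_of_tendsto_of_tendsto_of_le_of_le' tendsto_const_nhds hu
      (Eventually.of_forall fun δ => integral_nonneg fun ω => abs_nonneg _) ?_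
    filter_upwards [hr, self_mem_nhdsWithin,
      mem_nhdsWithin_of_mem_nhds (Iic_mem_nhds one_pos)] with δ h3 hδ hδ1
    simp only [hform δ hδ]
    exact hu2 δ hδ hδ1
      (fun q => (1 - sm δ φ / sm δ g) * (2 * δ ^ 2 * rot g (δ * q.1, δ * q.2)))
      (hsmall δ hδ h3)

/-- Moments of the neutral combination of two test functions. -/
theorem pair_moment (hP : Hyp P) {φ g : ℝ × ℝ → ℝ} (hφ : Sm φ) (hg : Sm g)
    (hI : ∫ x, φ x = ∫ x, g x) (h0 : ∫ x, g x ≠ 0) {k : ℕ} {B : ℝ}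
    (hB : ∀ᶠ δ in 𝓝[>] (0 : ℝ),
      Integrable (fun ω => hint (pth ω) δ (fun x => rot φ x - rot g x) ^ (2 * k)) P ∧
        ∫ ω, hint (pth ω) δ (fun x => rot φ x - rot g x) ^ (2 * k) ∂P ≤ B) {η : ℝ}
    (hη : 0 < η) : ∀ᶠ δ in 𝓝[>] (0 : ℝ),
      Integrable (fun ω => (fld (FP.Hc ω) δ φ - sm δ φ / sm δ g * fld (FP.Hc ω) δ g) ^ (2 * k)) P ∧
        ∫ ω, (fld (FP.Hc ω) δ φ - sm δ φ / sm δ g * fld (FP.Hc ω) δ g) ^ (2 * k) ∂P ≤
          2 ^ (2 * k) * (B + η) := by
  obtain ⟨R, F, L, hR0, hF0, hL0, hR, hF, hL, hi, hc, hs⟩ := rot_const hφ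
  obtain ⟨R', F', L', hR0', hF0', hL0', hR', hF', hL', hi', hc', hs'⟩ := rot_const hg
  have hN : Neg P (fun δ ω => (fld (FP.Hc ω) δ φ - hint (pth ω) δ (rot φ)) +
      (-(fld (FP.Hc ω) δ g - hint (pth ω) δ (rot g)) +
        (1 - sm δ φ / sm δ g) * fld (FP.Hc ω) δ g)) :=
    (neg_fld hP hφ).add ((neg_fld hP hg).neg.add (neg_norm hP hφ hg hI h0))
  have hsub : ∀ δ : ℝ, 0 < δ → ∀ ω, hint (pth ω) δ (fun x => rot φ x - rot g x) =
      hint (pth ω) δ (rot φ) - hint (pth ω) δ (rot g) := by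
    intro δ hδ ω
    have h1 := P152.GFF.S.hint_add (pth ω) hδ (F := fun x => rot φ x - rot g x) (G := rot g)
      (hc.sub hc') (hs.sub hs') hc' hs'
    simp only [sub_add_cancel] at h1
    linarith only [h1]
  have h := moment_add hN (Y := fun δ ω => hint (pth ω) δ (fun x => rot φ x - rot g x))
    (by
      filter_upwards [self_mem_nhdsWithin] with δ hδ
      exact (hint_integrable (hc.sub hc') (hs.sub hs') hδ).aestronglyMeasurable) hB hη
  filter_upwards [h, self_mem_nhdsWithin] with δ h1 hδ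
  have e : ∀ ω, hint (pth ω) δ (fun x => rot φ x - rot g x) +
      ((fld (FP.Hc ω) δ φ - hint (pth ω) δ (rot φ)) +
      (-(fld (FP.Hc ω) δ g - hint (pth ω) δ (rot g)) +
        (1 - sm δ φ / sm δ g) * fld (FP.Hc ω) δ g)) =
      fld (FP.Hc ω) δ φ - sm δ φ / sm δ g * fld (FP.Hc ω) δ g := by
    intro ω
    rw [hsub δ hδ ω]
    ring
  simpa only [e] using h1

end Vale.Agent.P145.FB.Mom
end

section

/-!
P145: the counting argument for the decay of the probability that there is no zero circuit. The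
measure of a union of `n` events at level 0 is at most of order `n ^ (3 / 4)`; the union is
decomposed according to the last event which occurs.
-/

namespace Vale.Agent.P145.X

open Finset MeasureTheory
open Vale.Agent.P152 (Ori pth)
open Vale.Agent.P145.FA (Hgt mu0)
open Vale.Agent.P145.FB

/-- Among `m` events there is one such that the measure of its part where none of the later ones
(from `g` steps later on) occurs is at most `g / m` times the measure of the union. -/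
theorem exists_last {Ω : Type*} [MeasurableSpace Ω] {μ : Measure Ω} {Z : ℕ → Set Ω}
    (hZ : ∀ k, MeasurableSet (Z k)) {g : ℕ} (hg : 0 < g) {m n : ℕ} (hm : 0 < m) (hmn : m ≤ n) :
    ∃ k < m, (m : ENNReal) * μ (Z k \ ⋃ j ∈ Set.Ico (k + g) n, Z j) ≤
      g * μ (⋃ j ∈ Set.Iio n, Z j) := by
  classical
  set A : ℕ → Set Ω := fun k => Z k \ ⋃ j ∈ Set.Ico (k + g) n, Z j with hA
  have hAm : ∀ k, MeasurableSet (A k) := fun k =>
    (hZ k).diff (MeasurableSet.biUnion (Set.to_countable _) fun j _ => hZ j)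
  -- the sum over one residue class
  have hcls : ∀ r, ∑ k ∈ (range m).filter (fun k => k % g = r), μ (A k) ≤
      μ (⋃ j ∈ Set.Iio n, Z j) := by
    intro r
    have hdis : Set.PairwiseDisjoint (↑((range m).filter (fun k => k % g = r))) A := by
      have key : ∀ i j, i < j → i % g = r → j % g = r → j < m → Disjoint (A i) (A j) := by
        intro i j hij hi hj hjm
        have hgj : i + g ≤ j := by
          have h1 := Nat.div_add_mod i g
          have h2 := Nat.div_add_mod j g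
          have h3 : i / g < j / g := by
            by_contra h
            have h4 : j / g ≤ i / g := by omega
            have h5 : g * (j / g) ≤ g * (i / g) := Nat.mul_le_mul_left g h4
            omega
          have h4 : g * (i / g + 1) ≤ g * (j / g) := Nat.mul_le_mul_left g h3
          rw [Nat.mul_add, Nat.mul_one] at h4
          omega
        rw [Set.disjoint_left]
        rintro w ⟨-, h1⟩ ⟨h2, -⟩
        exact h1 (Set.mem_biUnion (show j ∈ Set.Ico (i + g) n from ⟨hgj, by omega⟩) h2)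
      intro i hi j hj hij
      rw [Finset.mem_coe, Finset.mem_filter, Finset.mem_range] at hi hj
      rcases lt_or_gt_of_ne hij with h | h
      · exact key i j h hi.2 hj.2 hj.1
      · exact (key j i h hj.2 hi.2 hi.1).symm
    rw [← measure_biUnion_finset hdis fun k _ => hAm k]
    refine measure_mono ?_
    intro w hw
    simp only [Set.mem_iUnion, Finset.mem_filter, Finset.mem_range] at hw
    obtain ⟨k, hk, h⟩ := hw
    exact Set.mem_biUnion (show k ∈ Set.Iio n from lt_of_lt_of_le hk.1 hmn) h.1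
  have hsum : ∑ k ∈ range m, μ (A k) ≤ g * μ (⋃ j ∈ Set.Iio n, Z j) := by
    have h1 : ∑ k ∈ range m, μ (A k) =
        ∑ r ∈ range g, ∑ k ∈ (range m).filter (fun k => k % g = r), μ (A k) := by
      refine (Finset.sum_fiberwise_of_maps_to (fun k _ => ?_) _).symm
      exact Finset.mem_range.2 (Nat.mod_lt k hg)
    rw [h1]
    calc _ ≤ ∑ _r ∈ range g, μ (⋃ j ∈ Set.Iio n, Z j) := Finset.sum_le_sum fun r _ => hcls r
      _ = _ := by rw [Finset.sum_const, Finset.card_range, nsmul_eq_mul]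
  obtain ⟨k, hk, hmin⟩ := Finset.exists_min_image (range m) (fun k => μ (A k))
    ⟨0, Finset.mem_range.2 hm⟩
  refine ⟨k, Finset.mem_range.1 hk, le_trans ?_ hsum⟩
  calc (m : ENNReal) * μ (A k) = ∑ _j ∈ range m, μ (A k) := by
        rw [Finset.sum_const, Finset.card_range, nsmul_eq_mul]
    _ ≤ ∑ j ∈ range m, μ (A j) := Finset.sum_le_sum hmin

/-- The measure of a union of `n` events on which the fourth moment of `A` is at most `C n ^ 2`. -/
theorem union_le {Ω : Type*} [MeasurableSpace Ω] {μ : Measure Ω} {A : Ω → ℝ} (hA : Measurable A)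
    {Z : ℕ → Set Ω} {n : ℕ} {C : ℝ} (hC : 0 ≤ C)
    (hmom : ∀ j < n, ∫⁻ x in Z j, ENNReal.ofReal (A x ^ 4) ∂μ ≤ ENNReal.ofReal (C * n ^ 2))
    {M : ℝ} (hM : 0 < M) (hMn : (n : ℝ) ^ 3 ≤ M ^ 4)
    (hcount : μ {x | |A x| ≤ M} ≤ ENNReal.ofReal (M + 1)) :
    μ (⋃ j ∈ Set.Iio n, Z j) ≤ ENNReal.ofReal (M + 1 + C) := by
  have hM4 : 0 < M ^ 4 := by positivity
  have h1 : (⋃ j ∈ Set.Iio n, Z j) ⊆
      {x | |A x| ≤ M} ∪ ⋃ j ∈ range n, (Z j ∩ {x | ENNReal.ofReal (M ^ 4) ≤ ENNReal.ofReal (A x ^ 4)}) := by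
    intro x hx
    simp only [Set.mem_iUnion, Set.mem_Iio] at hx
    obtain ⟨j, hj, hxj⟩ := hx
    rcases le_or_gt (|A x|) M with h | h
    · exact Or.inl h
    · refine Or.inr (Set.mem_biUnion (Finset.mem_coe.2 (Finset.mem_range.2 hj)) ⟨hxj, ?_⟩)
      refine ENNReal.ofReal_le_ofReal ?_
      have h2 : A x ^ 4 = |A x| ^ 4 := (Even.pow_abs (by decide) (A x)).symm
      rw [h2]
      exact pow_le_pow_left₀ hM.le h.le 4
  have h2 : ∀ j < n, μ (Z j ∩ {x | ENNReal.ofReal (M ^ 4) ≤ ENNReal.ofReal (A x ^ 4)}) ≤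
      ENNReal.ofReal (C * n ^ 2 / M ^ 4) := by
    intro j hj
    have h3 := mul_meas_ge_le_lintegral (μ := μ.restrict (Z j))
      (f := fun x => ENNReal.ofReal (A x ^ 4)) (hA.pow_const 4).ennreal_ofReal
      (ENNReal.ofReal (M ^ 4))
    have h4 : MeasurableSet {x | ENNReal.ofReal (M ^ 4) ≤ ENNReal.ofReal (A x ^ 4)} :=
      measurableSet_le measurable_const (hA.pow_const 4).ennreal_ofReal
    rw [Measure.restrict_apply h4] at h3
    have h5 := h3.trans (hmom j hj)
    rw [Set.inter_comm, ENNReal.ofReal_div_of_pos hM4, ENNReal.le_div_iff_mul_le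
      (Or.inl (by simpa only [ne_eq, ENNReal.ofReal_eq_zero, not_le] using hM4)) (Or.inl ENNReal.ofReal_ne_top), mul_comm]
    exact h5
  calc μ (⋃ j ∈ Set.Iio n, Z j)
      ≤ μ {x | |A x| ≤ M} + μ (⋃ j ∈ range n, (Z j ∩
        {x | ENNReal.ofReal (M ^ 4) ≤ ENNReal.ofReal (A x ^ 4)})) :=
        (measure_mono h1).trans (measure_union_le _ _)
    _ ≤ ENNReal.ofReal (M + 1) + ∑ j ∈ range n, μ (Z j ∩
        {x | ENNReal.ofReal (M ^ 4) ≤ ENNReal.ofReal (A x ^ 4)}) :=
        add_le_add hcount (measure_biUnion_finset_le _ _)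
    _ ≤ ENNReal.ofReal (M + 1) + ∑ _j ∈ range n, ENNReal.ofReal (C * n ^ 2 / M ^ 4) :=
        add_le_add le_rfl (Finset.sum_le_sum fun j hj => h2 j (Finset.mem_range.1 hj))
    _ ≤ ENNReal.ofReal (M + 1) + ENNReal.ofReal C := by
        refine add_le_add le_rfl ?_
        rw [Finset.sum_const, Finset.card_range, nsmul_eq_mul, ← ENNReal.ofReal_natCast,
          ← ENNReal.ofReal_mul (Nat.cast_nonneg n)]
        refine ENNReal.ofReal_le_ofReal ?_
        have e : (n : ℝ) * (C * n ^ 2 / M ^ 4) = C * (n ^ 3 / M ^ 4) := by ring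
        rw [e]
        have h6 : (n : ℝ) ^ 3 / M ^ 4 ≤ 1 := (div_le_one hM4).2 hMn
        calc C * ((n : ℝ) ^ 3 / M ^ 4) ≤ C * 1 := mul_le_mul_of_nonneg_left h6 hC
          _ = C := mul_one C
    _ = ENNReal.ofReal (M + 1 + C) := (ENNReal.ofReal_add (by linarith) hC).symm

/-! ### The functionals of the absolute heights -/

theorem tsum_two_le {c M : ℝ} (hM : 0 ≤ M) :
    ∑' k : ℤ, (if |c + 2 * k| ≤ M then (1 : ENNReal) else 0) ≤ ENNReal.ofReal (M + 1) := by
  have hsub : ∀ k : ℤ, k ∉ Finset.Icc ⌈(-M - c) / 2⌉ ⌊(M - c) / 2⌋ →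
      (if |c + 2 * (k : ℝ)| ≤ M then (1 : ENNReal) else 0) = 0 := by
    intro k hk
    refine if_neg fun h => hk ?_
    have h1 := abs_le.1 h
    rw [Finset.mem_Icc]
    exact ⟨Int.ceil_le.2 (by linarith only [h1]), Int.le_floor.2 (by linarith [h1.2])⟩
  rw [tsum_eq_sum hsub]
  calc ∑ k ∈ Finset.Icc ⌈(-M - c) / 2⌉ ⌊(M - c) / 2⌋,
        (if |c + 2 * (k : ℝ)| ≤ M then (1 : ENNReal) else 0)
      ≤ ∑ _k ∈ Finset.Icc ⌈(-M - c) / 2⌉ ⌊(M - c) / 2⌋, (1 : ENNReal) :=
        Finset.sum_le_sum fun k _ => by split_ifs <;> simp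
    _ = ((Finset.Icc ⌈(-M - c) / 2⌉ ⌊(M - c) / 2⌋).card : ENNReal) := by simp only [sum_const, Int.card_Icc, nsmul_eq_mul, mul_one]
    _ ≤ ENNReal.ofReal (M + 1) := by
        rw [← ENNReal.ofReal_natCast]
        refine ENNReal.ofReal_le_ofReal ?_
        rw [Int.card_Icc]
        have h1 := Int.floor_le ((M - c) / 2)
        have h2 := Int.le_ceil ((-M - c) / 2)
        rcases le_or_gt 0 (⌊(M - c) / 2⌋ + 1 - ⌈(-M - c) / 2⌉) with h | h
        · have h3 : ((⌊(M - c) / 2⌋ + 1 - ⌈(-M - c) / 2⌉).toNat : ℝ) =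
              (⌊(M - c) / 2⌋ : ℝ) + 1 - ⌈(-M - c) / 2⌉ := by
            have : (((⌊(M - c) / 2⌋ + 1 - ⌈(-M - c) / 2⌉).toNat : ℤ) : ℝ) =
                ((⌊(M - c) / 2⌋ + 1 - ⌈(-M - c) / 2⌉ : ℤ) : ℝ) := by
              rw [Int.toNat_of_nonneg h]
            push_cast at this
            exact this
          rw [h3]
          linarith only [h1, h2]
        · rw [Int.toNat_of_nonpos h.le]
          simp only [Nat.cast_zero]
          linarith only [hM]

theorem ev_sh (w : (ℤ × ℤ) →₀ ℝ) (h : Hgt) (k : ℤ) :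
    FA.ev w (fun q => h q + 2 * k) = FA.ev w h + 2 * k * FA.mass w := by
  unfold FA.ev FA.mass
  rw [Finsupp.sum, Finsupp.sum, Finsupp.sum, Finset.mul_sum, ← Finset.sum_add_distrib]
  refine Finset.sum_congr rfl fun q _ => ?_
  push_cast
  ring

theorem measurable_evw (w : (ℤ × ℤ) →₀ ℝ) : Measurable fun h : Hgt => FA.ev w h := by
  unfold FA.ev Finsupp.sum
  refine Finset.measurable_sum _ fun q _ => measurable_const.mul ?_
  exact (measurable_from_top (f := fun z : ℤ => (z : ℝ))).comp (measurable_pi_apply q)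

theorem Jmu_abs_le {t : ℝ} {P : Measure (Ori (ℤ × ℤ))} [IsProbabilityMeasure P]
    {w : (ℤ × ℤ) →₀ ℝ} (hw : FA.mass w = 1) {M : ℝ} (hM : 0 ≤ M) :
    Jmu t P {x | |FA.ev w x.1| ≤ M} ≤ ENNReal.ofReal (M + 1) := by
  have hm : Measurable fun x : Hgt × Mk => |FA.ev w x.1| :=
    continuous_abs.measurable.comp ((measurable_evw w).comp measurable_fst)
  have hs : MeasurableSet {x : Hgt × Mk | |FA.ev w x.1| ≤ M} := measurableSet_le hm measurable_const
  rw [Jmu, Measure.sum_apply _ hs]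
  have h1 : ∀ k : ℤ, (JO t P).map (hk k) {x | |FA.ev w x.1| ≤ M} =
      ∫⁻ x, (if |FA.ev w (pth x.1) + 2 * k| ≤ M then 1 else 0) ∂(JO t P) := by
    intro k
    rw [Measure.map_apply (measurable_hk k) hs]
    have h2 : hk k ⁻¹' {x | |FA.ev w x.1| ≤ M} = {x | |FA.ev w (pth x.1) + 2 * k| ≤ M} := by
      ext x
      simp only [Set.mem_preimage, Set.mem_ofPred_eq, hk]
      rw [ev_sh, hw, mul_one]
    rw [h2]
    have h3 : (fun x : Ori (ℤ × ℤ) × Mk => if |FA.ev w (pth x.1) + 2 * k| ≤ M then (1 : ENNReal)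
        else 0) = {x | |FA.ev w (pth x.1) + 2 * k| ≤ M}.indicator 1 := by
      funext x
      by_cases h : |FA.ev w (pth x.1) + 2 * k| ≤ M <;> simp [Set.indicator, h]
    rw [h3, lintegral_indicator_one]
    rw [← h2]
    exact measurable_hk k hs
  simp_rw [h1]
  rw [← lintegral_tsum]
  · calc ∫⁻ x, ∑' k : ℤ, (if |FA.ev w (pth x.1) + 2 * k| ≤ M then (1 : ENNReal) else 0) ∂(JO t P)
        ≤ ∫⁻ _x, ENNReal.ofReal (M + 1) ∂(JO t P) := lintegral_mono fun x => tsum_two_le hM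
      _ = ENNReal.ofReal (M + 1) := by rw [lintegral_const, measure_univ, mul_one]
  · intro k
    have h4 : MeasurableSet {x : Ori (ℤ × ℤ) × Mk | |FA.ev w (pth x.1) + 2 * k| ≤ M} := by
      have h2 : hk k ⁻¹' {x | |FA.ev w x.1| ≤ M} = {x | |FA.ev w (pth x.1) + 2 * k| ≤ M} := by
        ext x
        simp only [Set.mem_preimage, Set.mem_ofPred_eq, hk]
        rw [ev_sh, hw, mul_one]
      rw [← h2]
      exact measurable_hk k hs
    exact (Measurable.ite h4 measurable_const measurable_const).aemeasurable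

/-- **Counting lemma.** -/
theorem count {t : ℝ} {P : Measure (Ori (ℤ × ℤ))} [IsProbabilityMeasure P]
    {w : (ℤ × ℤ) →₀ ℝ} (hw : FA.mass w = 1) {Z : ℕ → Set (Hgt × Mk)}
    (hZ : ∀ j, MeasurableSet (Z j)) {g m n : ℕ} (hg : 0 < g) (hm : 0 < m) (hmn : m ≤ n) {C : ℝ}
    (hC : 0 ≤ C) (hmom : ∀ j < n,
      ∫⁻ x in Z j, ENNReal.ofReal (FA.ev w x.1 ^ 4) ∂(Jmu t P) ≤ ENNReal.ofReal (C * n ^ 2))
    {M : ℝ} (hM : 0 < M) (hMn : (n : ℝ) ^ 3 ≤ M ^ 4) :
    ∃ k < m, (Jmu t P) (Z k \ ⋃ j ∈ Set.Ico (k + g) n, Z j) ≤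
      ENNReal.ofReal (g / m * (M + 1 + C)) := by
  obtain ⟨k, hk, h⟩ := exists_last (μ := Jmu t P) hZ hg hm hmn
  refine ⟨k, hk, ?_⟩
  have h1 := union_le (μ := Jmu t P) ((measurable_evw w).comp measurable_fst) hC hmom hM hMn
    (Jmu_abs_le hw hM.le)
  have hm' : (0 : ℝ) < m := by exact_mod_cast hm
  have h2 : ENNReal.ofReal (g / m * (M + 1 + C)) =
      ENNReal.ofReal (g * (M + 1 + C)) / (m : ENNReal) := by
    rw [← ENNReal.ofReal_natCast m, ← ENNReal.ofReal_div_of_pos hm']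
    congr 1
    ring
  rw [h2, ENNReal.le_div_iff_mul_le (Or.inl (by simpa using hm.ne'))
    (Or.inl (ENNReal.natCast_ne_top m)), mul_comm]
  refine h.trans ?_
  rw [ENNReal.ofReal_mul (Nat.cast_nonneg g), ENNReal.ofReal_natCast]
  exact mul_le_mul_right h1 _

/-- The counting lemma for `MU`, with real numbers. -/
theorem count_MU {t : ℝ} {P : Measure (Ori (ℤ × ℤ))} [IsProbabilityMeasure P]
    (hice : ∀ᵐ ω ∂P, ∀ x y, P152.Ice ω x y)
    {w : (ℤ × ℤ) →₀ ℝ} (hw : FA.mass w = 1) {Z : ℕ → Set (Hgt × Mk)}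
    (hZ : ∀ j, MeasurableSet (Z j)) {g m n : ℕ} (hg : 0 < g) (hm : 0 < m) (hmn : m ≤ n) {C : ℝ}
    (hC : 0 ≤ C) (hmi : ∀ j < n, IntegrableOn (fun x => FA.ev w x.1 ^ 4) (Z j) (MU t P))
    (hmom : ∀ j < n, ∫ x in Z j, FA.ev w x.1 ^ 4 ∂(MU t P) ≤ C * n ^ 2)
    {M : ℝ} (hM : 0 < M) (hMn : (n : ℝ) ^ 3 ≤ M ^ 4) :
    ∃ k < m, (MU t P) (Z k \ ⋃ j ∈ Set.Ico (k + g) n, Z j) ≤
        ENNReal.ofReal (g / m * (M + 1 + C)) ∧
      (MU t P).real (Z k \ ⋃ j ∈ Set.Ico (k + g) n, Z j) ≤ g / m * (M + 1 + C) := by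
  rw [MU_eq_Jmu hice] at *
  have h1 : ∀ j < n, ∫⁻ x in Z j, ENNReal.ofReal (FA.ev w x.1 ^ 4) ∂(Jmu t P) ≤
      ENNReal.ofReal (C * n ^ 2) := by
    intro j hj
    rw [← ofReal_integral_eq_lintegral_ofReal (hmi j hj)
      (Filter.Eventually.of_forall fun x => by positivity)]
    exact ENNReal.ofReal_le_ofReal (hmom j hj)
  obtain ⟨k, hk, h⟩ := count (t := t) (P := P) hw hZ hg hm hmn hC h1 hM hMn
  refine ⟨k, hk, h, ?_⟩
  exact ENNReal.toReal_le_of_le_ofReal (by positivity) h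

end Vale.Agent.P145.X
end

section

/-!
P145, X-level: the flow between the averages over boxes of different scales, and its energy, which
grows linearly with the number of the scales.
-/

namespace Vale.Agent.P145.X.Flow

open Finset

/-- Tail of the uniform law on `{0, …, R - 1}`. -/
noncomputable def cc (R z : ℕ) : ℝ := ((R - 1 - z : ℕ) : ℝ) / R

theorem cc_nonneg (R z : ℕ) : 0 ≤ cc R z := by unfold cc; positivity

theorem cc_zero {R z : ℕ} (h : R ≤ z + 1) : cc R z = 0 := by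
  unfold cc
  have : R - 1 - z = 0 := by omega
  rw [this]; simp

theorem cc_eq {R z : ℕ} (h : z + 1 ≤ R) : cc R z = 1 - (z + 1) / R := by
  unfold cc
  have hR : (0 : ℝ) < R := by exact_mod_cast (by omega : 0 < R)
  have h1 : ((R - 1 - z : ℕ) : ℝ) = R - 1 - z := by
    rw [Nat.cast_sub (by omega), Nat.cast_sub (by omega)]; simp
  rw [h1, eq_sub_iff_add_eq, ← add_div, div_eq_one_iff_eq hR.ne']
  ring

theorem cc_le_one (R z : ℕ) : cc R z ≤ 1 := by
  rcases le_or_gt (z + 1) R with h | h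
  · rw [cc_eq h]
    have : (0 : ℝ) ≤ (z + 1) / R := by positivity
    linarith only [this]
  · rw [cc_zero h.le]; norm_num

theorem cc_mono {r R : ℕ} (h : r ≤ R) (z : ℕ) : cc r z ≤ cc R z := by
  rcases le_or_gt r (z + 1) with h1 | h1
  · rw [cc_zero h1]; exact cc_nonneg R z
  · rw [cc_eq (by omega), cc_eq (by omega)]
    have hr : (0 : ℝ) < r := by exact_mod_cast (by omega : 0 < r)
    have hR : (r : ℝ) ≤ R := by exact_mod_cast h
    have : ((z : ℝ) + 1) / R ≤ (z + 1) / r :=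
      div_le_div_of_nonneg_left (by positivity) hr hR
    linarith only [this]

theorem tele (f : ℕ → ℝ) (R : ℕ) : ∑ x ∈ range R, f x =
    R * f 0 + ∑ z ∈ range R, ((R - 1 - z : ℕ) : ℝ) * (f (z + 1) - f z) := by
  induction R with
  | zero => simp
  | succ R ih =>
    have h1 : ∑ z ∈ range (R + 1), ((R + 1 - 1 - z : ℕ) : ℝ) * (f (z + 1) - f z) =
        ∑ z ∈ range R, ((R - 1 - z : ℕ) : ℝ) * (f (z + 1) - f z) + (f R - f 0) := by
      rw [sum_range_succ, ← Finset.sum_range_sub f R, ← sum_add_distrib]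
      have : R + 1 - 1 - R = 0 := by omega
      rw [this, Nat.cast_zero, zero_mul, add_zero]
      refine sum_congr rfl fun z hz => ?_
      have hz' := mem_range.1 hz
      have : R + 1 - 1 - z = (R - 1 - z) + 1 := by omega
      rw [this]; push_cast; ring
    rw [sum_range_succ, ih, h1]
    push_cast; ring

theorem avg_eq (f : ℕ → ℝ) {R M : ℕ} (hR : 0 < R) (hM : R ≤ M) :
    (∑ x ∈ range R, f x) / R = f 0 + ∑ z ∈ range M, cc R z * (f (z + 1) - f z) := by
  have hR' : (0 : ℝ) < R := by exact_mod_cast hR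
  have h1 : ∑ z ∈ range M, cc R z * (f (z + 1) - f z) =
      ∑ z ∈ range R, cc R z * (f (z + 1) - f z) := by
    symm
    refine sum_subset (range_mono hM) fun z _ hz => ?_
    rw [mem_range, not_lt] at hz
    rw [cc_zero (by omega), zero_mul]
  rw [h1, tele, add_div, mul_div_cancel_left₀ _ hR'.ne', sum_div]
  congr 1
  refine sum_congr rfl fun z _ => ?_
  unfold cc; ring

theorem avg_sub (f : ℕ → ℝ) {r R M : ℕ} (hr : 0 < r) (hR : r ≤ R) (hM : R ≤ M) :
    (∑ x ∈ range R, f x) / R - (∑ x ∈ range r, f x) / r =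
      ∑ z ∈ range M, (cc R z - cc r z) * (f (z + 1) - f z) := by
  rw [avg_eq f (hr.trans_le hR) hM, avg_eq f hr (hR.trans hM), add_sub_add_left_eq_sub,
    ← sum_sub_distrib]
  exact sum_congr rfl fun z _ => by ring

/-- The average over the box `[0, R)²`. -/
noncomputable def AA (R : ℕ) (H : ℕ → ℕ → ℝ) : ℝ := (∑ x ∈ range R, (∑ y ∈ range R, H x y) / R) / R

/-- The horizontal flow from the box of side `r` to the box of side `R`. -/
noncomputable def g1 (r R : ℕ) (p : ℕ × ℕ) : ℝ :=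
  (cc R p.1 - cc r p.1) * if p.2 < r then 1 / (r : ℝ) else 0

/-- The vertical flow. -/
noncomputable def g2 (r R : ℕ) (p : ℕ × ℕ) : ℝ :=
  (cc R p.2 - cc r p.2) * if p.1 < R then 1 / (R : ℝ) else 0

theorem sum_ite_lt {r M : ℕ} (h : r ≤ M) (f : ℕ → ℝ) :
    ∑ y ∈ range M, (if y < r then f y else 0) = ∑ y ∈ range r, f y := by
  rw [← sum_filter]
  congr 1
  ext y; simp only [mem_filter, mem_range]; omega

/-- The flows. -/
noncomputable def F1 (M : ℕ) (g : ℕ × ℕ → ℝ) (H : ℕ → ℕ → ℝ) : ℝ :=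
  ∑ p ∈ range M ×ˢ range M, g p * (H (p.1 + 1) p.2 - H p.1 p.2)

noncomputable def F2 (M : ℕ) (g : ℕ × ℕ → ℝ) (H : ℕ → ℕ → ℝ) : ℝ :=
  ∑ p ∈ range M ×ˢ range M, g p * (H p.1 (p.2 + 1) - H p.1 p.2)

theorem AA_sub (H : ℕ → ℕ → ℝ) {r R M : ℕ} (hr : 0 < r) (hR : r ≤ R) (hM : R ≤ M) :
    AA R H - AA r H = F1 M (g1 r R) H + F2 M (g2 r R) H := by
  have hr' : (0 : ℝ) < r := by exact_mod_cast hr
  have hR' : (0 : ℝ) < R := by exact_mod_cast hr.trans_le hR
  set Mid : ℝ := (∑ x ∈ range R, (∑ y ∈ range r, H x y) / r) / R with hMid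
  have h2 : AA R H - Mid = F2 M (g2 r R) H := by
    unfold AA F2
    rw [hMid, ← sub_div, ← sum_sub_distrib]
    have : ∀ x, (∑ y ∈ range R, H x y) / R - (∑ y ∈ range r, H x y) / r =
        ∑ z ∈ range M, (cc R z - cc r z) * (H x (z + 1) - H x z) := fun x =>
      avg_sub (H x) hr hR hM
    simp_rw [this]
    rw [sum_product, ← sum_ite_lt hM, sum_div]
    refine sum_congr rfl fun x _ => ?_
    split_ifs with hx
    · rw [sum_div]
      refine sum_congr rfl fun z _ => ?_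
      unfold g2
      rw [if_pos hx]; ring
    · rw [zero_div]
      symm
      refine sum_eq_zero fun z _ => ?_
      unfold g2
      rw [if_neg hx]; ring
  have h1 : Mid - AA r H = F1 M (g1 r R) H := by
    have e1 : Mid = (∑ y ∈ range r, (∑ x ∈ range R, H x y) / R) / r := by
      rw [hMid, ← sum_div, ← sum_div, sum_comm]
      rw [div_div, div_div, mul_comm]
    have e2 : AA r H = (∑ y ∈ range r, (∑ x ∈ range r, H x y) / r) / r := by
      unfold AA
      rw [← sum_div, ← sum_div, sum_comm]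
    rw [e1, e2, ← sub_div, ← sum_sub_distrib]
    have : ∀ y, (∑ x ∈ range R, H x y) / R - (∑ x ∈ range r, H x y) / r =
        ∑ z ∈ range M, (cc R z - cc r z) * (H (z + 1) y - H z y) := fun y =>
      avg_sub (fun x => H x y) hr hR hM
    simp_rw [this]
    unfold F1
    rw [sum_product_right, ← sum_ite_lt (hR.trans hM), sum_div]
    refine sum_congr rfl fun y _ => ?_
    split_ifs with hy
    · rw [sum_div]
      refine sum_congr rfl fun z _ => ?_
      unfold g1
      rw [if_pos hy]; ring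
    · rw [zero_div]
      symm
      refine sum_eq_zero fun z _ => ?_
      unfold g1
      rw [if_neg hy]; ring
  rw [← h1, ← h2]; ring

theorem g1_nonneg {r R : ℕ} (h : r ≤ R) (p : ℕ × ℕ) : 0 ≤ g1 r R p := by
  unfold g1
  have := cc_mono h p.1
  refine mul_nonneg (by linarith) ?_
  split_ifs <;> positivity

theorem g2_nonneg {r R : ℕ} (h : r ≤ R) (p : ℕ × ℕ) : 0 ≤ g2 r R p := by
  unfold g2
  have := cc_mono h p.2
  refine mul_nonneg (by linarith) ?_
  split_ifs <;> positivity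

theorem cdiff_le (r R z : ℕ) : cc R z - cc r z ≤ if z < R then 1 else 0 := by
  have h1 := cc_nonneg r z
  split_ifs with h
  · have := cc_le_one R z; linarith only [h1, this]
  · rw [cc_zero (by omega)]; linarith only [h1]

theorem g1_le {r R : ℕ} (p : ℕ × ℕ) :
    g1 r R p ≤ (if p.1 < R then 1 else 0) * if p.2 < r then 1 / (r : ℝ) else 0 := by
  unfold g1
  refine mul_le_mul_of_nonneg_right (cdiff_le r R p.1) ?_
  split_ifs <;> positivity

theorem g2_le {r R : ℕ} (p : ℕ × ℕ) :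
    g2 r R p ≤ (if p.2 < R then 1 else 0) * if p.1 < R then 1 / (R : ℝ) else 0 := by
  unfold g2
  refine mul_le_mul_of_nonneg_right (cdiff_le r R p.2) ?_
  split_ifs <;> positivity

theorem g1_le' {r R : ℕ} (p : ℕ × ℕ) : g1 r R p ≤ 1 / r := by
  refine (g1_le p).trans ?_
  have : (0 : ℝ) ≤ 1 / r := by positivity
  split_ifs <;> simp only [one_mul, zero_mul, mul_zero, le_refl] <;> exact this

theorem g2_le' {r R : ℕ} (hr : 0 < r) (h : r ≤ R) (p : ℕ × ℕ) : g2 r R p ≤ 1 / r := by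
  refine (g2_le p).trans ?_
  have hr' : (0 : ℝ) < r := by exact_mod_cast hr
  have hR' : (r : ℝ) ≤ R := by exact_mod_cast h
  have h0 : (0 : ℝ) ≤ 1 / r := by positivity
  have h1 : (1 : ℝ) / R ≤ 1 / r := one_div_le_one_div_of_le hr' hR'
  split_ifs <;> simp only [one_mul, zero_mul, mul_zero] <;> first | exact h1 | exact h0

theorem sum_ind {R M : ℕ} (h : R ≤ M) (a : ℝ) :
    ∑ z ∈ range M, (if z < R then a else 0) = R * a := by
  rw [sum_ite_lt h (fun _ => a)]
  simp

theorem g1_sum {r R M : ℕ} (hr : 0 < r) (h : r ≤ R) (hM : R ≤ M) :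
    ∑ p ∈ range M ×ˢ range M, g1 r R p ≤ R := by
  have hr' : (0 : ℝ) < r := by exact_mod_cast hr
  calc ∑ p ∈ range M ×ˢ range M, g1 r R p
      ≤ ∑ p ∈ range M ×ˢ range M,
        ((if p.1 < R then (1 : ℝ) else 0) * if p.2 < r then 1 / (r : ℝ) else 0) :=
        sum_le_sum fun p _ => g1_le p
    _ = (∑ z ∈ range M, (if z < R then (1 : ℝ) else 0)) *
        ∑ y ∈ range M, (if y < r then 1 / (r : ℝ) else 0) := by
        rw [sum_product, sum_mul_sum]
    _ = R := by
        rw [sum_ind hM, sum_ind (h.trans hM)]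
        field_simp

theorem g2_sum {r R M : ℕ} (hr : 0 < r) (h : r ≤ R) (hM : R ≤ M) :
    ∑ p ∈ range M ×ˢ range M, g2 r R p ≤ R := by
  have hR' : (0 : ℝ) < R := by exact_mod_cast hr.trans_le h
  calc ∑ p ∈ range M ×ˢ range M, g2 r R p
      ≤ ∑ p ∈ range M ×ˢ range M,
        ((if p.2 < R then (1 : ℝ) else 0) * if p.1 < R then 1 / (R : ℝ) else 0) :=
        sum_le_sum fun p _ => g2_le p
    _ = (∑ z ∈ range M, (if z < R then (1 : ℝ) else 0)) *
        ∑ y ∈ range M, (if y < R then 1 / (R : ℝ) else 0) := by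
        rw [sum_product_right, sum_mul_sum]
    _ = R := by
        rw [sum_ind hM, sum_ind hM]
        field_simp

/-- Energy of a multi-scale flow. -/
theorem energy_le {ι : Type*} (B : Finset ι) (g : ℕ → ι → ℝ) (a m : ℕ → ℝ) {K : ℝ}
    (hg0 : ∀ i p, 0 ≤ g i p) (hga : ∀ i p, g i p ≤ a i) (ha : ∀ i, 0 ≤ a i)
    (hm : ∀ i, ∑ p ∈ B, g i p ≤ m i) (hK : ∀ i, a i * (2 * ∑ k ∈ range i, m k + m i) ≤ K)
    (j : ℕ) : ∑ p ∈ B, (∑ i ∈ range j, g i p) ^ 2 ≤ K * j := by
  induction j with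
  | zero => simp
  | succ j ih =>
    have h1 : ∀ p, (∑ i ∈ range (j + 1), g i p) ^ 2 = (∑ i ∈ range j, g i p) ^ 2 +
        (2 * ((∑ i ∈ range j, g i p) * g j p) + g j p * g j p) := by
      intro p; rw [sum_range_succ]; ring
    simp_rw [h1]
    rw [sum_add_distrib, sum_add_distrib, ← mul_sum]
    have h2 : ∑ p ∈ B, (∑ i ∈ range j, g i p) * g j p ≤ a j * ∑ k ∈ range j, m k := by
      calc ∑ p ∈ B, (∑ i ∈ range j, g i p) * g j p
          ≤ ∑ p ∈ B, (∑ i ∈ range j, g i p) * a j := sum_le_sum fun p _ =>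
            mul_le_mul_of_nonneg_left (hga j p) (sum_nonneg fun i _ => hg0 i p)
        _ = a j * ∑ i ∈ range j, ∑ p ∈ B, g i p := by
            rw [← sum_mul, sum_comm]; ring
        _ ≤ a j * ∑ k ∈ range j, m k :=
            mul_le_mul_of_nonneg_left (sum_le_sum fun i _ => hm i) (ha j)
    have h3 : ∑ p ∈ B, g j p * g j p ≤ a j * m j := by
      calc ∑ p ∈ B, g j p * g j p ≤ ∑ p ∈ B, a j * g j p := sum_le_sum fun p _ =>
            mul_le_mul_of_nonneg_right (hga j p) (hg0 j p)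
        _ = a j * ∑ p ∈ B, g j p := by rw [mul_sum]
        _ ≤ a j * m j := mul_le_mul_of_nonneg_left (hm j) (ha j)
    have h4 := hK j
    push_cast
    linarith

/-- The scales. -/
def Rs (s i : ℕ) : ℕ := 4 ^ i * s

theorem Rs_pos {s : ℕ} (hs : 0 < s) (i : ℕ) : 0 < Rs s i := by unfold Rs; positivity

theorem le_Rs (s i : ℕ) : s ≤ Rs s i := Nat.le_mul_of_pos_left s (by positivity)

theorem Rs_succ (s i : ℕ) : Rs s (i + 1) = 4 * Rs s i := by unfold Rs; ring

theorem Rs_mono {s i j : ℕ} (h : i ≤ j) : Rs s i ≤ Rs s j :=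
  Nat.mul_le_mul_right _ (Nat.pow_le_pow_right (by norm_num) h)

theorem Rs_le_succ (s i : ℕ) : Rs s i ≤ Rs s (i + 1) := Rs_mono (Nat.le_succ i)

theorem sum_Rs (s j : ℕ) : 3 * ∑ k ∈ range j, (Rs s k : ℝ) ≤ Rs s j := by
  induction j with
  | zero => simp
  | succ j ih =>
    rw [sum_range_succ, Rs_succ]
    push_cast
    linarith only [ih]

theorem sum_inv_Rs {s : ℕ} (hs : 0 < s) (j : ℕ) :
    ∑ k ∈ range j, 1 / (Rs s k : ℝ) ≤ 2 / s - 2 / Rs s j := by
  induction j with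
  | zero => simp only [range_zero, Rs, Nat.cast_mul, Nat.cast_pow, Nat.cast_ofNat, one_div, mul_inv_rev, sum_empty, pow_zero, one_mul, sub_self, Std.le_refl]
  | succ j ih =>
    rw [sum_range_succ, Rs_succ]
    have hR : (0 : ℝ) < Rs s j := by exact_mod_cast Rs_pos hs j
    have h2 : (2 : ℝ) / ((4 * Rs s j : ℕ) : ℝ) = (1 / 2) * (1 / Rs s j) := by
      push_cast; field_simp; norm_num
    have h3 : (2 : ℝ) / Rs s j = 2 * (1 / Rs s j) := by ring
    have h4 : (0 : ℝ) < 1 / Rs s j := by positivity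
    rw [h2]
    rw [h3] at ih
    linarith only [ih, h4]

/-- The total flows over `j` scales. -/
noncomputable def G1 (s j : ℕ) (p : ℕ × ℕ) : ℝ := ∑ i ∈ range j, g1 (Rs s i) (Rs s (i + 1)) p

noncomputable def G2 (s j : ℕ) (p : ℕ × ℕ) : ℝ := ∑ i ∈ range j, g2 (Rs s i) (Rs s (i + 1)) p

theorem F1_sum (M : ℕ) (g : ℕ → ℕ × ℕ → ℝ) (H : ℕ → ℕ → ℝ) (j : ℕ) :
    ∑ i ∈ range j, F1 M (g i) H = F1 M (fun p => ∑ i ∈ range j, g i p) H := by
  unfold F1
  rw [sum_comm]
  exact sum_congr rfl fun p _ => by rw [sum_mul]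

theorem F2_sum (M : ℕ) (g : ℕ → ℕ × ℕ → ℝ) (H : ℕ → ℕ → ℝ) (j : ℕ) :
    ∑ i ∈ range j, F2 M (g i) H = F2 M (fun p => ∑ i ∈ range j, g i p) H := by
  unfold F2
  rw [sum_comm]
  exact sum_congr rfl fun p _ => by rw [sum_mul]

theorem AA_tot (H : ℕ → ℕ → ℝ) {s j M : ℕ} (hs : 0 < s) (hM : Rs s j ≤ M) :
    AA (Rs s j) H - AA s H = F1 M (G1 s j) H + F2 M (G2 s j) H := by
  have h1 : AA (Rs s j) H - AA (Rs s 0) H =
      ∑ i ∈ range j, (AA (Rs s (i + 1)) H - AA (Rs s i) H) :=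
    (Finset.sum_range_sub (fun i => AA (Rs s i) H) j).symm
  have h0 : Rs s 0 = s := by simp [Rs]
  rw [h0] at h1
  rw [h1]
  have h2 : ∀ i ∈ range j, AA (Rs s (i + 1)) H - AA (Rs s i) H =
      F1 M (g1 (Rs s i) (Rs s (i + 1))) H + F2 M (g2 (Rs s i) (Rs s (i + 1))) H := fun i hi =>
    AA_sub H (Rs_pos hs i) (Rs_le_succ s i) ((Rs_mono (by
      have := mem_range.1 hi; omega)).trans hM)
  rw [sum_congr rfl h2, sum_add_distrib, F1_sum, F2_sum]
  rfl

theorem G1_nonneg (s j : ℕ) (p : ℕ × ℕ) : 0 ≤ G1 s j p :=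
  sum_nonneg fun i _ => g1_nonneg (Rs_le_succ s i) p

theorem G2_nonneg (s j : ℕ) (p : ℕ × ℕ) : 0 ≤ G2 s j p :=
  sum_nonneg fun i _ => g2_nonneg (Rs_le_succ s i) p

theorem G1_le {s : ℕ} (hs : 0 < s) (j : ℕ) (p : ℕ × ℕ) : G1 s j p ≤ 2 / s := by
  have h1 : G1 s j p ≤ ∑ k ∈ range j, 1 / (Rs s k : ℝ) :=
    sum_le_sum fun i _ => g1_le' p
  have h2 := sum_inv_Rs hs j
  have h3 : (0 : ℝ) ≤ 2 / Rs s j := by positivity
  linarith only [h1, h2, h3]

theorem G2_le {s : ℕ} (hs : 0 < s) (j : ℕ) (p : ℕ × ℕ) : G2 s j p ≤ 2 / s := by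
  have h1 : G2 s j p ≤ ∑ k ∈ range j, 1 / (Rs s k : ℝ) :=
    sum_le_sum fun i _ => g2_le' (Rs_pos hs i) (Rs_le_succ s i) p
  have h2 := sum_inv_Rs hs j
  have h3 : (0 : ℝ) ≤ 2 / Rs s j := by positivity
  linarith only [h1, h2, h3]

theorem en_aux {s : ℕ} (hs : 0 < s) (i : ℕ) :
    1 / (Rs s i : ℝ) * (2 * ∑ k ∈ range i, (Rs s (k + 1) : ℝ) + Rs s (i + 1)) ≤ 7 := by
  have hR : (0 : ℝ) < Rs s i := by exact_mod_cast Rs_pos hs i
  have h1 : ∑ k ∈ range i, (Rs s (k + 1) : ℝ) = 4 * ∑ k ∈ range i, (Rs s k : ℝ) := by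
    rw [mul_sum]
    exact sum_congr rfl fun k _ => by rw [Rs_succ]; push_cast; ring
  have h2 := sum_Rs s i
  rw [h1, Rs_succ, one_div, inv_mul_le_iff₀ hR]
  push_cast
  linarith only [h2]

theorem G1_sq {s : ℕ} (hs : 0 < s) (j M : ℕ) (hM : Rs s j ≤ M) :
    ∑ p ∈ range M ×ˢ range M, G1 s j p ^ 2 ≤ 7 * j := by
  -- only the scales below `j` matter
  have key := energy_le (range M ×ˢ range M)
    (fun i p => if i < j then g1 (Rs s i) (Rs s (i + 1)) p else 0)
    (fun i => 1 / (Rs s i : ℝ)) (fun i => (Rs s (i + 1) : ℝ)) (K := 7)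
    (fun i p => by
      split_ifs
      · exact g1_nonneg (Rs_le_succ s i) p
      · exact le_rfl)
    (fun i p => by
      split_ifs
      · exact g1_le' p
      · positivity)
    (fun i => by positivity)
    (fun i => by
      split_ifs with h
      · exact g1_sum (Rs_pos hs i) (Rs_le_succ s i) ((Rs_mono (by omega)).trans hM)
      · rw [sum_const_zero]; positivity)
    (fun i => en_aux hs i) j
  refine le_trans (le_of_eq (sum_congr rfl fun p _ => ?_)) key
  unfold G1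
  congr 1
  exact sum_congr rfl fun i hi => by rw [if_pos (mem_range.1 hi)]

theorem G2_sq {s : ℕ} (hs : 0 < s) (j M : ℕ) (hM : Rs s j ≤ M) :
    ∑ p ∈ range M ×ˢ range M, G2 s j p ^ 2 ≤ 7 * j := by
  have key := energy_le (range M ×ˢ range M)
    (fun i p => if i < j then g2 (Rs s i) (Rs s (i + 1)) p else 0)
    (fun i => 1 / (Rs s i : ℝ)) (fun i => (Rs s (i + 1) : ℝ)) (K := 7)
    (fun i p => by
      split_ifs
      · exact g2_nonneg (Rs_le_succ s i) p
      · exact le_rfl)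
    (fun i p => by
      split_ifs
      · exact g2_le' (Rs_pos hs i) (Rs_le_succ s i) p
      · positivity)
    (fun i => by positivity)
    (fun i => by
      split_ifs with h
      · exact g2_sum (Rs_pos hs i) (Rs_le_succ s i) ((Rs_mono (by omega)).trans hM)
      · rw [sum_const_zero]; positivity)
    (fun i => en_aux hs i) j
  refine le_trans (le_of_eq (sum_congr rfl fun p _ => ?_)) key
  unfold G2
  congr 1
  exact sum_congr rfl fun i hi => by rw [if_pos (mem_range.1 hi)]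

/-! ### The shift -/

/-- The average over the box `[L, L + R) × [0, R)`. -/
noncomputable def AS (L R : ℕ) (H : ℕ → ℕ → ℝ) : ℝ := AA R (fun x y => H (L + x) y)

/-- The flow of the shift by `L` of the box of side `R`. -/
noncomputable def g3 (L R : ℕ) (p : ℕ × ℕ) : ℝ :=
  ((if p.1 < L then 1 else cc R (p.1 - L)) - cc R p.1) * if p.2 < R then 1 / (R : ℝ) else 0

theorem shift_avg (f : ℕ → ℝ) {L R M : ℕ} (hR : 0 < R) (hM : L + R ≤ M) :
    (∑ x ∈ range R, f (L + x)) / R - (∑ x ∈ range R, f x) / R =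
      ∑ z ∈ range M, ((if z < L then 1 else cc R (z - L)) - cc R z) * (f (z + 1) - f z) := by
  have h1 := avg_eq (fun x => f (L + x)) hR (le_refl R)
  have h2 := avg_eq f hR (show R ≤ M by omega)
  have h3 : ∑ z ∈ range M, (if z < L then 1 else cc R (z - L)) * (f (z + 1) - f z) =
      ∑ z ∈ range (L + R), (if z < L then 1 else cc R (z - L)) * (f (z + 1) - f z) := by
    symm
    refine sum_subset (range_mono hM) fun z _ hz => ?_
    rw [mem_range, not_lt] at hz
    rw [if_neg (by omega), cc_zero (by omega), zero_mul]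
  have h4 : ∑ z ∈ range (L + R), (if z < L then 1 else cc R (z - L)) * (f (z + 1) - f z) =
      (f L - f 0) + ∑ z ∈ range R, cc R z * (f (L + (z + 1)) - f (L + z)) := by
    rw [sum_range_add]
    congr 1
    · rw [← Finset.sum_range_sub f L]
      exact sum_congr rfl fun z hz => by rw [if_pos (mem_range.1 hz), one_mul]
    · refine sum_congr rfl fun z _ => ?_
      rw [if_neg (by omega), Nat.add_sub_cancel_left, add_assoc]
  simp_rw [sub_mul]
  rw [sum_sub_distrib, h3, h4, h1, h2, add_zero]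
  ring

theorem AS_sub (H : ℕ → ℕ → ℝ) {L R M : ℕ} (hR : 0 < R) (hM : L + R ≤ M) :
    AS L R H - AA R H = F1 M (g3 L R) H := by
  have e : ∀ H : ℕ → ℕ → ℝ, AA R H = (∑ y ∈ range R, (∑ x ∈ range R, H x y) / R) / R := by
    intro H
    unfold AA
    rw [← sum_div, ← sum_div, sum_comm]
  unfold AS
  rw [e, e, ← sub_div, ← sum_sub_distrib]
  have : ∀ y, (∑ x ∈ range R, H (L + x) y) / R - (∑ x ∈ range R, H x y) / R =
      ∑ z ∈ range M, ((if z < L then 1 else cc R (z - L)) - cc R z) * (H (z + 1) y - H z y) :=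
    fun y => shift_avg (fun x => H x y) hR hM
  simp_rw [this]
  unfold F1
  rw [sum_product_right, ← sum_ite_lt (show R ≤ M by omega), sum_div]
  refine sum_congr rfl fun y _ => ?_
  split_ifs with hy
  · rw [sum_div]
    refine sum_congr rfl fun z _ => ?_
    unfold g3
    rw [if_pos hy]; ring
  · rw [zero_div]
    symm
    refine sum_eq_zero fun z _ => ?_
    unfold g3
    rw [if_neg hy]; ring

theorem g3_nonneg {L R : ℕ} (h : R ≤ L) (p : ℕ × ℕ) : 0 ≤ g3 L R p := by
  unfold g3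
  refine mul_nonneg ?_ (by split_ifs <;> positivity)
  split_ifs with h1
  · have := cc_le_one R p.1; linarith only [this]
  · have := cc_nonneg R (p.1 - L)
    rw [cc_zero (R := R) (z := p.1) (by omega)]; linarith only [this]

theorem g3_le {L R : ℕ} (p : ℕ × ℕ) :
    g3 L R p ≤ (if p.1 < L + R then 1 else 0) * if p.2 < R then 1 / (R : ℝ) else 0 := by
  unfold g3
  refine mul_le_mul_of_nonneg_right ?_ (by split_ifs <;> positivity)
  have h0 := cc_nonneg R p.1
  split_ifs with h1 h2 h2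
  · linarith only [h0]
  · omega
  · have := cc_le_one R (p.1 - L); linarith only [h0, this]
  · rw [cc_zero (R := R) (z := p.1 - L) (by omega)]; linarith only [h0]

theorem g3_le' {L R : ℕ} (p : ℕ × ℕ) : g3 L R p ≤ 1 / R := by
  refine (g3_le p).trans ?_
  have : (0 : ℝ) ≤ 1 / R := by positivity
  split_ifs <;> simp only [one_mul, zero_mul, mul_zero, le_refl] <;> exact this

theorem g3_sq {L R M : ℕ} (hR : 0 < R) (h : R ≤ L) (hL : L ≤ 3 * R) (hM : L + R ≤ M) :
    ∑ p ∈ range M ×ˢ range M, g3 L R p ^ 2 ≤ 4 := by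
  have hR' : (0 : ℝ) < R := by exact_mod_cast hR
  have h1 : ∑ p ∈ range M ×ˢ range M, g3 L R p ≤ L + R := by
    calc ∑ p ∈ range M ×ˢ range M, g3 L R p
        ≤ ∑ p ∈ range M ×ˢ range M,
          ((if p.1 < L + R then (1 : ℝ) else 0) * if p.2 < R then 1 / (R : ℝ) else 0) :=
          sum_le_sum fun p _ => g3_le p
      _ = (∑ z ∈ range M, (if z < L + R then (1 : ℝ) else 0)) *
          ∑ y ∈ range M, (if y < R then 1 / (R : ℝ) else 0) := by
          rw [sum_product, sum_mul_sum]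
      _ = L + R := by
          rw [sum_ind hM, sum_ind (by omega)]
          push_cast
          field_simp
  calc ∑ p ∈ range M ×ˢ range M, g3 L R p ^ 2
      ≤ ∑ p ∈ range M ×ˢ range M, 1 / (R : ℝ) * g3 L R p := sum_le_sum fun p _ => by
        rw [pow_two]
        exact mul_le_mul_of_nonneg_right (g3_le' p) (g3_nonneg h p)
    _ = 1 / (R : ℝ) * ∑ p ∈ range M ×ˢ range M, g3 L R p := by rw [mul_sum]
    _ ≤ 1 / (R : ℝ) * (L + R) := mul_le_mul_of_nonneg_left h1 (by positivity)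
    _ ≤ 4 := by
        rw [one_div, inv_mul_le_iff₀ hR']
        have : (L : ℝ) ≤ 3 * R := by exact_mod_cast hL
        linarith only [this]

end Vale.Agent.P145.X.Flow
end

section

/-!
# P145, block F-B: monotone coupling of the marks
-/

namespace Vale.Agent.P145.FB

open MeasureTheory

/-- Coupling of two Bernoulli measures, `s ≤ t`. -/
noncomputable def cpl (s t : ℝ) : Measure (Bool × Bool) :=
  ENNReal.ofReal (cl s) • Measure.dirac (true, true) +
    ENNReal.ofReal (cl t - cl s) • Measure.dirac (false, true) +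
    ENNReal.ofReal (1 - cl t) • Measure.dirac (false, false)

theorem cpl_prob {s t : ℝ} (h : cl s ≤ cl t) : IsProbabilityMeasure (cpl s t) := by
  constructor
  simp only [cpl, Measure.coe_add, Measure.coe_smul, Pi.add_apply, Pi.smul_apply, smul_eq_mul,
    measure_univ, mul_one]
  rw [← ENNReal.ofReal_add (cl_nonneg s) (by linarith), ← ENNReal.ofReal_add
    (by linarith [cl_nonneg t]) (by linarith [cl_le t])]
  simp

theorem cpl_fst {s t : ℝ} (h : cl s ≤ cl t) : (cpl s t).map Prod.fst = bern s := by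
  have hm : Measurable (Prod.fst : Bool × Bool → Bool) := measurable_fst
  rw [cpl, Measure.map_add _ _ hm, Measure.map_add _ _ hm, Measure.map_smul, Measure.map_smul,
    Measure.map_smul, Measure.map_dirac' hm, Measure.map_dirac' hm, Measure.map_dirac' hm]
  simp only
  rw [add_assoc, ← add_smul, ← ENNReal.ofReal_add (by linarith) (by linarith [cl_le t])]
  rw [show cl t - cl s + (1 - cl t) = 1 - cl s by ring]
  rfl

theorem cpl_snd {s t : ℝ} (h : cl s ≤ cl t) : (cpl s t).map Prod.snd = bern t := by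
  have hm : Measurable (Prod.snd : Bool × Bool → Bool) := measurable_snd
  rw [cpl, Measure.map_add _ _ hm, Measure.map_add _ _ hm, Measure.map_smul, Measure.map_smul,
    Measure.map_smul, Measure.map_dirac' hm, Measure.map_dirac' hm, Measure.map_dirac' hm]
  simp only
  rw [← add_smul, ← ENNReal.ofReal_add (cl_nonneg s) (by linarith)]
  rw [show cl s + (cl t - cl s) = cl t by ring]
  rfl

theorem cpl_bad (s t : ℝ) : cpl s t {(true, false)} = 0 := by
  simp only [cpl, Measure.coe_add, Measure.coe_smul, Pi.add_apply, Pi.smul_apply, MeasurableSet.singleton, Measure.dirac_apply', Set.mem_singleton_iff, Prod.mk.injEq, Bool.true_eq_false, and_false, not_false_eq_true, Set.indicator_of_notMem, smul_eq_mul, mul_zero, Bool.false_eq_true, and_self, add_zero, and_true]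

/-- The probability of an increasing event is monotone in the parameter. -/
theorem mkm_mono {s t : ℝ} (h : cl s ≤ cl t) {A : Set Mk} (hA : MeasurableSet A)
    (hinc : ∀ ξ ζ : Mk, (∀ w, ξ w = true → ζ w = true) → ξ ∈ A → ζ ∈ A) :
    mkm s A ≤ mkm t A := by
  have := cpl_prob h
  set K : Measure (ℤ × ℤ → Bool × Bool) := Measure.infinitePi fun _ => cpl s t with hK
  have h1 : K.map (fun z w => (z w).1) = mkm s := by
    have := Measure.infinitePi_map_pi (μ := fun _ : ℤ × ℤ => cpl s t)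
      (f := fun _ => (Prod.fst : Bool × Bool → Bool)) (fun _ => measurable_fst)
    rw [cpl_fst h] at this
    exact this
  have h2 : K.map (fun z w => (z w).2) = mkm t := by
    have := Measure.infinitePi_map_pi (μ := fun _ : ℤ × ℤ => cpl s t)
      (f := fun _ => (Prod.snd : Bool × Bool → Bool)) (fun _ => measurable_snd)
    rw [cpl_snd h] at this
    exact this
  have m1 : Measurable fun (z : ℤ × ℤ → Bool × Bool) w => (z w).1 := by fun_prop
  have m2 : Measurable fun (z : ℤ × ℤ → Bool × Bool) w => (z w).2 := by fun_prop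
  rw [← h1, ← h2, Measure.map_apply m1 hA, Measure.map_apply m2 hA]
  have hae : ∀ᵐ z ∂K, ∀ w : ℤ × ℤ, z w ≠ (true, false) := by
    rw [ae_all_iff]
    intro w
    have e := Measure.infinitePi_map_eval (fun _ : ℤ × ℤ => cpl s t) w
    have e2 : K {z | z w = (true, false)} = 0 := by
      have e3 : K.map (fun z => z w) {(true, false)} = 0 := by
        rw [hK, e]; exact cpl_bad s t
      rwa [Measure.map_apply (measurable_pi_apply w) (measurableSet_singleton _)] at e3
    rw [ae_iff]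
    convert e2 using 2
    ext z
    simp
  refine measure_mono_ae ?_
  filter_upwards [hae] with z hz hzA
  refine hinc _ _ (fun w hw => ?_) hzA
  have h3 := hz w
  change (z w).1 = true at hw
  change (z w).2 = true
  rcases h4 : z w with ⟨a, b⟩
  rw [h4] at h3 hw
  dsimp only at hw ⊢
  subst hw
  cases b
  · exact absurd rfl h3
  · rfl

/-- The same with a random parameter. -/
theorem prod_mono {X : Type*} [MeasurableSpace X] (P : Measure X) [IsProbabilityMeasure P]
    {s t : ℝ} (h : cl s ≤ cl t) {A : Set (X × Mk)} (hA : MeasurableSet A)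
    (hinc : ∀ (a : X) (ξ ζ : Mk), (∀ w, ξ w = true → ζ w = true) → (a, ξ) ∈ A → (a, ζ) ∈ A) :
    (P.prod (mkm s)) A ≤ (P.prod (mkm t)) A := by
  rw [Measure.prod_apply hA, Measure.prod_apply hA]
  refine lintegral_mono fun a => ?_
  exact mkm_mono h (measurable_prodMk_left hA) fun ξ ζ hξ hm => hinc a ξ ζ hξ hm

/-- Negation and relabelling of the marks. -/
theorem mkm_not {t : ℝ} (h0 : 0 ≤ t) (h1 : t ≤ 1) (e : ℤ × ℤ ≃ ℤ × ℤ) :
    (mkm t).map (fun ξ w => !(ξ (e w))) = mkm (1 - t) := by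
  have hb : (bern t).map (fun b => !b) = bern (1 - t) := by
    have hm : Measurable (fun b : Bool => !b) := measurable_of_countable _
    rw [bern, bern, Measure.map_add _ _ hm, Measure.map_smul, Measure.map_smul,
      Measure.map_dirac' hm, Measure.map_dirac' hm, cl_eq h0 h1, cl_eq (by linarith) (by linarith),
      add_comm]
    simp
  have hr : (mkm t).map (fun (ξ : Mk) w => ξ (e w)) = mkm t := by
    refine Measure.eq_infinitePi _ fun S T hT => ?_
    have hm : Measurable (fun (ξ : Mk) w => ξ (e w)) :=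
      measurable_pi_lambda _ fun w => measurable_pi_apply _
    rw [Measure.map_apply hm (MeasurableSet.pi S.countable_toSet fun _ _ => hT _)]
    have e1 : (fun (ξ : Mk) w => ξ (e w)) ⁻¹' ((S : Set (ℤ × ℤ)).pi T) =
        ((S.map e.toEmbedding : Finset (ℤ × ℤ)) : Set (ℤ × ℤ)).pi (fun w => T (e.symm w)) := by
      ext ξ
      simp only [Set.mem_preimage, Set.mem_pi, Finset.mem_coe, Finset.mem_map_equiv]
      constructor
      · intro h i hi
        have := h (e.symm i) hi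
        rwa [e.apply_symm_apply] at this
      · intro h i hi
        have := h (e i) (by rwa [e.symm_apply_apply])
        rwa [e.symm_apply_apply] at this
    rw [e1, mkm, Measure.infinitePi_pi _ (fun i _ => hT _), Finset.prod_map]
    simp
  have hm1 : Measurable (fun (ξ : Mk) w => ξ (e w)) :=
    measurable_pi_lambda _ fun w => measurable_pi_apply _
  have hnb : Measurable (fun b : Bool => !b) := measurable_of_countable _
  have hm2 : Measurable (fun (ξ : Mk) w => !(ξ w)) :=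
    measurable_pi_lambda _ fun w => hnb.comp (measurable_pi_apply _)
  have e3 : (fun (ξ : Mk) w => !(ξ (e w))) = (fun (ξ : Mk) w => !(ξ w)) ∘ fun ξ w => ξ (e w) := rfl
  rw [e3, ← Measure.map_map hm2 hm1, hr]
  have := Measure.infinitePi_map_pi (μ := fun _ : ℤ × ℤ => bern t)
      (f := fun _ => fun b : Bool => !b) (fun _ => hnb)
  rw [hb] at this
  exact this

end Vale.Agent.P145.FB
end

section

/-!
# P145, block F-B: duality for bond configurations on the fine lattice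

A bond configuration is a set `S` of points of `ℤ × ℤ` which contains all points with two even
coordinates (vertices) and no point with two odd coordinates (faces); a point with one odd
coordinate is an edge. The dual configuration `dl S` consists of the closed edges, moved by
`(x, y) ↦ (y - 1, x - 1)`.
-/

namespace Vale.Agent.P145.FB

open Relation Vale.Agent.P153 Vale.Agent.P153.Topo

/-- Bond configurations. -/
structure Bond (S : Set (ℤ × ℤ)) : Prop where
  vert : ∀ x y : ℤ, (2 * x, 2 * y) ∈ S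
  face : ∀ x y : ℤ, (2 * x + 1, 2 * y + 1) ∉ S

/-- The dual configuration. -/
def dl (S : Set (ℤ × ℤ)) : Set (ℤ × ℤ) := {z | (z.2 + 1, z.1 + 1) ∉ S}

theorem nn_mk {a b c d : ℤ} (h : (d = b ∧ (c = a + 1 ∨ c = a - 1)) ∨
    (c = a ∧ (d = b + 1 ∨ d = b - 1))) : NN (a, b) (c, d) := h

theorem Bond.vert' {S : Set (ℤ × ℤ)} (hS : Bond S) {z : ℤ × ℤ} (h1 : z.1 % 2 = 0)
    (h2 : z.2 % 2 = 0) : z ∈ S := by
  have := hS.vert (z.1 / 2) (z.2 / 2)
  have e : (2 * (z.1 / 2), 2 * (z.2 / 2)) = z := Prod.ext (by simp only; omega) (by simp only; omega)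
  rwa [e] at this

theorem Bond.face' {S : Set (ℤ × ℤ)} (hS : Bond S) {z : ℤ × ℤ} (h1 : z.1 % 2 = 1)
    (h2 : z.2 % 2 = 1) : z ∉ S := by
  have := hS.face (z.1 / 2) (z.2 / 2)
  have e : (2 * (z.1 / 2) + 1, 2 * (z.2 / 2) + 1) = z :=
    Prod.ext (by simp only; omega) (by simp only; omega)
  rwa [e] at this

theorem Bond.dual {S : Set (ℤ × ℤ)} (hS : Bond S) : Bond (dl S) := by
  refine ⟨fun x y => ?_, fun x y => ?_⟩
  · exact hS.face' (by simp only; omega) (by simp only; omega)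
  · intro h
    exact h (hS.vert' (by simp only; omega) (by simp only; omega))

/-- A connection of the triangular lattice in a rectangle inside a bond configuration is a
nearest-neighbour connection. -/
theorem nc_of_conn {S : Set (ℤ × ℤ)} (hS : Bond S) {a b c d : ℤ} {x y : ℤ × ℤ}
    (h : Conn (S ∩ rc a b c d) x y) : NC (S ∩ rc a b c d) x y := by
  refine Conn.ind (S := S ∩ rc a b c d) (fun y => NC (S ∩ rc a b c d) x y) (NC.refl h.1) ?_ h
  rintro u v hu huv ⟨hvS, hvR⟩ ih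
  obtain ⟨huS, huR⟩ := ih.right_mem
  obtain ⟨u1, u2⟩ := u
  obtain ⟨v1, v2⟩ := v
  rw [adj_iff] at huv
  simp only at huv
  obtain ⟨hv1, hv2, hv3, hv4⟩ := hvR
  obtain ⟨hu1, hu2, hu3, hu4⟩ := huR
  simp only at hv1 hv2 hv3 hv4 hu1 hu2 hu3 hu4
  have hvR : (v1, v2) ∈ rc a b c d := ⟨hv1, hv2, hv3, hv4⟩
  rcases huv with h1 | h1 | h1 | h1 | h1 | h1
  · exact ih.tail (nn_mk (by omega)) ⟨hvS, hvR⟩
  · exact ih.tail (nn_mk (by omega)) ⟨hvS, hvR⟩
  · exact ih.tail (nn_mk (by omega)) ⟨hvS, hvR⟩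
  · exact ih.tail (nn_mk (by omega)) ⟨hvS, hvR⟩
  · -- `v = u + (1, -1)`
    obtain ⟨h1, h2⟩ := h1
    have hu : ¬ (u1 % 2 = 1 ∧ u2 % 2 = 1) := fun h => hS.face' h.1 h.2 huS
    have hv : ¬ (v1 % 2 = 1 ∧ v2 % 2 = 1) := fun h => hS.face' h.1 h.2 hvS
    by_cases hp : u1 % 2 = 0
    · have hw : ((u1, v2) : ℤ × ℤ) ∈ S := hS.vert' (by simp only; omega) (by simp only; omega)
      have hwR : ((u1, v2) : ℤ × ℤ) ∈ rc a b c d := ⟨hu1, hu2, hv3, hv4⟩
      exact (ih.tail (z := (u1, v2)) (nn_mk (by omega)) ⟨hw, hwR⟩).tail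
        (nn_mk (by omega)) ⟨hvS, hvR⟩
    · have hw : ((v1, u2) : ℤ × ℤ) ∈ S := hS.vert' (by simp only; omega) (by simp only; (clear * - h1 h2 hu hv hp; omega))
      have hwR : ((v1, u2) : ℤ × ℤ) ∈ rc a b c d := ⟨hv1, hv2, hu3, hu4⟩
      exact (ih.tail (z := (v1, u2)) (nn_mk (by omega)) ⟨hw, hwR⟩).tail
        (nn_mk (by omega)) ⟨hvS, hvR⟩
  · -- `v = u + (-1, 1)`
    obtain ⟨h1, h2⟩ := h1
    have hu : ¬ (u1 % 2 = 1 ∧ u2 % 2 = 1) := fun h => hS.face' h.1 h.2 huS
    have hv : ¬ (v1 % 2 = 1 ∧ v2 % 2 = 1) := fun h => hS.face' h.1 h.2 hvS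
    by_cases hp : u1 % 2 = 0
    · have hw : ((u1, v2) : ℤ × ℤ) ∈ S := hS.vert' (by simp only; omega) (by simp only; omega)
      have hwR : ((u1, v2) : ℤ × ℤ) ∈ rc a b c d := ⟨hu1, hu2, hv3, hv4⟩
      exact (ih.tail (z := (u1, v2)) (nn_mk (by omega)) ⟨hw, hwR⟩).tail
        (nn_mk (by omega)) ⟨hvS, hvR⟩
    · have hw : ((v1, u2) : ℤ × ℤ) ∈ S := hS.vert' (by simp only; omega) (by simp only; omega)
      have hwR : ((v1, u2) : ℤ × ℤ) ∈ rc a b c d := ⟨hv1, hv2, hu3, hu4⟩
      exact (ih.tail (z := (v1, u2)) (nn_mk (by omega)) ⟨hw, hwR⟩).tail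
        (nn_mk (by omega)) ⟨hvS, hvR⟩

/-- The same for the complement. -/
theorem nc_of_conn_compl {S : Set (ℤ × ℤ)} (hS : Bond S) {a b c d : ℤ} {x y : ℤ × ℤ}
    (h : Conn (Sᶜ ∩ rc a b c d) x y) : NC (Sᶜ ∩ rc a b c d) x y := by
  refine Conn.ind (S := Sᶜ ∩ rc a b c d) (fun y => NC (Sᶜ ∩ rc a b c d) x y) (NC.refl h.1) ?_ h
  rintro u v hu huv ⟨hvS, hvR⟩ ih
  obtain ⟨huS, huR⟩ := ih.right_mem
  obtain ⟨u1, u2⟩ := u
  obtain ⟨v1, v2⟩ := v
  rw [adj_iff] at huv
  simp only at huv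
  obtain ⟨hv1, hv2, hv3, hv4⟩ := hvR
  obtain ⟨hu1, hu2, hu3, hu4⟩ := huR
  simp only at hv1 hv2 hv3 hv4 hu1 hu2 hu3 hu4
  have hvR : (v1, v2) ∈ rc a b c d := ⟨hv1, hv2, hv3, hv4⟩
  rcases huv with h1 | h1 | h1 | h1 | h1 | h1
  · exact ih.tail (nn_mk (by omega)) ⟨hvS, hvR⟩
  · exact ih.tail (nn_mk (by omega)) ⟨hvS, hvR⟩
  · exact ih.tail (nn_mk (by omega)) ⟨hvS, hvR⟩
  · exact ih.tail (nn_mk (by omega)) ⟨hvS, hvR⟩
  · obtain ⟨h1, h2⟩ := h1
    have hu : ¬ (u1 % 2 = 0 ∧ u2 % 2 = 0) := fun h => huS (hS.vert' h.1 h.2)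
    have hv : ¬ (v1 % 2 = 0 ∧ v2 % 2 = 0) := fun h => hvS (hS.vert' h.1 h.2)
    by_cases hp : u1 % 2 = 1
    · have hw : ((u1, v2) : ℤ × ℤ) ∉ S := hS.face' (by simp only; omega) (by simp only; omega)
      have hwR : ((u1, v2) : ℤ × ℤ) ∈ rc a b c d := ⟨hu1, hu2, hv3, hv4⟩
      exact (ih.tail (z := (u1, v2)) (nn_mk (by omega)) ⟨hw, hwR⟩).tail
        (nn_mk (by (clear * - h1; omega))) ⟨hvS, hvR⟩
    · have hw : ((v1, u2) : ℤ × ℤ) ∉ S := hS.face' (by simp only; omega) (by simp only; omega)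
      have hwR : ((v1, u2) : ℤ × ℤ) ∈ rc a b c d := ⟨hv1, hv2, hu3, hu4⟩
      exact (ih.tail (z := (v1, u2)) (nn_mk (by omega)) ⟨hw, hwR⟩).tail
        (nn_mk (by omega)) ⟨hvS, hvR⟩
  · obtain ⟨h1, h2⟩ := h1
    have hu : ¬ (u1 % 2 = 0 ∧ u2 % 2 = 0) := fun h => huS (hS.vert' h.1 h.2)
    have hv : ¬ (v1 % 2 = 0 ∧ v2 % 2 = 0) := fun h => hvS (hS.vert' h.1 h.2)
    by_cases hp : u1 % 2 = 1
    · have hw : ((u1, v2) : ℤ × ℤ) ∉ S := hS.face' (by simp only; omega) (by simp only; omega)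
      have hwR : ((u1, v2) : ℤ × ℤ) ∈ rc a b c d := ⟨hu1, hu2, hv3, hv4⟩
      exact (ih.tail (z := (u1, v2)) (nn_mk (by omega)) ⟨hw, hwR⟩).tail
        (nn_mk (by omega)) ⟨hvS, hvR⟩
    · have hw : ((v1, u2) : ℤ × ℤ) ∉ S := hS.face' (by simp only; omega) (by simp only; omega)
      have hwR : ((v1, u2) : ℤ × ℤ) ∈ rc a b c d := ⟨hv1, hv2, hu3, hu4⟩
      exact (ih.tail (z := (v1, u2)) (nn_mk (by omega)) ⟨hw, hwR⟩).tail
        (nn_mk (by omega)) ⟨hvS, hvR⟩

/-- **Duality.** Either `S` crosses `[a, b] × [c, d]` from left to right, or the dual configuration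
crosses `[c - 1, d] × [a, b - 1]` from left to right. -/
theorem duality {S : Set (ℤ × ℤ)} (hS : Bond S) {a b c d : ℤ} (hab : a < b) (hcd : c ≤ d) :
    LRc a b c d S ∨ LRc (c - 1) d a (b - 1) (dl S) := by
  rcases hex S (a := 2 * a) (b := 2 * b) (c := 2 * c) (d := 2 * d) (by omega) (by omega) with h | h
  · left
    obtain ⟨x, y, h, hx, hy⟩ := h
    exact ⟨x, y, nc_of_conn hS h, hx, hy⟩
  · right
    obtain ⟨x, y, h, hx, hy⟩ := h
    have h := nc_of_conn_compl (a := a) (b := b) (c := c) (d := d) hS h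
    have hD := hS.dual
    -- the parity facts
    have hpar : ∀ z : ℤ × ℤ, z ∉ S → ¬ (z.1 % 2 = 0 ∧ z.2 % 2 = 0) := fun z hz h =>
      hz (hS.vert' h.1 h.2)
    obtain ⟨hxS, hxR⟩ := h.left_mem
    obtain ⟨hyS, hyR⟩ := h.right_mem
    have hxp := hpar x hxS
    have hyp := hpar y hyS
    obtain ⟨x1, x2⟩ := x
    obtain ⟨y1, y2⟩ := y
    simp only [rc, Set.mem_ofPred_eq] at hx hy hxp hyp hxR hyR
    have hmem : ∀ z : ℤ × ℤ, z ∉ S → ((z.2 - 1, z.1 - 1) : ℤ × ℤ) ∈ dl S := by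
      intro z hz
      have e : ((z.1 - 1 + 1, z.2 - 1 + 1) : ℤ × ℤ) = z := by simp
      simp only [dl, Set.mem_ofPred_eq]
      rwa [e]
    -- the clipped path
    set st : ℤ × ℤ := (x2 - 2, x1 - 1) with hst
    have hst1 : st ∈ dl S ∩ rc (c - 1) d a (b - 1) := by
      refine ⟨hD.vert' (by simp only [hst]; (clear * - hx; omega)) (by simp only [hst]; omega), ?_⟩
      simp only [rc, Set.mem_ofPred_eq, hst]
      (clear * - hx hxR hxp hy hyp; omega)
    have key : ∀ z, NC (Sᶜ ∩ rc a b c d) (x1, x2) z →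
        NC (dl S ∩ rc (c - 1) d a (b - 1)) st (z.2 - 1, max (2 * a) (min (z.1 - 1) (2 * b - 2))) := by
      intro z hz
      refine NC.ind (S := Sᶜ ∩ rc a b c d) (fun z => NC (dl S ∩ rc (c - 1) d a (b - 1)) st
        (z.2 - 1, max (2 * a) (min (z.1 - 1) (2 * b - 2)))) ?_ ?_ hz
      · have e : max (2 * a) (min (x1 - 1) (2 * b - 2)) = x1 - 1 := by omega
        simp only [e]
        refine (NC.refl hst1).tail (nn_mk (by omega)) ⟨hmem _ hxS, ?_⟩
        simp only [rc, Set.mem_ofPred_eq]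
        omega
      · rintro ⟨u1, u2⟩ ⟨v1, v2⟩ hu huv ⟨hvS, hvR⟩ ih
        obtain ⟨huS, huR⟩ := hu.right_mem
        have hup := hpar _ huS
        have hvp := hpar _ hvS
        simp only [rc, Set.mem_ofPred_eq, NN] at hup hvp huR hvR huv ih ⊢
        by_cases hin : 2 * a ≤ v1 - 1 ∧ v1 - 1 ≤ 2 * b - 2
        · have e : max (2 * a) (min (v1 - 1) (2 * b - 2)) = v1 - 1 := by omega
          rw [e]
          by_cases hin' : 2 * a ≤ u1 - 1 ∧ u1 - 1 ≤ 2 * b - 2
          · have e' : max (2 * a) (min (u1 - 1) (2 * b - 2)) = u1 - 1 := by omega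
            rw [e'] at ih
            refine ih.tail (nn_mk (by (clear * - huv hup hvp hin e hin' e'; omega))) ⟨hmem _ hvS, ?_⟩
            simp only [Set.mem_ofPred_eq]
            (clear * - hvR hin e; omega)
          · have e' : ((u2 - 1, max (2 * a) (min (u1 - 1) (2 * b - 2))) : ℤ × ℤ) =
                (v2 - 1, v1 - 1) := Prod.ext (by simp only; omega) (by simp only; omega)
            rw [e'] at ih
            exact ih
        · have e' : ((v2 - 1, max (2 * a) (min (v1 - 1) (2 * b - 2))) : ℤ × ℤ) =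
                (u2 - 1, max (2 * a) (min (u1 - 1) (2 * b - 2))) :=
            Prod.ext (by simp only; omega) (by simp only; omega)
          rw [e']
          exact ih
    have hk := key _ h
    simp only at hk
    have e : max (2 * a) (min (y1 - 1) (2 * b - 2)) = y1 - 1 := by (clear * - hab hy hyR hyp; omega)
    rw [e] at hk
    refine ⟨st, (2 * d, y1 - 1), hk.tail (nn_mk (by omega))
      ⟨hD.vert' (by simp only; omega) (by simp only; omega), ?_⟩, by simp only [hst]; omega, rfl⟩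
    simp only [rc, Set.mem_ofPred_eq]
    omega

/-- A crossing of a set on which a sign is constant along steps has one sign. -/
theorem lr_sign {S : Set (ℤ × ℤ)} (sg : ℤ × ℤ → Prop)
    (hsg : ∀ u v, u ∈ S → v ∈ S → NN u v → (sg u ↔ sg v)) {a b c d : ℤ} (h : LRc a b c d S) :
    LRc a b c d {z | z ∈ S ∧ sg z} ∨ LRc a b c d {z | z ∈ S ∧ ¬ sg z} := by
  obtain ⟨x, y, h, hx, hy⟩ := h
  by_cases hs : sg x
  · left
    refine ⟨x, y, ?_, hx, hy⟩
    have : NC ({z | z ∈ S ∧ sg z} ∩ rc a b c d) x y ∧ sg y := by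
      refine NC.ind (S := S ∩ rc a b c d)
        (fun y => NC ({z | z ∈ S ∧ sg z} ∩ rc a b c d) x y ∧ sg y)
        ⟨NC.refl ⟨⟨h.left_mem.1, hs⟩, h.left_mem.2⟩, hs⟩ ?_ h
      intro u v hu huv hv ih
      have hsv : sg v := (hsg u v hu.right_mem.1 hv.1 huv).1 ih.2
      exact ⟨ih.1.tail huv ⟨⟨hv.1, hsv⟩, hv.2⟩, hsv⟩
    exact this.1
  · right
    refine ⟨x, y, ?_, hx, hy⟩
    have : NC ({z | z ∈ S ∧ ¬ sg z} ∩ rc a b c d) x y ∧ ¬ sg y := by
      refine NC.ind (S := S ∩ rc a b c d)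
        (fun y => NC ({z | z ∈ S ∧ ¬ sg z} ∩ rc a b c d) x y ∧ ¬ sg y)
        ⟨NC.refl ⟨⟨h.left_mem.1, hs⟩, h.left_mem.2⟩, hs⟩ ?_ h
      intro u v hu huv hv ih
      have hsv : ¬ sg v := fun h => ih.2 ((hsg u v hu.right_mem.1 hv.1 huv).2 h)
      exact ⟨ih.1.tail huv ⟨⟨hv.1, hsv⟩, hv.2⟩, hsv⟩
    exact this.1

end Vale.Agent.P145.FB
end

section

/-!
# P145, block F-A: the plane measure of P152 (`c ^ 2 ≤ 2`) satisfies `Pl`
-/

namespace Vale.Agent.P145.FA

open Finset Filter Topology MeasureTheory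
open Vale.Agent.P152 Vale.Agent.P152.GFF.B3

/-- The plane measure of P152, any `c`. -/
theorem pl_of_sym {c : ℝ} {P : Measure (Ori (ℤ × ℤ))} (hP : IsP c P)
    (hsym : (∀ a b : ℤ, P.map (shO a b) = P) ∧ P.map trO = P ∧ P.map (fun ω e => !(ω e)) = P ∧
      P.map reO = P) : Pl c P := by
  obtain ⟨hs, ht, hr, hx⟩ := hsym
  have hprob := hP.1
  have hsub : IsSubLimit c P := by
    obtain ⟨Q, hQ1, hQ2⟩ := hP.2.1
    exact ⟨id, strictMono_id, Q, fun i => hQ1 i, hQ2⟩
  refine ⟨hP.1, ice_ae hsub, fun a => ?_, ?_, hr, ?_⟩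
  · have h1 : (fun (ω : Ori (ℤ × ℤ)) e => ω (Sum.map (· + a) (· + a) e)) = shO a.1 a.2 := by
      funext ω e
      rcases e with v | v <;> rfl
    rw [h1]
    exact hs a.1 a.2
  · have h1 : (fun ω : Ori (ℤ × ℤ) => Sum.elim (fun v => ω (Sum.inr v.swap))
        (fun v => ω (Sum.inl v.swap))) = trO := by
      funext ω e
      rcases e with v | v <;> rfl
    rw [h1]
    exact ht
  · have h1 : (fun ω : Ori (ℤ × ℤ) => Sum.elim (fun v : ℤ × ℤ => ω (Sum.inl (-v.1 - 1, v.2)))
        (fun v : ℤ × ℤ => !(ω (Sum.inr (-v.1, v.2))))) = reO := by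
      funext ω e
      rcases e with v | v <;> rfl
    rw [h1]
    exact hx

theorem pl_of {c : ℝ} (hc : 0 < c) (hc2 : c ^ 2 ≤ 2) (_hA : A6 (wc c))
    {P : Measure (Ori (ℤ × ℤ))} (hP : IsP c P) : Pl c P :=
  pl_of_sym hP (m_symP c hc hc2 P hP)

end Vale.Agent.P145.FA
end

section

/-!
P145, block F-B, (A): interface between the box with free arrows (AsBox) and the plane (AsPl).

`p, r : FB M R → ZMod 2` are the heights modulo `4` of the even and of the odd faces (`0` is the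
spin plus), `o` are the bonds (`true` is open).
-/

set_option autoImplicit false

namespace Vale.Agent.P145.FB

open Finset
open Vale.Agent.P152.GFF.E2 (DG FB boxD)

/-- Joint weight of the differences `a` (even faces), `b` (odd faces) and of the bond `o` at a
vertex: the six-vertex weight, split according to the state of the bond. -/
noncomputable def Ub (c : ℝ) (a b : ZMod 2) (o : Bool) : ℝ :=
  if o = true then (if a = 0 then 1 else 0)
  else if b = 0 then (if a = 0 then c - 1 else 1) else 0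

/-- Sums over the box `M × R` with free arrows; the spins are `τ q = decide (p q = 0)`. -/
noncomputable def Bx (c : ℝ) (M R : ℕ) (par : ZMod 2)
    (Φ : (FB M R → Bool) → (Fin M × Fin R → Bool) → ℝ) : ℝ :=
  ∑ p : FB M R → ZMod 2, ∑ r : FB M R → ZMod 2, ∑ o : Fin M × Fin R → Bool,
    (∏ v, Ub c ((boxD M R par).al p v) ((boxD M R par).be r v) (o v)) *
      Φ (fun q => decide (p q = 0)) o

/-- `f` is increasing in the spins and in the open bonds with spin plus, decreasing in the open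
bonds with spin minus. -/
def Mono3 {V F : Type} (D : DG V F) (f : (F → Bool) → (V → Bool) → ℝ) : Prop :=
  ∀ (τ τ' : F → Bool) (o o' : V → Bool), (∀ q, τ q = true → τ' q = true) →
    (∀ v q, D.x v false = some q → τ q = true → o v = true → o' v = true) →
    (∀ v q, D.x v false = some q → τ' q = false → o' v = true → o v = true) → f τ o ≤ f τ' o'

/-- Target of AsBox: association in the box with free arrows. -/
def BoxAssoc (c : ℝ) : Prop :=
  ∀ (M R : ℕ) (par : ZMod 2) (f g : (FB M R → Bool) → (Fin M × Fin R → Bool) → ℝ),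
    (∀ τ o, 0 ≤ f τ o) → (∀ τ o, 0 ≤ g τ o) → Mono3 (boxD M R par) f → Mono3 (boxD M R par) g →
    Bx c M R par f * Bx c M R par g ≤
      Bx c M R par (fun _ _ => 1) * Bx c M R par (fun τ o => f τ o * g τ o)

end Vale.Agent.P145.FB
end

section

/-!
P145, block F-B, (A): planar duality over the field with two elements on the face grid of a box.
The box has the vertices `Fin m × Fin r` and the faces `Fin (m + 1) × Fin (r + 1)`; `p` is the
parity of the lower left face of the vertex `(0, 0)`.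
-/

namespace Vale.Agent.P145.FB.AsD

open Finset

/-- Faces of the box. -/
abbrev Fc (m r : ℕ) : Type := Fin (m + 1) × Fin (r + 1)

/-- Vertices of the box. -/
abbrev Vt (m r : ℕ) : Type := Fin m × Fin r

variable {m r : ℕ}

/-- The four faces of a vertex. -/
def fsw (v : Vt m r) : Fc m r := (v.1.castSucc, v.2.castSucc)
def fse (v : Vt m r) : Fc m r := (v.1.succ, v.2.castSucc)
def fnw (v : Vt m r) : Fc m r := (v.1.castSucc, v.2.succ)
def fne (v : Vt m r) : Fc m r := (v.1.succ, v.2.succ)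

/-- The vertex `v` is even. -/
def Ev (p : ℕ) (v : Vt m r) : Prop := (v.1.val + v.2.val + p) % 2 = 0

instance (p : ℕ) (v : Vt m r) : Decidable (Ev p v) := by unfold Ev; infer_instance

/-- The two even faces of a vertex. -/
def px (p : ℕ) (v : Vt m r) : Fc m r := if Ev p v then fsw v else fse v
def qx (p : ℕ) (v : Vt m r) : Fc m r := if Ev p v then fne v else fnw v

/-- The two odd faces of a vertex. -/
def po (p : ℕ) (v : Vt m r) : Fc m r := if Ev p v then fse v else fsw v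
def qo (p : ℕ) (v : Vt m r) : Fc m r := if Ev p v then fnw v else fne v

/-- The faces on the rim. -/
def Rim (f : Fc m r) : Prop := f.1.val = 0 ∨ f.1.val = m ∨ f.2.val = 0 ∨ f.2.val = r

instance : DecidablePred (Rim (m := m) (r := r)) := fun f => by unfold Rim; infer_instance

lemma z2 (x : ZMod 2) : x + x = 0 := by revert x; decide

lemma z2c (x : ZMod 2) : x = 0 ∨ x = 1 := by revert x; decide

/-- Rectangle sums. -/
def R (κ : Vt m r → ZMod 2) (i j : ℕ) : ZMod 2 :=
  ∑ v, if v.1.val < i ∧ v.2.val < j then κ v else 0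

lemma R_zero_left (κ : Vt m r → ZMod 2) (j : ℕ) : R κ 0 j = 0 :=
  Finset.sum_eq_zero fun v _ => if_neg (by omega)

lemma R_zero_right (κ : Vt m r → ZMod 2) (i : ℕ) : R κ i 0 = 0 :=
  Finset.sum_eq_zero fun v _ => if_neg (by omega)

/-- Extension by zero. -/
def ext0 (κ : Vt m r → ZMod 2) (i j : ℕ) : ZMod 2 :=
  ∑ v, if v.1.val = i ∧ v.2.val = j then κ v else 0

lemma ext0_eq (κ : Vt m r → ZMod 2) (v : Vt m r) : ext0 κ v.1.val v.2.val = κ v := by
  unfold ext0
  rw [Finset.sum_eq_single v]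
  · rw [if_pos ⟨rfl, rfl⟩]
  · intro w _ hw
    refine if_neg fun h => hw ?_
    exact Prod.ext (Fin.ext h.1) (Fin.ext h.2)
  · intro h
    exact absurd (Finset.mem_univ v) h

lemma R_mixed (κ : Vt m r → ZMod 2) (i j : ℕ) :
    R κ (i + 1) (j + 1) + R κ i (j + 1) + R κ (i + 1) j + R κ i j = ext0 κ i j := by
  unfold R ext0
  rw [← Finset.sum_add_distrib, ← Finset.sum_add_distrib, ← Finset.sum_add_distrib]
  refine Finset.sum_congr rfl fun v _ => ?_
  have h2 := z2 (κ v)
  rcases z2c (κ v) with h | h <;> rw [h] <;> split_ifs <;> first | rfl | (exfalso; omega)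

/-- Rectangle sums are determined by the mixed difference. -/
lemma R_unique (κ : Vt m r → ZMod 2) (X : ℕ → ℕ → ZMod 2) (h1 : ∀ j, X 0 j = 0)
    (h2 : ∀ i, X i 0 = 0)
    (h3 : ∀ i j, X (i + 1) (j + 1) + X i (j + 1) + X (i + 1) j + X i j = ext0 κ i j) :
    ∀ i j, R κ i j = X i j := by
  intro i
  induction i with
  | zero => intro j; rw [R_zero_left, h1]
  | succ i ih =>
    intro j
    induction j with
    | zero => rw [R_zero_right, h2]
    | succ j ihj =>
      have e1 := R_mixed κ i j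
      have e2 := h3 i j
      rw [← e2, ihj, ih, ih] at e1
      have e3 : R κ (i + 1) (j + 1) + (X i (j + 1) + X (i + 1) j + X i j) =
          X (i + 1) (j + 1) + (X i (j + 1) + X (i + 1) j + X i j) := by
        rw [← add_assoc, ← add_assoc, ← add_assoc, ← add_assoc]
        exact e1
      exact add_right_cancel e3

/-- Boundary of `κ` at a face, through the odd diagonals. -/
def cl (p : ℕ) (κ : Vt m r → ZMod 2) (f : Fc m r) : ZMod 2 :=
  ∑ v, κ v * ((if po p v = f then 1 else 0) + (if qo p v = f then 1 else 0))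

/-- Difference across the even diagonal. -/
def dx (p : ℕ) (ξ : Fc m r → ZMod 2) (v : Vt m r) : ZMod 2 := ξ (px p v) + ξ (qx p v)

/-- Difference across the odd diagonal. -/
def dO (p : ℕ) (ρ : Fc m r → ZMod 2) (v : Vt m r) : ZMod 2 := ρ (po p v) + ρ (qo p v)

lemma face_eq (a b : ℕ) (f g : Fc m r) (hf : f.1.val = a) (hf' : f.2.val = b) :
    g = f ↔ g.1.val = a ∧ g.2.val = b := by
  constructor
  · rintro rfl
    exact ⟨hf, hf'⟩
  · rintro ⟨h1, h2⟩
    exact Prod.ext (Fin.ext (h1.trans hf.symm)) (Fin.ext (h2.trans hf'.symm))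

lemma aux_ind (v1 v2 a b p : ℕ) (h : (a + b + p) % 2 = 1) :
    ((if (v1 + v2 + p) % 2 = 0 then (if v1 + 1 = a ∧ v2 = b then (1 : ZMod 2) else 0)
      else (if v1 = a ∧ v2 = b then 1 else 0)) +
    (if (v1 + v2 + p) % 2 = 0 then (if v1 = a ∧ v2 + 1 = b then (1 : ZMod 2) else 0)
      else (if v1 + 1 = a ∧ v2 + 1 = b then 1 else 0))) =
    (if v1 < a + 1 ∧ v2 < b + 1 then (1 : ZMod 2) else 0) +
    (if v1 < a - 1 ∧ v2 < b + 1 then 1 else 0) + (if v1 < a + 1 ∧ v2 < b - 1 then 1 else 0) +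
    (if v1 < a - 1 ∧ v2 < b - 1 then 1 else 0) := by
  split_ifs <;> first | rfl | (exfalso; omega)

lemma cl_odd (p : ℕ) (κ : Vt m r → ZMod 2) (f : Fc m r)
    (hf : (f.1.val + f.2.val + p) % 2 = 1) :
    cl p κ f = R κ (f.1.val + 1) (f.2.val + 1) + R κ (f.1.val - 1) (f.2.val + 1) +
      R κ (f.1.val + 1) (f.2.val - 1) + R κ (f.1.val - 1) (f.2.val - 1) := by
  unfold R cl
  rw [← Finset.sum_add_distrib, ← Finset.sum_add_distrib, ← Finset.sum_add_distrib]
  refine Finset.sum_congr rfl fun v _ => ?_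
  have key := aux_ind v.1.val v.2.val f.1.val f.2.val p hf
  have e1 : (if po p v = f then (1 : ZMod 2) else 0) =
      (if (v.1.val + v.2.val + p) % 2 = 0 then
        (if v.1.val + 1 = f.1.val ∧ v.2.val = f.2.val then (1 : ZMod 2) else 0)
      else (if v.1.val = f.1.val ∧ v.2.val = f.2.val then 1 else 0)) := by
    by_cases hv : (v.1.val + v.2.val + p) % 2 = 0
    · rw [if_pos hv]
      have : po p v = fse v := if_pos hv
      rw [this]
      simp only [face_eq f.1.val f.2.val f (fse v) rfl rfl]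
      rfl
    · rw [if_neg hv]
      have : po p v = fsw v := if_neg hv
      rw [this]
      simp only [face_eq f.1.val f.2.val f (fsw v) rfl rfl]
      rfl
  have e2 : (if qo p v = f then (1 : ZMod 2) else 0) =
      (if (v.1.val + v.2.val + p) % 2 = 0 then
        (if v.1.val = f.1.val ∧ v.2.val + 1 = f.2.val then (1 : ZMod 2) else 0)
      else (if v.1.val + 1 = f.1.val ∧ v.2.val + 1 = f.2.val then 1 else 0)) := by
    by_cases hv : (v.1.val + v.2.val + p) % 2 = 0
    · rw [if_pos hv]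
      have : qo p v = fnw v := if_pos hv
      rw [this]
      simp only [face_eq f.1.val f.2.val f (fnw v) rfl rfl]
      rfl
    · rw [if_neg hv]
      have : qo p v = fne v := if_neg hv
      rw [this]
      simp only [face_eq f.1.val f.2.val f (fne v) rfl rfl]
      rfl
  rw [e1, e2, key]
  rcases z2c (κ v) with h | h <;> rw [h] <;> simp

/-- If `κ` is closed, its rectangle sums vanish at the odd positions. -/
lemma R_odd (p : ℕ) (κ : Vt m r → ZMod 2)
    (hκ : ∀ f : Fc m r, (f.1.val + f.2.val + p) % 2 = 1 → cl p κ f = 0) :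
    ∀ n i j : ℕ, i + j ≤ n → i ≤ m + 1 → j ≤ r + 1 → (i + j + p) % 2 = 1 → R κ i j = 0 := by
  intro n
  induction n with
  | zero =>
    intro i j h _ _ _
    have : i = 0 := by omega
    rw [this, R_zero_left]
  | succ n ih =>
    intro i j h hi hj hp
    rcases Nat.eq_zero_or_pos i with h0 | h0
    · rw [h0, R_zero_left]
    rcases Nat.eq_zero_or_pos j with h1 | h1
    · rw [h1, R_zero_right]
    obtain ⟨a, rfl⟩ : ∃ a, i = a + 1 := ⟨i - 1, by omega⟩
    obtain ⟨b, rfl⟩ : ∃ b, j = b + 1 := ⟨j - 1, by omega⟩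
    have hf := cl_odd p κ (⟨a, by omega⟩, ⟨b, by omega⟩) (by show (a + b + p) % 2 = 1; omega)
    rw [hκ _ (by show (a + b + p) % 2 = 1; omega)] at hf
    have hf' : (0 : ZMod 2) = R κ (a + 1) (b + 1) + R κ (a - 1) (b + 1) + R κ (a + 1) (b - 1) +
      R κ (a - 1) (b - 1) := hf
    have g1 : R κ (a - 1) (b + 1) = 0 := by
      rcases Nat.eq_zero_or_pos a with h2 | h2
      · rw [h2]; exact R_zero_left _ _
      · exact ih _ _ (by omega) (by omega) (by omega) (by omega)
    have g2 : R κ (a + 1) (b - 1) = 0 := by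
      rcases Nat.eq_zero_or_pos b with h2 | h2
      · rw [h2]; exact R_zero_right _ _
      · exact ih _ _ (by omega) (by omega) (by omega) (by omega)
    have g3 : R κ (a - 1) (b - 1) = 0 := by
      rcases Nat.eq_zero_or_pos a with h2 | h2
      · rw [h2]; exact R_zero_left _ _
      rcases Nat.eq_zero_or_pos b with h3 | h3
      · rw [h3]; exact R_zero_right _ _
      exact ih _ _ (by omega) (by (clear * - hi hp h2; omega)) (by omega) (by omega)
    rw [g1, g2, g3, add_zero, add_zero, add_zero] at hf'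
    exact hf'.symm

lemma R_top (κ : Vt m r → ZMod 2) (j : ℕ) : R κ (m + 1) j = R κ m j := by
  unfold R
  refine Finset.sum_congr rfl fun v _ => ?_
  have := v.1.2
  split_ifs <;> first | rfl | (exfalso; omega)

lemma R_right (κ : Vt m r → ZMod 2) (i : ℕ) : R κ i (r + 1) = R κ i r := by
  unfold R
  refine Finset.sum_congr rfl fun v _ => ?_
  have := v.2.2
  split_ifs <;> first | rfl | (exfalso; omega)

/-- Existence of the potential. -/
lemma exists_potential (p : ℕ) (κ : Vt m r → ZMod 2)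
    (hκ : ∀ f : Fc m r, (f.1.val + f.2.val + p) % 2 = 1 → cl p κ f = 0) :
    ∃ ξ : Fc m r → ZMod 2, (∀ f, Rim f → ξ f = 0) ∧ ∀ v, dx p ξ v = κ v := by
  have hodd := R_odd p κ hκ
  refine ⟨fun f => R κ f.1.val f.2.val, ?_, ?_⟩
  · rintro ⟨⟨a, ha⟩, ⟨b, hb⟩⟩ h
    show R κ a b = 0
    have h' : a = 0 ∨ a = m ∨ b = 0 ∨ b = r := h
    rcases h' with h | h | h | h
    · rw [h, R_zero_left]
    · rw [h]
      by_cases hp : (m + b + p) % 2 = 1
      · exact hodd _ m b le_rfl (by omega) (by omega) hp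
      · rw [← R_top]
        exact hodd _ (m + 1) b le_rfl (by omega) (by omega) (by omega)
    · rw [h, R_zero_right]
    · rw [h]
      by_cases hp : (a + r + p) % 2 = 1
      · exact hodd _ a r le_rfl (by omega) (by omega) hp
      · rw [← R_right]
        exact hodd _ a (r + 1) le_rfl (by omega) (by omega) (by omega)
  · intro v
    have h1 := R_mixed κ v.1.val v.2.val
    rw [ext0_eq] at h1
    have b1 := v.1.2
    have b2 := v.2.2
    unfold dx
    by_cases hv : (v.1.val + v.2.val + p) % 2 = 0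
    · have e1 : px p v = fsw v := if_pos hv
      have e2 : qx p v = fne v := if_pos hv
      rw [e1, e2]
      show R κ v.1.val v.2.val + R κ (v.1.val + 1) (v.2.val + 1) = κ v
      have g1 : R κ v.1.val (v.2.val + 1) = 0 :=
        hodd _ _ _ le_rfl (by omega) (by omega) (by omega)
      have g2 : R κ (v.1.val + 1) v.2.val = 0 :=
        hodd _ _ _ le_rfl (by omega) (by omega) (by omega)
      rw [g1, g2, add_zero, add_zero] at h1
      rw [add_comm]
      exact h1
    · have e1 : px p v = fse v := if_neg hv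
      have e2 : qx p v = fnw v := if_neg hv
      rw [e1, e2]
      show R κ (v.1.val + 1) v.2.val + R κ v.1.val (v.2.val + 1) = κ v
      have g1 : R κ v.1.val v.2.val = 0 :=
        hodd _ _ _ le_rfl (by omega) (by omega) (by omega)
      have g2 : R κ (v.1.val + 1) (v.2.val + 1) = 0 :=
        hodd _ _ _ le_rfl (by omega) (by omega) (by omega)
      rw [g1, g2, zero_add, add_zero] at h1
      rw [add_comm]
      exact h1

/-- Extension of a face function: even positions, zero elsewhere. -/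
def exX (p : ℕ) (ξ : Fc m r → ZMod 2) (i j : ℕ) : ZMod 2 :=
  if h : i < m + 1 ∧ j < r + 1 then
    (if (i + j + p) % 2 = 0 then ξ (⟨i, h.1⟩, ⟨j, h.2⟩) else 0) else 0

lemma exX_val (p : ℕ) (ξ : Fc m r → ZMod 2) (f : Fc m r)
    (h : (f.1.val + f.2.val + p) % 2 = 0) : exX p ξ f.1.val f.2.val = ξ f := by
  unfold exX
  rw [dif_pos ⟨f.1.2, f.2.2⟩, if_pos h]

lemma exX_odd (p : ℕ) (ξ : Fc m r → ZMod 2) (i j : ℕ) (h : (i + j + p) % 2 = 1) :
    exX p ξ i j = 0 := by
  unfold exX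
  split_ifs
  · omega
  · rfl
  · rfl

lemma exX_rim (p : ℕ) (ξ : Fc m r → ZMod 2) (hξ : ∀ f, Rim f → ξ f = 0) (i j : ℕ)
    (h : i = 0 ∨ m ≤ i ∨ j = 0 ∨ r ≤ j) : exX p ξ i j = 0 := by
  unfold exX
  split_ifs with h1 h2
  · refine hξ _ ?_
    show i = 0 ∨ i = m ∨ j = 0 ∨ j = r
    omega
  · rfl
  · rfl

/-- The rectangle sums of a difference. -/
lemma R_dx (p : ℕ) (ξ : Fc m r → ZMod 2) (hξ : ∀ f, Rim f → ξ f = 0) (i j : ℕ) :
    R (dx p ξ) i j = exX p ξ i j := by
  refine R_unique (dx p ξ) (exX p ξ) (fun j => exX_rim p ξ hξ _ _ (Or.inl rfl))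
    (fun i => exX_rim p ξ hξ _ _ (Or.inr (Or.inr (Or.inl rfl)))) ?_ i j
  intro i j
  by_cases h : i < m ∧ j < r
  · obtain ⟨h1, h2⟩ := h
    have e := ext0_eq (dx p ξ) (⟨i, h1⟩, ⟨j, h2⟩)
    have e' : ext0 (dx p ξ) i j = dx p ξ (⟨i, h1⟩, ⟨j, h2⟩) := e
    rw [e']
    unfold dx
    by_cases hv : (i + j + p) % 2 = 0
    · have e1 : px p ((⟨i, h1⟩, ⟨j, h2⟩) : Vt m r) = fsw (⟨i, h1⟩, ⟨j, h2⟩) := if_pos hv
      have e2 : qx p ((⟨i, h1⟩, ⟨j, h2⟩) : Vt m r) = fne (⟨i, h1⟩, ⟨j, h2⟩) := if_pos hv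
      rw [e1, e2, exX_odd p ξ i (j + 1) (by omega), exX_odd p ξ (i + 1) j (by omega), add_zero,
        add_zero, add_comm]
      have g1 : exX p ξ i j = ξ (fsw (⟨i, h1⟩, ⟨j, h2⟩)) :=
        exX_val p ξ (fsw (⟨i, h1⟩, ⟨j, h2⟩)) hv
      have g2 : exX p ξ (i + 1) (j + 1) = ξ (fne (⟨i, h1⟩, ⟨j, h2⟩)) :=
        exX_val p ξ (fne (⟨i, h1⟩, ⟨j, h2⟩)) (by show (i + 1 + (j + 1) + p) % 2 = 0; omega)
      rw [g1, g2]
    · have e1 : px p ((⟨i, h1⟩, ⟨j, h2⟩) : Vt m r) = fse (⟨i, h1⟩, ⟨j, h2⟩) := if_neg hv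
      have e2 : qx p ((⟨i, h1⟩, ⟨j, h2⟩) : Vt m r) = fnw (⟨i, h1⟩, ⟨j, h2⟩) := if_neg hv
      rw [e1, e2, exX_odd p ξ i j (by omega), exX_odd p ξ (i + 1) (j + 1) (by omega), zero_add,
        add_zero, add_comm]
      have g1 : exX p ξ i (j + 1) = ξ (fnw (⟨i, h1⟩, ⟨j, h2⟩)) :=
        exX_val p ξ (fnw (⟨i, h1⟩, ⟨j, h2⟩)) (by show (i + (j + 1) + p) % 2 = 0; omega)
      have g2 : exX p ξ (i + 1) j = ξ (fse (⟨i, h1⟩, ⟨j, h2⟩)) :=
        exX_val p ξ (fse (⟨i, h1⟩, ⟨j, h2⟩)) (by show (i + 1 + j + p) % 2 = 0; omega)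
      rw [g1, g2]
  · have e : ext0 (dx p ξ) i j = 0 := by
      unfold ext0
      refine Finset.sum_eq_zero fun v _ => if_neg ?_
      rintro ⟨h1, h2⟩
      exact h ⟨h1 ▸ v.1.2, h2 ▸ v.2.2⟩
    rw [e]
    rcases not_and_or.1 h with h1 | h1
    · rw [exX_rim p ξ hξ (i + 1) (j + 1) (by omega), exX_rim p ξ hξ i (j + 1) (by omega),
        exX_rim p ξ hξ (i + 1) j (by omega), exX_rim p ξ hξ i j (by omega)]
      rfl
    · rw [exX_rim p ξ hξ (i + 1) (j + 1) (by omega), exX_rim p ξ hξ i (j + 1) (by omega),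
        exX_rim p ξ hξ (i + 1) j (by omega), exX_rim p ξ hξ i j (by omega)]
      rfl

/-- Differences are closed. -/
lemma cl_dx (p : ℕ) (ξ : Fc m r → ZMod 2) (hξ : ∀ f, Rim f → ξ f = 0) (f : Fc m r)
    (hf : (f.1.val + f.2.val + p) % 2 = 1) : cl p (dx p ξ) f = 0 := by
  rw [cl_odd p _ f hf, R_dx p ξ hξ, R_dx p ξ hξ, R_dx p ξ hξ, R_dx p ξ hξ,
    exX_odd p ξ (f.1.val + 1) (f.2.val + 1) (by omega)]
  have g1 : exX p ξ (f.1.val - 1) (f.2.val + 1) = 0 := by
    rcases Nat.eq_zero_or_pos f.1.val with h | h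
    · exact exX_rim p ξ hξ _ _ (by omega)
    · exact exX_odd p ξ _ _ (by omega)
  have g2 : exX p ξ (f.1.val + 1) (f.2.val - 1) = 0 := by
    rcases Nat.eq_zero_or_pos f.2.val with h | h
    · exact exX_rim p ξ hξ _ _ (by omega)
    · exact exX_odd p ξ _ _ (by omega)
  have g3 : exX p ξ (f.1.val - 1) (f.2.val - 1) = 0 := by
    rcases Nat.eq_zero_or_pos f.1.val with h | h
    · exact exX_rim p ξ hξ _ _ (by omega)
    rcases Nat.eq_zero_or_pos f.2.val with h' | h'
    · exact exX_rim p ξ hξ _ _ (by omega)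
    exact exX_odd p ξ _ _ (by omega)
  rw [g1, g2, g3]
  rfl

end Vale.Agent.P145.FB.AsD
end

section

/-!
P145, block F-B, (A): positive association of the open bonds with positive spins, abstract finite
graph theorem. `X` are the sites, `B` the bonds with ends `p`, `q`, `bd` the wired sites.
Given the spins, the open bonds are an FK model with `q = 2` on the positive sites and one on the
negative sites; the weight of the spins is `F S * F Sᶜ` with `F` log-supermodular.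
-/

namespace Vale.Agent.P145.FB

open Finset

set_option linter.unusedSectionVars false

section AsFin

variable {X B : Type*} [Fintype X] [DecidableEq X] [Fintype B] [DecidableEq B]
  (bd : X → Prop) [DecidablePred bd] (p q : B → X)

/-- Spin configurations, pinned on `bd`, constant along the bonds of `om`. -/
def KW (om : Finset B) : Finset (X → Bool) :=
  univ.filter (fun xi : X → Bool => (∀ x, bd x → xi x = false) ∧
    ∀ v ∈ om, xi (p v) = xi (q v))

/-- Number of spin configurations, pinned on `bd`, constant along the bonds of `om`. -/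
def NW (om : Finset B) : ℝ := ((KW bd p q om).card : ℝ)

/-- Joint weight of the spins and of the set of open bonds. -/
noncomputable def Jw (c : ℝ) (tau : X → Bool) (om : Finset B) : ℝ :=
  (∏ v, if v ∈ om then (if tau (p v) = tau (q v) then (2 : ℝ) else 0) else
    (if tau (p v) = tau (q v) then c - 1 else 1)) * NW bd p q om

variable {bd p q}

lemma mem_KW {om : Finset B} {xi : X → Bool} : xi ∈ KW bd p q om ↔
    (∀ x, bd x → xi x = false) ∧ ∀ v ∈ om, xi (p v) = xi (q v) := by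
  simp only [KW, mem_filter, mem_univ, true_and]

lemma KW_xor {om : Finset B} {x y : X → Bool} (hx : x ∈ KW bd p q om) (hy : y ∈ KW bd p q om) :
    (fun i => xor (x i) (y i)) ∈ KW bd p q om := by
  rw [mem_KW] at *
  exact ⟨fun i hi => by simp [hx.1 i hi, hy.1 i hi], fun v hv => by
    simp only [hx.2 v hv, hy.2 v hv]⟩

lemma KW_anti {a b : Finset B} (h : a ⊆ b) : KW bd p q b ⊆ KW bd p q a := by
  intro x hx
  rw [mem_KW] at *
  exact ⟨hx.1, fun v hv => hx.2 v (h hv)⟩

lemma NW_pos (om : Finset B) : 0 < NW bd p q om := by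
  unfold NW
  have : (fun _ => false) ∈ KW bd p q om := by
    rw [mem_KW]
    exact ⟨fun _ _ => rfl, fun _ _ => rfl⟩
  exact_mod_cast Finset.card_pos.mpr ⟨_, this⟩

/-- Log-supermodularity. -/
lemma NW_super (a b : Finset B) :
    NW bd p q a * NW bd p q b ≤ NW bd p q (a ∩ b) * NW bd p q (a ∪ b) := by
  classical
  set Pr : (X → Bool) → Prop := fun w => ∃ x ∈ KW bd p q a, (fun i => xor (x i) (w i)) ∈ KW bd p q b
    with hPr
  let r : (X → Bool) → (X → Bool) := fun w => if h : Pr w then h.choose else fun _ => false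
  have hr : ∀ w, Pr w → r w ∈ KW bd p q a ∧ (fun i => xor (r w i) (w i)) ∈ KW bd p q b := by
    intro w hw
    have h1 : r w = hw.choose := by simp only [r, dif_pos hw]
    rw [h1]
    exact hw.choose_spec
  have key : ((KW bd p q a) ×ˢ (KW bd p q b)).card ≤
      ((KW bd p q (a ∩ b)) ×ˢ (KW bd p q (a ∪ b))).card := by
    refine Finset.card_le_card_of_injOn
      (fun z => ((fun i => xor (z.1 i) (z.2 i)),
        (fun i => xor (z.1 i) (r (fun j => xor (z.1 j) (z.2 j)) i)))) ?_ ?_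
    · rintro ⟨x, y⟩ hz
      simp only [coe_product, Set.mem_prod, mem_coe] at hz
      obtain ⟨hx, hy⟩ := hz
      have hP : Pr (fun j => xor (x j) (y j)) := by
        refine ⟨x, hx, ?_⟩
        have : (fun i => xor (x i) (xor (x i) (y i))) = y := by
          funext i
          simp
        rw [this]
        exact hy
      obtain ⟨h1, h2⟩ := hr _ hP
      simp only [coe_product, Set.mem_prod, mem_coe]
      refine ⟨?_, ?_⟩
      · exact KW_xor (KW_anti inter_subset_left hx) (KW_anti inter_subset_right hy)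
      · have h3 := KW_xor hx h1
        have h4 := KW_xor hy h2
        have h5 : (fun i => xor (y i) (xor (r (fun j => xor (x j) (y j)) i) (xor (x i) (y i)))) =
            (fun i => xor (x i) (r (fun j => xor (x j) (y j)) i)) := by
          funext i
          cases x i <;> cases y i <;> simp
        rw [h5] at h4
        rw [mem_KW] at h3 h4 ⊢
        refine ⟨h3.1, fun v hv => ?_⟩
        rcases mem_union.mp hv with hv | hv
        · exact h3.2 v hv
        · exact h4.2 v hv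
    · rintro ⟨x, y⟩ _ ⟨x', y'⟩ _ h
      simp only [Prod.mk.injEq] at h
      obtain ⟨h1, h2⟩ := h
      rw [h1] at h2
      have hx : x = x' := by
        funext i
        have := congrFun h2 i
        revert this
        cases x i <;> cases x' i <;> cases r (fun j => xor (x' j) (y' j)) i <;> simp
      subst hx
      have hy : y = y' := by
        funext i
        have := congrFun h1 i
        revert this
        cases x i <;> cases y i <;> cases y' i <;> simp
      rw [hy]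
  rw [card_product, card_product] at key
  unfold NW
  exact_mod_cast key

lemma NW_insert (e : B) (a : Finset B) : NW bd p q a ≤ 2 * NW bd p q (insert e a) := by
  classical
  by_cases h : ∃ x0 ∈ KW bd p q a, x0 (p e) ≠ x0 (q e)
  · obtain ⟨x0, h0, h1⟩ := h
    have key : (KW bd p q a).card ≤ ((KW bd p q (insert e a)) ×ˢ (univ : Finset Bool)).card := by
      refine Finset.card_le_card_of_injOn
        (fun x => if x (p e) = x (q e) then (x, true) else ((fun i => xor (x i) (x0 i)), false))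
        ?_ ?_
      · intro x hx
        simp only [mem_coe] at hx
        by_cases hh : x (p e) = x (q e)
        · simp only [hh, if_true, coe_product, Set.mem_prod, mem_coe, mem_univ, and_true]
          rw [mem_KW] at hx ⊢
          refine ⟨hx.1, fun v hv => ?_⟩
          rcases mem_insert.mp hv with rfl | hv
          · exact hh
          · exact hx.2 v hv
        · simp only [hh, if_false, coe_product, Set.mem_prod, mem_coe, mem_univ, and_true]
          have h2 := KW_xor hx h0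
          rw [mem_KW] at h2 ⊢
          refine ⟨h2.1, fun v hv => ?_⟩
          rcases mem_insert.mp hv with rfl | hv
          · revert hh h1
            cases x (p v) <;> cases x (q v) <;> cases x0 (p v) <;> cases x0 (q v) <;> simp
          · exact h2.2 v hv
      · intro x _ x' _ h
        simp only at h
        split_ifs at h with h3 h4 h4
        · exact (Prod.mk.inj h).1
        · simp at h
        · simp at h
        · have h5 := (Prod.mk.inj h).1
          funext i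
          have := congrFun h5 i
          revert this
          cases x i <;> cases x' i <;> cases x0 i <;> simp
    rw [card_product] at key
    have h2 : (univ : Finset Bool).card = 2 := rfl
    rw [h2] at key
    unfold NW
    have : ((KW bd p q a).card : ℝ) ≤ (((KW bd p q (insert e a)).card * 2 : ℕ) : ℝ) := by
      exact_mod_cast key
    push_cast at this
    linarith only [this]
  · push Not at h
    have h1 : KW bd p q a ⊆ KW bd p q (insert e a) := by
      intro x hx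
      have h2 := h x hx
      rw [mem_KW] at hx ⊢
      refine ⟨hx.1, fun v hv => ?_⟩
      rcases mem_insert.mp hv with rfl | hv
      · exact h2
      · exact hx.2 v hv
    have h3 : NW bd p q a ≤ NW bd p q (insert e a) := by
      unfold NW
      exact_mod_cast Finset.card_le_card h1
    have h4 := NW_pos (bd := bd) (p := p) (q := q) (insert e a)
    linarith

/-- Decoupling of bonds between positive sites and bonds between negative sites. -/
lemma NW_dec (tau : X → Bool) (a b : Finset B) (ha : ∀ v ∈ a, tau (p v) = true ∧ tau (q v) = true)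
    (hb : ∀ v ∈ b, tau (p v) = false ∧ tau (q v) = false) :
    NW bd p q (a ∪ b) * NW bd p q ∅ = NW bd p q a * NW bd p q b := by
  classical
  have key : ((KW bd p q (a ∪ b)) ×ˢ (KW bd p q ∅)).card =
      ((KW bd p q a) ×ˢ (KW bd p q b)).card := by
    refine Finset.card_nbij'
      (fun z => ((fun i => if tau i then z.1 i else z.2 i), (fun i => if tau i then z.2 i else z.1 i)))
      (fun z => ((fun i => if tau i then z.1 i else z.2 i), (fun i => if tau i then z.2 i else z.1 i)))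
      ?_ ?_ ?_ ?_
    · rintro ⟨x, y⟩ hz
      simp only [coe_product, Set.mem_prod, mem_coe, mem_KW] at hz ⊢
      obtain ⟨⟨hx, hx'⟩, hy, -⟩ := hz
      refine ⟨⟨fun i hi => ?_, fun v hv => ?_⟩, fun i hi => ?_, fun v hv => ?_⟩
      · simp [hx i hi, hy i hi]
      · obtain ⟨h1, h2⟩ := ha v hv
        simp only [h1, h2, if_true]
        exact hx' v (mem_union_left _ hv)
      · simp [hx i hi, hy i hi]
      · obtain ⟨h1, h2⟩ := hb v hv
        simp only [h1, h2]
        exact hx' v (mem_union_right _ hv)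
    · rintro ⟨x, y⟩ hz
      simp only [coe_product, Set.mem_prod, mem_coe, mem_KW] at hz ⊢
      obtain ⟨⟨hx, hx'⟩, hy, hy'⟩ := hz
      refine ⟨⟨fun i hi => ?_, fun v hv => ?_⟩, fun i hi => ?_, fun v hv => ?_⟩
      · simp [hx i hi, hy i hi]
      · rcases mem_union.mp hv with hv | hv
        · obtain ⟨h1, h2⟩ := ha v hv
          simp only [h1, h2, if_true]
          exact hx' v hv
        · obtain ⟨h1, h2⟩ := hb v hv
          simp only [h1, h2]
          exact hy' v hv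
      · simp [hx i hi, hy i hi]
      · simp at hv
    · rintro ⟨x, y⟩ _
      simp only [Prod.mk.injEq]
      refine ⟨?_, ?_⟩ <;> funext i <;> cases tau i <;> simp
    · rintro ⟨x, y⟩ _
      simp only [Prod.mk.injEq]
      refine ⟨?_, ?_⟩ <;> funext i <;> cases tau i <;> simp
  rw [card_product, card_product] at key
  unfold NW
  exact_mod_cast key

/-! ### The FK weight on a set of bonds -/

variable (bd p q)

/-- FK weight of the open set `a` in the bond set `A`. -/
noncomputable def gw (c : ℝ) (A a : Finset B) : ℝ :=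
  if a ⊆ A then 2 ^ a.card * NW bd p q a * (c - 1) ^ (A \ a).card else 0

variable {bd p q}

lemma gw_nonneg {c : ℝ} (hc : 1 ≤ c) (A a : Finset B) : 0 ≤ gw bd p q c A a := by
  unfold gw
  have h1 := NW_pos (bd := bd) (p := p) (q := q) a
  have h2 : 0 ≤ c - 1 := by linarith
  split_ifs
  · (clear * - h1 hc; positivity)
  · exact le_rfl

lemma gw_super {c : ℝ} (hc : 1 ≤ c) (A A' a a' : Finset B) :
    gw bd p q c A a * gw bd p q c A' a' ≤
      gw bd p q c (A ∩ A') (a ∩ a') * gw bd p q c (A ∪ A') (a ∪ a') := by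
  by_cases h1 : a ⊆ A
  · by_cases h2 : a' ⊆ A'
    · have h3 : a ∩ a' ⊆ A ∩ A' := inter_subset_inter h1 h2
      have h4 : a ∪ a' ⊆ A ∪ A' := union_subset_union h1 h2
      unfold gw
      rw [if_pos h1, if_pos h2, if_pos h3, if_pos h4]
      have e1 : a.card + a'.card = (a ∩ a').card + (a ∪ a').card := by
        have := card_union_add_card_inter a a'
        omega
      have e2 : (A \ a).card + (A' \ a').card =
          ((A ∩ A') \ (a ∩ a')).card + ((A ∪ A') \ (a ∪ a')).card := by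
        rw [card_sdiff_of_subset h1, card_sdiff_of_subset h2, card_sdiff_of_subset h3,
          card_sdiff_of_subset h4]
        have := card_union_add_card_inter A A'
        have := card_le_card h1
        have := card_le_card h2
        have := card_le_card h3
        have := card_le_card h4
        omega
      have h0 : 0 ≤ c - 1 := by linarith only [hc]
      calc 2 ^ a.card * NW bd p q a * (c - 1) ^ (A \ a).card *
            (2 ^ a'.card * NW bd p q a' * (c - 1) ^ (A' \ a').card)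
          = 2 ^ (a.card + a'.card) * (c - 1) ^ ((A \ a).card + (A' \ a').card) *
            (NW bd p q a * NW bd p q a') := by ring
        _ ≤ 2 ^ (a.card + a'.card) * (c - 1) ^ ((A \ a).card + (A' \ a').card) *
            (NW bd p q (a ∩ a') * NW bd p q (a ∪ a')) :=
          mul_le_mul_of_nonneg_left (NW_super a a') (by (clear * - hc; positivity))
        _ = _ := by
          rw [e1, e2]
          ring
    · have : gw bd p q c A' a' = 0 := by
        unfold gw
        rw [if_neg h2]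
      rw [this, mul_zero]
      exact mul_nonneg (gw_nonneg hc _ _) (gw_nonneg hc _ _)
  · have : gw bd p q c A a = 0 := by
      unfold gw
      rw [if_neg h1]
    rw [this, zero_mul]
    exact mul_nonneg (gw_nonneg hc _ _) (gw_nonneg hc _ _)

variable (bd p q)

/-- FK sum of a function over the open sets in the bond set `A`. -/
noncomputable def GS (c : ℝ) (A : Finset B) (f : Finset B → ℝ) : ℝ := ∑ a, gw bd p q c A a * f a

variable {bd p q}

lemma GS_powerset (c : ℝ) (A : Finset B) (f : Finset B → ℝ) :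
    GS bd p q c A f = ∑ a ∈ A.powerset, gw bd p q c A a * f a := by
  unfold GS
  symm
  apply Finset.sum_subset (subset_univ _)
  intro a _ ha
  rw [mem_powerset] at ha
  unfold gw
  rw [if_neg ha, zero_mul]

lemma GS_pos {c : ℝ} (hc : 1 ≤ c) (A : Finset B) : 0 < GS bd p q c A (fun _ => 1) := by
  unfold GS
  apply Finset.sum_pos'
  · intro a _
    rw [mul_one]
    exact gw_nonneg hc _ _
  · refine ⟨A, mem_univ _, ?_⟩
    unfold gw
    have h1 := NW_pos (bd := bd) (p := p) (q := q) A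
    simp only [Subset.refl, if_true, sdiff_self, bot_eq_empty, card_empty, pow_zero, mul_one]
    positivity

lemma GS_insert {c : ℝ} (hc : 1 ≤ c) (A : Finset B) (e : B) :
    GS bd p q c A (fun _ => 1) ≤ GS bd p q c (insert e A) (fun _ => 1) := by
  by_cases he : e ∈ A
  · rw [insert_eq_of_mem he]
  · rw [GS_powerset, GS_powerset, Finset.sum_powerset_insert he, ← Finset.sum_add_distrib]
    refine Finset.sum_le_sum (fun a ha => ?_)
    rw [mem_powerset] at ha
    have hea : e ∉ a := fun h => he (ha h)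
    have h1 : a ⊆ insert e A := ha.trans (subset_insert _ _)
    have h2 : insert e a ⊆ insert e A := insert_subset_insert _ ha
    unfold gw
    rw [if_pos ha, if_pos h1, if_pos h2]
    have e1 : (insert e A \ a).card = (A \ a).card + 1 := by
      rw [card_sdiff_of_subset h1, card_sdiff_of_subset ha, card_insert_of_notMem he]
      have := card_le_card ha
      omega
    have e2 : (insert e A \ insert e a).card = (A \ a).card := by
      rw [card_sdiff_of_subset h2, card_sdiff_of_subset ha, card_insert_of_notMem he,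
        card_insert_of_notMem hea]
      omega
    rw [e1, e2, card_insert_of_notMem hea]
    have h3 := NW_insert (bd := bd) (p := p) (q := q) e a
    have h0 : 0 ≤ c - 1 := by linarith only [hc]
    have h5 := NW_pos (bd := bd) (p := p) (q := q) a
    have h4 : 0 ≤ (2 : ℝ) ^ a.card * (c - 1) ^ (A \ a).card := by (clear * - hc; positivity)
    have h6 := mul_le_mul_of_nonneg_left h3 h4
    have h7 : 0 ≤ (2 : ℝ) ^ a.card * (c - 1) ^ (A \ a).card * (NW bd p q a * (c - 1)) := by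
      (clear * - hc h5; positivity)
    calc 2 ^ a.card * NW bd p q a * (c - 1) ^ (A \ a).card * 1
        = 2 ^ a.card * (c - 1) ^ (A \ a).card * NW bd p q a := by ring
      _ ≤ 2 ^ a.card * (c - 1) ^ (A \ a).card * (NW bd p q a * (c - 1)) +
          2 ^ a.card * (c - 1) ^ (A \ a).card * (2 * NW bd p q (insert e a)) := by linarith only [h6, h7]
      _ = _ := by ring

lemma GS_mono {c : ℝ} (hc : 1 ≤ c) {A A' : Finset B} (h : A ⊆ A') :
    GS bd p q c A (fun _ => 1) ≤ GS bd p q c A' (fun _ => 1) := by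
  have key : ∀ D : Finset B, GS bd p q c A (fun _ => 1) ≤ GS bd p q c (A ∪ D) (fun _ => 1) := by
    intro D
    induction D using Finset.induction_on with
    | empty => simp
    | insert e D _ ih =>
      rw [union_insert]
      exact ih.trans (GS_insert hc _ _)
  have := key A'
  rwa [union_eq_right.mpr h] at this

lemma GS_super {c : ℝ} (hc : 1 ≤ c) (A A' : Finset B) :
    GS bd p q c A (fun _ => 1) * GS bd p q c A' (fun _ => 1) ≤
      GS bd p q c (A ∩ A') (fun _ => 1) * GS bd p q c (A ∪ A') (fun _ => 1) := by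
  unfold GS
  simp only [mul_one]
  exact four_functions_theorem_univ _ _ _ _ (fun a => gw_nonneg hc _ _)
    (fun a => gw_nonneg hc _ _) (fun a => gw_nonneg hc _ _) (fun a => gw_nonneg hc _ _)
    (fun a a' => gw_super hc A A' a a')

lemma GS_holley {c : ℝ} (hc : 1 ≤ c) {A A' : Finset B} (h : A ⊆ A') {f : Finset B → ℝ}
    (hf0 : 0 ≤ f) (hf : Monotone f) :
    GS bd p q c A f * GS bd p q c A' (fun _ => 1) ≤
      GS bd p q c A (fun _ => 1) * GS bd p q c A' f := by
  unfold GS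
  simp only [mul_one]
  refine four_functions_theorem_univ _ _ _ _ (fun a => mul_nonneg (gw_nonneg hc _ _) (hf0 _))
    (fun a => gw_nonneg hc _ _) (fun a => gw_nonneg hc _ _)
    (fun a => mul_nonneg (gw_nonneg hc _ _) (hf0 _)) (fun a a' => ?_)
  have h1 := gw_super (bd := bd) (p := p) (q := q) hc A A' a a'
  rw [inter_eq_left.mpr h, union_eq_right.mpr h] at h1
  have h2 : f a ≤ f (a ⊔ a') := hf le_sup_left
  calc gw bd p q c A a * f a * gw bd p q c A' a'
      = (gw bd p q c A a * gw bd p q c A' a') * f a := by ring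
    _ ≤ (gw bd p q c A (a ∩ a') * gw bd p q c A' (a ∪ a')) * f (a ⊔ a') :=
      mul_le_mul h1 h2 (hf0 _) (mul_nonneg (gw_nonneg hc _ _) (gw_nonneg hc _ _))
    _ = gw bd p q c A (a ⊓ a') * (gw bd p q c A' (a ⊔ a') * f (a ⊔ a')) := by
      rw [inf_eq_inter, sup_eq_union]
      ring

lemma GS_fkg {c : ℝ} (hc : 1 ≤ c) (A : Finset B) {f g : Finset B → ℝ}
    (hf0 : 0 ≤ f) (hg0 : 0 ≤ g) (hf : Monotone f) (hg : Monotone g) :
    GS bd p q c A f * GS bd p q c A g ≤
      GS bd p q c A (fun _ => 1) * GS bd p q c A (fun a => f a * g a) := by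
  have h := fkg f g (gw bd p q c A) (fun a => gw_nonneg hc _ _) hf0 hg0 hf hg (fun a a' => by
    have h1 := gw_super (bd := bd) (p := p) (q := q) hc A A a a'
    rwa [inter_self, union_self] at h1)
  unfold GS
  simpa only [mul_one] using h

/-! ### Spins -/

variable (p q)

/-- Bonds between positive sites. -/
def Ep (tau : X → Bool) : Finset B := univ.filter (fun v => tau (p v) = true ∧ tau (q v) = true)

/-- Bonds between negative sites. -/
def Em (tau : X → Bool) : Finset B := univ.filter (fun v => tau (p v) = false ∧ tau (q v) = false)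

variable {p q}

lemma mem_Ep {tau : X → Bool} {v : B} : v ∈ Ep p q tau ↔ tau (p v) = true ∧ tau (q v) = true := by
  simp only [Ep, mem_filter, mem_univ, true_and]

lemma mem_Em {tau : X → Bool} {v : B} :
    v ∈ Em p q tau ↔ tau (p v) = false ∧ tau (q v) = false := by
  simp only [Em, mem_filter, mem_univ, true_and]

lemma Ep_inf (s t : X → Bool) : Ep p q (s ⊓ t) = Ep p q s ∩ Ep p q t := by
  ext v
  simp only [mem_Ep, mem_inter, Pi.inf_apply]
  cases s (p v) <;> cases s (q v) <;> cases t (p v) <;> cases t (q v) <;> simp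

lemma Ep_sup (s t : X → Bool) : Ep p q s ∪ Ep p q t ⊆ Ep p q (s ⊔ t) := by
  intro v
  simp only [mem_Ep, mem_union, Pi.sup_apply]
  cases s (p v) <;> cases s (q v) <;> cases t (p v) <;> cases t (q v) <;> simp

lemma Em_sup (s t : X → Bool) : Em p q (s ⊔ t) = Em p q s ∩ Em p q t := by
  ext v
  simp only [mem_Em, mem_inter, Pi.sup_apply]
  cases s (p v) <;> cases s (q v) <;> cases t (p v) <;> cases t (q v) <;> simp

lemma Em_inf (s t : X → Bool) : Em p q s ∪ Em p q t ⊆ Em p q (s ⊓ t) := by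
  intro v
  simp only [mem_Em, mem_union, Pi.inf_apply]
  cases s (p v) <;> cases s (q v) <;> cases t (p v) <;> cases t (q v) <;> simp

lemma Ep_mono {s t : X → Bool} (h : s ≤ t) : Ep p q s ⊆ Ep p q t := by
  intro v hv
  rw [mem_Ep] at *
  have h1 := h (p v)
  have h2 := h (q v)
  rw [hv.1] at h1
  rw [hv.2] at h2
  exact ⟨top_le_iff.mp h1, top_le_iff.mp h2⟩

/-- The weight on the agreeing bonds splits. -/
lemma Jw_split (c : ℝ) (tau : X → Bool) (om : Finset B) :
    Jw bd p q c tau om * NW bd p q ∅ =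
      if om ⊆ Ep p q tau ∪ Em p q tau then
        gw bd p q c (Ep p q tau) (om ∩ Ep p q tau) * gw bd p q c (Em p q tau) (om ∩ Em p q tau)
      else 0 := by
  classical
  split_ifs with h
  · have hd : Disjoint (Ep p q tau) (Em p q tau) := by
      rw [Finset.disjoint_left]
      intro v h1 h2
      rw [mem_Ep] at h1
      rw [mem_Em] at h2
      rw [h1.1] at h2
      simp at h2
    have ha : ∀ v ∈ om ∩ Ep p q tau, tau (p v) = true ∧ tau (q v) = true := by
      intro v hv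
      rw [mem_inter, mem_Ep] at hv
      exact hv.2
    have hb : ∀ v ∈ om ∩ Em p q tau, tau (p v) = false ∧ tau (q v) = false := by
      intro v hv
      rw [mem_inter, mem_Em] at hv
      exact hv.2
    have hu : om ∩ Ep p q tau ∪ om ∩ Em p q tau = om := by
      rw [← inter_union_distrib_left]
      exact inter_eq_left.mpr h
    have hN := NW_dec (bd := bd) (p := p) (q := q) tau _ _ ha hb
    rw [hu] at hN
    have hprod : (∏ v, if v ∈ om then (if tau (p v) = tau (q v) then (2 : ℝ) else 0) else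
        (if tau (p v) = tau (q v) then c - 1 else 1)) =
        (2 ^ (om ∩ Ep p q tau).card * (c - 1) ^ (Ep p q tau \ (om ∩ Ep p q tau)).card) *
        (2 ^ (om ∩ Em p q tau).card * (c - 1) ^ (Em p q tau \ (om ∩ Em p q tau)).card) := by
      have e1 : ∀ v, (if v ∈ om then (if tau (p v) = tau (q v) then (2 : ℝ) else 0) else
          (if tau (p v) = tau (q v) then c - 1 else 1)) =
          ((if v ∈ om ∩ Ep p q tau then 2 else 1) *
            (if v ∈ Ep p q tau \ (om ∩ Ep p q tau) then c - 1 else 1)) *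
          ((if v ∈ om ∩ Em p q tau then 2 else 1) *
            (if v ∈ Em p q tau \ (om ∩ Em p q tau) then c - 1 else 1)) := by
        intro v
        by_cases hv : v ∈ om
        · have h1 := h hv
          simp only [mem_union, mem_Ep, mem_Em] at h1
          rcases h1 with ⟨h1, h2⟩ | ⟨h1, h2⟩ <;>
            simp [hv, h1, h2, mem_Ep, mem_Em]
        · cases h1 : tau (p v) <;> cases h2 : tau (q v) <;> simp [hv, h1, h2, mem_Ep, mem_Em]
      rw [Finset.prod_congr rfl (fun v _ => e1 v)]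
      rw [Finset.prod_mul_distrib, Finset.prod_mul_distrib, Finset.prod_mul_distrib]
      simp only [Finset.prod_ite_mem, univ_inter, Finset.prod_const]
    unfold Jw gw
    rw [if_pos inter_subset_right, if_pos inter_subset_right, hprod]
    calc _ = (2 ^ (om ∩ Ep p q tau).card * (c - 1) ^ (Ep p q tau \ (om ∩ Ep p q tau)).card) *
        (2 ^ (om ∩ Em p q tau).card * (c - 1) ^ (Em p q tau \ (om ∩ Em p q tau)).card) *
        (NW bd p q om * NW bd p q ∅) := by ring
      _ = _ := by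
        rw [hN]
        ring
  · have : ∃ v ∈ om, v ∉ Ep p q tau ∪ Em p q tau := by
      by_contra hcon
      push Not at hcon
      exact h hcon
    obtain ⟨v, hv, hv'⟩ := this
    have h1 : tau (p v) ≠ tau (q v) := by
      intro h2
      apply hv'
      simp only [mem_union, mem_Ep, mem_Em]
      cases h3 : tau (p v)
      · right
        exact ⟨rfl, by rw [← h2, h3]⟩
      · left
        exact ⟨rfl, by rw [← h2, h3]⟩
    unfold Jw
    rw [Finset.prod_eq_zero (mem_univ v) (by rw [if_pos hv, if_neg h1])]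
    ring

lemma sum_Jw (c : ℝ) (tau : X → Bool) (f : Finset B → ℝ) :
    (∑ om, Jw bd p q c tau om * f (om.filter (fun v => tau (p v) = true))) * NW bd p q ∅ =
      GS bd p q c (Em p q tau) (fun _ => 1) * GS bd p q c (Ep p q tau) f := by
  classical
  have hd : Disjoint (Ep p q tau) (Em p q tau) := by
    rw [Finset.disjoint_left]
    intro v h1 h2
    rw [mem_Ep] at h1
    rw [mem_Em] at h2
    rw [h1.1] at h2
    simp at h2
  rw [Finset.sum_mul]
  have h1 : ∀ om : Finset B, Jw bd p q c tau om * f (om.filter (fun v => tau (p v) = true)) *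
      NW bd p q ∅ = if om ⊆ Ep p q tau ∪ Em p q tau then
        gw bd p q c (Ep p q tau) (om ∩ Ep p q tau) *
          gw bd p q c (Em p q tau) (om ∩ Em p q tau) * f (om ∩ Ep p q tau) else 0 := by
    intro om
    have h2 := Jw_split (bd := bd) (p := p) (q := q) c tau om
    calc _ = (Jw bd p q c tau om * NW bd p q ∅) * f (om.filter (fun v => tau (p v) = true)) := by
          ring
      _ = _ := by
        rw [h2]
        split_ifs with h
        · have h3 : om.filter (fun v => tau (p v) = true) = om ∩ Ep p q tau := by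
            ext v
            simp only [mem_filter, mem_inter, mem_Ep]
            constructor
            · rintro ⟨hv, hv1⟩
              have h4 := h hv
              simp only [mem_union, mem_Ep, mem_Em] at h4
              rcases h4 with h4 | h4
              · exact ⟨hv, h4⟩
              · rw [hv1] at h4
                simp at h4
            · rintro ⟨hv, hv1⟩
              exact ⟨hv, hv1.1⟩
          rw [h3]
        · rw [zero_mul]
  rw [Finset.sum_congr rfl (fun om _ => h1 om), ← Finset.sum_filter, GS_powerset, GS_powerset,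
    Finset.sum_mul_sum, ← Finset.sum_product']
  refine Finset.sum_nbij' (fun om => (om ∩ Em p q tau, om ∩ Ep p q tau)) (fun z => z.1 ∪ z.2)
    ?_ ?_ ?_ ?_ ?_
  · intro om _
    simp only [mem_product, mem_powerset]
    exact ⟨inter_subset_right, inter_subset_right⟩
  · rintro ⟨b, a⟩ hz
    simp only [mem_product, mem_powerset] at hz
    simp only [mem_filter, mem_univ, true_and]
    exact union_subset (hz.1.trans subset_union_right) (hz.2.trans subset_union_left)
  · intro om hom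
    simp only [mem_filter, mem_univ, true_and] at hom
    show om ∩ Em p q tau ∪ om ∩ Ep p q tau = om
    rw [← inter_union_distrib_left, union_comm]
    exact inter_eq_left.mpr hom
  · rintro ⟨b, a⟩ hz
    simp only [mem_product, mem_powerset] at hz
    obtain ⟨hb, ha⟩ := hz
    simp only [Prod.mk.injEq]
    constructor
    · rw [union_inter_distrib_right, inter_eq_left.mpr hb]
      have : a ∩ Em p q tau = ∅ := by
        rw [← disjoint_iff_inter_eq_empty]
        exact hd.mono_left ha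
      rw [this, union_empty]
    · rw [union_inter_distrib_right, inter_eq_left.mpr ha]
      have : b ∩ Ep p q tau = ∅ := by
        rw [← disjoint_iff_inter_eq_empty]
        exact hd.symm.mono_left hb
      rw [this, empty_union]
  · intro om _
    ring

/-- Positive association of the open bonds with positive spins. -/
theorem assoc_fin {c : ℝ} (hc : 1 ≤ c) {f g : Finset B → ℝ} (hf0 : 0 ≤ f) (hg0 : 0 ≤ g)
    (hf : Monotone f) (hg : Monotone g) :
    (∑ tau : X → Bool, ∑ om, Jw bd p q c tau om * f (om.filter (fun v => tau (p v) = true))) *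
      (∑ tau : X → Bool, ∑ om, Jw bd p q c tau om * g (om.filter (fun v => tau (p v) = true))) ≤
    (∑ tau : X → Bool, ∑ om, Jw bd p q c tau om) *
      (∑ tau : X → Bool, ∑ om, Jw bd p q c tau om *
        (f (om.filter (fun v => tau (p v) = true)) *
          g (om.filter (fun v => tau (p v) = true)))) := by
  classical
  have hN := NW_pos (bd := bd) (p := p) (q := q) ∅
  -- the sums over the bonds
  have hS : ∀ h : Finset B → ℝ, (∑ tau : X → Bool, ∑ om, Jw bd p q c tau om *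
      h (om.filter (fun v => tau (p v) = true))) * NW bd p q ∅ =
      ∑ tau : X → Bool, GS bd p q c (Em p q tau) (fun _ => 1) * GS bd p q c (Ep p q tau) h := by
    intro h
    rw [Finset.sum_mul]
    exact Finset.sum_congr rfl (fun tau _ => sum_Jw c tau h)
  have hf' := hS f
  have hg' := hS g
  have hfg' := hS (fun a => f a * g a)
  have h1' := hS (fun _ => 1)
  simp only [mul_one] at h1'
  set Fp : (X → Bool) → ℝ := fun tau => GS bd p q c (Ep p q tau) (fun _ => 1) with hFp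
  set Fm : (X → Bool) → ℝ := fun tau => GS bd p q c (Em p q tau) (fun _ => 1) with hFm
  have hFp0 : ∀ tau, 0 < Fp tau := fun tau => GS_pos hc _
  have hFm0 : ∀ tau, 0 < Fm tau := fun tau => GS_pos hc _
  have hG0 : ∀ (A : Finset B) (h : Finset B → ℝ), 0 ≤ h → 0 ≤ GS bd p q c A h := fun A h h0 =>
    Finset.sum_nonneg (fun a _ => mul_nonneg (gw_nonneg hc _ _) (h0 a))
  -- the conditional expectations
  have hmon : ∀ h : Finset B → ℝ, 0 ≤ h → Monotone h →
      Monotone (fun tau : X → Bool => GS bd p q c (Ep p q tau) h / Fp tau) := by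
    intro h h0 hm s t hst
    have := GS_holley (bd := bd) (p := p) (q := q) hc (Ep_mono (p := p) (q := q) hst) h0 hm
    show GS bd p q c (Ep p q s) h / Fp s ≤ GS bd p q c (Ep p q t) h / Fp t
    rw [div_le_div_iff₀ (hFp0 s) (hFp0 t)]
    calc _ ≤ _ := this
      _ = _ := by ring
  have hμ : ∀ s t : X → Bool, Fm s * Fp s * (Fm t * Fp t) ≤
      Fm (s ⊓ t) * Fp (s ⊓ t) * (Fm (s ⊔ t) * Fp (s ⊔ t)) := by
    intro s t
    have a1 : Fp s * Fp t ≤ Fp (s ⊓ t) * Fp (s ⊔ t) := by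
      have b1 := GS_super (bd := bd) (p := p) (q := q) hc (Ep p q s) (Ep p q t)
      have b2 := GS_mono (bd := bd) (p := p) (q := q) hc (Ep_sup (p := p) (q := q) s t)
      simp only [hFp]
      rw [Ep_inf]
      exact b1.trans (mul_le_mul_of_nonneg_left b2 (GS_pos hc _).le)
    have a2 : Fm s * Fm t ≤ Fm (s ⊓ t) * Fm (s ⊔ t) := by
      have b1 := GS_super (bd := bd) (p := p) (q := q) hc (Em p q s) (Em p q t)
      have b2 := GS_mono (bd := bd) (p := p) (q := q) hc (Em_inf (p := p) (q := q) s t)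
      simp only [hFm]
      rw [Em_sup]
      calc _ ≤ _ := b1
        _ ≤ _ := mul_le_mul_of_nonneg_left b2 (GS_pos hc _).le
        _ = _ := by ring
    calc Fm s * Fp s * (Fm t * Fp t) = (Fp s * Fp t) * (Fm s * Fm t) := by ring
      _ ≤ (Fp (s ⊓ t) * Fp (s ⊔ t)) * (Fm (s ⊓ t) * Fm (s ⊔ t)) :=
        mul_le_mul a1 a2 (mul_nonneg (hFm0 _).le (hFm0 _).le)
          (mul_nonneg (hFp0 _).le (hFp0 _).le)
      _ = _ := by ring
  have hfkg := fkg (fun tau : X → Bool => GS bd p q c (Ep p q tau) f / Fp tau)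
    (fun tau : X → Bool => GS bd p q c (Ep p q tau) g / Fp tau) (fun tau => Fm tau * Fp tau)
    (fun tau => mul_nonneg (hFm0 _).le (hFp0 _).le)
    (fun tau => div_nonneg (hG0 _ _ hf0) (hFp0 _).le)
    (fun tau => div_nonneg (hG0 _ _ hg0) (hFp0 _).le) (hmon f hf0 hf) (hmon g hg0 hg) hμ
  have e1 : ∀ h : Finset B → ℝ, ∑ tau : X → Bool, Fm tau * Fp tau *
      (GS bd p q c (Ep p q tau) h / Fp tau) = ∑ tau : X → Bool, Fm tau *
        GS bd p q c (Ep p q tau) h := by
    intro h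
    refine Finset.sum_congr rfl (fun tau _ => ?_)
    have := (hFp0 tau).ne'
    (clear * - this; field_simp)
  have e2 : ∑ tau : X → Bool, Fm tau * Fp tau * (GS bd p q c (Ep p q tau) f / Fp tau *
      (GS bd p q c (Ep p q tau) g / Fp tau)) ≤
      ∑ tau : X → Bool, Fm tau * GS bd p q c (Ep p q tau) (fun a => f a * g a) := by
    refine Finset.sum_le_sum (fun tau _ => ?_)
    have h3 := GS_fkg (bd := bd) (p := p) (q := q) hc (Ep p q tau) hf0 hg0 hf hg
    have h4 : Fm tau * Fp tau * (GS bd p q c (Ep p q tau) f / Fp tau *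
      (GS bd p q c (Ep p q tau) g / Fp tau)) = Fm tau * ((GS bd p q c (Ep p q tau) f *
        GS bd p q c (Ep p q tau) g) / Fp tau) := by
      have := (hFp0 tau).ne'
      (clear * - this; field_simp)
    rw [h4]
    refine mul_le_mul_of_nonneg_left ?_ (hFm0 _).le
    rw [div_le_iff₀ (hFp0 tau)]
    calc _ ≤ _ := h3
      _ = _ := by ring
  rw [e1, e1] at hfkg
  have hW0 : 0 ≤ ∑ tau : X → Bool, Fm tau * Fp tau :=
    Finset.sum_nonneg (fun tau _ => mul_nonneg (hFm0 _).le (hFp0 _).le)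
  have hfin : (∑ tau : X → Bool, Fm tau * GS bd p q c (Ep p q tau) f) *
      (∑ tau : X → Bool, Fm tau * GS bd p q c (Ep p q tau) g) ≤
      (∑ tau : X → Bool, Fm tau * Fp tau) *
      ∑ tau : X → Bool, Fm tau * GS bd p q c (Ep p q tau) (fun a => f a * g a) :=
    hfkg.trans (mul_le_mul_of_nonneg_left e2 hW0)
  rw [← hf', ← hg', ← hfg', ← h1'] at hfin
  have hN2 : 0 < NW bd p q ∅ * NW bd p q ∅ := mul_pos hN hN
  refine le_of_mul_le_mul_right ?_ hN2
  calc _ = _ := by ring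
    _ ≤ _ := hfin
    _ = _ := by ring

end AsFin

end Vale.Agent.P145.FB
end

section

/-!
Inner approximation: `V D φ` is the limit of `V` of the inner sets `{dd D > s}`.
-/

namespace Vale.Agent.P145.PT

open MeasureTheory Set Filter Topology

/-- A test function on `D` is a test function on an inner set. -/
theorem TestOn.inner {D : Set (ℝ × ℝ)} (hD : IsOpen D) (hb : Bornology.IsBounded D)
    {f : ℝ × ℝ → ℝ} (hf : TestOn D f) : ∃ s : ℝ, 0 < s ∧ TestOn {x | s < dd D x} f := by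
  obtain ⟨r, hr, hz⟩ := exists_low hD hb hf
  refine ⟨r / 2, by linarith only [hr], hf.1, hf.2.1, ?_⟩
  have h : tsupport f ⊆ {x | r ≤ dd D x} := by
    refine closure_minimal ?_ (isClosed_le continuous_const (dd_cont D))
    intro x hx
    by_contra h
    rw [mem_ofPred_eq, not_le] at h
    exact hx (hz x h.le)
  intro x hx
  have h1 : r ≤ dd D x := h hx
  change r / 2 < dd D x
  linarith

theorem inner_stab {D D' : Set (ℝ × ℝ)} (hD : IsOpen D) (hb : Bornology.IsBounded D)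
    {φ : ℝ × ℝ → ℝ} (hφ : TestOn D' φ) {η : ℝ} (hη : 0 < η) :
    ∃ s : ℝ, 0 < s ∧ V D φ ≤ V {x | s < dd D x} φ + η := by
  have : Nonempty {ψ : ℝ × ℝ → ℝ // TestOn D ψ} := ⟨⟨_, TestOn.zero _⟩⟩
  obtain ⟨ψ, hψ⟩ := exists_lt_of_lt_ciSup (f := fun ψ : {ψ : ℝ × ℝ → ℝ // TestOn D ψ} =>
    (2 * ∫ z, φ z * ψ.1 z) - energy ψ.1) (b := V D φ - η) (by unfold V; linarith)
  obtain ⟨s, hs, hψs⟩ := ψ.2.inner hD hb
  refine ⟨s, hs, ?_⟩
  have hsub : {x | s < dd D x} ⊆ D := fun x hx =>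
    (dd_pos hD hb).1 (hs.trans hx)
  have h1 := le_V (hb.subset hsub) hφ hψs
  linarith

theorem inner_mono {D : Set (ℝ × ℝ)} {s t : ℝ} (h : s ≤ t) :
    {x | t < dd D x} ⊆ {x | s < dd D x} := fun _ hx => lt_of_le_of_lt h hx

end Vale.Agent.P145.PT
end

section

/-!
`V D` is a quadratic form on the test functions; convergence of the characteristic functions of
all single test functions gives the joint convergence in law to the centred Gaussian vector.
-/

namespace Vale.Agent.P145.Dom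

open Finset Filter Topology MeasureTheory ProbabilityTheory Vale.Agent.P145.FP
  Vale.Agent.P145.PT

/-! ### Abstract quadratic forms -/

/-- An additive function on the line with a quadratic bound is linear. -/
theorem lin_of_bound {f : ℝ → ℝ} (hadd : ∀ s t, f (s + t) = f s + f t) {a b : ℝ}
    (hb : ∀ t, |f t| ≤ a + b * t ^ 2) (t : ℝ) : f t = t * f 1 := by
  set F : ℝ →+ ℝ := AddMonoidHom.mk' f hadd with hF
  have hnat : ∀ (n : ℕ) (s : ℝ), f (n * s) = n * f s := by
    intro n s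
    have := map_nsmul F n s
    simpa [hF, nsmul_eq_mul] using this
  have hint : ∀ (n : ℤ) (s : ℝ), f (n * s) = n * f s := by
    intro n s
    have := map_zsmul F n s
    simpa [hF, zsmul_eq_mul] using this
  have hb0 : 0 ≤ a := by
    have := (abs_nonneg _).trans (hb 0)
    simpa only [ge_iff_le, ne_eq, OfNat.ofNat_ne_zero, not_false_eq_true, zero_pow, mul_zero, add_zero] using this
  -- the bound for `g t = f t - t * f 1` on `[0, 1]`
  have hg : ∀ (n : ℕ), (n : ℝ) * |f t - t * f 1| ≤ a + |b| + |f 1| := by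
    intro n
    have h1 : (n : ℝ) * (f t - t * f 1) = f (Int.fract (n * t)) - Int.fract (n * t) * f 1 := by
      have h2 : f (n * t) = f (Int.fract (n * t)) + (⌊(n : ℝ) * t⌋ : ℤ) * f 1 := by
        conv_lhs => rw [← Int.fract_add_floor ((n : ℝ) * t)]
        rw [hadd]
        congr 1
        have := hint ⌊(n : ℝ) * t⌋ 1
        rwa [mul_one] at this
      have h3 := hnat n t
      have h4 : (n : ℝ) * t = Int.fract ((n : ℝ) * t) + (⌊(n : ℝ) * t⌋ : ℤ) :=
        (Int.fract_add_floor _).symm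
      have h5 : (n : ℝ) * (f t - t * f 1) = f (n * t) - ((n : ℝ) * t) * f 1 := by
        rw [h3]; ring
      rw [h5, h2]
      conv_lhs => rw [h4]
      rw [Int.fract_add_intCast, Int.fract_fract, Int.floor_add_intCast, Int.floor_fract]
      push_cast
      ring
    have h6 : (n : ℝ) * |f t - t * f 1| = |(n : ℝ) * (f t - t * f 1)| := by
      rw [abs_mul, Nat.abs_cast]
    rw [h6, h1]
    set u := Int.fract ((n : ℝ) * t) with hu
    have hu0 : 0 ≤ u := Int.fract_nonneg _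
    have hu1 : u < 1 := Int.fract_lt_one _
    have h7 := hb u
    have h8 : |f u - u * f 1| ≤ |f u| + |u * f 1| := abs_sub _ _
    have h9 : |u * f 1| ≤ |f 1| := by
      rw [abs_mul, abs_of_nonneg hu0]
      exact mul_le_of_le_one_left (abs_nonneg _) hu1.le
    have h10 : b * u ^ 2 ≤ |b| := by
      have h11 : u ^ 2 ≤ 1 := by nlinarith only [hu1, hu0]
      calc b * u ^ 2 ≤ |b| * u ^ 2 := mul_le_mul_of_nonneg_right (le_abs_self _) (sq_nonneg _)
        _ ≤ |b| * 1 := mul_le_mul_of_nonneg_left h11 (abs_nonneg _)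
        _ = |b| := mul_one _
    linarith only [h7, h8, h9, h10]
  by_contra hne
  have hpos : 0 < |f t - t * f 1| := abs_pos.2 (sub_ne_zero.2 hne)
  obtain ⟨n, hn⟩ := exists_nat_gt ((a + |b| + |f 1|) / |f t - t * f 1|)
  rw [div_lt_iff₀ hpos] at hn
  exact absurd (hg n) (not_le.2 hn)

section Abstract

variable {E : Type*} [AddCommGroup E] [Module ℝ E] {Q : E → ℝ}
  (hpar : ∀ x y, Q (x + y) + Q (x - y) = 2 * Q x + 2 * Q y)
  (hsm : ∀ (t : ℝ) x, Q (t • x) = t ^ 2 * Q x) (hnn : ∀ x, 0 ≤ Q x)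

include hsm in
theorem par_symm (x y : E) : (Q (x + y) - Q (x - y)) / 4 = (Q (y + x) - Q (y - x)) / 4 := by
  have h1 : Q (y - x) = Q (x - y) := by
    have := hsm (-1) (x - y)
    rw [neg_one_smul, neg_sub] at this
    rw [this]; norm_num
  rw [h1, add_comm x y]

omit [Module ℝ E] in
include hpar in
theorem par_add (x y z : E) : (Q (x + y + z) - Q (x + y - z)) / 4 =
    (Q (x + z) - Q (x - z)) / 4 + (Q (y + z) - Q (y - z)) / 4 := by
  have h1 := hpar (x + y) z
  have h2 := hpar (x - z) y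
  have h3 := hpar x (y + z)
  have h4 := hpar x z
  have h5 := hpar y z
  have e1 : x - z + y = x + y - z := by abel
  have e2 : x - z - y = x - (y + z) := by abel
  have e3 : x + (y + z) = x + y + z := by abel
  rw [e1, e2] at h2
  rw [e3] at h3
  linarith only [h2, h3, h4, h5]

include hpar hsm hnn

theorem par_smul (t : ℝ) (x z : E) : (Q (t • x + z) - Q (t • x - z)) / 4 =
    t * ((Q (x + z) - Q (x - z)) / 4) := by
  have key := lin_of_bound (f := fun t => (Q (t • x + z) - Q (t • x - z)) / 4)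
    (a := Q z / 2) (b := Q x / 2) (fun s t => by
      rw [add_smul]
      exact par_add hpar (s • x) (t • x) z) (fun t => by
      have h1 := hpar (t • x) z
      rw [hsm t x] at h1
      have h2 := hnn (t • x + z)
      have h3 := hnn (t • x - z)
      rw [abs_le]
      constructor <;> linarith only [h1, h2, h3]) t
  simpa only [one_smul] using key

theorem par_sum {ι : Type*} (s : Finset ι) (c : ι → ℝ) (v : ι → E) :
    Q (∑ i ∈ s, c i • v i) = ∑ i ∈ s, ∑ j ∈ s, c i * c j *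
      ((Q (v i + v j) - Q (v i - v j)) / 4) := by
  classical
  set B : E → E → ℝ := fun x y => (Q (x + y) - Q (x - y)) / 4 with hB
  have hz : ∀ z, B 0 z = 0 := fun z => by
    have h := par_smul hpar hsm hnn 0 0 z
    rw [zero_smul, zero_mul] at h
    exact h
  have hsumL : ∀ (u : ι → E) (z : E), B (∑ i ∈ s, c i • u i) z = ∑ i ∈ s, c i * B (u i) z := by
    intro u z
    induction s using Finset.induction_on with
    | empty => rw [Finset.sum_empty, Finset.sum_empty]; exact hz z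
    | insert i s hi ih =>
      rw [Finset.sum_insert hi, Finset.sum_insert hi, ← ih, ← par_smul hpar hsm hnn (c i) (u i) z]
      exact par_add hpar _ _ _
  have hsymm : ∀ x y, B x y = B y x := fun x y => par_symm hsm x y
  have hself : ∀ x, Q x = B x x := fun x => by
    have h1 := hsm 2 x
    have h2 := hsm 0 x
    rw [zero_smul] at h2
    rw [two_smul] at h1
    simp only [hB, sub_self, h1, h2]
    ring
  rw [hself, hsumL]
  refine Finset.sum_congr rfl fun i _ => ?_
  rw [hsymm, hsumL, Finset.mul_sum]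
  refine Finset.sum_congr rfl fun j _ => ?_
  rw [hsymm]
  ring

end Abstract

/-! ### The form `V` -/

theorem energy_smul' {D : Set (ℝ × ℝ)} {ψ : ℝ × ℝ → ℝ} (hψ : TestOn D ψ) (t : ℝ) :
    energy (fun z => t * ψ z) = t ^ 2 * energy ψ := by
  unfold energy
  rw [← integral_const_mul]
  congr 1; funext z
  rw [dx_smul hψ.sm, dy_smul hψ.sm]; ring

theorem energy_par {D : Set (ℝ × ℝ)} {f g : ℝ × ℝ → ℝ} (hf : TestOn D f) (hg : TestOn D g) :
    energy (fun z => f z + g z) + energy (fun z => f z - g z) = 2 * energy f + 2 * energy g := by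
  unfold energy
  rw [← integral_const_mul, ← integral_const_mul, ← integral_add (hf.add hg).intE (hf.sub hg).intE,
    ← integral_add (hf.intE.const_mul 2) (hg.intE.const_mul 2)]
  congr 1; funext z
  have e1 : (fun z => f z - g z) = fun z => f z + (-1) * g z := by funext w; ring
  rw [e1, dx_add hf.sm hg.sm, dy_add hf.sm hg.sm, dx_add hf.sm (hg.smul (-1)).sm,
    dy_add hf.sm (hg.smul (-1)).sm, dx_smul hg.sm, dy_smul hg.sm]
  ring

theorem integral_mul_add {D D' : Set (ℝ × ℝ)} {f g h : ℝ × ℝ → ℝ} (hf : TestOn D f)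
    (hg : TestOn D g) (hh : TestOn D' h) :
    ∫ z, (f z + g z) * h z = (∫ z, f z * h z) + ∫ z, g z * h z := by
  rw [← integral_add (hf.intMul hh.cont) (hg.intMul hh.cont)]
  congr 1; funext z; ring

theorem V_par {D : Set (ℝ × ℝ)} (hD : Bornology.IsBounded D) {φ ψ : ℝ × ℝ → ℝ}
    (hφ : TestOn D φ) (hψ : TestOn D ψ) :
    V D (fun z => φ z + ψ z) + V D (fun z => φ z - ψ z) = 2 * V D φ + 2 * V D ψ := by
  have hneg : ∀ {f : ℝ × ℝ → ℝ}, TestOn D f → ∀ (t : ℝ) (a : ℝ × ℝ → ℝ),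
      ∫ z, f z * (t * a z) = t * ∫ z, f z * a z := by
    intro f _ t a
    rw [← integral_const_mul]
    congr 1; funext z; ring
  have exp1 : ∀ {f a b : ℝ × ℝ → ℝ}, TestOn D f → TestOn D a → TestOn D b →
      ∫ z, f z * (a z + b z) = (∫ z, f z * a z) + ∫ z, f z * b z := by
    intro f a b hf ha hb
    rw [← integral_add (hf.intMul ha.cont) (hf.intMul hb.cont)]
    congr 1; funext z; ring
  have exp2 : ∀ {f a b : ℝ × ℝ → ℝ}, TestOn D f → TestOn D a → TestOn D b →
      ∫ z, f z * (a z - b z) = (∫ z, f z * a z) - ∫ z, f z * b z := by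
    intro f a b hf ha hb
    rw [← integral_sub (hf.intMul ha.cont) (hf.intMul hb.cont)]
    congr 1; funext z; ring
  have exp3 : ∀ {f g a : ℝ × ℝ → ℝ}, TestOn D f → TestOn D g → TestOn D a →
      ∫ z, (f z + g z) * a z = (∫ z, f z * a z) + ∫ z, g z * a z := by
    intro f g a hf hg ha
    rw [← integral_add (hf.intMul ha.cont) (hg.intMul ha.cont)]
    congr 1; funext z; ring
  have exp4 : ∀ {f g a : ℝ × ℝ → ℝ}, TestOn D f → TestOn D g → TestOn D a →
      ∫ z, (f z - g z) * a z = (∫ z, f z * a z) - ∫ z, g z * a z := by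
    intro f g a hf hg ha
    rw [← integral_sub (hf.intMul ha.cont) (hg.intMul ha.cont)]
    congr 1; funext z; ring
  apply le_antisymm
  · -- `V(φ+ψ) ≤ 2 V φ + 2 V ψ - V(φ-ψ)`
    have h1 : V D (fun z => φ z + ψ z) ≤ 2 * V D φ + 2 * V D ψ - V D (fun z => φ z - ψ z) := by
      refine V_le fun a ha => ?_
      rw [le_sub_iff_add_le, add_comm, ← le_sub_iff_add_le]
      refine V_le fun b hb => ?_
      rw [le_sub_iff_add_le]
      have k1 := le_V hD hφ ((ha.add hb).smul (1 / 2))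
      have k2 := le_V hD hψ ((ha.sub hb).smul (1 / 2))
      have e1 := energy_smul' (ha.add hb) (1 / 2)
      have e2 := energy_smul' (ha.sub hb) (1 / 2)
      have e3 := energy_par ha hb
      rw [e1, hneg hφ (1 / 2) (fun z => a z + b z), exp1 hφ ha hb] at k1
      rw [e2, hneg hψ (1 / 2) (fun z => a z - b z), exp2 hψ ha hb] at k2
      rw [exp3 hφ hψ ha, exp4 hφ hψ hb]
      linarith only [k1, k2, e3]
    linarith
  · have h1 : V D φ ≤ (V D (fun z => φ z + ψ z) + V D (fun z => φ z - ψ z) - 2 * V D ψ) / 2 := by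
      refine V_le fun a ha => ?_
      have h2 : V D ψ ≤ (V D (fun z => φ z + ψ z) + V D (fun z => φ z - ψ z) -
          2 * ((2 * ∫ z, φ z * a z) - energy a)) / 2 := by
        refine V_le fun b hb => ?_
        have k1 := le_V hD (hφ.add hψ) (ha.add hb)
        have k2 := le_V hD (hφ.sub hψ) (ha.sub hb)
        have e3 := energy_par ha hb
        rw [exp3 hφ hψ (ha.add hb), exp1 hφ ha hb, exp1 hψ ha hb] at k1
        rw [exp4 hφ hψ (ha.sub hb), exp2 hφ ha hb, exp2 hψ ha hb] at k2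
        linarith
      linarith
    linarith

theorem V_smul {D : Set (ℝ × ℝ)} (hD : Bornology.IsBounded D) {φ : ℝ × ℝ → ℝ}
    (hφ : TestOn D φ) (t : ℝ) : V D (fun z => t * φ z) = t ^ 2 * V D φ := by
  have key : ∀ (t : ℝ), t ≠ 0 → ∀ φ, TestOn D φ → V D (fun z => t * φ z) ≤ t ^ 2 * V D φ := by
    intro t ht φ hφ
    refine V_le fun a ha => ?_
    have k := le_V hD hφ (ha.smul t⁻¹)
    rw [energy_smul' ha] at k
    have e1 : ∫ z, φ z * (t⁻¹ * a z) = t⁻¹ * ∫ z, φ z * a z := by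
      rw [← integral_const_mul]
      congr 1; funext z; ring
    have e2 : ∫ z, t * φ z * a z = t * ∫ z, φ z * a z := by
      rw [← integral_const_mul]
      congr 1; funext z; ring
    rw [e1] at k
    rw [e2]
    have h1 := mul_le_mul_of_nonneg_left k (sq_nonneg t)
    have h2 : t ^ 2 * (2 * (t⁻¹ * ∫ z, φ z * a z) - t⁻¹ ^ 2 * energy a) =
        2 * (t * ∫ z, φ z * a z) - energy a := by
      (clear * - ht; field_simp)
    linarith only [h1, h2]
  rcases eq_or_ne t 0 with rfl | ht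
  · have h0 : (fun z => (0 : ℝ) * φ z) = fun _ => 0 := by funext z; ring
    rw [h0]
    have h1 : V D (fun _ => (0 : ℝ)) ≤ 0 := V_le fun a _ => by
      have := energy_nonneg a
      simp only [zero_mul, integral_zero, mul_zero]
      linarith
    have h2 := V_nonneg hD (TestOn.zero D)
    have h3 : V D (fun _ => (0 : ℝ)) = 0 := le_antisymm h1 h2
    rw [h3]; ring
  · apply le_antisymm (key t ht φ hφ)
    have h1 := key t⁻¹ (inv_ne_zero ht) _ (hφ.smul t)
    have h2 : (fun z => t⁻¹ * (t * φ z)) = φ := by funext z; field_simp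
    rw [h2] at h1
    have h3 := mul_le_mul_of_nonneg_left h1 (sq_nonneg t)
    have h4 : t ^ 2 * (t⁻¹ ^ 2 * V D fun z => t * φ z) = V D fun z => t * φ z := by
      field_simp
    linarith only [h3, h4]

/-- The test functions as a vector space. -/
def testSub (D : Set (ℝ × ℝ)) : Submodule ℝ (ℝ × ℝ → ℝ) where
  carrier := {φ | TestOn D φ}
  add_mem' := fun ha hb => ha.add hb
  zero_mem' := TestOn.zero D
  smul_mem' := fun c _ hx => hx.smul c

/-- `V` of a linear combination. -/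
theorem V_sum {D : Set (ℝ × ℝ)} (hD : Bornology.IsBounded D) {k : ℕ} {φ : Fin k → ℝ × ℝ → ℝ}
    (hφ : ∀ j, TestOn D (φ j)) (x : Fin k → ℝ) :
    V D (fun z => ∑ j, x j * φ j z) = ∑ i, ∑ j, x i * x j * dirCov D (φ i) (φ j) := by
  have key := par_sum (E := testSub D) (Q := fun f => V D f.1)
    (fun f g => V_par hD f.2 g.2) (fun t f => V_smul hD f.2 t) (fun f => V_nonneg hD f.2)
    Finset.univ x (fun j => ⟨φ j, hφ j⟩)
  have e : ((∑ j, x j • (⟨φ j, hφ j⟩ : testSub D) : testSub D) : ℝ × ℝ → ℝ) =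
      fun z => ∑ j, x j * φ j z := by
    funext z
    simp only [AddSubmonoidClass.coe_finsetSum, SetLike.val_smul, Finset.sum_apply, Pi.smul_apply, smul_eq_mul]
  rw [e] at key
  exact key

theorem TestOn.sum {D : Set (ℝ × ℝ)} {k : ℕ} {φ : Fin k → ℝ × ℝ → ℝ}
    (hφ : ∀ j, TestOn D (φ j)) (x : Fin k → ℝ) : TestOn D (fun z => ∑ j, x j * φ j z) := by
  have h : (∑ j, x j • (⟨φ j, hφ j⟩ : testSub D) : testSub D).1 ∈ testSub D := Subtype.property _
  have e : ((∑ j, x j • (⟨φ j, hφ j⟩ : testSub D) : testSub D) : ℝ × ℝ → ℝ) =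
      fun z => ∑ j, x j * φ j z := by
    funext z
    simp only [AddSubmonoidClass.coe_finsetSum, SetLike.val_smul, Finset.sum_apply, Pi.smul_apply, smul_eq_mul]
  rw [e] at h
  exact h

theorem dirCov_symm {D : Set (ℝ × ℝ)} (hD : Bornology.IsBounded D) {φ ψ : ℝ × ℝ → ℝ}
    (hφ : TestOn D φ) (hψ : TestOn D ψ) : dirCov D φ ψ = dirCov D ψ φ :=
  par_symm (E := testSub D) (Q := fun f => V D f.1)
    (fun t f => V_smul hD f.2 t) ⟨φ, hφ⟩ ⟨ψ, hψ⟩

theorem dirCov_dot {D : Set (ℝ × ℝ)} (hD : Bornology.IsBounded D) (c : ℝ) {k : ℕ}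
    {φ : Fin k → ℝ × ℝ → ℝ} (hφ : ∀ j, TestOn D (φ j)) (x : Fin k → ℝ) :
    x ⬝ᵥ (Matrix.of fun i j => c * dirCov D (φ i) (φ j)).mulVec x =
      c * V D (fun z => ∑ j, x j * φ j z) := by
  rw [V_sum hD hφ, Finset.mul_sum]
  simp only [dotProduct, Matrix.mulVec, Matrix.of_apply, Finset.mul_sum]
  exact Finset.sum_congr rfl fun i _ => Finset.sum_congr rfl fun j _ => by ring

theorem dirCov_posSemidef {D : Set (ℝ × ℝ)} (hD : Bornology.IsBounded D) {c : ℝ} (hc : 0 ≤ c)
    {k : ℕ} {φ : Fin k → ℝ × ℝ → ℝ} (hφ : ∀ j, TestOn D (φ j)) :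
    (Matrix.of fun i j => c * dirCov D (φ i) (φ j)).PosSemidef := by
  refine Matrix.PosSemidef.of_dotProduct_mulVec_nonneg ?_ fun θ => ?_
  · ext i j
    simp [Matrix.conjTranspose_apply, dirCov_symm hD (hφ i) (hφ j)]
  · rw [star_trivial, dirCov_dot hD c hφ θ]
    exact mul_nonneg hc (V_nonneg hD (TestOn.sum hφ θ))

/-- Convergence of the characteristic functions of all single test functions gives the joint
convergence in law to the centred Gaussian vector. -/
theorem vec_conv {D : Set (ℝ × ℝ)} (hD : Bornology.IsBounded D) {c : ℝ} (hc : 0 ≤ c)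
    {Ω : ℕ → Type*} [∀ n, MeasurableSpace (Ω n)] (μ : ∀ n, Measure (Ω n))
    [∀ n, IsProbabilityMeasure (μ n)] (X : ∀ n, Ω n → (ℝ × ℝ → ℝ) → ℝ)
    (hadd : ∀ n ω φ ψ, X n ω (fun z => φ z + ψ z) = X n ω φ + X n ω ψ)
    (hsmul : ∀ n ω (a : ℝ) φ, X n ω (fun z => a * φ z) = a * X n ω φ)
    (hm : ∀ n φ, AEMeasurable (fun ω => X n ω φ) (μ n))
    (hch : ∀ φ, TestOn D φ → Tendsto
      (fun n => ∫ ω, Complex.exp ((X n ω φ : ℂ) * Complex.I) ∂μ n) atTop
      (𝓝 (Complex.exp (-((c * V D φ : ℝ) : ℂ) / 2))))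
    (k : ℕ) (φ : Fin k → ℝ × ℝ → ℝ) (hφ : ∀ j, TestOn D (φ j)) :
    (Matrix.of fun i j => c * dirCov D (φ i) (φ j)).PosSemidef ∧
    TendstoInDistribution
      (fun n ω => (WithLp.toLp 2 (fun j => X n ω (φ j)) : EuclideanSpace ℝ (Fin k))) atTop
      (id : EuclideanSpace ℝ (Fin k) → EuclideanSpace ℝ (Fin k)) μ
      (multivariateGaussian 0 (Matrix.of fun i j => c * dirCov D (φ i) (φ j))) := by
  have hpsd := dirCov_posSemidef hD hc hφ
  refine ⟨hpsd, ?_⟩
  have hX : ∀ n, AEMeasurable (fun ω =>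
      (WithLp.toLp 2 (fun j => X n ω (φ j)) : EuclideanSpace ℝ (Fin k))) (μ n) := by
    intro n
    exact (WithLp.measurable_toLp 2 (Fin k → ℝ)).comp_aemeasurable
      (aemeasurable_pi_lambda _ fun j => hm n (φ j))
  refine ⟨hX, by fun_prop, ?_⟩
  refine ProbabilityMeasure.tendsto_of_tendsto_charFun fun t => ?_
  have hid : (multivariateGaussian 0 (Matrix.of fun i j => c * dirCov D (φ i) (φ j))).map
      (id : EuclideanSpace ℝ (Fin k) → EuclideanSpace ℝ (Fin k)) =
      multivariateGaussian 0 (Matrix.of fun i j => c * dirCov D (φ i) (φ j)) := Measure.map_id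
  simp only [ProbabilityMeasure.coe_mk, hid]
  rw [charFun_multivariateGaussian hpsd]
  have hF := TestOn.sum hφ (fun j => t j)
  have h1 := hch _ hF
  have h2 : Complex.exp (((inner ℝ t (0 : EuclideanSpace ℝ (Fin k)) : ℝ) : ℂ) * Complex.I -
      ((t : Fin k → ℝ) ⬝ᵥ (Matrix.of fun i j => c * dirCov D (φ i) (φ j)).mulVec t : ℝ) / 2) =
      Complex.exp (-((c * V D (fun z => ∑ j, t j * φ j z) : ℝ) : ℂ) / 2) := by
    rw [dirCov_dot hD c hφ, inner_zero_right]
    congr 1
    push_cast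
    ring
  rw [h2]
  refine h1.congr fun n => ?_
  have hlin : ∀ ω, X n ω (fun z => ∑ j, t j * φ j z) = ∑ j, t j * X n ω (φ j) := by
    intro ω
    have gen : ∀ s : Finset (Fin k), X n ω (fun z => ∑ j ∈ s, t j * φ j z) =
        ∑ j ∈ s, t j * X n ω (φ j) := by
      classical
      intro s
      induction s using Finset.induction_on with
      | empty =>
        have := hsmul n ω 0 (fun _ => 0)
        simpa using this
      | insert i s hi ih =>
        simp only [Finset.sum_insert hi]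
        rw [hadd n ω (fun z => t i * φ i z) (fun z => ∑ j ∈ s, t j * φ j z), ih, hsmul]
    exact gen _
  change ∫ ω, Complex.exp ((X n ω (fun z => ∑ j, t j * φ j z) : ℂ) * Complex.I) ∂μ n =
    charFun ((μ n).map (fun ω =>
      (WithLp.toLp 2 (fun j => X n ω (φ j)) : EuclideanSpace ℝ (Fin k)))) t
  rw [charFun_apply, integral_map (hX n) (by fun_prop)]
  refine integral_congr_ae (ae_of_all _ fun ω => ?_)
  simp only []
  rw [hlin ω]
  congr 3

/-! ### The wrapper for the law in a polygon -/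

theorem JordanDomain.isBounded {D : Set (ℝ × ℝ)} (h : JordanDomain D) :
    Bornology.IsBounded D := by
  obtain ⟨Φ, rfl⟩ := h
  have hK : IsCompact (Metric.closedBall (0 : ℝ × ℝ) 1) := isCompact_closedBall _ _
  refine (hK.image Φ.continuous).isBounded.subset (Set.image_mono ?_)
  intro z hz
  simp only [Set.mem_ofPred_eq] at hz
  rw [mem_closedBall_zero_iff, Prod.norm_def, sup_le_iff, Real.norm_eq_abs, Real.norm_eq_abs,
    abs_le, abs_le]
  constructor <;> constructor <;> nlinarith only [hz]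

theorem JordanDomain.isOpen {D : Set (ℝ × ℝ)} (h : JordanDomain D) : IsOpen D := by
  obtain ⟨Φ, rfl⟩ := h
  exact Φ.isOpenMap _ (isOpen_lt (by fun_prop) continuous_const)

theorem law_aemeasurable {β : Type*} [MeasurableSpace β] (t : ℝ) {n : ℕ} (p : ZMod n → ℤ × ℤ)
    (F : Finset (ℤ × ℤ)) (f : Conf → β) : AEMeasurable f (law t p F) := by
  classical
  unfold law
  have gen : ∀ (s : Finset (Finset Site)) (c : Finset Site → ENNReal),
      AEMeasurable f (∑ S ∈ s, c S • Measure.dirac (conf S)) := by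
    intro s c
    induction s using Finset.induction_on with
    | empty => simp
    | insert i s hi ih =>
      rw [Finset.sum_insert hi]
      exact AEMeasurable.add_measure (AEMeasurable.smul_measure aemeasurable_dirac _) ih
  exact gen _ _

theorem fldD_add (F : Finset (ℤ × ℤ)) (H : Site → ℝ) (δ : ℝ) (φ ψ : ℝ × ℝ → ℝ) :
    fldD F H δ (fun z => φ z + ψ z) = fldD F H δ φ + fldD F H δ ψ := by
  unfold fldD
  rw [← mul_add, ← Finset.sum_add_distrib]
  congr 1
  exact Finset.sum_congr rfl fun v _ => by ring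

theorem fldD_smul (F : Finset (ℤ × ℤ)) (H : Site → ℝ) (δ : ℝ) (a : ℝ) (φ : ℝ × ℝ → ℝ) :
    fldD F H δ (fun z => a * φ z) = a * fldD F H δ φ := by
  unfold fldD
  rw [mul_left_comm]
  congr 1
  rw [Finset.mul_sum]
  exact Finset.sum_congr rfl fun v _ => by ring

/-- The last part of `Conv`, from the convergence of the characteristic functions. -/
theorem conv_of_char {D : Set (ℝ × ℝ)} (hD : JordanDomain D) {t s : ℝ} {δ : ℕ → ℝ} {N : ℕ → ℕ}
    {p : ∀ n, ZMod (N n) → ℤ × ℤ} {F : ℕ → Finset (ℤ × ℤ)}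
    [∀ n, IsProbabilityMeasure (law t (p n) (F n))] (H : ∀ _ : ℕ, Conf → Site → ℝ)
    (hch : ∀ φ, TestOn D φ → Tendsto
      (fun n => ∫ σ, Complex.exp ((fldD (F n) (H n σ) (δ n) φ : ℂ) * Complex.I)
        ∂law t (p n) (F n)) atTop
      (𝓝 (Complex.exp (-((s ^ 2 * (2 * Real.pi) * V D φ : ℝ) : ℂ) / 2))))
    (k : ℕ) (φ : Fin k → ℝ × ℝ → ℝ) (hφ : ∀ j, TestOn D (φ j)) :
    (Matrix.of (fun i j => s ^ 2 * (2 * Real.pi * dirCov D (φ i) (φ j)))).PosSemidef ∧
    TendstoInDistribution (fun (n : ℕ) (σ : Conf) =>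
      (WithLp.toLp 2 (fun j => fldD (F n) (H n σ) (δ n) (φ j)) : EuclideanSpace ℝ (Fin k)))
      atTop (id : EuclideanSpace ℝ (Fin k) → EuclideanSpace ℝ (Fin k))
      (fun n => law t (p n) (F n))
      (multivariateGaussian 0
        (Matrix.of (fun i j => s ^ 2 * (2 * Real.pi * dirCov D (φ i) (φ j))))) := by
  have hc : 0 ≤ s ^ 2 * (2 * Real.pi) := by positivity
  have e : (Matrix.of (fun i j => s ^ 2 * (2 * Real.pi * dirCov D (φ i) (φ j)))) =
      Matrix.of (fun i j => s ^ 2 * (2 * Real.pi) * dirCov D (φ i) (φ j)) := by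
    ext i j
    simp only [Matrix.of_apply]
    ring
  rw [e]
  exact vec_conv hD.isBounded hc (fun n => law t (p n) (F n))
    (fun n σ φ => fldD (F n) (H n σ) (δ n) φ) (fun n σ φ ψ => fldD_add _ _ _ _ _)
    (fun n σ a φ => fldD_smul _ _ _ _ _) (fun n φ => law_aemeasurable _ _ _ _) hch k φ hφ

end Vale.Agent.P145.Dom
end
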