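import Mathlib
import Vale.Agent.P145.Bdl.B4
import Vale.Agent.P145.Bdl.B3
import Vale.Agent.P145.Bdl.B1
import Vale.Agent.P153.MathlibUsed
import Vale.Agent.P145.Bdl.B5

set_option linter.all false

section

/-!
P145, X-level: the four outer regions of the pinwheel of a cell, and the partition of a test
function along the corridors.
-/

set_option autoImplicit false

namespace Vale.Agent.P145.X

open Filter Topology Set MeasureTheory
open Vale.Agent.P145.PT Vale.Agent.P145.Top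

/-- The outer regions of the pinwheel, with corridors of width `e`. -/
def Pin (a b a' b' e : ℝ) : Set (ℝ × ℝ) :=
  {z | z.1 + z.2 ≤ a - e ∨ (a ≤ z.1 + z.2 ∧ b' + e ≤ z.1 - z.2) ∨
    (b + e ≤ z.1 + z.2 ∧ z.1 - z.2 ≤ b') ∨
    (a ≤ z.1 + z.2 ∧ z.1 + z.2 ≤ b ∧ z.1 - z.2 ≤ a' - e)}

/-- Smooth step. -/
noncomputable def T (t : ℝ) : ℝ := Real.smoothTransition t

theorem T_nonneg (t : ℝ) : 0 ≤ T t := Real.smoothTransition.nonneg t
theorem T_le (t : ℝ) : T t ≤ 1 := Real.smoothTransition.le_one t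
theorem T_zero {t : ℝ} (h : t ≤ 0) : T t = 0 := Real.smoothTransition.zero_of_nonpos h
theorem T_one {t : ℝ} (h : 1 ≤ t) : T t = 1 := Real.smoothTransition.one_of_one_le h
theorem T_pos {t : ℝ} (h : T t ≠ 0) : 0 < t := by
  by_contra h0
  exact h (T_zero (not_lt.1 h0))
theorem T_sm : ContDiff ℝ ((⊤ : ℕ∞) : WithTop ℕ∞) T := Real.smoothTransition.contDiff

/-- The five cutoffs. -/
noncomputable def k0 (a b a' b' e : ℝ) (z : ℝ × ℝ) : ℝ :=
  T ((z.1 + z.2 - a) / e - 1) * T ((b - (z.1 + z.2)) / e - 1) *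
    (T ((z.1 - z.2 - a') / e - 1) * T ((b' - (z.1 - z.2)) / e - 1))
noncomputable def k1 (a e : ℝ) (z : ℝ × ℝ) : ℝ := T ((a - (z.1 + z.2)) / e - 1)
noncomputable def k2 (a b' e : ℝ) (z : ℝ × ℝ) : ℝ :=
  T ((z.1 + z.2 - a) / e) * T ((z.1 - z.2 - b') / e - 1)
noncomputable def k3 (b b' e : ℝ) (z : ℝ × ℝ) : ℝ :=
  T ((z.1 + z.2 - b) / e - 1) * T ((b' - (z.1 - z.2)) / e)
noncomputable def k4 (a b a' e : ℝ) (z : ℝ × ℝ) : ℝ :=
  T ((a' - (z.1 - z.2)) / e - 1) * (T ((z.1 + z.2 - a) / e) * T ((b - (z.1 + z.2)) / e))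

/-- The outer cutoff. -/
noncomputable def kp (a b a' b' e : ℝ) (z : ℝ × ℝ) : ℝ :=
  k1 a e z + k2 a b' e z + k3 b b' e z + k4 a b a' e z

theorem sm_k0 (a b a' b' e : ℝ) : Sm (k0 a b a' b' e) := by
  have h := T_sm
  unfold Sm k0
  have e1 : ContDiff ℝ ((⊤ : ℕ∞) : WithTop ℕ∞) (fun z : ℝ × ℝ => (z.1 + z.2 - a) / e - 1) := by
    (clear * -; fun_prop)
  have e2 : ContDiff ℝ ((⊤ : ℕ∞) : WithTop ℕ∞) (fun z : ℝ × ℝ => (b - (z.1 + z.2)) / e - 1) := by
    fun_prop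
  have e3 : ContDiff ℝ ((⊤ : ℕ∞) : WithTop ℕ∞) (fun z : ℝ × ℝ => (z.1 - z.2 - a') / e - 1) := by
    fun_prop
  have e4 : ContDiff ℝ ((⊤ : ℕ∞) : WithTop ℕ∞) (fun z : ℝ × ℝ => (b' - (z.1 - z.2)) / e - 1) := by
    fun_prop
  exact ((h.comp e1).mul (h.comp e2)).mul ((h.comp e3).mul (h.comp e4))

theorem sm_kp (a b a' b' e : ℝ) : Sm (kp a b a' b' e) := by
  have h := T_sm
  unfold Sm kp k1 k2 k3 k4
  have e1 : ContDiff ℝ ((⊤ : ℕ∞) : WithTop ℕ∞) (fun z : ℝ × ℝ => (a - (z.1 + z.2)) / e - 1) := by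
    fun_prop
  have e2 : ContDiff ℝ ((⊤ : ℕ∞) : WithTop ℕ∞) (fun z : ℝ × ℝ => (z.1 + z.2 - a) / e) := by
    fun_prop
  have e3 : ContDiff ℝ ((⊤ : ℕ∞) : WithTop ℕ∞) (fun z : ℝ × ℝ => (z.1 - z.2 - b') / e - 1) := by
    fun_prop
  have e4 : ContDiff ℝ ((⊤ : ℕ∞) : WithTop ℕ∞) (fun z : ℝ × ℝ => (z.1 + z.2 - b) / e - 1) := by
    fun_prop
  have e5 : ContDiff ℝ ((⊤ : ℕ∞) : WithTop ℕ∞) (fun z : ℝ × ℝ => (b' - (z.1 - z.2)) / e) := by
    fun_prop
  have e6 : ContDiff ℝ ((⊤ : ℕ∞) : WithTop ℕ∞) (fun z : ℝ × ℝ => (a' - (z.1 - z.2)) / e - 1) := by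
    fun_prop
  have e7 : ContDiff ℝ ((⊤ : ℕ∞) : WithTop ℕ∞) (fun z : ℝ × ℝ => (b - (z.1 + z.2)) / e) := by
    fun_prop
  exact (((h.comp e1).add ((h.comp e2).mul (h.comp e3))).add ((h.comp e4).mul (h.comp e5))).add
    ((h.comp e6).mul ((h.comp e2).mul (h.comp e7)))

section

variable {a b a' b' e : ℝ}

theorem k0_nonneg (z : ℝ × ℝ) : 0 ≤ k0 a b a' b' e z :=
  mul_nonneg (mul_nonneg (T_nonneg _) (T_nonneg _)) (mul_nonneg (T_nonneg _) (T_nonneg _))
theorem k1_nonneg (z : ℝ × ℝ) : 0 ≤ k1 a e z := T_nonneg _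
theorem k2_nonneg (z : ℝ × ℝ) : 0 ≤ k2 a b' e z := mul_nonneg (T_nonneg _) (T_nonneg _)
theorem k3_nonneg (z : ℝ × ℝ) : 0 ≤ k3 b b' e z := mul_nonneg (T_nonneg _) (T_nonneg _)
theorem k4_nonneg (z : ℝ × ℝ) : 0 ≤ k4 a b a' e z :=
  mul_nonneg (T_nonneg _) (mul_nonneg (T_nonneg _) (T_nonneg _))
theorem kp_nonneg (z : ℝ × ℝ) : 0 ≤ kp a b a' b' e z :=
  add_nonneg (add_nonneg (add_nonneg (k1_nonneg z) (k2_nonneg z)) (k3_nonneg z)) (k4_nonneg z)

theorem mul_T_le {x y : ℝ} (_hx0 : 0 ≤ x) (hx : x ≤ 1) (hy0 : 0 ≤ y) (hy : y ≤ 1) : x * y ≤ 1 :=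
  mul_le_one₀ hx hy0 hy

theorem k0_le (z : ℝ × ℝ) : k0 a b a' b' e z ≤ 1 :=
  mul_T_le (mul_nonneg (T_nonneg _) (T_nonneg _)) (mul_T_le (T_nonneg _) (T_le _) (T_nonneg _)
    (T_le _)) (mul_nonneg (T_nonneg _) (T_nonneg _)) (mul_T_le (T_nonneg _) (T_le _) (T_nonneg _)
    (T_le _))

theorem pos_of_k0 (he : 0 < e) {z : ℝ × ℝ} (h : k0 a b a' b' e z ≠ 0) :
    a + e < z.1 + z.2 ∧ z.1 + z.2 < b - e ∧ a' + e < z.1 - z.2 ∧ z.1 - z.2 < b' - e := by
  unfold k0 at h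
  have h1 := T_pos (left_ne_zero_of_mul (left_ne_zero_of_mul h))
  have h2 := T_pos (right_ne_zero_of_mul (left_ne_zero_of_mul h))
  have h3 := T_pos (left_ne_zero_of_mul (right_ne_zero_of_mul h))
  have h4 := T_pos (right_ne_zero_of_mul (right_ne_zero_of_mul h))
  rw [sub_pos, lt_div_iff₀ he] at h1 h2 h3 h4
  refine ⟨?_, ?_, ?_, ?_⟩ <;> linarith only [h1, h2, h3, h4]

theorem pos_of_k1 (he : 0 < e) {z : ℝ × ℝ} (h : k1 a e z ≠ 0) : z.1 + z.2 < a - e := by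
  have h1 := T_pos h
  rw [sub_pos, lt_div_iff₀ he] at h1
  linarith

theorem pos_of_k2 (he : 0 < e) {z : ℝ × ℝ} (h : k2 a b' e z ≠ 0) :
    a < z.1 + z.2 ∧ b' + e < z.1 - z.2 := by
  unfold k2 at h
  have h1 := T_pos (left_ne_zero_of_mul h)
  have h2 := T_pos (right_ne_zero_of_mul h)
  rw [lt_div_iff₀ he] at h1
  rw [sub_pos, lt_div_iff₀ he] at h2
  refine ⟨?_, ?_⟩ <;> linarith

theorem pos_of_k3 (he : 0 < e) {z : ℝ × ℝ} (h : k3 b b' e z ≠ 0) :
    b + e < z.1 + z.2 ∧ z.1 - z.2 < b' := by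
  unfold k3 at h
  have h1 := T_pos (left_ne_zero_of_mul h)
  have h2 := T_pos (right_ne_zero_of_mul h)
  rw [sub_pos, lt_div_iff₀ he] at h1
  rw [lt_div_iff₀ he] at h2
  refine ⟨?_, ?_⟩ <;> linarith only [h1, h2]

theorem pos_of_k4 (he : 0 < e) {z : ℝ × ℝ} (h : k4 a b a' e z ≠ 0) :
    z.1 - z.2 < a' - e ∧ a < z.1 + z.2 ∧ z.1 + z.2 < b := by
  unfold k4 at h
  have h1 := T_pos (left_ne_zero_of_mul h)
  have h2 := T_pos (left_ne_zero_of_mul (right_ne_zero_of_mul h))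
  have h3 := T_pos (right_ne_zero_of_mul (right_ne_zero_of_mul h))
  rw [sub_pos, lt_div_iff₀ he] at h1
  rw [lt_div_iff₀ he] at h2 h3
  refine ⟨?_, ?_, ?_⟩ <;> linarith only [h1, h2, h3]

theorem kp_pin (he : 0 < e) {z : ℝ × ℝ} (h : kp a b a' b' e z ≠ 0) : z ∈ Pin a b a' b' e := by
  unfold kp at h
  by_cases h1 : k1 a e z = 0
  · by_cases h2 : k2 a b' e z = 0
    · by_cases h3 : k3 b b' e z = 0
      · have h4 : k4 a b a' e z ≠ 0 := by
          intro h4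
          exact h (by rw [h1, h2, h3, h4]; norm_num)
        obtain ⟨q1, q2, q3⟩ := pos_of_k4 he h4
        exact Or.inr (Or.inr (Or.inr ⟨q2.le, q3.le, q1.le⟩))
      · obtain ⟨q1, q2⟩ := pos_of_k3 he h3
        exact Or.inr (Or.inr (Or.inl ⟨q1.le, q2.le⟩))
    · obtain ⟨q1, q2⟩ := pos_of_k2 he h2
      exact Or.inr (Or.inl ⟨q1.le, q2.le⟩)
  · exact Or.inl (pos_of_k1 he h1).le

/-- The sum of the cutoffs. -/
theorem k_sum (hab : a < b) (hab' : a' < b') (he : 0 < e) (z : ℝ × ℝ) :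
    k0 a b a' b' e z + kp a b a' b' e z ≤ 1 := by
  set s : ℝ := z.1 + z.2 with hs
  set d : ℝ := z.1 - z.2 with hd
  have n0 : ¬ (a + e < s ∧ s < b - e ∧ a' + e < d ∧ d < b' - e) → k0 a b a' b' e z = 0 := by
    intro h; by_contra h0; exact h (pos_of_k0 he h0)
  have n1 : ¬ (s < a - e) → k1 a e z = 0 := by
    intro h; by_contra h0; exact h (pos_of_k1 he h0)
  have n2 : ¬ (a < s ∧ b' + e < d) → k2 a b' e z = 0 := by
    intro h; by_contra h0; exact h (pos_of_k2 he h0)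
  have n3 : ¬ (b + e < s ∧ d < b') → k3 b b' e z = 0 := by
    intro h; by_contra h0; exact h (pos_of_k3 he h0)
  have n4 : ¬ (d < a' - e ∧ a < s ∧ s < b) → k4 a b a' e z = 0 := by
    intro h; by_contra h0; exact h (pos_of_k4 he h0)
  have l1 : k1 a e z ≤ 1 := T_le _
  have l2 : k2 a b' e z ≤ 1 := mul_T_le (T_nonneg _) (T_le _) (T_nonneg _) (T_le _)
  have l3 : k3 b b' e z ≤ 1 := mul_T_le (T_nonneg _) (T_le _) (T_nonneg _) (T_le _)
  have l4 : k4 a b a' e z ≤ 1 := mul_T_le (T_nonneg _) (T_le _) (mul_nonneg (T_nonneg _)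
    (T_nonneg _)) (mul_T_le (T_nonneg _) (T_le _) (T_nonneg _) (T_le _))
  have l0 : k0 a b a' b' e z ≤ 1 := k0_le z
  unfold kp
  rcases le_or_gt s a with h1 | h1
  · rw [n0 (by intro h; linarith only [he, h1, h]), n2 (by intro h; linarith only [h1, h]),
      n3 (by intro h; linarith only [hab, he, h1, h]), n4 (by intro h; linarith only [h1, h])]
    linarith only [l1]
  · rw [n1 (by intro h; linarith)]
    rcases le_or_gt b' d with h2 | h2
    · rw [n0 (by intro h; linarith only [he, h2, h]), n3 (by intro h; linarith only [h2, h]),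
        n4 (by intro h; linarith only [hab', he, h2, h])]
      linarith only [l2]
    · rw [n2 (by intro h; linarith only [he, h2, h])]
      rcases le_or_gt b s with h3 | h3
      · rw [n0 (by intro h; linarith only [he, h3, h]), n4 (by intro h; linarith only [h3, h])]
        linarith only [l3]
      · rw [n3 (by intro h; linarith only [he, h3, h])]
        rcases le_or_gt d a' with h4 | h4
        · rw [n0 (by intro h; linarith only [he, h4, h])]
          linarith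
        · rw [n4 (by intro h; linarith only [he, h4, h])]
          linarith only [l0]

end

/-- Off the lines the sum of the cutoffs is eventually one. -/
theorem k_sum_one {a b a' b' : ℝ} (hab : a < b) (hab' : a' < b') {z : ℝ × ℝ}
    (h1 : z.1 + z.2 ≠ a) (h2 : z.1 + z.2 ≠ b) (h3 : z.1 - z.2 ≠ a') (h4 : z.1 - z.2 ≠ b') :
    ∀ᶠ e : ℝ in 𝓝[>] 0, k0 a b a' b' e z + kp a b a' b' e z = 1 := by
  set s : ℝ := z.1 + z.2 with hs
  set d : ℝ := z.1 - z.2 with hd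
  have key : ∀ x : ℝ, 0 < x → ∀ᶠ e : ℝ in 𝓝[>] 0, T (x / e - 1) = 1 ∧ T (x / e) = 1 := by
    intro x hx
    have : ∀ᶠ e : ℝ in 𝓝[>] 0, e < x / 2 :=
      nhdsWithin_le_nhds (eventually_lt_nhds (half_pos hx))
    filter_upwards [this, self_mem_nhdsWithin] with e he he0
    have he0' : (0 : ℝ) < e := he0
    have h5 : 2 ≤ x / e := by rw [le_div_iff₀ he0']; linarith
    exact ⟨T_one (by linarith only [h5]), T_one (by linarith only [h5])⟩
  have key' : ∀ x : ℝ, x < 0 → ∀ᶠ e : ℝ in 𝓝[>] 0, T (x / e - 1) = 0 ∧ T (x / e) = 0 := by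
    intro x hx
    filter_upwards [self_mem_nhdsWithin] with e he0
    have he0' : (0 : ℝ) < e := he0
    have h5 : x / e < 0 := div_neg_of_neg_of_pos hx he0'
    exact ⟨T_zero (by linarith), T_zero h5.le⟩
  have both : ∀ x : ℝ, x ≠ 0 → ∀ᶠ e : ℝ in 𝓝[>] 0,
      (0 < x → T (x / e - 1) = 1 ∧ T (x / e) = 1) ∧ (x < 0 → T (x / e - 1) = 0 ∧ T (x / e) = 0) := by
    intro x hx
    rcases lt_or_gt_of_ne hx with h | h
    · filter_upwards [key' x h] with e he
      exact ⟨fun h' => absurd h' (not_lt.2 h.le), fun _ => he⟩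
    · filter_upwards [key x h] with e he
      exact ⟨fun _ => he, fun h' => absurd h' (not_lt.2 h.le)⟩
  filter_upwards [both (s - a) (sub_ne_zero.2 h1), both (a - s) (sub_ne_zero.2 h1.symm),
    both (b - s) (sub_ne_zero.2 h2.symm), both (s - b) (sub_ne_zero.2 h2),
    both (d - a') (sub_ne_zero.2 h3), both (a' - d) (sub_ne_zero.2 h3.symm),
    both (b' - d) (sub_ne_zero.2 h4.symm), both (d - b') (sub_ne_zero.2 h4)]
    with e q1 q2 q3 q4 q5 q6 q7 q8
  unfold kp k0 k1 k2 k3 k4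
  rw [← hs, ← hd]
  rcases lt_or_gt_of_ne h1 with c1 | c1
  · -- s < a
    rw [(q1.2 (by linarith)).1, (q1.2 (by linarith only [c1])).2, (q2.1 (by linarith)).1,
      (q4.2 (by linarith only [hab, c1])).1]
    ring
  · rcases lt_or_gt_of_ne h4 with c4 | c4
    · -- d < b'
      rcases lt_or_gt_of_ne h2 with c2 | c2
      · -- s < b
        rcases lt_or_gt_of_ne h3 with c3 | c3
        · rw [(q1.1 (by linarith only [c1])).1, (q1.1 (by linarith only [c1])).2, (q2.2 (by linarith only [c1])).1,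
            (q3.1 (by linarith only [c2])).1, (q3.1 (by linarith only [c2])).2, (q4.2 (by linarith only [c2])).1,
            (q5.2 (by linarith only [c3])).1, (q6.1 (by linarith only [c3])).1, (q8.2 (by linarith only [hab', c3])).1]
          ring
        · rw [(q1.1 (by linarith)).1, (q1.1 (by linarith)).2, (q2.2 (by linarith)).1,
            (q3.1 (by linarith)).1, (q3.1 (by linarith only [c2])).2, (q4.2 (by linarith only [c2])).1,
            (q5.1 (by linarith only [c3])).1, (q6.2 (by linarith)).1, (q7.1 (by linarith)).1,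
            (q8.2 (by linarith)).1]
          ring
      · -- b < s
        rw [(q1.1 (by linarith only [hab, c2])).2, (q2.2 (by linarith)).1,
            (q3.2 (by linarith)).1, (q3.2 (by linarith)).2, (q4.1 (by linarith)).1,
            (q7.1 (by linarith only [c4])).2, (q8.2 (by linarith only [c4])).1]
        ring
    · -- b' < d
      rw [(q1.1 (by linarith only [c1])).2, (q2.2 (by linarith)).1, (q6.2 (by linarith)).1,
        (q7.2 (by linarith)).1, (q7.2 (by linarith only [c4])).2, (q8.1 (by linarith)).1]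
      ring

/-- lines are null sets -/
theorem line_null (p : ℝ × ℝ → ℝ) (hp : Continuous p) (h : ∀ x y y', p (x, y) = p (x, y') → y = y')
    (c : ℝ) : ∀ᵐ z : ℝ × ℝ, p z ≠ c := by
  have hm : MeasurableSet {z : ℝ × ℝ | p z = c} :=
    (isClosed_eq hp continuous_const).measurableSet
  rw [ae_iff]
  have e : {z : ℝ × ℝ | ¬ p z ≠ c} = {z | p z = c} := by ext z; simp
  rw [e, Measure.volume_eq_prod, Measure.measure_prod_null hm]
  refine Eventually.of_forall fun x => ?_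
  have hsub : (Prod.mk x ⁻¹' {z : ℝ × ℝ | p z = c}).Subsingleton := by
    intro y hy y' hy'
    have h1 : p (x, y) = c := hy
    have h2 : p (x, y') = c := hy'
    exact h x y y' (h1.trans h2.symm)
  exact hsub.measure_zero volume

theorem lines_null (a b a' b' : ℝ) : ∀ᵐ z : ℝ × ℝ, z.1 + z.2 ≠ a ∧ z.1 + z.2 ≠ b ∧
    z.1 - z.2 ≠ a' ∧ z.1 - z.2 ≠ b' := by
  have h1 := fun c => line_null (fun z => z.1 + z.2) (by fun_prop) (fun x y y' h => by
    simp only at h; linarith only [h]) c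
  have h2 := fun c => line_null (fun z => z.1 - z.2) (by fun_prop) (fun x y y' h => by
    simp only at h; linarith only [h]) c
  filter_upwards [h1 a, h1 b, h2 a', h2 b'] with z q1 q2 q3 q4
  exact ⟨q1, q2, q3, q4⟩

/-- **partition along the corridors** -/
theorem exists_pin {D : Set (ℝ × ℝ)} {f : ℝ × ℝ → ℝ} (hf : TestOn D f) (hf0 : ∀ z, 0 ≤ f z)
    {a b a' b' : ℝ} (hab : a < b) (hab' : a' < b') {ρ : ℝ} (hρ : 0 < ρ) :
    ∃ e : ℝ, 0 < e ∧ ∃ f0 g : ℝ × ℝ → ℝ, TestOn (cell a b a' b') f0 ∧ TestOn D f0 ∧ TestOn D g ∧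
      (∀ z, 0 ≤ f0 z) ∧ (∀ z, 0 ≤ g z) ∧ (∀ z, g z ≠ 0 → z ∈ Pin a b a' b' e) ∧
      (∀ z, f0 z + g z ≤ f z) ∧ (∫ z, (f z - (f0 z + g z)) ^ 2) ≤ ρ ∧
      (∫ z, (f z - (f0 z + g z))) ≤ ρ := by
  set F : ℝ → ℝ × ℝ → ℝ := fun e z => k0 a b a' b' e z + kp a b a' b' e z with hF
  have hF0 : ∀ e z, 0 ≤ F e z := fun e z => add_nonneg (k0_nonneg z) (kp_nonneg z)
  have hlim : ∀ᵐ z : ℝ × ℝ, Tendsto (fun e => f z - F e z * f z) (𝓝[>] 0) (𝓝 0) := by
    filter_upwards [lines_null a b a' b'] with z hz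
    refine Tendsto.congr' ?_ tendsto_const_nhds
    filter_upwards [k_sum_one hab hab' hz.1 hz.2.1 hz.2.2.1 hz.2.2.2] with e he
    simp only [hF]
    rw [he]; ring
  have hFc : ∀ e, Continuous (F e) := fun e =>
    (sm_k0 a b a' b' e).continuous.add (sm_kp a b a' b' e).continuous
  have hbd : ∀ e, 0 < e → ∀ z, 0 ≤ f z - F e z * f z ∧ f z - F e z * f z ≤ f z := by
    intro e he z
    have h1 := k_sum hab hab' he z
    have h2 := hF0 e z
    have h3 := hf0 z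
    constructor
    · have : F e z * f z ≤ 1 * f z := mul_le_mul_of_nonneg_right h1 h3
      linarith only [this]
    · have : 0 ≤ F e z * f z := mul_nonneg h2 h3
      linarith only [this]
  have L1 : Tendsto (fun e => ∫ z, (f z - F e z * f z)) (𝓝[>] 0) (𝓝 0) := by
    have h := tendsto_integral_filter_of_dominated_convergence (μ := volume)
      (F := fun e z => f z - F e z * f z) (f := fun _ => (0 : ℝ)) (l := 𝓝[>] (0 : ℝ))
      (bound := f) ?_ ?_ hf.int hlim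
    · simpa only [integral_zero] using h
    · exact Eventually.of_forall fun e =>
        (hf.cont.sub ((hFc e).mul hf.cont)).aestronglyMeasurable
    · filter_upwards [self_mem_nhdsWithin] with e he
      refine Eventually.of_forall fun z => ?_
      have h1 := hbd e he z
      rw [Real.norm_eq_abs, abs_of_nonneg h1.1]
      exact h1.2
  have L2 : Tendsto (fun e => ∫ z, (f z - F e z * f z) ^ 2) (𝓝[>] 0) (𝓝 0) := by
    have hf2 : Integrable (fun z => f z ^ 2) := hf.intSq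
    have h := tendsto_integral_filter_of_dominated_convergence (μ := volume)
      (F := fun e z => (f z - F e z * f z) ^ 2) (f := fun _ => (0 : ℝ)) (l := 𝓝[>] (0 : ℝ))
      (bound := fun z => f z ^ 2) ?_ ?_ hf2 ?_
    · simpa using h
    · exact Eventually.of_forall fun e =>
        ((hf.cont.sub ((hFc e).mul hf.cont)).pow 2).aestronglyMeasurable
    · filter_upwards [self_mem_nhdsWithin] with e he
      refine Eventually.of_forall fun z => ?_
      have h1 := hbd e he z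
      rw [Real.norm_eq_abs, abs_of_nonneg (sq_nonneg _)]
      exact pow_le_pow_left₀ h1.1 h1.2 2
    · filter_upwards [hlim] with z hz
      have := hz.pow 2
      simpa only [ne_eq, OfNat.ofNat_ne_zero, not_false_eq_true, zero_pow] using this
  have hev := (L1.eventually (gt_mem_nhds hρ)).and (L2.eventually (gt_mem_nhds hρ))
  obtain ⟨e, ⟨e1, e2⟩, he⟩ := (hev.and self_mem_nhdsWithin).exists
  have he0 : 0 < e := he
  refine ⟨e, he0, fun z => k0 a b a' b' e z * f z, fun z => kp a b a' b' e z * f z, ?_,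
    hf.mulSm (sm_k0 _ _ _ _ _), hf.mulSm (sm_kp _ _ _ _ _),
    fun z => mul_nonneg (k0_nonneg z) (hf0 z), fun z => mul_nonneg (kp_nonneg z) (hf0 z),
    fun z hz => kp_pin he0 (left_ne_zero_of_mul hz), ?_, ?_, ?_⟩
  · refine ⟨(sm_k0 _ _ _ _ _).mul hf.1, hf.2.1.mul_left, ?_⟩
    have hcl : IsClosed {z : ℝ × ℝ | a + e ≤ z.1 + z.2 ∧ z.1 + z.2 ≤ b - e ∧ a' + e ≤ z.1 - z.2 ∧
        z.1 - z.2 ≤ b' - e} := by
      have c1 : Continuous fun z : ℝ × ℝ => z.1 + z.2 := by fun_prop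
      have c2 : Continuous fun z : ℝ × ℝ => z.1 - z.2 := by fun_prop
      exact (isClosed_le continuous_const c1).inter ((isClosed_le c1 continuous_const).inter
        ((isClosed_le continuous_const c2).inter (isClosed_le c2 continuous_const)))
    have hsub : tsupport (fun z => k0 a b a' b' e z * f z) ⊆ {z : ℝ × ℝ | a + e ≤ z.1 + z.2 ∧
        z.1 + z.2 ≤ b - e ∧ a' + e ≤ z.1 - z.2 ∧ z.1 - z.2 ≤ b' - e} := by
      refine closure_minimal ?_ hcl
      intro z hz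
      obtain ⟨q1, q2, q3, q4⟩ := pos_of_k0 he0 (left_ne_zero_of_mul hz)
      exact ⟨q1.le, q2.le, q3.le, q4.le⟩
    intro z hz
    obtain ⟨q1, q2, q3, q4⟩ := hsub hz
    exact ⟨by linarith only [he, q1], by linarith only [he, q2], by linarith only [he, q3], by linarith only [he, q4]⟩
  · intro z
    have h1 := k_sum hab hab' he0 z
    have h3 := hf0 z
    have h4 : (k0 a b a' b' e z + kp a b a' b' e z) * f z ≤ 1 * f z :=
      mul_le_mul_of_nonneg_right h1 h3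
    linarith
  · refine le_trans (le_of_eq ?_) e2.le
    congr 1
    funext z
    simp only [hF]
    ring
  · refine le_trans (le_of_eq ?_) e1.le
    congr 1
    funext z
    simp only [hF]
    ring

end Vale.Agent.P145.X
end

section

/-!
P145, block F-TOP: the zero boundary law as a measure on the vertex heights; faces inside a set;
finite sums.
-/

namespace Vale.Agent.P145.Top

open Filter Topology Set MeasureTheory
open Vale.Agent.P145.PT Vale.Agent.P145.FP Vale.Agent.P145.Dom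

theorem zw_pos {c : ℝ} (hc : 0 < c) (F : Finset (ℤ × ℤ)) (x : Site → ℤ) : 0 < zw c F x := by
  unfold zw
  refine mul_pos (Finset.prod_pos fun e _ => ?_) (Finset.prod_pos fun e _ => ?_)
  · split_ifs
    · exact hc
    · exact one_pos
  · split_ifs
    · exact hc
    · exact one_pos

theorem ZH_nonempty (F : Finset (ℤ × ℤ)) : (ZH F).Nonempty := by
  classical
  refine ⟨Sum.elim (fun _ => 0) (fun f => if f ∈ F then 1 else 0), ?_⟩
  rw [mem_ZH]
  refine ⟨fun v => by simp only [Sum.elim_inl, Even.zero], fun f hf => by simp [hf], fun v f _ => ⟨fun _ => by simp, fun hf => by simp only [Sum.elim_inr, hf, ↓reduceIte, Sum.elim_inl, sub_zero, _root_.abs_one]⟩⟩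

theorem zs_eq (c : ℝ) (F : Finset (ℤ × ℤ)) (Φ : (Site → ℤ) → ℝ) :
    zs c F Φ = ∑ x ∈ (ZH_finite F).toFinset, zw c F x * Φ x := by
  unfold zs
  rw [finsum_mem_eq_finite_toFinset_sum _ (ZH_finite F)]

theorem zs_pos' {c : ℝ} (hc : 0 < c) (F : Finset (ℤ × ℤ)) : 0 < zs c F (fun _ => 1) := by
  rw [zs_eq]
  refine Finset.sum_pos (fun x _ => by rw [mul_one]; exact zw_pos hc F x) ?_
  obtain ⟨x, hx⟩ := ZH_nonempty F
  exact ⟨x, by rw [Set.Finite.mem_toFinset]; exact hx⟩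

theorem exists_meas {c : ℝ} (hc : 0 < c) (F : Finset (ℤ × ℤ)) :
    ∃ μ : Measure Om, Mom μ ∧ ∀ A : Om → ℝ, ∫ ω, A ω ∂μ = ze c F (fun x => A (vh x)) := by
  classical
  have hZ := zs_pos' hc F
  set Z : ℝ := zs c F (fun _ => 1) with hZd
  set T := (ZH_finite F).toFinset with hT
  have hw : ∀ x, 0 ≤ zw c F x / Z := fun x => div_nonneg (zw_pos hc F x).le hZ.le
  have hint : ∀ (A : Om → ℝ) (x : Site → ℤ), Integrable A (ENNReal.ofReal (zw c F x / Z) • Measure.dirac (vh x)) :=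
    fun A x => (integrable_dirac (by simp)).smul_measure ENNReal.ofReal_ne_top
  refine ⟨∑ x ∈ T, ENNReal.ofReal (zw c F x / Z) • Measure.dirac (vh x), ⟨⟨?_⟩, ?_⟩, ?_⟩
  · rw [Measure.coe_finsetSum, Finset.sum_apply]
    simp only [Measure.smul_apply, measure_univ, smul_eq_mul, mul_one]
    rw [← ENNReal.ofReal_sum_of_nonneg (fun x _ => hw x), ← Finset.sum_div]
    have : ∑ x ∈ T, zw c F x = Z := by
      rw [hZd, zs_eq]
      exact Finset.sum_congr rfl fun x _ => (mul_one _).symm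
    rw [this, div_self hZ.ne', ENNReal.ofReal_one]
  · intro v
    exact integrable_finsetSum_measure.2 fun x _ => hint _ x
  · intro A
    rw [integral_finsetSum_measure fun x _ => hint A x]
    have h1 : ∀ x ∈ T, ∫ ω, A ω ∂(ENNReal.ofReal (zw c F x / Z) • Measure.dirac (vh x)) =
        zw c F x * A (vh x) / Z := by
      intro x _
      rw [integral_smul_measure, integral_dirac, ENNReal.toReal_ofReal (hw x), smul_eq_mul]
      ring
    rw [Finset.sum_congr rfl h1, ← Finset.sum_div]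
    unfold ze
    rw [zs_eq c F (fun x => A (vh x)), hT, hZd]

theorem lat_finite {δ : ℝ} (hδ : 0 < δ) (R : ℝ) :
    {v : ℤ × ℤ | ((δ * v.1, δ * v.2) : ℝ × ℝ) ∈ Metric.ball (0 : ℝ × ℝ) R}.Finite := by
  refine (Set.finite_Icc ((-⌈R / δ⌉, -⌈R / δ⌉) : ℤ × ℤ) (⌈R / δ⌉, ⌈R / δ⌉)).subset ?_
  intro v hv
  have hv' : max |δ * (v.1 : ℝ)| |δ * (v.2 : ℝ)| < R := by
    have := mem_ball_zero_iff.1 hv
    rwa [Prod.norm_mk, Real.norm_eq_abs, Real.norm_eq_abs] at this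
  have key : ∀ a : ℤ, |δ * (a : ℝ)| < R → -⌈R / δ⌉ ≤ a ∧ a ≤ ⌈R / δ⌉ := by
    intro a ha
    rw [abs_mul, abs_of_pos hδ] at ha
    have h1 : |(a : ℝ)| < R / δ := by
      rw [lt_div_iff₀ hδ]
      linarith only [ha]
    have h2 : |(a : ℝ)| ≤ (⌈R / δ⌉ : ℝ) := h1.le.trans (Int.le_ceil _)
    have h3 : |a| ≤ ⌈R / δ⌉ := by exact_mod_cast h2
    exact abs_le.1 h3
  obtain ⟨a1, a2⟩ := key v.1 ((le_max_left _ _).trans_lt hv')
  obtain ⟨b1, b2⟩ := key v.2 ((le_max_right _ _).trans_lt hv')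
  exact ⟨⟨a1, b1⟩, ⟨a2, b2⟩⟩

theorem Fs_finite {δ : ℝ} (hδ : 0 < δ) {D : Set (ℝ × ℝ)} (hb : Bornology.IsBounded D) :
    {f : ℤ × ℤ | sq δ f ⊆ D}.Finite := by
  obtain ⟨R, hR⟩ := hb.subset_ball (0 : ℝ × ℝ)
  refine (lat_finite hδ R).subset fun f hf => hR (hf ?_)
  refine ⟨le_rfl, ?_, le_rfl, ?_⟩ <;> simp only <;> nlinarith

theorem mem_Fs {δ : ℝ} (hδ : 0 < δ) {D : Set (ℝ × ℝ)} (hb : Bornology.IsBounded D) {f : ℤ × ℤ} :
    f ∈ Fs δ D ↔ sq δ f ⊆ D := by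
  unfold Fs
  rw [dif_pos (Fs_finite hδ hb), Set.Finite.mem_toFinset]
  rfl

theorem Fs_mono {δ : ℝ} (hδ : 0 < δ) {D D' : Set (ℝ × ℝ)} (h : D ⊆ D')
    (hb : Bornology.IsBounded D') : Fs δ D ⊆ Fs δ D' := by
  intro f hf
  rw [mem_Fs hδ (hb.subset h)] at hf
  rw [mem_Fs hδ hb]
  exact hf.trans h

theorem hv_eq_hB {δ R : ℝ} (hδ : 0 < δ) : ∃ B : Finset (ℤ × ℤ), ∀ f : ℝ × ℝ → ℝ,
    (∀ z, f z ≠ 0 → z ∈ Metric.ball (0 : ℝ × ℝ) R) → ∀ ω, hv δ f ω = hB B δ f ω := by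
  refine ⟨(lat_finite hδ R).toFinset, fun f hf ω => ?_⟩
  unfold hv hB
  rw [finsum_eq_sum_of_support_subset]
  intro v hv
  rw [Finset.mem_coe, Set.Finite.mem_toFinset]
  exact hf _ (right_ne_zero_of_mul hv)

end Vale.Agent.P145.Top
end

section

/-!
P145, X-level: reduction of `S_xst` to test functions which vanish on the corridors.
-/

set_option autoImplicit false

namespace Vale.Agent.P145.X

open Filter Topology Set MeasureTheory
open Vale.Agent.P145.PT Vale.Agent.P145.Top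

/-- `S_xst` for test functions vanishing on the corridors of a given width `e`. -/
def S_xst0 (c κ : ℝ) (δ : ℕ → ℝ) : Prop := ∀ D₁ D₂ : Set (ℝ × ℝ), IsOpen D₁ → IsOpen D₂ →
  Bornology.IsBounded D₂ → closure D₁ ⊆ D₂ → ∀ a b a' b' : ℝ, a < b → a' < b' →
  ccell a b a' b' ⊆ D₁ → ∀ e : ℝ, 0 < e → ∀ (ψ f0 g : ℝ × ℝ → ℝ) (k : ℕ),
  TestOn (cell a b a' b') ψ → TestOn (cell a b a' b') f0 → TestOn D₁ g → (∀ z, 0 ≤ f0 z) →
  (∀ z, 0 ≤ g z) → (∀ z, g z ≠ 0 → z ∈ Pin a b a' b' e) → ∀ L : List (List (ℝ × ℝ → ℝ)),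
  (∀ l ∈ L, ∀ g ∈ l, TestOn D₁ g ∧ ∀ z, 0 ≤ g z) → ∀ η : ℝ, 0 < η →
    ∃ ν : ℕ → Measure Om, (∀ᶠ n in atTop, Mom (ν n)) ∧
    (∀ l ∈ L, ∀ᶠ n in atTop,
      EE c (δ n) D₁ (hvl (δ n) l) ≤ (∫ ω, hvl (δ n) l ω ∂(ν n)) + η ∧
      ∫ ω, hvl (δ n) l ω ∂(ν n) ≤ EE c (δ n) D₂ (hvl (δ n) l) + η) ∧
    ∀ᶠ n in atTop, |(∫ ω, hv (δ n) (lap ψ) ω * hv (δ n) (fun z => f0 z + g z) ω ^ (k + 1) ∂(ν n)) +
        κ * (k + 1) * (∫ z, ψ z * (f0 z + g z)) *
          ∫ ω, hv (δ n) (fun z => f0 z + g z) ω ^ k ∂(ν n)| ≤ η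

/-- the lists of the expansion -/
def lq (q r f f' : ℝ × ℝ → ℝ) (k i : ℕ) : List (ℝ × ℝ → ℝ) :=
  q :: r :: (List.replicate i f ++ List.replicate (k - i) f')
def lr (r f f' : ℝ × ℝ → ℝ) (k i : ℕ) : List (ℝ × ℝ → ℝ) :=
  r :: (List.replicate i f ++ List.replicate (k - 1 - i) f')

section

variable {B : Finset (ℤ × ℤ)} {δ : ℝ}

theorem hl_lq (q r f f' : ℝ × ℝ → ℝ) (k i : ℕ) (ω : Om) : hl B δ (lq q r f f' k i) ω =
    hB B δ q ω * (hB B δ r ω * (hB B δ f ω ^ i * hB B δ f' ω ^ (k - i))) := by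
  unfold lq hl
  simp only [List.map_cons, List.map_append, List.map_replicate, List.prod_cons, List.prod_append, List.prod_replicate]

theorem hl_lr (r f f' : ℝ × ℝ → ℝ) (k i : ℕ) (ω : Om) : hl B δ (lr r f f' k i) ω =
    hB B δ r ω * (hB B δ f ω ^ i * hB B δ f' ω ^ (k - 1 - i)) := by
  unfold lr hl
  simp only [List.map_cons, List.map_append, List.map_replicate, List.prod_cons, List.prod_append, List.prod_replicate]

theorem expand1 {μ : Measure Om} (hμ : Mom μ) {p m f f' : ℝ × ℝ → ℝ} (k : ℕ) :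
    (∫ ω, hB B δ (fun z => p z - m z) ω * hB B δ f ω ^ (k + 1) ∂μ) -
      ∫ ω, hB B δ (fun z => p z - m z) ω * hB B δ f' ω ^ (k + 1) ∂μ =
    ∑ i ∈ Finset.range (k + 1), ((∫ ω, hl B δ (lq p (fun z => f z - f' z) f f' k i) ω ∂μ) -
      ∫ ω, hl B δ (lq m (fun z => f z - f' z) f f' k i) ω ∂μ) := by
  have i1 : ∀ q : ℝ × ℝ → ℝ, Integrable (fun ω => hB B δ (fun z => p z - m z) ω *
      hB B δ q ω ^ (k + 1)) μ := fun q => hμ.integrable (alg_hB.mul (alg_hB.pow _))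
  rw [← integral_sub (i1 f) (i1 f')]
  have i2 : ∀ q : ℝ × ℝ → ℝ, ∀ i, Integrable (hl B δ (lq q (fun z => f z - f' z) f f' k i)) μ :=
    fun q i => hμ.integrable (alg_hl _)
  simp_rw [← fun i => integral_sub (i2 p i) (i2 m i)]
  have i3 : ∀ i, Integrable (fun ω => hl B δ (lq p (fun z => f z - f' z) f f' k i) ω -
    hl B δ (lq m (fun z => f z - f' z) f f' k i) ω) μ := fun i => (i2 p i).sub (i2 m i)
  rw [← integral_finsetSum _ fun i _ => i3 i]
  congr 1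
  funext ω
  simp only [hl_lq]
  rw [hB_sub, hB_sub]
  set x := hB B δ f ω
  set y := hB B δ f' ω
  have h := geom_sum₂_mul x y (k + 1)
  rw [← mul_sub, ← h, Finset.sum_mul, Finset.mul_sum]
  refine Finset.sum_congr rfl fun i _ => ?_
  rw [Nat.add_sub_cancel]
  ring

theorem expand2 {μ : Measure Om} (hμ : Mom μ) {f f' : ℝ × ℝ → ℝ} (k : ℕ) :
    (∫ ω, hB B δ f ω ^ k ∂μ) - ∫ ω, hB B δ f' ω ^ k ∂μ =
    ∑ i ∈ Finset.range k, ∫ ω, hl B δ (lr (fun z => f z - f' z) f f' k i) ω ∂μ := by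
  have i1 : ∀ q : ℝ × ℝ → ℝ, Integrable (fun ω => hB B δ q ω ^ k) μ :=
    fun q => hμ.integrable (alg_hB.pow _)
  rw [← integral_sub (i1 f) (i1 f')]
  have i2 : ∀ i, Integrable (hl B δ (lr (fun z => f z - f' z) f f' k i)) μ :=
    fun i => hμ.integrable (alg_hl _)
  rw [← integral_finsetSum _ fun i _ => i2 i]
  congr 1
  funext ω
  simp only [hl_lr]
  rw [hB_sub]
  set x := hB B δ f ω
  set y := hB B δ f' ω
  have h := geom_sum₂_mul x y k
  rw [← h, Finset.sum_mul]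
  exact Finset.sum_congr rfl fun i _ => by ring

/-- A product containing the small function `r`. -/
theorem small_list {μ : Measure Om} (h : Pos μ) {r g0 : ℝ × ℝ → ℝ} (hr : ∀ z, 0 ≤ r z)
    (hg0 : ∀ z, 0 ≤ g0 z) {l : List (ℝ × ℝ → ℝ)} (hl' : ∀ f ∈ l, ∀ z, 0 ≤ f z ∧ f z ≤ g0 z)
    {X M θ : ℝ} (hX : ∫ ω, hB B δ r ω ^ 2 ∂μ ≤ X)
    (hM : ∫ ω, hB B δ g0 ω ^ (2 * l.length) ∂μ ≤ M) (_hM0 : 0 ≤ M) (hθ : 0 ≤ θ)
    (hXM : X * M ≤ θ ^ 2) : ∫ ω, hB B δ r ω * hl B δ l ω ∂μ ≤ θ := by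
  have h1 := cone_dom (B := B) (δ := δ) hg0 (zero_le_one (α := ℝ)) l
    (fun f hf z => ⟨(hl' f hf z).1, by rw [one_mul]; exact (hl' f hf z).2⟩)
  have h2 := h.mom.nonneg h.pos (Cone.hB (B := B) (δ := δ) h1 hr)
  have e : ∀ ω, hB B δ r ω * (1 ^ l.length * hB B δ g0 ω ^ l.length - hl B δ l ω) =
      hB B δ r ω * hB B δ g0 ω ^ l.length - hB B δ r ω * hl B δ l ω := fun ω => by ring
  simp_rw [e] at h2
  rw [integral_sub (h.mom.integrable (alg_hB.mul (alg_hB.pow _)))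
    (h.mom.integrable (alg_hB.mul (alg_hl _)))] at h2
  have h3 := h.mixed_sq_le (B := B) (δ := δ) r g0 l.length
  have h4 : (∫ ω, hB B δ r ω * hB B δ g0 ω ^ l.length ∂μ) ^ 2 ≤ θ ^ 2 := by
    refine h3.trans (le_trans ?_ hXM)
    refine mul_le_mul hX hM ?_ ?_
    · exact integral_nonneg fun ω => by rw [pow_mul]; (clear * -; positivity)
    · exact (integral_nonneg fun ω => sq_nonneg _).trans hX
  have h5 : ∫ ω, hB B δ r ω * hB B δ g0 ω ^ l.length ∂μ ≤ θ := by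
    exact (abs_le_of_sq_le_sq' h4 hθ).2
  linarith only [h2, h5]

end

/-- arithmetic of the comparison -/
theorem final_arith {S S' E E' I I' κ M θ ε' η : ℝ} {k : ℕ} (h1 : |S - S'| ≤ 4 * (k + 1) * θ)
    (h2 : |E - E'| ≤ 2 * k * θ) (h3 : |E'| ≤ M) (h4 : |I - I'| ≤ ε')
    (h5 : |S' + κ * (k + 1) * I' * E'| ≤ η / 3)
    (h6 : θ * (4 * (k + 1) + 2 * |κ| * (k + 1) * k * |I|) ≤ η / 3)
    (h7 : |κ| * (k + 1) * (ε' * M) ≤ η / 3) : |S + κ * (k + 1) * I * E| ≤ η := by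
  have e : S + κ * (k + 1) * I * E = (S - S') + (S' + κ * (k + 1) * I' * E') +
      (κ * (k + 1) * (I * (E - E')) + κ * (k + 1) * ((I - I') * E')) := by ring
  have hk : (0 : ℝ) ≤ (k : ℝ) + 1 := by (clear * -; positivity)
  have a1 : |κ * (k + 1) * (I * (E - E'))| ≤ |κ| * (k + 1) * (|I| * (2 * k * θ)) := by
    rw [abs_mul, abs_mul κ, abs_of_nonneg hk, abs_mul]
    refine mul_le_mul_of_nonneg_left ?_ (by positivity)
    exact mul_le_mul_of_nonneg_left h2 (abs_nonneg _)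
  have a2 : |κ * (k + 1) * ((I - I') * E')| ≤ |κ| * (k + 1) * (ε' * M) := by
    rw [abs_mul, abs_mul κ, abs_of_nonneg hk, abs_mul]
    refine mul_le_mul_of_nonneg_left ?_ (by positivity)
    exact mul_le_mul h4 h3 (abs_nonneg _) ((abs_nonneg _).trans h4)
  rw [e]
  have b1 := abs_add_le ((S - S') + (S' + κ * (k + 1) * I' * E'))
    (κ * (k + 1) * (I * (E - E')) + κ * (k + 1) * ((I - I') * E'))
  have b2 := abs_add_le (S - S') (S' + κ * (k + 1) * I' * E')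
  have b3 := abs_add_le (κ * (k + 1) * (I * (E - E'))) (κ * (k + 1) * ((I - I') * E'))
  have e2 : θ * (4 * (k + 1) + 2 * |κ| * (k + 1) * k * |I|) =
      4 * (k + 1) * θ + |κ| * (k + 1) * (|I| * (2 * k * θ)) := by ring
  rw [e2] at h6
  linarith only [h1, h5, h6, h7, a1, a2, b1, b2, b3]

theorem sum_abs_le {ι : Type*} (s : Finset ι) (x : ι → ℝ) {t : ℝ} (h : ∀ i ∈ s, |x i| ≤ t) :
    |∑ i ∈ s, x i| ≤ s.card * t := by
  refine (Finset.abs_sum_le_sum_abs _ _).trans ?_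
  have := Finset.sum_le_card_nsmul s (fun i => |x i|) t h
  rwa [nsmul_eq_mul] at this

/-- **`S_xst` from its version with corridors** -/
theorem xst_of_xst0 {c κ : ℝ} {δ : ℕ → ℝ} (hc : 0 < c) (hδ : ∀ n, 0 < δ n) (hm : S_mono c)
    (hmb : S_mb c δ) (hl2 : S_l2 c δ) (h0 : S_xst0 c κ δ) : S_xst c κ δ := by
  classical
  intro D₁ D₂ hD1 hD2 hb hcl a b a' b' hab hab' hcc ψ f k hψ hf hf0 L hL η hη
  -- radius
  obtain ⟨R0, hR0⟩ := hb.subset_ball (0 : ℝ × ℝ)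
  obtain ⟨R, hR, hD2R⟩ : ∃ R : ℝ, 0 < R ∧ D₂ ⊆ Metric.ball (0 : ℝ × ℝ) R :=
    ⟨max R0 1, lt_max_of_lt_right one_pos, hR0.trans (Metric.ball_subset_ball (le_max_left _ _))⟩
  have hD12 : D₁ ⊆ D₂ := subset_closure.trans hcl
  have hD1R : D₁ ⊆ Metric.ball (0 : ℝ × ℝ) R := hD12.trans hD2R
  have hb1 : Bornology.IsBounded D₁ := hb.subset hD12
  have hcell : cell a b a' b' ⊆ D₁ := fun z hz => hcc ⟨hz.1.le, hz.2.1.le, hz.2.2.1.le, hz.2.2.2.le⟩
  have hψ1 : TestOn D₁ ψ := hψ.mono hcell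
  obtain ⟨p, m, hp, hmt, hp0, hm0, hpm⟩ := exists_decomp hD1 hb1 hψ1.lap
  have hpm' : lap ψ = fun z => p z - m z := funext hpm
  set g0 : ℝ × ℝ → ℝ := fun z => p z + m z + f z with hg0
  have hg0t : TestOn D₁ g0 := (hp.add hmt).add hf
  have hg00 : ∀ z, 0 ≤ g0 z := fun z => add_nonneg (add_nonneg (hp0 z) (hm0 z)) (hf0 z)
  -- measures
  choose B hB' using fun n => hv_eq_hB (R := R) (hδ n)
  choose μ hμ hμE using fun n => exists_meas hc (Fs (δ n) D₂)
  choose μ' hμ' hμE' using fun n => exists_meas hc (Fs (δ n) D₁)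
  have hPos : ∀ n, Pos (μ n) := fun n => ⟨hμ n, fun v => by
    rw [hμE n]; exact (hm _ _ (Finset.Subset.refl (Fs (δ n) D₂)) v).1⟩
  have hPos' : ∀ n, Pos (μ' n) := fun n => ⟨hμ' n, fun v => by
    rw [hμE' n]; exact (hm _ _ (Finset.Subset.refl (Fs (δ n) D₁)) v).1⟩
  have hvB : ∀ n q, TestOn D₁ q → ∀ ω, hv (δ n) q ω = hB (B n) (δ n) q ω := fun n q hq ω =>
    hB' n q (fun z hz => hD1R (hq.2.2 (subset_tsupport _ hz))) ω
  have hvlB : ∀ n (l : List (ℝ × ℝ → ℝ)), (∀ q ∈ l, TestOn D₁ q) → ∀ ω,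
      hvl (δ n) l ω = hl (B n) (δ n) l ω := by
    intro n l hl' ω
    unfold hvl hl
    congr 1
    exact List.map_congr_left fun q hq => hvB n q (hl' q hq) ω
  -- moments of `g0`
  have hmom : ∀ j : ℕ, ∃ C : ℝ, ∀ᶠ n in atTop, ∫ ω, hB (B n) (δ n) g0 ω ^ j ∂(μ n) ≤ C := by
    intro j
    obtain ⟨C, hC⟩ := hmb D₂ hD2 hb g0 (hg0t.mono (subset_univ _)) hg00 j
    refine ⟨C, ?_⟩
    filter_upwards [hC] with n hn
    have e1 := hμE n (fun ω => hv (δ n) g0 ω ^ j)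
    have e2 : EE c (δ n) D₂ (fun ω => hv (δ n) g0 ω ^ j) = ∫ ω, hv (δ n) g0 ω ^ j ∂(μ n) := e1.symm
    rw [e2] at hn
    refine le_trans (le_of_eq ?_) hn
    congr 1
    funext ω
    rw [hvB n g0 hg0t]
  choose C hC using hmom
  set M : ℝ := 1 + ∑ j ∈ Finset.range (2 * k + 5), |C j| with hMd
  have hM1 : 1 ≤ M := by
    have : 0 ≤ ∑ j ∈ Finset.range (2 * k + 5), |C j| := Finset.sum_nonneg fun _ _ => abs_nonneg _
    linarith only [this]
  have hM : ∀ᶠ n in atTop, ∀ j ∈ Finset.range (2 * k + 5),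
      ∫ ω, hB (B n) (δ n) g0 ω ^ j ∂(μ n) ≤ M := by
    rw [Filter.eventually_all_finset]
    intro j hj
    filter_upwards [hC j] with n hn
    have h1 : |C j| ≤ ∑ j ∈ Finset.range (2 * k + 5), |C j| :=
      Finset.single_le_sum (f := fun j => |C j|) (fun _ _ => abs_nonneg _) hj
    have h2 := le_abs_self (C j)
    linarith only [hn, h1, h2]
  -- constants
  obtain ⟨C2, hC20, hC2⟩ := hl2 R hR
  obtain ⟨Bψ, hBψ⟩ := hψ.cs.exists_bound_of_continuous hψ.cont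
  have hBψ0 : 0 ≤ Bψ := (norm_nonneg _).trans (hBψ 0)
  set I : ℝ := ∫ z, ψ z * f z with hI
  set A : ℝ := 4 * (k + 1) + 2 * |κ| * (k + 1) * k * |I| with hA
  have hA0 : 0 ≤ A := by (clear * -; positivity)
  set θ : ℝ := min 1 (η / (3 * (A + 1))) with hθ
  have hθ0 : 0 < θ := lt_min one_pos (by (clear * - hη; positivity))
  have hθ1 : θ ≤ 1 := min_le_left _ _
  have hθA : θ * A ≤ η / 3 := by
    have h1 : θ ≤ η / (3 * (A + 1)) := min_le_right _ _
    have h2 : θ * A ≤ η / (3 * (A + 1)) * (A + 1) :=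
      mul_le_mul h1 (by linarith only []) hA0 (by (clear * - hη; positivity))
    have h3 : η / (3 * (A + 1)) * (A + 1) = η / 3 := by (clear * - hA0 hη; field_simp)
    linarith only [h2, h3]
  obtain ⟨ρ, hρ0, hρ1, hρ2⟩ : ∃ ρ : ℝ, 0 < ρ ∧ (C2 * ρ + θ ^ 2 / (2 * M)) * M ≤ θ ^ 2 ∧
      |κ| * (k + 1) * ((Bψ * ρ) * (M + 1)) ≤ η / 3 := by
    refine ⟨min (θ ^ 2 / (2 * M * (C2 + 1))) (η / (3 * (|κ| * (k + 1) * (Bψ * (M + 1)) + 1))),
      lt_min (by (clear * - hη hC20; positivity)) (by (clear * - hη hBψ0; positivity)), ?_, ?_⟩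
    · have h1 := min_le_left (θ ^ 2 / (2 * M * (C2 + 1)))
        (η / (3 * (|κ| * (k + 1) * (Bψ * (M + 1)) + 1)))
      have h2 : C2 * min (θ ^ 2 / (2 * M * (C2 + 1)))
          (η / (3 * (|κ| * (k + 1) * (Bψ * (M + 1)) + 1))) ≤
          (C2 + 1) * (θ ^ 2 / (2 * M * (C2 + 1))) :=
        mul_le_mul (by linarith only []) h1 (le_of_lt (lt_min (by (clear * - hη hC20; positivity)) (by (clear * - hη hBψ0; positivity))))
          (by linarith only [hC20])
      have h3 : (C2 + 1) * (θ ^ 2 / (2 * M * (C2 + 1))) = θ ^ 2 / (2 * M) := by (clear * - hC20 hM1 hθ0; field_simp)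
      have h4 : (θ ^ 2 / (2 * M) + θ ^ 2 / (2 * M)) * M = θ ^ 2 := by field_simp; ring
      refine le_trans ?_ h4.le
      refine mul_le_mul_of_nonneg_right ?_ (by linarith only [hM1])
      linarith only [h2, h3]
    · set Q : ℝ := |κ| * (k + 1) * (Bψ * (M + 1)) with hQ
      have hQ0 : 0 ≤ Q := by (clear * - hBψ0; positivity)
      have h1 := min_le_right (θ ^ 2 / (2 * M * (C2 + 1))) (η / (3 * (Q + 1)))
      set ρ' : ℝ := min (θ ^ 2 / (2 * M * (C2 + 1))) (η / (3 * (Q + 1))) with hρ'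
      have hρ'0 : 0 ≤ ρ' := le_of_lt (lt_min (by (clear * - hη hC20; positivity)) (by (clear * - hη hBψ0; positivity)))
      have h2 : |κ| * (k + 1) * ((Bψ * ρ') * (M + 1)) = Q * ρ' := by rw [hQ]; ring
      rw [h2]
      have h3 : Q * ρ' ≤ (Q + 1) * (η / (3 * (Q + 1))) :=
        mul_le_mul (by linarith only []) h1 hρ'0 (by linarith only [hQ0])
      have h4 : (Q + 1) * (η / (3 * (Q + 1))) = η / 3 := by (clear * - hQ0 hη; field_simp)
      linarith only [h3, h4]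
  -- partition
  obtain ⟨e, he, f0, g, hf0c, hf0t, hgt, hf00, hg0', hgPin, hle, hr2, hr1⟩ :=
    exists_pin hf hf0 hab hab' hρ0
  set f' : ℝ × ℝ → ℝ := fun z => f0 z + g z with hf'
  have hf't : TestOn D₁ f' := hf0t.add hgt
  have hf'0 : ∀ z, 0 ≤ f' z := fun z => add_nonneg (hf00 z) (hg0' z)
  set r : ℝ × ℝ → ℝ := fun z => f z - f' z with hr
  have hrt : TestOn D₁ r := hf.sub hf't
  have hr0 : ∀ z, 0 ≤ r z := fun z => sub_nonneg.2 (hle z)
  -- the lists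
  set LL : List (List (ℝ × ℝ → ℝ)) := L ++ ((List.range (k + 1)).map (lq p r f f' k) ++
    ((List.range (k + 1)).map (lq m r f f' k) ++ ((List.range k).map (lr r f f' k) ++
      [List.replicate k f']))) with hLL
  have good : ∀ q ∈ [p, m, r, f, f'], TestOn D₁ q ∧ ∀ z, 0 ≤ q z := by
    intro q hq
    simp only [List.mem_cons, List.not_mem_nil, or_false] at hq
    rcases hq with rfl | rfl | rfl | rfl | rfl
    exacts [⟨hp, hp0⟩, ⟨hmt, hm0⟩, ⟨hrt, hr0⟩, ⟨hf, hf0⟩, ⟨hf't, hf'0⟩]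
  have memlq : ∀ q ∈ [p, m], ∀ i, ∀ t ∈ lq q r f f' k i, t ∈ [p, m, r, f, f'] := by
    intro q hq i t ht
    simp only [lq, List.mem_cons, List.mem_append, List.mem_replicate] at ht
    simp only [List.mem_cons, List.not_mem_nil, or_false] at hq ⊢
    rcases ht with rfl | rfl | ⟨-, rfl⟩ | ⟨-, rfl⟩
    · rcases hq with rfl | rfl <;> simp
    · simp
    · simp
    · simp
  have memlr : ∀ i, ∀ t ∈ lr r f f' k i, t ∈ [p, m, r, f, f'] := by
    intro i t ht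
    simp only [lr, List.mem_cons, List.mem_append, List.mem_replicate] at ht
    simp only [List.mem_cons, List.not_mem_nil, or_false]
    rcases ht with rfl | ⟨-, rfl⟩ | ⟨-, rfl⟩ <;> simp
  have hLLg : ∀ l ∈ LL, ∀ q ∈ l, TestOn D₁ q ∧ ∀ z, 0 ≤ q z := by
    intro l hl' q hq
    simp only [hLL, List.mem_append, List.mem_map, List.mem_range, List.mem_cons,
      List.not_mem_nil, or_false] at hl'
    rcases hl' with h1 | ⟨i, -, rfl⟩ | ⟨i, -, rfl⟩ | ⟨i, -, rfl⟩ | rfl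
    · exact hL l h1 q hq
    · exact good q (memlq p (by simp) i q hq)
    · exact good q (memlq m (by simp) i q hq)
    · exact good q (memlr i q hq)
    · rw [List.mem_replicate] at hq
      rw [hq.2]
      exact ⟨hf't, hf'0⟩
  have hθη : θ ≤ η := by
    have h1 : θ ≤ η / (3 * (A + 1)) := min_le_right _ _
    have h2 : η / (3 * (A + 1)) ≤ η := div_le_self hη.le (by linarith only [hA0])
    linarith only [h1, h2]
  obtain ⟨ν, hνm, hνs, hνsd⟩ := h0 D₁ D₂ hD1 hD2 hb hcl a b a' b' hab hab' hcc e he ψ f0 g k hψ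
    hf0c hgt hf00 hg0' hgPin LL hLLg (min θ (η / 3)) (lt_min hθ0 (by (clear * - hη; positivity)))
  have hmin1 : min θ (η / 3) ≤ θ := min_le_left _ _
  have hmin2 : min θ (η / 3) ≤ η / 3 := min_le_right _ _
  refine ⟨ν, hνm, ?_, ?_⟩
  · intro l hl'
    filter_upwards [hνs l (by rw [hLL]; exact List.mem_append_left _ hl')] with n hn
    exact ⟨by linarith only [hη, hmin2, hn], by linarith only [hη, hmin2, hn]⟩
  -- the sandwich for all lists of `LL`
  have hνall : ∀ᶠ n in atTop, ∀ l ∈ LL, EE c (δ n) D₁ (hvl (δ n) l) ≤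
      (∫ ω, hvl (δ n) l ω ∂(ν n)) + θ ∧
      ∫ ω, hvl (δ n) l ω ∂(ν n) ≤ EE c (δ n) D₂ (hvl (δ n) l) + θ := by
    have h1 : ∀ l ∈ LL.toFinset, ∀ᶠ n in atTop, EE c (δ n) D₁ (hvl (δ n) l) ≤
        (∫ ω, hvl (δ n) l ω ∂(ν n)) + θ ∧
        ∫ ω, hvl (δ n) l ω ∂(ν n) ≤ EE c (δ n) D₂ (hvl (δ n) l) + θ := by
      intro l hl'
      filter_upwards [hνs l (List.mem_toFinset.1 hl')] with n hn
      exact ⟨by linarith only [hmin1, hn], by linarith only [hmin1, hn]⟩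
    have h2 := (Filter.eventually_all_finset LL.toFinset).2 h1
    filter_upwards [h2] with n hn l hl'
    exact hn l (List.mem_toFinset.2 hl')
  filter_upwards [hνm, hνall, hνsd, hM, hC2 D₂ hD2 hD2R r (hrt.mono hD1R) hr0
    (θ ^ 2 / (2 * M)) (by (clear * - hη; positivity))] with n n1 n2 n3 n4 n5
  -- second moment of `r`
  have hX : ∫ ω, hB (B n) (δ n) r ω ^ 2 ∂(μ n) ≤ C2 * ρ + θ ^ 2 / (2 * M) := by
    have e1 := hμE n (fun ω => hv (δ n) r ω ^ 2)
    have e2 : EE c (δ n) D₂ (fun ω => hv (δ n) r ω ^ 2) = ∫ ω, hv (δ n) r ω ^ 2 ∂(μ n) := e1.symm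
    rw [e2] at n5
    have e3 : ∫ ω, hv (δ n) r ω ^ 2 ∂(μ n) = ∫ ω, hB (B n) (δ n) r ω ^ 2 ∂(μ n) := by
      congr 1; funext ω; rw [hvB n r hrt]
    rw [e3] at n5
    have h1 : C2 * (∫ z, r z ^ 2) ≤ C2 * ρ := mul_le_mul_of_nonneg_left hr2 hC20
    linarith only [n5, h1]
  -- the lists with a factor `r` are small
  have small : ∀ l : List (ℝ × ℝ → ℝ), (∀ q ∈ l, q ∈ [p, m, r, f, f'] ∧ ∀ z, q z ≤ g0 z) →
      l.length ≤ k + 1 → ∫ ω, hB (B n) (δ n) r ω * hl (B n) (δ n) l ω ∂(μ n) ≤ θ := by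
    intro l hl' hlen
    refine small_list (hPos n) hr0 hg00 (fun q hq z => ⟨(good q (hl' q hq).1).2 z, (hl' q hq).2 z⟩)
      hX (n4 _ (Finset.mem_range.2 (by (clear * - hlen; omega)))) (by linarith only [hM1]) hθ0.le hρ1
  have le1 : ∀ z, p z ≤ g0 z := fun z => by simp only [hg0]; linarith only [hm0 z, hf0 z]
  have le2 : ∀ z, m z ≤ g0 z := fun z => by simp only [hg0]; linarith only [hp0 z, hf0 z]
  have le3 : ∀ z, f z ≤ g0 z := fun z => by simp only [hg0]; linarith only [hp0 z, hm0 z]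
  have le4 : ∀ z, f' z ≤ g0 z := fun z => (hle z).trans (le3 z)
  have hEE2 : ∀ l ∈ LL, EE c (δ n) D₂ (hvl (δ n) l) = ∫ ω, hl (B n) (δ n) l ω ∂(μ n) := by
    intro l hl'
    have e1 := hμE n (hvl (δ n) l)
    have e2 : EE c (δ n) D₂ (hvl (δ n) l) = ∫ ω, hvl (δ n) l ω ∂(μ n) := e1.symm
    rw [e2]
    congr 1
    funext ω
    exact hvlB n l (fun q hq => (hLLg l hl' q hq).1) ω
  have hEE1 : ∀ l ∈ LL, 0 ≤ EE c (δ n) D₁ (hvl (δ n) l) := by
    intro l hl'
    have e1 := hμE' n (hvl (δ n) l)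
    have e2 : EE c (δ n) D₁ (hvl (δ n) l) = ∫ ω, hvl (δ n) l ω ∂(μ' n) := e1.symm
    have e3 : ∫ ω, hvl (δ n) l ω ∂(μ' n) = ∫ ω, hl (B n) (δ n) l ω ∂(μ' n) := by
      congr 1
      funext ω
      exact hvlB n l (fun q hq => (hLLg l hl' q hq).1) ω
    rw [e2, e3]
    exact (hPos' n).hl_nonneg fun q hq => (hLLg l hl' q hq).2
  have hνl : ∀ l ∈ LL, ∀ x : ℝ, ∫ ω, hl (B n) (δ n) l ω ∂(μ n) ≤ x → 0 ≤ x →
      |∫ ω, hl (B n) (δ n) l ω ∂(ν n)| ≤ x + θ := by
    intro l hl' x hx hx0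
    obtain ⟨q1, q2⟩ := n2 l hl'
    have e3 : ∫ ω, hvl (δ n) l ω ∂(ν n) = ∫ ω, hl (B n) (δ n) l ω ∂(ν n) := by
      congr 1
      funext ω
      exact hvlB n l (fun q hq => (hLLg l hl' q hq).1) ω
    rw [e3] at q1 q2
    rw [hEE2 l hl'] at q2
    have q3 := hEE1 l hl'
    rw [abs_le]
    constructor <;> linarith only [hx, q2, hx0, q1, q3]
  have tail_small : ∀ i, i ≤ k → ∀ q ∈ [p, m], (∀ z, q z ≤ g0 z) →
      ∫ ω, hl (B n) (δ n) (lq q r f f' k i) ω ∂(μ n) ≤ θ := by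
    intro i hi q hq hqg
    have h1 := small (q :: (List.replicate i f ++ List.replicate (k - i) f')) ?_ ?_
    · refine le_trans (le_of_eq ?_) h1
      congr 1
      funext ω
      rw [hl_lq]
      simp only [hl, List.map_cons, List.map_append, List.map_replicate, List.prod_cons, List.prod_append, List.prod_replicate]
      ring
    · intro t ht
      simp only [List.mem_cons, List.mem_append, List.mem_replicate] at ht
      rcases ht with rfl | ⟨-, rfl⟩ | ⟨-, rfl⟩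
      · refine ⟨?_, hqg⟩
        simp only [List.mem_cons, List.not_mem_nil, or_false] at hq ⊢
        rcases hq with h | h
        · left; exact h
        · right; left; exact h
      · exact ⟨by simp, le3⟩
      · exact ⟨by simp, le4⟩
    · simp only [List.length_cons, List.length_append, List.length_replicate]
      omega
  have tail_small' : ∀ i, i < k → ∫ ω, hl (B n) (δ n) (lr r f f' k i) ω ∂(μ n) ≤ θ := by
    intro i hi
    have h1 := small (List.replicate i f ++ List.replicate (k - 1 - i) f') ?_ ?_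
    · refine le_trans (le_of_eq ?_) h1
      congr 1
    · intro t ht
      simp only [List.mem_append, List.mem_replicate] at ht
      rcases ht with ⟨-, rfl⟩ | ⟨-, rfl⟩
      · exact ⟨by simp, le3⟩
      · exact ⟨by simp, le4⟩
    · simp only [List.length_append, List.length_replicate]
      omega
  -- members of `LL`
  have mem1 : ∀ i, i < k + 1 → lq p r f f' k i ∈ LL := fun i hi => by
    rw [hLL]
    refine List.mem_append_right _ (List.mem_append_left _ ?_)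
    exact List.mem_map.2 ⟨i, List.mem_range.2 hi, rfl⟩
  have mem2 : ∀ i, i < k + 1 → lq m r f f' k i ∈ LL := fun i hi => by
    rw [hLL]
    refine List.mem_append_right _ (List.mem_append_right _ (List.mem_append_left _ ?_))
    exact List.mem_map.2 ⟨i, List.mem_range.2 hi, rfl⟩
  have mem3 : ∀ i, i < k → lr r f f' k i ∈ LL := fun i hi => by
    rw [hLL]
    refine List.mem_append_right _ (List.mem_append_right _ (List.mem_append_right _
      (List.mem_append_left _ ?_)))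
    exact List.mem_map.2 ⟨i, List.mem_range.2 hi, rfl⟩
  have mem4 : List.replicate k f' ∈ LL := by
    rw [hLL]
    refine List.mem_append_right _ (List.mem_append_right _ (List.mem_append_right _
      (List.mem_append_right _ ?_)))
    simp
  -- conversions
  have cU : ∀ (t : ℝ × ℝ → ℝ), TestOn D₁ t → ∀ j : ℕ,
      ∫ ω, hv (δ n) (lap ψ) ω * hv (δ n) t ω ^ j ∂(ν n) =
      ∫ ω, hB (B n) (δ n) (fun z => p z - m z) ω * hB (B n) (δ n) t ω ^ j ∂(ν n) := by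
    intro t ht j
    congr 1
    funext ω
    rw [hvB n _ hψ1.lap, hvB n t ht, hpm']
  have cV : ∀ (t : ℝ × ℝ → ℝ), TestOn D₁ t → ∀ j : ℕ,
      ∫ ω, hv (δ n) t ω ^ j ∂(ν n) = ∫ ω, hB (B n) (δ n) t ω ^ j ∂(ν n) := by
    intro t ht j
    congr 1
    funext ω
    rw [hvB n t ht]
  rw [cU f' hf't, cV f' hf't] at n3
  rw [cU f hf, cV f hf]
  refine final_arith (M := M + 1) (θ := θ) (ε' := Bψ * ρ) ?_ ?_ ?_ ?_ (n3.trans hmin2) hθA hρ2
  · rw [expand1 n1]
    refine (sum_abs_le _ _ (t := 4 * θ) fun i hi => ?_).trans ?_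
    · have hi' := Finset.mem_range.1 hi
      have q1 := hνl _ (mem1 i hi') θ (tail_small i (by omega) p (by simp) le1) hθ0.le
      have q2 := hνl _ (mem2 i hi') θ (tail_small i (by omega) m (by simp) le2) hθ0.le
      refine (abs_sub _ _).trans ?_
      linarith only [q1, q2]
    · rw [Finset.card_range]
      push_cast
      linarith only []
  · rw [expand2 n1]
    refine (sum_abs_le _ _ (t := 2 * θ) fun i hi => ?_).trans ?_
    · have hi' := Finset.mem_range.1 hi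
      have q1 := hνl _ (mem3 i hi') θ (tail_small' i hi') hθ0.le
      linarith only [q1]
    · rw [Finset.card_range]
      linarith only []
  · have q1 := hνl _ mem4 M ?_ (by linarith only [hM1])
    · have e1 : ∫ ω, hl (B n) (δ n) (List.replicate k f') ω ∂(ν n) =
          ∫ ω, hB (B n) (δ n) f' ω ^ k ∂(ν n) := by
        congr 1; funext ω; exact hl_replicate f' k ω
      rw [e1] at q1
      linarith only [hθ1, q1]
    · have h1 := (hPos n).hl_le (B := B n) (δ := δ n) hg00 (zero_le_one (α := ℝ))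
        (List.replicate k f') (fun q hq z => by
          rw [List.mem_replicate] at hq
          rw [hq.2, one_mul]
          exact ⟨hf'0 z, le4 z⟩)
      rw [List.length_replicate, one_pow, one_mul] at h1
      exact h1.trans (n4 k (Finset.mem_range.2 (by omega)))
  · have e1 : I - ∫ z, ψ z * (f0 z + g z) = ∫ z, ψ z * r z := by
      rw [hI, ← integral_sub]
      · congr 1
        funext z
        simp only [hr, hf']
        ring
      · exact (hψ.cont.mul hf.cont).integrable_of_hasCompactSupport hψ.cs.mul_right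
      · exact (hψ.cont.mul hf't.cont).integrable_of_hasCompactSupport hψ.cs.mul_right
    rw [e1]
    have h2 : ‖∫ z, ψ z * r z‖ ≤ ∫ z, Bψ * r z := by
      refine norm_integral_le_of_norm_le (hrt.int.const_mul _) (Eventually.of_forall fun z => ?_)
      rw [norm_mul, Real.norm_eq_abs (r z), abs_of_nonneg (hr0 z)]
      exact mul_le_mul_of_nonneg_right (hBψ z) (hr0 z)
    rw [integral_const_mul, Real.norm_eq_abs] at h2
    exact h2.trans (mul_le_mul_of_nonneg_left hr1 hBψ0)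

end Vale.Agent.P145.X
end

section

/-!
P145, X-level, positivity: all annuli of all scales between `s` and `K s` with centres in the box
`B_{K s}` have circuits of blocked edges at level `0`, with measure bounded below uniformly in `s`.
-/

namespace Vale.Agent.P145.X.PosAll

open Finset Filter Topology MeasureTheory
open Vale.Agent.P152 (Edge Ori Ice)
open Vale.Agent.P145.FA (Hgt)
open Vale.Agent.P145.FB Vale.Agent.P145.X

/-! ### Nets of annuli -/

/-- The annuli of size `t` around the points `(a + i t, b + j t)`, `i, j ≤ N`. -/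
def Net (t : ℤ) (N : ℕ) (a b : ℤ) (S : Set (ℤ × ℤ)) : Prop :=
  ∀ i < N + 1, ∀ j < N + 1, Ann (a + i * t) (b + j * t) t S

theorem Net.mono {t : ℤ} {N : ℕ} {a b : ℤ} {S T : Set (ℤ × ℤ)} (h : Net t N a b S) (hST : S ⊆ T) :
    Net t N a b T := fun i hi j hj => (IL_Ann _ _ _).1 _ _ hST (h i hi j hj)

theorem BTc_swap (S : Set (ℤ × ℤ)) (a b c d : ℤ) :
    BTc a b c d {z | (z.2, z.1) ∈ S} ↔ LRc c d a b S := by
  have h := LRc_swap {z | (z.2, z.1) ∈ S} c d a b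
  have e : {z : ℤ × ℤ | (z.2, z.1) ∈ {z : ℤ × ℤ | (z.2, z.1) ∈ S}} = S := by
    ext z; rfl
  rw [e] at h
  exact h.symm

theorem Ann_swap {p q t : ℤ} {S : Set (ℤ × ℤ)} (h : Ann p q t S) :
    Ann q p t {z | (z.2, z.1) ∈ S} := by
  obtain ⟨h1, h2, h3, h4⟩ := h
  exact ⟨(LRc_swap S _ _ _ _).2 h4, (LRc_swap S _ _ _ _).2 h3, (BTc_swap S _ _ _ _).2 h2,
    (BTc_swap S _ _ _ _).2 h1⟩

theorem Net.swap {t : ℤ} {N : ℕ} {a b : ℤ} {S : Set (ℤ × ℤ)} (h : Net t N a b S) :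
    Net t N b a {z | (z.2, z.1) ∈ S} := fun i hi j hj => Ann_swap (h j hj i hi)

/-- Long horizontal crossings in the strips of the net. -/
theorem Net.strip {t : ℤ} (ht : 0 < t) {N : ℕ} {a b : ℤ} {S : Set (ℤ × ℤ)} (h : Net t N a b S)
    {j : ℕ} (hj : j < N + 1) : ∀ m : ℕ, m < N + 1 →
    LRc (a - 2 * t) (a + (m + 2) * t) (b + j * t + t) (b + j * t + 2 * t) S := by
  intro m
  induction m with
  | zero =>
    intro h0
    have h1 := (h 0 h0 j hj).1
    have e1 : a + ((0 : ℕ) : ℤ) * t - 2 * t = a - 2 * t := by push_cast; ring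
    have e2 : a + ((0 : ℕ) : ℤ) * t + 2 * t = a + (((0 : ℕ) : ℤ) + 2) * t := by push_cast; ring
    rwa [e1, e2] at h1
  | succ m ih =>
    intro hm
    have h1 := ih (by omega)
    have h2 := (h (m + 1) hm j hj).1
    have h3 := (h m (by omega) j hj).2.2.2
    have h4 : BTc (a + (m + 1 : ℕ) * t - 2 * t) (a + (m + 2) * t) (b + j * t + t)
        (b + j * t + 2 * t) S := by
      refine BTc.mono _ _ _ _ _ _ _ _ S ?_ ?_ ?_ ?_ ?_ h3
      · push_cast; linarith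
      · push_cast; nlinarith only []
      · nlinarith only [ht]
      · nlinarith only [ht]
      · exact le_rfl
    have h5 := LRc.chain _ _ _ _ _ _ S (by push_cast; nlinarith only [ht]) (by push_cast; nlinarith only [ht])
      (by push_cast; linarith) (by nlinarith only [ht]) h1 h4 h2
    have e2 : a + ((m + 1 : ℕ) : ℤ) * t + 2 * t = a + (((m + 1 : ℕ) : ℤ) + 2) * t := by ring
    rwa [e2] at h5

/-- Every rectangle of width at least `2 t` in the box of the net is crossed. -/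
theorem Net.lr {t : ℤ} (ht : 0 < t) {N : ℕ} {a b : ℤ} {S : Set (ℤ × ℤ)} (h : Net t N a b S)
    {A B C D : ℤ} (hA : a - 2 * t ≤ A) (hAB : A ≤ B) (hB : B ≤ a + (N + 2) * t)
    (hC : b + t ≤ C) (hCD : C + 2 * t ≤ D) (hD : D ≤ b + (N + 2) * t) : LRc A B C D S := by
  obtain ⟨k, hk1, hk2⟩ : ∃ k : ℤ, C ≤ b + (k + 1) * t ∧ b + (k + 1) * t < C + t := by
    refine ⟨-((b - C) / t) - 1, ?_, ?_⟩
    · have h1 := Int.ediv_mul_le (b - C) ht.ne'
      have e : (-((b - C) / t) - 1 + 1) * t = -((b - C) / t * t) := by ring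
      rw [e]; linarith only [h1]
    · have h1 := Int.lt_ediv_add_one_mul_self (b - C) ht
      have e : (-((b - C) / t) - 1 + 1) * t = -(((b - C) / t + 1) * t) + t := by ring
      rw [e]; linarith only [h1]
  have hk0 : 0 ≤ k := by
    by_contra hc
    have : (k + 1) * t ≤ 0 := mul_nonpos_of_nonpos_of_nonneg (by omega) ht.le
    linarith only [ht, hC, hk1, this]
  have hkN : k < N + 1 := by
    by_contra hc
    have : ((N : ℤ) + 2) * t ≤ (k + 1) * t := mul_le_mul_of_nonneg_right (by omega) ht.le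
    have h3 : (k + 1) * t + t ≤ (N + 2) * t := by linarith only [hCD, hD, hk2]
    linarith
  obtain ⟨j, rfl⟩ := Int.eq_ofNat_of_zero_le hk0
  have h1 := h.strip ht (j := j) (by omega) N (by omega)
  refine LRc.mono _ _ _ _ _ _ _ _ S hA hAB hB ?_ ?_ h1
  · linarith only [hk1]
  · linarith only [hCD, hk2]

theorem Net.bt {t : ℤ} (ht : 0 < t) {N : ℕ} {a b : ℤ} {S : Set (ℤ × ℤ)} (h : Net t N a b S)
    {A B C D : ℤ} (hA : a + t ≤ A) (hAB : A + 2 * t ≤ B) (hB : B ≤ a + (N + 2) * t)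
    (hC : b - 2 * t ≤ C) (hCD : C ≤ D) (hD : D ≤ b + (N + 2) * t) : BTc A B C D S :=
  (LRc_swap S C D A B).1 (h.swap.lr ht hC hCD hD hA hAB hB)

/-- A net contains all coarser annuli. -/
theorem Net.ann {t : ℤ} (ht : 0 < t) {N : ℕ} {a b : ℤ} {S : Set (ℤ × ℤ)} (h : Net t N a b S)
    {p q r : ℤ} (hr : 2 * t ≤ r) (h1 : a + t ≤ p - 2 * r) (h2 : p + 2 * r ≤ a + (N + 2) * t)
    (h3 : b + t ≤ q - 2 * r) (h4 : q + 2 * r ≤ b + (N + 2) * t) : Ann p q r S := by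
  refine ⟨h.lr ht ?_ ?_ ?_ ?_ ?_ ?_, h.lr ht ?_ ?_ ?_ ?_ ?_ ?_, h.bt ht ?_ ?_ ?_ ?_ ?_ ?_,
    h.bt ht ?_ ?_ ?_ ?_ ?_ ?_⟩ <;> linarith

/-! ### The level -/

theorem Net.level {x : Hgt × Mk} (hx : Op x) {t : ℤ} (ht : 0 < t) {N : ℕ} {a b : ℤ}
    (h : Net t N a b (SQ x)) : ∃ l, 4 ∣ l ∧ Net t N a b (fine (opl l x)) := by
  choose! L hL using fun (i : ℕ) (hi : i < N + 1) (j : ℕ) (hj : j < N + 1) =>
    Ann_SQ_level hx ht (h i hi j hj)
  have key : ∀ i < N + 1, ∀ j < N + 1, ∀ i' < N + 1, ∀ j' < N + 1,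
      |(a + i' * t) - (a + i * t)| ≤ 3 * t → |(b + j' * t) - (b + j * t)| ≤ 3 * t →
      L i j = L i' j' := by
    intro i hi j hj i' hi' j' hj' h1 h2
    have hc : IsCh t 1 (fun k : ℕ => if k = 0 then (a + i * t, b + j * t) else
        (a + i' * t, b + j' * t)) := by
      intro k hk
      have : k = 0 := by omega
      subst this
      exact ⟨by simpa only [zero_add, one_ne_zero, ↓reduceIte, add_sub_add_left_eq_sub] using h1, by simpa only [zero_add, one_ne_zero, ↓reduceIte, add_sub_add_left_eq_sub] using h2⟩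
    obtain ⟨l, -, h3⟩ := chain_SQ_level hx ht hc (by
      intro k hk
      by_cases h0 : k = 0
      · simpa [h0] using h i hi j hj
      · simpa [h0] using h i' hi' j' hj')
    have h4 : Ann (a + i * t) (b + j * t) t (fine (opl l x)) := by simpa using h3 0 (by omega)
    have h5 : Ann (a + i' * t) (b + j' * t) t (fine (opl l x)) := by simpa only [one_ne_zero, ↓reduceIte] using h3 1 (by omega)
    have e1 := opl_unique ht h4 (hL i hi j hj).2 (by simp only [sub_self, abs_zero, Nat.ofNat_pos, mul_nonneg_iff_of_pos_left, ht.le]) (by simp only [sub_self, abs_zero, Nat.ofNat_pos, mul_nonneg_iff_of_pos_left, ht.le])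
    have e2 := opl_unique ht h5 (hL i' hi' j' hj').2 (by simp only [sub_self, abs_zero, Nat.ofNat_pos, mul_nonneg_iff_of_pos_left, ht.le]) (by simp only [sub_self, abs_zero, Nat.ofNat_pos, mul_nonneg_iff_of_pos_left, ht.le])
    rw [← e1, ← e2]
  have h0 : ∀ k : ℕ, |((k + 1 : ℕ) : ℤ) * t - (k : ℕ) * t| ≤ 3 * t := by
    intro k
    have : ((k + 1 : ℕ) : ℤ) * t - (k : ℕ) * t = t := by push_cast; ring
    rw [this, abs_of_pos ht]; linarith only [ht]
  have hrow : ∀ i < N + 1, L i 0 = L 0 0 := by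
    intro i
    induction i with
    | zero => intro _; rfl
    | succ i ih =>
      intro hi
      rw [← ih (by omega)]
      refine (key i (by omega) 0 (by omega) (i + 1) hi 0 (by omega) ?_ ?_).symm
      · have := h0 i
        rwa [add_sub_add_left_eq_sub]
      · simp only [CharP.cast_eq_zero, zero_mul, add_zero, sub_self, abs_zero, Nat.ofNat_pos, mul_nonneg_iff_of_pos_left, ht.le]
  have hall : ∀ i < N + 1, ∀ j < N + 1, L i j = L 0 0 := by
    intro i hi j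
    induction j with
    | zero => intro _; exact hrow i hi
    | succ j ih =>
      intro hj
      rw [← ih (by omega)]
      refine (key i hi j (by omega) i hi (j + 1) hj ?_ ?_).symm
      · simp only [sub_self, abs_zero, Nat.ofNat_pos, mul_nonneg_iff_of_pos_left, ht.le]
      · have := h0 j
        rwa [add_sub_add_left_eq_sub]
  refine ⟨L 0 0, (hL 0 (by omega) 0 (by omega)).1, fun i hi j hj => ?_⟩
  rw [← hall i hi j hj]
  exact (hL i hi j hj).2

/-! ### Association -/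

theorem IL_forall {Q : ℕ → Set (ℤ × ℤ) → Prop} : ∀ n : ℕ, (∀ i < n, IL (Q i)) →
    IL (fun S => ∀ i < n, Q i S) := by
  intro n
  induction n with
  | zero =>
    intro _
    exact ⟨fun S T _ _ i hi => absurd hi (by omega), 0, fun S T _ _ i hi => absurd hi (by omega)⟩
  | succ n ih =>
    intro h
    have h1 := (ih fun i hi => h i (by omega)).and (h n (by omega))
    have e : (fun S => ∀ i < n + 1, Q i S) = fun S => (∀ i < n, Q i S) ∧ Q n S := by
      funext S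
      refine propext ⟨fun h2 => ⟨fun i hi => h2 i (by omega), h2 n (by omega)⟩, fun h2 i hi => ?_⟩
      rcases Nat.lt_succ_iff_lt_or_eq.1 hi with h3 | rfl
      · exact h2.1 i h3
      · exact h2.2
    rw [e]
    exact h1

theorem IL_Net (t : ℤ) (N : ℕ) (a b : ℤ) : IL (Net t N a b) :=
  IL_forall (Q := fun i S => ∀ j < N + 1, Ann (a + i * t) (b + j * t) t S) (N + 1) fun i _ =>
    IL_forall (Q := fun j S => Ann (a + i * t) (b + j * t) t S) (N + 1) fun j _ => IL_Ann _ _ _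

variable {t : ℝ} {P : Measure (Ori (ℤ × ℤ))} [IsProbabilityMeasure P]

theorem assoc_forall (hA : Assoc t P) {Q : ℕ → Set (ℤ × ℤ) → Prop} {c : ℝ} (hc : 0 ≤ c) :
    ∀ n : ℕ, (∀ i < n, IL (Q i)) → (∀ i < n, c ≤ (J t P).real {x | Q i (SQ x)}) →
    c ^ n ≤ (J t P).real {x | ∀ i < n, Q i (SQ x)} := by
  intro n
  induction n with
  | zero =>
    intro _ _
    have e : {x : Hgt × Mk | ∀ i < 0, Q i (SQ x)} = Set.univ := by
      ext x; simp
    rw [e]
    simp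
  | succ n ih =>
    intro h h'
    have h1 := ih (fun i hi => h i (by omega)) (fun i hi => h' i (by omega))
    have h2 := h' n (by omega)
    have hI := IL_forall (Q := Q) n fun i hi => h i (by omega)
    have hn := h n (by omega)
    have h3 := hA (fun A => ∀ i < n, Q i (fine A)) (fun A => Q n (fine A))
      (fun A B hAB => hI.1 _ _ (fine_mono hAB)) (fun A B hAB => hn.1 _ _ (fine_mono hAB))
      (loc_fine hI.2) (loc_fine hn.2)
    have e : {x : Hgt × Mk | ∀ i < n + 1, Q i (SQ x)} =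
        {x | (∀ i < n, Q i (fine (opp x))) ∧ Q n (fine (opp x))} := by
      ext x
      constructor
      · intro h4
        exact ⟨fun i hi => h4 i (by omega), h4 n (by omega)⟩
      · intro h4 i hi
        rcases Nat.lt_succ_iff_lt_or_eq.1 hi with h5 | rfl
        · exact h4.1 i h5
        · exact h4.2
    rw [e, pow_succ]
    exact (mul_le_mul h1 h2 hc measureReal_nonneg).trans h3

/-- The net has probability at least `c ^ ((N + 1) ^ 2)`. -/
theorem net_ge (hA : Assoc t P) {c : ℝ} (hc : 0 ≤ c) {r : ℤ}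
    (h : ∀ p q : ℤ, c ≤ (J t P).real {x | Ann p q r (SQ x)}) (N : ℕ) (a b : ℤ) :
    (c ^ (N + 1)) ^ (N + 1) ≤ (J t P).real {x | Net r N a b (SQ x)} := by
  refine assoc_forall hA (Q := fun i S => ∀ j < N + 1, Ann (a + i * r) (b + j * r) r S)
    (pow_nonneg hc _) (N + 1) (fun i _ => IL_forall (N + 1) fun j _ => IL_Ann _ _ _) fun i _ => ?_
  exact assoc_forall hA (Q := fun j S => Ann (a + i * r) (b + j * r) r S) hc (N + 1)
    (fun j _ => IL_Ann _ _ _) fun j _ => h _ _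

/-- The net at level `0`. -/
theorem MU_net_ge (hice : ∀ᵐ a ∂P, ∀ x y, Ice a x y) (hA : Assoc t P) {c : ℝ} (hc : 0 ≤ c) {r : ℤ}
    (hr : 0 < r) (h : ∀ p q : ℤ, c ≤ (J t P).real {x | Ann p q r (SQ x)}) (N : ℕ) (a b : ℤ) :
    ENNReal.ofReal (2 * (c ^ (N + 1)) ^ (N + 1)) ≤ MU t P {x | Net r N a b (fine (bl x))} := by
  rw [MU_eq_Jmu hice]
  have hL : LevFam fun l => {x : Hgt × Mk | Net r N a b (fine (opl l x))} :=
    levFam_opl (Q := fun A => Net r N a b (fine A)) (loc_fine (IL_Net r N a b).2)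
  refine le_trans ?_ (two_mul_J_le hL)
  have h1 : J t P {x | Net r N a b (SQ x)} ≤
      J t P (some4 fun l => {x : Hgt × Mk | Net r N a b (fine (opl l x))}) := by
    refine measure_mono_ae ?_
    filter_upwards [open_even t P hice] with x hx hN
    obtain ⟨l, h2, h3⟩ := Net.level (x := x) hx hr hN
    exact ⟨l, h2, h3⟩
  rw [ENNReal.ofReal_mul (by norm_num), ENNReal.ofReal_ofNat]
  gcongr
  refine le_trans ?_ h1
  rw [← ENNReal.ofReal_toReal (measure_ne_top (J t P) {x | Net r N a b (SQ x)})]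
  exact ENNReal.ofReal_le_ofReal (net_ge hA hc h N a b)

/-- **Positivity.** All rectangles of width at least `s` in the box `B_{K s}` are crossed at level
`0`, and all annuli of size between `s` and `K s` with centre in `B_{K s}` have circuits at level
`0`, with measure bounded below uniformly in `s`. -/
theorem pos_all (hice : ∀ᵐ a ∂P, ∀ x y, Ice a x y) (hA : Assoc t P)
    (hR : ∃ c : ℝ, 0 < c ∧ ∃ r0 : ℤ, ∀ r : ℤ, r0 ≤ r → ∀ p q : ℤ,
      c ≤ (J t P).real {x | Ann p q r (SQ x)}) (K : ℕ) :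
    ∃ c : ℝ, 0 < c ∧ ∃ s0 : ℤ, ∀ s : ℤ, s0 ≤ s → ENNReal.ofReal c ≤ MU t P {x |
      (∀ p q r : ℤ, s ≤ r → r ≤ K * s → |p| ≤ K * s → |q| ≤ K * s →
        Ann p q r (fine (bl x))) ∧
      (∀ A B C D : ℤ, -(K * s) ≤ A → A ≤ B → B ≤ K * s → -(K * s) ≤ C → C + s ≤ D → D ≤ K * s →
        LRc A B C D (fine (bl x)) ∧ BTc C D A B (fine (bl x)))} := by
  obtain ⟨c, hc, r0, h⟩ := hR
  set N : ℕ := 18 * K + 2 with hN
  refine ⟨2 * (c ^ (N + 1)) ^ (N + 1), by positivity, max (4 * r0) 4, fun s hs => ?_⟩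
  have hs4 : 4 ≤ s := (le_max_right _ _).trans hs
  have hs0 : 4 * r0 ≤ s := (le_max_left _ _).trans hs
  set r : ℤ := s / 2 with hr
  have hr1 : 2 * r ≤ s := by (clear * -; omega)
  have hr2 : s ≤ 3 * r := by omega
  have hr3 : 0 < r := by omega
  have hr4 : r0 ≤ r := by omega
  refine (MU_net_ge hice hA hc.le hr3 (h r hr4) N (-((9 * K + 1) * r)) (-((9 * K + 1) * r))).trans
    (measure_mono ?_)
  intro x hx
  have hx' : Net r N (-((9 * K + 1) * r)) (-((9 * K + 1) * r)) (fine (bl x)) := hx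
  have hKs : (K : ℤ) * s ≤ K * (3 * r) := mul_le_mul_of_nonneg_left hr2 (by positivity)
  have hK0 : (0 : ℤ) ≤ K * r := by (clear * - hr3; positivity)
  have hNr : -((9 * (K : ℤ) + 1) * r) + ((N : ℤ) + 2) * r = 9 * (K * r) + 3 * r := by
    rw [hN]; push_cast; ring
  have h9 : -((9 * (K : ℤ) + 1) * r) + r = -(9 * (K * r)) := by ring
  refine ⟨fun p q u h1 h2 h3 h4 => ?_, fun A B C D h1 h2 h3 h4 h5 h6 => ⟨?_, ?_⟩⟩
  · obtain ⟨h5, h6⟩ := abs_le.1 h3
    obtain ⟨h7, h8⟩ := abs_le.1 h4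
    refine hx'.ann hr3 (by (clear * - h1; omega)) ?_ ?_ ?_ ?_
    · rw [h9]; linarith only [hKs, h2, h5]
    · rw [hNr]; linarith only [hs4, hr2, hKs, h2, h6]
    · rw [h9]; linarith only [hKs, h2, h7]
    · rw [hNr]; linarith only [hs4, hr2, hKs, h2, h8]
  · refine hx'.lr hr3 ?_ h2 ?_ ?_ ?_ ?_
    · linarith only [hs4, hr2, hKs, h1, h4, h5, h6]
    · rw [hNr]; linarith only [hs4, hr2, hKs, h3, h4, h5, h6]
    · rw [h9]; linarith only [hs4, hKs, h4, h5, h6]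
    · linarith only [hr1, h5]
    · rw [hNr]; linarith only [hs4, hr2, hKs, h4, h5, h6]
  · refine hx'.bt hr3 ?_ ?_ ?_ ?_ h2 ?_
    · rw [h9]; linarith only [hs4, hKs, h4, h5, h6]
    · linarith only [hr1, h5]
    · rw [hNr]; linarith only [hs4, hr2, hKs, h4, h5, h6]
    · linarith only [hs4, hr2, hKs, h1, h4, h5, h6]
    · rw [hNr]; linarith only [hs4, hr2, hKs, h3, h4, h5, h6]

end Vale.Agent.P145.X.PosAll
end

section

/-!
P145, X-level: the statement `S_pos` of `X/Stmt.lean`.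
-/

namespace Vale.Agent.P145.X

open Filter Topology Set MeasureTheory
open Vale.Agent.P152 (Ori Ice)
open Vale.Agent.P145.FA (Hgt)
open Vale.Agent.P145.FB

/-- The integral of an indicator is the measure of the event. -/
theorem spos_II_ind {t : ℝ} {P : Measure (Ori (ℤ × ℤ))} {Q : Set Pt → Prop}
    (hQ : MeasurableSet {x : Hgt × Mk | Q (bl x)}) :
    II t P (ind Q) (fun _ => 1) = (MU t P).real {x | Q (bl x)} := by
  have e : (fun x : Hgt × Mk => ind Q (bl x) * (fun _ : Top.Om => (1 : ℝ)) (vm x.1)) =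
      {x : Hgt × Mk | Q (bl x)}.indicator (fun _ => (1 : ℝ)) := by
    funext x
    by_cases h : Q (bl x)
    · have h' : x ∈ {x : Hgt × Mk | Q (bl x)} := h
      rw [Set.indicator_of_mem h']
      simp [ind, h]
    · have h' : x ∉ {x : Hgt × Mk | Q (bl x)} := h
      rw [Set.indicator_of_notMem h']
      simp [ind, h]
  rw [II, e, integral_indicator hQ, setIntegral_const, smul_eq_mul, mul_one]

theorem spos_meas_Ann (p q r : ℤ) : MeasurableSet {x : Hgt × Mk | Ann p q r (fine (bl x))} :=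
  (levFam_Ann p q r).meas 0

/-- **POS** (`S_pos`). -/
theorem s_pos {t : ℝ} {P : Measure (Ori (ℤ × ℤ))} [IsProbabilityMeasure P]
    (hice : ∀ᵐ a ∂P, ∀ x y, Ice a x y) (hA : Assoc t P)
    (hR : ∃ c : ℝ, 0 < c ∧ ∃ r0 : ℤ, ∀ r : ℤ, r0 ≤ r → ∀ p q : ℤ,
      c ≤ (J t P).real {x | Ann p q r (SQ x)}) : S_pos t P := by
  intro N
  obtain ⟨c, hc, s0, h⟩ := PosAll.pos_all hice hA hR (N + 1)
  refine ⟨c, hc, max s0 1, le_max_right _ _, fun s hs y₀ m hm h1 h2 => ?_⟩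
  have hs1 : 1 ≤ s := (le_max_right _ _).trans hs
  have hs0 : s0 ≤ s := (le_max_left _ _).trans hs
  have hab1 := abs_nonneg y₀.1
  have hab2 := abs_nonneg y₀.2
  have hmeas : MeasurableSet {x : Hgt × Mk | (fun B =>
      (∀ y : ℤ × ℤ, |y.1| ≤ N → |y.2| ≤ N → Zr (s * y.1, s * y.2) s B) ∧
      Zr (s * y₀.1, s * y₀.2) (m * s) B) (bl x)} := by
    refine MeasurableSet.inter (s₁ := {x : Hgt × Mk | ∀ y : ℤ × ℤ, |y.1| ≤ N → |y.2| ≤ N →
      Zr (s * y.1, s * y.2) s (bl x)}) ?_ (spos_meas_Ann _ _ _)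
    have e : {x : Hgt × Mk | ∀ y : ℤ × ℤ, |y.1| ≤ N → |y.2| ≤ N → Zr (s * y.1, s * y.2) s (bl x)} =
        ⋂ y : ℤ × ℤ, {x : Hgt × Mk | |y.1| ≤ N → |y.2| ≤ N → Zr (s * y.1, s * y.2) s (bl x)} := by
      ext x
      simp only [Set.mem_ofPred_eq, Set.mem_iInter]
    rw [e]
    refine MeasurableSet.iInter fun y => ?_
    by_cases hy : |y.1| ≤ N ∧ |y.2| ≤ N
    · have e2 : {x : Hgt × Mk | |y.1| ≤ N → |y.2| ≤ N → Zr (s * y.1, s * y.2) s (bl x)} =
          {x : Hgt × Mk | Ann (s * y.1) (s * y.2) s (fine (bl x))} := by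
        ext x
        exact ⟨fun h3 => h3 hy.1 hy.2, fun h3 _ _ => h3⟩
      rw [e2]
      exact spos_meas_Ann _ _ _
    · have e2 : {x : Hgt × Mk | |y.1| ≤ N → |y.2| ≤ N → Zr (s * y.1, s * y.2) s (bl x)} =
          Set.univ := by
        ext x
        exact ⟨fun _ => trivial, fun _ h3 h4 => absurd ⟨h3, h4⟩ hy⟩
      rw [e2]
      exact MeasurableSet.univ
  rw [spos_II_ind hmeas]
  have hfin : MU t P {x : Hgt × Mk | (fun B =>
      (∀ y : ℤ × ℤ, |y.1| ≤ N → |y.2| ≤ N → Zr (s * y.1, s * y.2) s B) ∧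
      Zr (s * y₀.1, s * y₀.2) (m * s) B) (bl x)} ≠ ⊤ := by
    refine ne_top_of_le_ne_top (b := 2) (by norm_num) ?_
    rw [MU_eq_Jmu hice]
    refine (measure_mono ?_).trans (Jmu_Ann_le (t := t) (P := P) (p := s * y₀.1) (q := s * y₀.2)
      (r := m * s) (by (clear * - hm hs1; positivity)))
    rintro x ⟨-, h3⟩
    exact h3
  rw [Measure.real, ← ENNReal.ofReal_le_iff_le_toReal hfin]
  refine (h s hs0).trans (measure_mono ?_)
  rintro x ⟨h3, -⟩
  have hN0 : (0 : ℤ) ≤ N := by (clear * -; positivity)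
  have hb : ∀ z : ℤ, |z| ≤ N → |s * z| ≤ ((N + 1 : ℕ) : ℤ) * s := by
    intro z hz
    rw [abs_mul, abs_of_pos (by omega : 0 < s)]
    push_cast
    nlinarith only [hs1, hz]
  refine ⟨fun y hy1 hy2 => h3 _ _ _ le_rfl ?_ (hb _ hy1) (hb _ hy2), h3 _ _ _ ?_ ?_
    (hb _ (by omega)) (hb _ (by omega))⟩
  · push_cast; nlinarith only [hs1]
  · nlinarith only [hm, hs1]
  · push_cast
    have : m ≤ N := by omega
    nlinarith only [h1, hs1, hab1]

end Vale.Agent.P145.X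
end

section

/-!
P145, X-level: the normalised restriction of a measure to an event, seen through the vertex heights;
the sandwich between two zero boundary expectations.
-/

namespace Vale.Agent.P145.X

open Filter Topology Set MeasureTheory
open Vale.Agent.P145.Top Vale.Agent.P145.PT Vale.Agent.P145.FP Vale.Agent.P145.Dom

section abs
variable {Ω : Type*} [MeasurableSpace Ω]

/-- `μ` restricted to `X`, normalised, as a law on the vertex heights `T`. -/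
noncomputable def nuA (μ : Measure Ω) (X : Set Ω) (T : Ω → Om) : Measure Om :=
  ((μ X)⁻¹ • μ.restrict X).map T

/-- The hypotheses on the event. -/
structure XEv (μ : Measure Ω) (X : Set Ω) (T : Ω → Om) : Prop where
  mT : Measurable T
  mX : MeasurableSet X
  pos : μ X ≠ 0
  fin : μ X ≠ ⊤
  int : ∀ v : List (ℤ × ℤ), Integrable (fun x => (v.map (T x)).prod) (μ.restrict X)

variable {μ : Measure Ω} {X : Set Ω} {T : Ω → Om}

theorem XEv.real_pos (h : XEv μ X T) : 0 < μ.real X :=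
  ENNReal.toReal_pos h.pos h.fin

theorem XEv.isFinite (h : XEv μ X T) : IsFiniteMeasure (μ.restrict X) :=
  ⟨by rw [Measure.restrict_apply_univ]; exact lt_top_iff_ne_top.2 h.fin⟩

theorem measurable_mon (v : List (ℤ × ℤ)) : Measurable fun ω : Om => (v.map ω).prod := by
  induction v with
  | nil => simp
  | cons u v ih =>
    simp only [List.map_cons, List.prod_cons]
    exact (measurable_pi_apply u).mul ih

theorem measurable_pol {Q : ℝ → Prop} {A : Om → ℝ} (hA : Pol Q A) : Measurable A := by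
  induction hA with
  | mon v => exact measurable_mon v
  | zero => exact measurable_const
  | add _ _ h1 h2 => exact h1.add h2
  | smul c _ _ h => exact h.const_mul c

theorem XEv.int_pol (h : XEv μ X T) {Q : ℝ → Prop} {A : Om → ℝ} (hA : Pol Q A) :
    Integrable (fun x => A (T x)) (μ.restrict X) := by
  induction hA with
  | mon v => exact h.int v
  | zero => exact integrable_zero _ _ _
  | add _ _ h1 h2 => exact h1.add h2
  | smul c _ _ h1 => exact h1.const_mul c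

/-- The integrability of the monomials when the heights are bounded on the event. -/
theorem int_of_bdd (mT : Measurable T) (fin : μ X ≠ ⊤)
    (bdd : ∀ u : ℤ × ℤ, ∃ C : ℝ, ∀ᵐ x ∂(μ.restrict X), |T x u| ≤ C) (v : List (ℤ × ℤ)) :
    Integrable (fun x => (v.map (T x)).prod) (μ.restrict X) := by
  have hf : IsFiniteMeasure (μ.restrict X) :=
    ⟨by rw [Measure.restrict_apply_univ]; exact lt_top_iff_ne_top.2 fin⟩
  have key : ∃ C : ℝ, 0 ≤ C ∧ ∀ᵐ x ∂(μ.restrict X), |(v.map (T x)).prod| ≤ C := by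
    induction v with
    | nil => exact ⟨1, zero_le_one, ae_of_all _ fun x => by simp⟩
    | cons u v ih =>
      obtain ⟨C, hC0, hC⟩ := ih
      obtain ⟨C', hC'⟩ := bdd u
      refine ⟨|C'| * C, mul_nonneg (abs_nonneg _) hC0, ?_⟩
      filter_upwards [hC, hC'] with x h1 h2
      rw [List.map_cons, List.prod_cons, abs_mul]
      exact mul_le_mul (h2.trans (le_abs_self _)) h1 (abs_nonneg _) (abs_nonneg _)
  obtain ⟨C, -, hC⟩ := key
  exact Integrable.of_bound ((measurable_mon v).comp mT).aestronglyMeasurable C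
    (by simpa only [Real.norm_eq_abs] using hC)

theorem XEv.mom (h : XEv μ X T) : Mom (nuA μ X T) := by
  have h1 : ((μ X)⁻¹ • μ.restrict X) univ = 1 := by
    rw [Measure.smul_apply, Measure.restrict_apply_univ, smul_eq_mul,
      ENNReal.inv_mul_cancel h.pos h.fin]
  refine ⟨⟨?_⟩, fun v => ?_⟩
  · rw [nuA, Measure.map_apply h.mT MeasurableSet.univ, preimage_univ, h1]
  · rw [nuA, integrable_map_measure (measurable_mon v).aestronglyMeasurable h.mT.aemeasurable]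
    exact (h.int_pol (Q := fun _ => True) (Pol.mon v)).smul_measure (ENNReal.inv_ne_top.2 h.pos)

theorem XEv.integral (h : XEv μ X T) {A : Om → ℝ} (hA : Measurable A) :
    ∫ ω, A ω ∂(nuA μ X T) = (μ.real X)⁻¹ * ∫ x in X, A (T x) ∂μ := by
  rw [nuA, integral_map h.mT.aemeasurable hA.aestronglyMeasurable, integral_smul_measure,
    smul_eq_mul, ENNReal.toReal_inv]
  rfl

/-- **The sandwich**, abstract form. -/
theorem XEv.sand (h : XEv μ X T) {Z : Set Ω} (hZ : MeasurableSet Z) {Q : ℝ → Prop} {A : Om → ℝ}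
    (hA : Pol Q A) {z₁ z₂ η C : ℝ} (hz₂ : 0 ≤ z₂) (hη : 0 ≤ η) (hC : 0 ≤ C)
    (hlow : z₁ * μ.real X ≤ ∫ x in X, A (T x) ∂μ)
    (hup : ∫ x in X ∩ Z, A (T x) ∂μ ≤ z₂ * μ.real (X ∩ Z))
    (hgap : μ.real (X \ Z) ≤ η ^ 2 * μ.real X)
    (hmom : ∫ x in X, A (T x) ^ 2 ∂μ ≤ C ^ 2 * μ.real X) :
    z₁ ≤ ∫ ω, A ω ∂(nuA μ X T) ∧ ∫ ω, A ω ∂(nuA μ X T) ≤ z₂ + η * C := by
  have hX := h.real_pos
  have hfin := h.isFinite
  rw [h.integral (measurable_pol hA)]
  have i1 := h.int_pol hA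
  have i2 := h.int_pol (hA.alg.pow 2)
  constructor
  · rw [inv_mul_eq_div, le_div_iff₀ hX]
    exact hlow
  · rw [inv_mul_eq_div, div_le_iff₀ hX]
    -- Cauchy-Schwarz on `X \ Z`
    have hsub : X \ Z ⊆ X := sdiff_subset
    have i1' : IntegrableOn (fun x => A (T x)) X μ := i1
    have i2' : IntegrableOn (fun x => A (T x) ^ 2) X μ := i2
    have e1 : ∫ x in X, A (T x) ∂μ = ∫ x in X ∩ Z, A (T x) ∂μ + ∫ x in X \ Z, A (T x) ∂μ :=
      (integral_inter_add_sdiff hZ i1').symm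
    have hD : ∫ x in X \ Z, A (T x) ∂μ ≤ η * C * μ.real X := by
      have hmeas : MeasurableSet (X \ Z) := h.mX.diff hZ
      have hDfin : μ (X \ Z) ≠ ⊤ := ne_top_of_le_ne_top h.fin (measure_mono hsub)
      have key : ∀ s : ℝ, 0 < s → ∫ x in X \ Z, A (T x) ∂μ ≤
          (s * (C ^ 2 * μ.real X) + s⁻¹ * (η ^ 2 * μ.real X)) / 2 := by
        intro s hs
        have j1 : IntegrableOn (fun x => A (T x)) (X \ Z) μ := i1'.mono_set hsub
        have j2 : IntegrableOn (fun x => A (T x) ^ 2) (X \ Z) μ := i2'.mono_set hsub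
        have hcst : IntegrableOn (fun _ : Ω => s⁻¹ / 2) (X \ Z) μ :=
          integrableOn_const hDfin
        have h1 : ∫ x in X \ Z, A (T x) ∂μ ≤ ∫ x in X \ Z, (s / 2 * A (T x) ^ 2 + s⁻¹ / 2) ∂μ := by
          refine integral_mono j1 ((j2.const_mul _).add hcst) fun x => ?_
          have h3 : 0 ≤ s / 2 * (A (T x) - s⁻¹) ^ 2 := by (clear * - hs; positivity)
          have h4 : s / 2 * (A (T x) - s⁻¹) ^ 2 =
              s / 2 * A (T x) ^ 2 - A (T x) + s⁻¹ / 2 := by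
            field_simp
            ring
          simp only []
          linarith only [h3, h4]
        have h2 : ∫ x in X \ Z, (s / 2 * A (T x) ^ 2 + s⁻¹ / 2) ∂μ =
            s / 2 * ∫ x in X \ Z, A (T x) ^ 2 ∂μ + s⁻¹ / 2 * μ.real (X \ Z) := by
          rw [integral_add (j2.const_mul _) hcst, integral_const_mul, setIntegral_const,
            smul_eq_mul]
          ring
        have h3 : ∫ x in X \ Z, A (T x) ^ 2 ∂μ ≤ ∫ x in X, A (T x) ^ 2 ∂μ :=
          setIntegral_mono_set i2' (ae_of_all _ fun x => sq_nonneg _) hsub.eventuallyLE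
        rw [h2] at h1
        have hs' : 0 < s⁻¹ := inv_pos.2 hs
        nlinarith only [hs', hs, h1, h3, hmom, hgap]
      rcases eq_or_lt_of_le hC with hC0 | hC0
      · -- `C = 0`
        subst hC0
        rw [mul_zero, zero_mul]
        refine le_of_forall_pos_le_add fun ε hε => ?_
        have h5 := key ((η ^ 2 * μ.real X + 1) / ε) (by positivity)
        have h6 : ((η ^ 2 * μ.real X + 1) / ε)⁻¹ * (η ^ 2 * μ.real X) ≤ ε := by
          rw [inv_div, div_mul_eq_mul_div, div_le_iff₀ (by (clear * - hX; positivity))]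
          nlinarith only [hε]
        have h7 : (0 : ℝ) ^ 2 * μ.real X = 0 := by ring
        rw [h7, mul_zero, zero_add] at h5
        linarith only [hε, h5, h6]
      rcases eq_or_lt_of_le hη with hη0 | hη0
      · subst hη0
        rw [zero_mul, zero_mul]
        refine le_of_forall_pos_le_add fun ε hε => ?_
        have h5 := key (ε / (C ^ 2 * μ.real X + 1)) (by (clear * - hε hC0 hX; positivity))
        have h6 : ε / (C ^ 2 * μ.real X + 1) * (C ^ 2 * μ.real X) ≤ ε := by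
          rw [div_mul_eq_mul_div, div_le_iff₀ (by positivity)]
          nlinarith only [hε]
        have h7 : (0 : ℝ) ^ 2 * μ.real X = 0 := by ring
        rw [h7, mul_zero, add_zero] at h5
        linarith only [hε, h5, h6]
      · have h5 := key (η / C) (by (clear * - hη0 hC0; positivity))
        have h6 : (η / C * (C ^ 2 * μ.real X) + (η / C)⁻¹ * (η ^ 2 * μ.real X)) / 2 =
            η * C * μ.real X := by
          field_simp
          ring
        rwa [h6] at h5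
    have hle : μ.real (X ∩ Z) ≤ μ.real X := measureReal_mono inter_subset_left h.fin
    have h8 := mul_le_mul_of_nonneg_left hle hz₂
    rw [e1, add_mul]
    linarith

/-- LOW for the cone, from LOW for the monomials. -/
theorem XEv.low_cone (h : XEv μ X T) {ρ : Measure Om} (hρ : Mom ρ)
    (hl : ∀ v : List (ℤ × ℤ), (∫ ω, (v.map ω).prod ∂ρ) * μ.real X ≤
      ∫ x in X, (v.map (T x)).prod ∂μ) {A : Om → ℝ} (hA : Cone A) :
    (∫ ω, A ω ∂ρ) * μ.real X ≤ ∫ x in X, A (T x) ∂μ := by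
  induction hA with
  | mon v => exact hl v
  | zero => simp
  | add h1 h2 i1 i2 =>
    rw [integral_add (hρ.integrable h1) (hρ.integrable h2),
      integral_add (h.int_pol h1) (h.int_pol h2), add_mul]
    exact add_le_add i1 i2
  | smul c hc _ i1 =>
    rw [integral_const_mul, integral_const_mul, mul_assoc]
    exact mul_le_mul_of_nonneg_left i1 hc

/-- UP for the cone, from UP for the monomials. -/
theorem XEv.up_cone (h : XEv μ X T) {ρ : Measure Om} (hρ : Mom ρ) {Z : Set Ω}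
    (hl : ∀ v : List (ℤ × ℤ), ∫ x in X ∩ Z, (v.map (T x)).prod ∂μ ≤
      (∫ ω, (v.map ω).prod ∂ρ) * μ.real (X ∩ Z)) {A : Om → ℝ} (hA : Cone A) :
    ∫ x in X ∩ Z, A (T x) ∂μ ≤ (∫ ω, A ω ∂ρ) * μ.real (X ∩ Z) := by
  have hi : ∀ {B : Om → ℝ}, Cone B → Integrable (fun x => B (T x)) (μ.restrict (X ∩ Z)) :=
    fun hB => (h.int_pol hB).mono_measure (Measure.restrict_mono inter_subset_left le_rfl)
  induction hA with
  | mon v => exact hl v
  | zero => simp
  | add h1 h2 i1 i2 =>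
    rw [integral_add (hρ.integrable h1) (hρ.integrable h2),
      integral_add (hi h1) (hi h2), add_mul]
    exact add_le_add i1 i2
  | smul c hc _ i1 =>
    rw [integral_const_mul, integral_const_mul, mul_assoc]
    exact mul_le_mul_of_nonneg_left i1 hc

end abs

section conc

/-- Products of nonnegative linear functionals are in the cone. -/
theorem cone_hvl {δ : ℝ} (hδ : 0 < δ) {D : Set (ℝ × ℝ)} (hb : Bornology.IsBounded D)
    {l : List (ℝ × ℝ → ℝ)} (hl : ∀ f ∈ l, TestOn D f ∧ ∀ z, 0 ≤ f z) : Cone (hvl δ l) := by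
  obtain ⟨R, hR⟩ := hb.subset_ball (0 : ℝ × ℝ)
  obtain ⟨B, hB⟩ := hv_eq_hB (R := R) hδ
  refine (cone_hl (B := B) (δ := δ) l fun f hf => (hl f hf).2).of_eq fun ω => ?_
  unfold hvl Top.hl
  congr 1
  refine List.map_congr_left fun f hf => (hB f (fun z hz => ?_) ω).symm
  exact hR ((hl f hf).1.2.2 (subset_tsupport _ hz))

theorem hvl_append (δ : ℝ) (l l' : List (ℝ × ℝ → ℝ)) (ω : Om) :
    hvl δ (l ++ l') ω = hvl δ l ω * hvl δ l' ω := by
  unfold hvl
  rw [List.map_append, List.prod_append]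

variable {Ω : Type*} [MeasurableSpace Ω]

/-- **The sandwich**, for a product of linear functionals. -/
theorem sand_hvl {c δ : ℝ} (hc : 0 < c) (hδ : 0 < δ) (hm : S_mono c) {μ : Measure Ω} {X Z : Set Ω}
    {T : Ω → Om} (h : XEv μ X T) (hZ : MeasurableSet Z) {D₁ D₂ : Set (ℝ × ℝ)}
    (hb : Bornology.IsBounded D₁) {η C : ℝ} (hη : 0 ≤ η) (hC : 0 ≤ C)
    (hlow : ∀ v : List (ℤ × ℤ), ze c (Fs δ D₁) (fun x => (v.map (vh x)).prod) * μ.real X ≤
      ∫ x in X, (v.map (T x)).prod ∂μ)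
    (hup : ∀ v : List (ℤ × ℤ), ∫ x in X ∩ Z, (v.map (T x)).prod ∂μ ≤
      ze c (Fs δ D₂) (fun x => (v.map (vh x)).prod) * μ.real (X ∩ Z))
    (hgap : μ.real (X \ Z) ≤ η ^ 2 * μ.real X)
    {l : List (ℝ × ℝ → ℝ)} (hl : ∀ f ∈ l, TestOn D₁ f ∧ ∀ z, 0 ≤ f z)
    (hmom : ∫ x in X, hvl δ (l ++ l) (T x) ∂μ ≤ C ^ 2 * μ.real X) :
    EE c δ D₁ (hvl δ l) ≤ ∫ ω, hvl δ l ω ∂(nuA μ X T) ∧
      ∫ ω, hvl δ l ω ∂(nuA μ X T) ≤ EE c δ D₂ (hvl δ l) + η * C := by
  have hA := cone_hvl hδ hb hl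
  obtain ⟨ρ₁, hρ₁, e₁⟩ := exists_meas hc (Fs δ D₁)
  obtain ⟨ρ₂, hρ₂, e₂⟩ := exists_meas hc (Fs δ D₂)
  have f1 := h.low_cone hρ₁ (fun v => by rw [e₁]; exact hlow v) hA
  have f2 := h.up_cone hρ₂ (Z := Z) (fun v => by rw [e₂]; exact hup v) hA
  have f3 : 0 ≤ ∫ ω, hvl δ l ω ∂ρ₂ :=
    hρ₂.nonneg (fun v => by rw [e₂]; exact (hm _ _ subset_rfl v).1) hA
  have key := h.sand hZ hA f3 hη hC f1 f2 hgap (by
    refine le_trans (le_of_eq ?_) hmom
    refine integral_congr_ae (ae_of_all _ fun x => ?_)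
    simp only []
    rw [hvl_append, _root_.sq])
  rw [e₁, e₂] at key
  exact key

/-- **The sandwich**, for finitely many products, along a sequence. -/
theorem sand_seq {c : ℝ} {δ : ℕ → ℝ} (hc : 0 < c) (hδ : ∀ n, 0 < δ n) (hm : S_mono c)
    {μ : Measure Ω} {X Z : ℕ → Set Ω} {T : ℕ → Ω → Om} {D₁ D₂ : Set (ℝ × ℝ)}
    (hb : Bornology.IsBounded D₁) (L : List (List (ℝ × ℝ → ℝ)))
    (hL : ∀ l ∈ L, ∀ g ∈ l, TestOn D₁ g ∧ ∀ z, 0 ≤ g z) {η η' C : ℝ} (hη : 0 ≤ η')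
    (hC : 0 ≤ C) (hηC : η' * C ≤ η)
    (h : ∀ᶠ n in atTop, XEv μ (X n) (T n) ∧ MeasurableSet (Z n) ∧
      (∀ v : List (ℤ × ℤ), ze c (Fs (δ n) D₁) (fun x => (v.map (vh x)).prod) * μ.real (X n) ≤
        ∫ x in X n, (v.map (T n x)).prod ∂μ) ∧
      (∀ v : List (ℤ × ℤ), ∫ x in X n ∩ Z n, (v.map (T n x)).prod ∂μ ≤
        ze c (Fs (δ n) D₂) (fun x => (v.map (vh x)).prod) * μ.real (X n ∩ Z n)) ∧
      μ.real (X n \ Z n) ≤ η' ^ 2 * μ.real (X n) ∧
      ∀ l ∈ L, ∫ x in X n, hvl (δ n) (l ++ l) (T n x) ∂μ ≤ C ^ 2 * μ.real (X n)) :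
    (∀ᶠ n in atTop, Mom (nuA μ (X n) (T n))) ∧
    ∀ l ∈ L, ∀ᶠ n in atTop,
      EE c (δ n) D₁ (hvl (δ n) l) ≤ (∫ ω, hvl (δ n) l ω ∂(nuA μ (X n) (T n))) + η ∧
      ∫ ω, hvl (δ n) l ω ∂(nuA μ (X n) (T n)) ≤ EE c (δ n) D₂ (hvl (δ n) l) + η := by
  have hη0 : 0 ≤ η := (mul_nonneg hη hC).trans hηC
  refine ⟨h.mono fun n hn => hn.1.mom, fun l hl => h.mono fun n hn => ?_⟩
  obtain ⟨h1, h2, h3, h4, h5, h6⟩ := hn
  obtain ⟨k1, k2⟩ := sand_hvl hc (hδ n) hm h1 h2 hb hη hC h3 h4 h5 (hL l hl) (h6 l hl)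
  exact ⟨by linarith only [hη0, k1], by linarith only [hηC, k2]⟩

end conc

end Vale.Agent.P145.X
end

section

/-!
P145, X-level: events on which the heights are bounded; the moments given an event from the
extension inequality.
-/

namespace Vale.Agent.P145.X

open Filter Topology Set MeasureTheory
open Vale.Agent.P152 (Ori Ice pth)
open Vale.Agent.P145.FA (Hgt mu0 Pl s_lip)
open Vale.Agent.P145.FB
open Vale.Agent.P145.Top

/-- Height functions of the six-vertex model. -/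
def HLip (h : Hgt) : Prop := ∀ q : ℤ × ℤ,
  (2 : ℤ) ∣ h q - (q.1 + q.2) ∧ |h (q + (1, 0)) - h q| = 1 ∧ |h (q + (0, 1)) - h q| = 1

theorem HLip.right {h : Hgt} (H : HLip h) (q : ℤ × ℤ) (n : ℕ) :
    |h (q + ((n : ℤ), 0)) - h q| ≤ n := by
  induction n with
  | zero =>
    have e : q + (((0 : ℕ) : ℤ), (0 : ℤ)) = q := by ext <;> simp
    rw [e]; simp only [sub_self, abs_zero, CharP.cast_eq_zero, Std.le_refl]
  | succ n ih =>
    have h1 := (H (q + ((n : ℤ), 0))).2.1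
    have e : q + ((n : ℤ), (0 : ℤ)) + (1, 0) = q + (((n + 1 : ℕ) : ℤ), 0) := by
      ext
      · push_cast
        simp [add_assoc]
      · simp only [Prod.snd_add, add_zero, Nat.cast_add, Nat.cast_one]
    rw [e] at h1
    rw [abs_le] at ih ⊢
    rw [abs_eq (by norm_num)] at h1
    push_cast
    push_cast at h1
    omega

theorem HLip.up {h : Hgt} (H : HLip h) (q : ℤ × ℤ) (n : ℕ) :
    |h (q + (0, (n : ℤ))) - h q| ≤ n := by
  induction n with
  | zero =>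
    have e : q + ((0 : ℤ), ((0 : ℕ) : ℤ)) = q := by ext <;> simp
    rw [e]; simp
  | succ n ih =>
    have h1 := (H (q + (0, (n : ℤ)))).2.2
    have e : q + ((0 : ℤ), (n : ℤ)) + (0, 1) = q + (0, ((n + 1 : ℕ) : ℤ)) := by
      ext
      · simp only [Prod.fst_add, add_zero, Nat.cast_add, Nat.cast_one]
      · push_cast
        simp [add_assoc]
    rw [e] at h1
    rw [abs_le] at ih ⊢
    rw [abs_eq (by norm_num)] at h1
    push_cast
    push_cast at h1
    omega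

theorem HLip.le {h : Hgt} (H : HLip h) (p q : ℤ × ℤ) :
    |h p - h q| ≤ |p.1 - q.1| + |p.2 - q.2| := by
  -- `r = (p.1, q.2)`
  have h1 : |h (p.1, q.2) - h q| ≤ |p.1 - q.1| := by
    rcases le_total q.1 p.1 with h1 | h1
    · have h2 := H.right q (p.1 - q.1).toNat
      have e0 : ((p.1 - q.1).toNat : ℤ) = p.1 - q.1 := Int.toNat_of_nonneg (by omega)
      have e : q + (((p.1 - q.1).toNat : ℤ), (0 : ℤ)) = (p.1, q.2) := by
        rw [e0]; ext <;> simp
      rw [e, e0] at h2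
      exact h2.trans (le_abs_self _)
    · have h2 := H.right (p.1, q.2) (q.1 - p.1).toNat
      have e0 : ((q.1 - p.1).toNat : ℤ) = q.1 - p.1 := Int.toNat_of_nonneg (by omega)
      have e : (p.1, q.2) + (((q.1 - p.1).toNat : ℤ), (0 : ℤ)) = q := by
        rw [e0]; ext <;> simp
      rw [e, e0] at h2
      rw [abs_sub_comm]
      exact h2.trans (by rw [abs_sub_comm]; exact le_abs_self _)
  have h3 : |h p - h (p.1, q.2)| ≤ |p.2 - q.2| := by
    rcases le_total q.2 p.2 with h1 | h1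
    · have h2 := H.up (p.1, q.2) (p.2 - q.2).toNat
      have e0 : ((p.2 - q.2).toNat : ℤ) = p.2 - q.2 := Int.toNat_of_nonneg (by omega)
      have e : (p.1, q.2) + ((0 : ℤ), ((p.2 - q.2).toNat : ℤ)) = p := by
        rw [e0]; ext <;> simp
      rw [e, e0] at h2
      exact h2.trans (le_abs_self _)
    · have h2 := H.up p (q.2 - p.2).toNat
      have e0 : ((q.2 - p.2).toNat : ℤ) = q.2 - p.2 := Int.toNat_of_nonneg (by omega)
      have e : p + ((0 : ℤ), ((q.2 - p.2).toNat : ℤ)) = (p.1, q.2) := by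
        rw [e0]; ext <;> simp
      rw [e, e0] at h2
      rw [abs_sub_comm]
      exact h2.trans (by rw [abs_sub_comm]; exact le_abs_self _)
  rw [abs_le] at h1 h3 ⊢
  omega

theorem MU_fst {t : ℝ} {P : Measure (Ori (ℤ × ℤ))} [IsProbabilityMeasure P] :
    (MU t P).map Prod.fst = mu0 P := by
  have hpr : ∀ k : ℤ, IsProbabilityMeasure (P.map fun ω q => pth ω q + 2 * k) := fun k =>
    Measure.isProbabilityMeasure_map (measurable_pthk k).aemeasurable
  rw [MU, Measure.map_map measurable_fst measurable_om]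
  have e : (Prod.fst ∘ fun x : Hgt × Mk => (x.1, om x.1 x.2)) = Prod.fst := rfl
  rw [e]
  have : SFinite (mu0 P) := by unfold mu0; infer_instance
  rw [Measure.map_fst_prod, measure_univ, one_smul]

theorem ae_MU {t : ℝ} {P : Measure (Ori (ℤ × ℤ))} [IsProbabilityMeasure P] {Q : Hgt → Prop}
    (hQ : ∀ᵐ h ∂(mu0 P), Q h) : ∀ᵐ x ∂(MU t P), Q x.1 :=
  ae_of_ae_map measurable_fst.aemeasurable (by rw [MU_fst]; exact hQ)

theorem ae_HLip {t c : ℝ} {P : Measure (Ori (ℤ × ℤ))} (hP : Pl c P) :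
    ∀ᵐ x ∂(MU t P), HLip x.1 := by
  have := hP.prob
  exact ae_MU (s_lip c P hP)

/-- A circuit at level `0` gives a face of height `0`. -/
theorem zero_of_Ann {x : Hgt × Mk} {p q t : ℤ} (h : Ann p q t (fine (bl x))) :
    ∃ f : ℤ × ℤ, |f.1| ≤ 4 * (|p| + |q| + 4 * |t|) + 8 ∧ |f.2| ≤ 4 * (|p| + |q| + 4 * |t|) + 8 ∧
      x.1 f = 0 := by
  obtain ⟨z, y, ⟨⟨hz, hr⟩, -⟩, -⟩ := h.1
  have key : ∀ w : ℤ × ℤ, |w.1| ≤ 2 * (|p| + 2 * |t|) + 1 → |w.2| ≤ 2 * (|q| + 2 * |t|) + 1 →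
      |(e1 (vx w)).1| ≤ 4 * (|p| + |q| + 4 * |t|) + 8 ∧
      |(e1 (vx w)).2| ≤ 4 * (|p| + |q| + 4 * |t|) + 8 := by
    intro w h1 h2
    have a1 := abs_nonneg p
    have a2 := abs_nonneg q
    have a3 := abs_nonneg t
    rw [abs_le] at h1 h2
    unfold e1 vx
    split_ifs
    · simp only [abs_le]
      omega
    · simp only [abs_le]
      (clear * - h1 h2; omega)
  have hz1 : |z.1| ≤ 2 * (|p| + 2 * |t|) ∧ |z.2| ≤ 2 * (|q| + 2 * |t|) := by
    obtain ⟨r1, r2, r3, r4⟩ := hr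
    have b1 := le_abs_self p
    have b2 := neg_abs_le p
    have b3 := le_abs_self q
    have b4 := neg_abs_le q
    have b5 := le_abs_self t
    have b6 := neg_abs_le t
    rw [abs_le, abs_le]
    (clear * - r1 r2 r3 r4 b1 b2 b3 b4 b5 b6; omega)
  rcases hz with ⟨h1, h2⟩ | ⟨h1, h2, q', h3, h4⟩
  · obtain ⟨k1, k2⟩ := key z (by omega) (by omega)
    exact ⟨_, k1, k2, h2.2.1⟩
  · have hq : |q'.1| ≤ 2 * (|p| + 2 * |t|) + 1 ∧ |q'.2| ≤ 2 * (|q| + 2 * |t|) + 1 := by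
      unfold NN at h3
      rw [abs_le, abs_le] at hz1 ⊢
      omega
    obtain ⟨k1, k2⟩ := key q' hq.1 hq.2
    exact ⟨_, k1, k2, h4.2.1⟩

/-- **The hypotheses `XEv`** for an event which gives a face of height `0` in a box. -/
theorem xev_MU {t c : ℝ} {P : Measure (Ori (ℤ × ℤ))} (hP : Pl c P) {X : Set (Hgt × Mk)}
    (hX : MeasurableSet X) {ρ : ℤ}
    (hz : ∀ x ∈ X, ∃ f : ℤ × ℤ, |f.1| ≤ ρ ∧ |f.2| ≤ ρ ∧ x.1 f = 0)
    (h0 : MU t P X ≠ 0) (h1 : MU t P X ≠ ⊤) {T : Hgt × Mk → Om} {s : ℤ × ℤ → ℤ × ℤ}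
    (hT : ∀ x v, T x v = (x.1 (s v) : ℝ) / 2) : XEv (MU t P) X T := by
  have mT : Measurable T := by
    refine measurable_pi_lambda _ fun v => ?_
    have e : (fun x => T x v) = fun x : Hgt × Mk => (x.1 (s v) : ℝ) / 2 := funext fun x => hT x v
    rw [e]
    exact ((measurable_of_countable (fun z : ℤ => (z : ℝ))).comp
      ((measurable_pi_apply (s v)).comp measurable_fst)).div_const 2
  refine ⟨mT, hX, h0, h1, int_of_bdd mT h1 fun u => ?_⟩
  · refine ⟨((|(s u).1| + |(s u).2| + 2 * |ρ| : ℤ) : ℝ) / 2, ?_⟩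
    rw [ae_restrict_iff' hX]
    filter_upwards [ae_HLip (t := t) hP] with x hx hxX
    obtain ⟨f, f1, f2, f3⟩ := hz x hxX
    have h3 := hx.le (s u) f
    rw [f3, sub_zero] at h3
    have h4 : |x.1 (s u)| ≤ |(s u).1| + |(s u).2| + 2 * |ρ| := by
      have a1 := abs_sub (s u).1 f.1
      have a2 := abs_sub (s u).2 f.2
      have a3 := le_abs_self ρ
      linarith
    rw [hT, abs_div, abs_two]
    refine div_le_div_of_nonneg_right ?_ (by norm_num)
    exact_mod_cast h4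

end Vale.Agent.P145.X
end

section

/-!
P145, X-level: the sandwich with monomials of the heights at the vertices of a set `S`; the moments
given the event, from the extension inequality.
-/

namespace Vale.Agent.P145.X

open Filter Topology Set MeasureTheory
open Vale.Agent.P145.Top Vale.Agent.P145.PT Vale.Agent.P145.FP Vale.Agent.P145.Dom

/-- Polynomials with nonnegative coefficients in the heights at the vertices of `S`. -/
inductive ConeOn (S : Set (ℤ × ℤ)) : (Om → ℝ) → Prop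
  | mon (v : List (ℤ × ℤ)) : (∀ u ∈ v, u ∈ S) → ConeOn S (fun ω => (v.map ω).prod)
  | zero : ConeOn S (fun _ => 0)
  | add {f g : Om → ℝ} : ConeOn S f → ConeOn S g → ConeOn S (fun ω => f ω + g ω)
  | smul {f : Om → ℝ} (c : ℝ) : 0 ≤ c → ConeOn S f → ConeOn S (fun ω => c * f ω)

variable {S : Set (ℤ × ℤ)}

theorem ConeOn.cone {A : Om → ℝ} (h : ConeOn S A) : Cone A := by
  induction h with
  | mon v _ => exact Pol.mon v
  | zero => exact Pol.zero
  | add _ _ h1 h2 => exact h1.add h2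
  | smul c hc _ h1 => exact h1.smul c hc

theorem ConeOn.of_eq {f g : Om → ℝ} (hf : ConeOn S f) (h : ∀ ω, f ω = g ω) : ConeOn S g := by
  have : f = g := funext h
  rwa [← this]

theorem ConeOn.one : ConeOn S (fun _ => 1) :=
  (ConeOn.mon [] (by simp)).of_eq fun ω => by simp

theorem ConeOn.cons {g : Om → ℝ} (hg : ConeOn S g) {v : ℤ × ℤ} (hv : v ∈ S) :
    ConeOn S (fun ω => ω v * g ω) := by
  induction hg with
  | mon l hl =>
    refine (ConeOn.mon (S := S) (v :: l) fun u hu => ?_).of_eq fun ω => by simp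
    rcases List.mem_cons.1 hu with h | h
    · rw [h]; exact hv
    · exact hl u h
  | zero => exact ConeOn.zero.of_eq fun ω => by simp
  | add _ _ h1 h2 => exact (h1.add h2).of_eq fun ω => by ring
  | smul c hc _ h1 => exact (h1.smul c hc).of_eq fun ω => by ring

theorem ConeOn.sum {ι : Type*} (s : Finset ι) (g : ι → Om → ℝ)
    (h : ∀ i ∈ s, ConeOn S (g i)) : ConeOn S (fun ω => ∑ i ∈ s, g i ω) := by
  classical
  induction s using Finset.induction_on with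
  | empty => exact ConeOn.zero.of_eq fun ω => by simp
  | insert a s ha ih =>
    refine ((h a (Finset.mem_insert_self _ _)).add
      (ih fun i hi => h i (Finset.mem_insert_of_mem hi))).of_eq fun ω => ?_
    rw [Finset.sum_insert ha]

theorem ConeOn.hB {g : Om → ℝ} (hg : ConeOn S g) {B : Finset (ℤ × ℤ)} {δ : ℝ}
    {f : ℝ × ℝ → ℝ} (h : ∀ z, 0 ≤ f z) (hS : ∀ v : ℤ × ℤ, f (δ * v.1, δ * v.2) ≠ 0 → v ∈ S) :
    ConeOn S (fun ω => Top.hB B δ f ω * g ω) := by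
  refine (ConeOn.sum B (fun v ω => (δ ^ 2 * f (δ * v.1, δ * v.2)) * (ω v * g ω))
    fun v hv => ?_).of_eq fun ω => ?_
  · by_cases h0 : f (δ * v.1, δ * v.2) = 0
    · refine ConeOn.zero.of_eq fun ω => ?_
      rw [h0, mul_zero, zero_mul]
    · exact (hg.cons (hS v h0)).smul _ (mul_nonneg (sq_nonneg _) (h _))
  · unfold Top.hB
    rw [Finset.mul_sum, Finset.sum_mul]
    exact Finset.sum_congr rfl fun v _ => by ring

theorem coneOn_hl {B : Finset (ℤ × ℤ)} {δ : ℝ} (l : List (ℝ × ℝ → ℝ))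
    (h : ∀ f ∈ l, (∀ z, 0 ≤ f z) ∧ ∀ v : ℤ × ℤ, f (δ * v.1, δ * v.2) ≠ 0 → v ∈ S) :
    ConeOn S (hl B δ l) := by
  induction l with
  | nil => exact ConeOn.one.of_eq fun ω => by simp [hl]
  | cons f l ih =>
    have h0 := h f List.mem_cons_self
    exact (ConeOn.hB (B := B) (δ := δ) (ih fun g hg => h g (List.mem_cons_of_mem _ hg))
      h0.1 h0.2).of_eq fun ω => by simp [hl]

/-- Products of nonnegative linear functionals. -/
theorem coneOn_hvl {δ : ℝ} (hδ : 0 < δ) {D : Set (ℝ × ℝ)} (hb : Bornology.IsBounded D)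
    {l : List (ℝ × ℝ → ℝ)} (hl : ∀ f ∈ l, TestOn D f ∧ ∀ z, 0 ≤ f z)
    (hS : ∀ f ∈ l, ∀ v : ℤ × ℤ, f (δ * v.1, δ * v.2) ≠ 0 → v ∈ S) : ConeOn S (hvl δ l) := by
  obtain ⟨R, hR⟩ := hb.subset_ball (0 : ℝ × ℝ)
  obtain ⟨B, hB⟩ := hv_eq_hB (R := R) hδ
  refine (coneOn_hl (B := B) (δ := δ) l fun f hf => ⟨(hl f hf).2, hS f hf⟩).of_eq fun ω => ?_
  unfold hvl Top.hl
  congr 1
  refine List.map_congr_left fun f hf => (hB f (fun z hz => ?_) ω).symm
  exact hR ((hl f hf).1.2.2 (subset_tsupport _ hz))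

section abs
variable {Ω : Type*} [MeasurableSpace Ω] {μ : Measure Ω} {X Θ : Set Ω} {T : Ω → Om}

theorem XEv.lowOn (h : XEv μ X T) {ρ : Measure Om} (hρ : Mom ρ)
    (hl : ∀ v : List (ℤ × ℤ), (∀ u ∈ v, u ∈ S) → (∫ ω, (v.map ω).prod ∂ρ) * μ.real X ≤
      ∫ x in X, (v.map (T x)).prod ∂μ) {A : Om → ℝ} (hA : ConeOn S A) :
    (∫ ω, A ω ∂ρ) * μ.real X ≤ ∫ x in X, A (T x) ∂μ := by
  induction hA with
  | mon v hv => exact hl v hv
  | zero => simp
  | add h1 h2 i1 i2 =>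
    rw [integral_add (hρ.integrable h1.cone) (hρ.integrable h2.cone),
      integral_add (h.int_pol h1.cone) (h.int_pol h2.cone), add_mul]
    exact add_le_add i1 i2
  | smul c hc _ i1 =>
    rw [integral_const_mul, integral_const_mul, mul_assoc]
    exact mul_le_mul_of_nonneg_left i1 hc

theorem XEv.upOn (h : XEv μ X T) {ρ : Measure Om} (hρ : Mom ρ) {Z : Set Ω}
    (hl : ∀ v : List (ℤ × ℤ), (∀ u ∈ v, u ∈ S) → ∫ x in X ∩ Z, (v.map (T x)).prod ∂μ ≤
      (∫ ω, (v.map ω).prod ∂ρ) * μ.real (X ∩ Z)) {A : Om → ℝ} (hA : ConeOn S A) :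
    ∫ x in X ∩ Z, A (T x) ∂μ ≤ (∫ ω, A ω ∂ρ) * μ.real (X ∩ Z) := by
  have hi : ∀ {B : Om → ℝ}, Cone B → Integrable (fun x => B (T x)) (μ.restrict (X ∩ Z)) :=
    fun hB => (h.int_pol hB).mono_measure (Measure.restrict_mono inter_subset_left le_rfl)
  induction hA with
  | mon v hv => exact hl v hv
  | zero => simp
  | add h1 h2 i1 i2 =>
    rw [integral_add (hρ.integrable h1.cone) (hρ.integrable h2.cone),
      integral_add (hi h1.cone) (hi h2.cone), add_mul]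
    exact add_le_add i1 i2
  | smul c hc _ i1 =>
    rw [integral_const_mul, integral_const_mul, mul_assoc]
    exact mul_le_mul_of_nonneg_left i1 hc

/-- The extension inequality for the cone, from the extension inequality for the monomials. -/
theorem XEv.extOn (h : XEv μ X T) (h' : XEv μ Θ T)
    (hl : ∀ v : List (ℤ × ℤ), (∀ u ∈ v, u ∈ S) →
      (∫ x in X, (v.map (T x)).prod ∂μ) * μ.real Θ ≤
        μ.real X * ∫ x in Θ, (v.map (T x)).prod ∂μ) {A : Om → ℝ} (hA : ConeOn S A) :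
    (∫ x in X, A (T x) ∂μ) * μ.real Θ ≤ μ.real X * ∫ x in Θ, A (T x) ∂μ := by
  induction hA with
  | mon v hv => exact hl v hv
  | zero => simp
  | add h1 h2 i1 i2 =>
    rw [integral_add (h.int_pol h1.cone) (h.int_pol h2.cone),
      integral_add (h'.int_pol h1.cone) (h'.int_pol h2.cone), add_mul, mul_add]
    exact add_le_add i1 i2
  | smul c hc _ i1 =>
    rw [integral_const_mul, integral_const_mul, mul_assoc, mul_left_comm (μ.real X)]
    exact mul_le_mul_of_nonneg_left i1 hc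

/-- The moments given `X`, from the moments given `Θ`. -/
theorem XEv.mom_ext (h : XEv μ X T) (h' : XEv μ Θ T)
    (hl : ∀ v : List (ℤ × ℤ), (∀ u ∈ v, u ∈ S) →
      (∫ x in X, (v.map (T x)).prod ∂μ) * μ.real Θ ≤
        μ.real X * ∫ x in Θ, (v.map (T x)).prod ∂μ) {A : Om → ℝ} (hA : ConeOn S A) {C : ℝ}
    (hC : ∫ x in Θ, A (T x) ∂μ ≤ C * μ.real Θ) : ∫ x in X, A (T x) ∂μ ≤ C * μ.real X := by
  have h1 := h.extOn h' hl hA
  have hΘ := h'.real_pos
  have hX := h.real_pos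
  have h2 : (∫ x in X, A (T x) ∂μ) * μ.real Θ ≤ (C * μ.real X) * μ.real Θ := by
    refine h1.trans ((mul_le_mul_of_nonneg_left hC hX.le).trans (le_of_eq ?_))
    ring
  exact le_of_mul_le_mul_right h2 hΘ

/-- **The sandwich** along a sequence, with the monomials of the vertices in `S n` and with the
moments of the events `Θ n`. -/
theorem sand_seqS {c : ℝ} {δ : ℕ → ℝ} (hc : 0 < c) (hδ : ∀ n, 0 < δ n) (hm : S_mono c)
    {X Z Θ : ℕ → Set Ω} {T : ℕ → Ω → Om} {S : ℕ → Set (ℤ × ℤ)} {D₁ D₂ : Set (ℝ × ℝ)}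
    (hb : Bornology.IsBounded D₁) (L : List (List (ℝ × ℝ → ℝ)))
    (hL : ∀ l ∈ L, ∀ g ∈ l, TestOn D₁ g ∧ ∀ z, 0 ≤ g z)
    (hS : ∀ l ∈ L, ∀ g ∈ l, ∀ (n : ℕ) (v : ℤ × ℤ), g (δ n * v.1, δ n * v.2) ≠ 0 → v ∈ S n)
    {η η' C : ℝ} (hη : 0 ≤ η') (hC : 0 ≤ C) (hηC : η' * C ≤ η)
    (h : ∀ᶠ n in atTop, XEv μ (X n) (T n) ∧ XEv μ (Θ n) (T n) ∧ MeasurableSet (Z n) ∧
      (∀ v : List (ℤ × ℤ), (∀ u ∈ v, u ∈ S n) →
        ze c (Fs (δ n) D₁) (fun x => (v.map (vh x)).prod) * μ.real (X n) ≤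
        ∫ x in X n, (v.map (T n x)).prod ∂μ) ∧
      (∀ v : List (ℤ × ℤ), (∀ u ∈ v, u ∈ S n) → ∫ x in X n ∩ Z n, (v.map (T n x)).prod ∂μ ≤
        ze c (Fs (δ n) D₂) (fun x => (v.map (vh x)).prod) * μ.real (X n ∩ Z n)) ∧
      μ.real (X n \ Z n) ≤ η' ^ 2 * μ.real (X n) ∧
      (∀ v : List (ℤ × ℤ), (∀ u ∈ v, u ∈ S n) →
        (∫ x in X n, (v.map (T n x)).prod ∂μ) * μ.real (Θ n) ≤
        μ.real (X n) * ∫ x in Θ n, (v.map (T n x)).prod ∂μ) ∧
      ∀ l ∈ L, ∫ x in Θ n, hvl (δ n) (l ++ l) (T n x) ∂μ ≤ C ^ 2 * μ.real (Θ n)) :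
    (∀ᶠ n in atTop, Mom (nuA μ (X n) (T n))) ∧
    ∀ l ∈ L, ∀ᶠ n in atTop,
      EE c (δ n) D₁ (hvl (δ n) l) ≤ (∫ ω, hvl (δ n) l ω ∂(nuA μ (X n) (T n))) + η ∧
      ∫ ω, hvl (δ n) l ω ∂(nuA μ (X n) (T n)) ≤ EE c (δ n) D₂ (hvl (δ n) l) + η := by
  have hη0 : 0 ≤ η := (mul_nonneg hη hC).trans hηC
  refine ⟨h.mono fun n hn => hn.1.mom, fun l hl => h.mono fun n hn => ?_⟩
  obtain ⟨h1, h1', h2, h3, h4, h5, h6, h7⟩ := hn
  have hA := coneOn_hvl (S := S n) (hδ n) hb (hL l hl) fun f hf => hS l hl f hf n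
  have hA2 : ConeOn (S n) (hvl (δ n) (l ++ l)) := by
    refine coneOn_hvl (hδ n) hb (fun f hf => ?_) fun f hf => ?_
    · rcases List.mem_append.1 hf with hf | hf <;> exact hL l hl f hf
    · rcases List.mem_append.1 hf with hf | hf <;> exact hS l hl f hf n
  obtain ⟨ρ₁, hρ₁, e₁⟩ := exists_meas hc (Fs (δ n) D₁)
  obtain ⟨ρ₂, hρ₂, e₂⟩ := exists_meas hc (Fs (δ n) D₂)
  have f1 := h1.lowOn hρ₁ (fun v hv => by rw [e₁]; exact h3 v hv) hA
  have f2 := h1.upOn hρ₂ (Z := Z n) (fun v hv => by rw [e₂]; exact h4 v hv) hA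
  have f3 : 0 ≤ ∫ ω, hvl (δ n) l ω ∂ρ₂ :=
    hρ₂.nonneg (fun v => by rw [e₂]; exact (hm _ _ subset_rfl v).1) hA.cone
  have f4 := h1.mom_ext h1' h6 hA2 (h7 l hl)
  have key := h1.sand h2 hA.cone f3 hη hC f1 f2 h5 (by
    refine le_trans (le_of_eq ?_) f4
    refine integral_congr_ae (ae_of_all _ fun x => ?_)
    simp only []
    rw [hvl_append, _root_.sq])
  rw [e₁, e₂] at key
  have k1 : EE c (δ n) D₁ (hvl (δ n) l) ≤ ∫ ω, hvl (δ n) l ω ∂(nuA μ (X n) (T n)) := key.1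
  have k2 : ∫ ω, hvl (δ n) l ω ∂(nuA μ (X n) (T n)) ≤ EE c (δ n) D₂ (hvl (δ n) l) + η' * C :=
    key.2
  exact ⟨by linarith only [hη0, k1], by linarith only [hηC, k2]⟩

end abs

end Vale.Agent.P145.X
end

section

/-!
P145, X-level: families of circuits at level `0` and the closing events (locality, monotonicity,
union bound).
-/

namespace Vale.Agent.P145.X

open Filter Topology Set MeasureTheory
open Vale.Agent.P152 (Ori)
open Vale.Agent.P145.FA (Hgt)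
open Vale.Agent.P145.FB (Pt Mk e1 e2 o1 o2 Ann MU bl opl fine mkm om meas_of_opl)
open Vale.Agent.P145.Top (Om Cone)
open Vale.Agent.P145.Dom (ze)

/-- The property `Q` depends on finitely many edges of `A`. -/
def LocP (A : Set Pt) (Q : Set Pt → Prop) : Prop :=
  ∃ Λ : Finset Pt, (∀ w ∈ Λ, w ∈ A) ∧ ∀ B B' : Set Pt, (∀ w ∈ Λ, w ∈ B ↔ w ∈ B') → (Q B ↔ Q B')

/-- The property `Q` is increasing. -/
def IncP (Q : Set Pt → Prop) : Prop := ∀ B B' : Set Pt, B ⊆ B' → Q B → Q B'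

theorem ind_of {Q : Set Pt → Prop} {B : Set Pt} (h : Q B) : ind Q B = 1 := if_pos h

theorem ind_not {Q : Set Pt → Prop} {B : Set Pt} (h : ¬ Q B) : ind Q B = 0 := if_neg h

theorem ind_nonneg (Q : Set Pt → Prop) (B : Set Pt) : 0 ≤ ind Q B := by
  unfold ind; split_ifs <;> norm_num

theorem ind_le_one (Q : Set Pt → Prop) (B : Set Pt) : ind Q B ≤ 1 := by
  unfold ind; split_ifs <;> norm_num

theorem ind_ne {Q : Set Pt → Prop} {B : Set Pt} (h : ind Q B ≠ 0) : Q B := by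
  by_contra h0
  exact h (ind_not h0)

theorem ind_eq_iff {Q : Set Pt → Prop} {B B' : Set Pt} : ind Q B = ind Q B' ↔ (Q B ↔ Q B') := by
  unfold ind
  by_cases h : Q B <;> by_cases h' : Q B' <;> simp [h, h']

theorem locP_iff {A : Set Pt} {Q : Set Pt → Prop} : LocP A Q ↔ LocS A (ind Q) := by
  unfold LocP LocS
  constructor
  · rintro ⟨Λ, h1, h2⟩
    exact ⟨Λ, h1, fun B B' h => ind_eq_iff.2 (h2 B B' h)⟩
  · rintro ⟨Λ, h1, h2⟩
    exact ⟨Λ, h1, fun B B' h => ind_eq_iff.1 (h2 B B' h)⟩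

theorem incP_iff {Q : Set Pt → Prop} : IncP Q ↔ Monotone (ind Q) := by
  constructor
  · intro h B B' hB
    by_cases hQ : Q B
    · rw [ind_of hQ, ind_of (h B B' hB hQ)]
    · rw [ind_not hQ]; exact ind_nonneg _ _
  · intro h B B' hB hQ
    have h1 := h hB
    rw [ind_of hQ] at h1
    by_contra h2
    rw [ind_not h2] at h1
    linarith

theorem LocP.mono {A A' : Set Pt} {Q : Set Pt → Prop} (h : LocP A Q) (hA : A ⊆ A') : LocP A' Q := by
  obtain ⟨Λ, h1, h2⟩ := h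
  exact ⟨Λ, fun w hw => hA (h1 w hw), h2⟩

theorem LocP.not {A : Set Pt} {Q : Set Pt → Prop} (h : LocP A Q) : LocP A fun B => ¬ Q B := by
  obtain ⟨Λ, h1, h2⟩ := h
  exact ⟨Λ, h1, fun B B' h => not_congr (h2 B B' h)⟩

theorem LocP.and {A : Set Pt} {Q Q' : Set Pt → Prop} (h : LocP A Q) (h' : LocP A Q') :
    LocP A fun B => Q B ∧ Q' B := by
  classical
  obtain ⟨Λ, h1, h2⟩ := h
  obtain ⟨Λ', h1', h2'⟩ := h'
  refine ⟨Λ ∪ Λ', fun w hw => ?_, fun B B' h => and_congr (h2 B B' fun w hw => h w ?_)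
    (h2' B B' fun w hw => h w ?_)⟩
  · rcases Finset.mem_union.1 hw with h | h
    · exact h1 w h
    · exact h1' w h
  · exact Finset.mem_union_left _ hw
  · exact Finset.mem_union_right _ hw

theorem LocP.all {ι : Type*} (s : Finset ι) {A : Set Pt} {Q : ι → Set Pt → Prop}
    (h : ∀ i ∈ s, LocP A (Q i)) : LocP A fun B => ∀ i ∈ s, Q i B := by
  classical
  induction s using Finset.induction_on with
  | empty => exact ⟨∅, by simp, by simp⟩
  | insert a s ha ih =>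
    have h1 := (h a (Finset.mem_insert_self _ _)).and
      (ih fun i hi => h i (Finset.mem_insert_of_mem hi))
    obtain ⟨Λ, h2, h3⟩ := h1
    refine ⟨Λ, h2, fun B B' hB => ?_⟩
    have h4 := h3 B B' hB
    simpa only [Finset.forall_mem_insert] using h4

theorem LocP.ex {ι : Type*} (s : Finset ι) {A : Set Pt} {Q : ι → Set Pt → Prop}
    (h : ∀ i ∈ s, LocP A (Q i)) : LocP A fun B => ∃ i ∈ s, Q i B := by
  have h1 := (LocP.all s fun i hi => (h i hi).not).not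
  obtain ⟨Λ, h2, h3⟩ := h1
  refine ⟨Λ, h2, fun B B' hB => ?_⟩
  have h4 := h3 B B' hB
  simpa only [not_forall, not_not, exists_prop] using h4

theorem fn_ind {A : Set Pt} {Q : Set Pt → Prop} (h : LocP A Q) (h0 : ¬ Q ∅) : Fn A (ind Q) :=
  ⟨ind_nonneg Q, locP_iff.1 h, ind_not h0⟩

/-- The event is measurable. -/
theorem LocP.meas {A : Set Pt} {Q : Set Pt → Prop} (h : LocP A Q) :
    MeasurableSet {x : Hgt × Mk | Q (bl x)} := by
  obtain ⟨Λ, h1, h2⟩ := h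
  exact meas_of_opl 0 ⟨Λ, fun B B' hB => (h2 B B' hB).1⟩

theorem II_ind {t : ℝ} {P : Measure (Ori (ℤ × ℤ))} {A : Set Pt} {Q : Set Pt → Prop}
    (h : LocP A Q) (F : Om → ℝ) :
    II t P (ind Q) F = ∫ x in {x | Q (bl x)}, F (vm x.1) ∂(MU t P) := by
  unfold II
  rw [← integral_indicator h.meas]
  refine integral_congr_ae (ae_of_all _ fun x => ?_)
  by_cases hx : Q (bl x)
  · have hx' : x ∈ {x : Hgt × Mk | Q (bl x)} := hx
    simp only [ind_of hx, one_mul, Set.indicator_of_mem hx']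
  · have hx' : x ∉ {x : Hgt × Mk | Q (bl x)} := hx
    simp only [Set.indicator_of_notMem hx', ind_not hx, zero_mul]

theorem II_one {t : ℝ} {P : Measure (Ori (ℤ × ℤ))} {A : Set Pt} {Q : Set Pt → Prop}
    (h : LocP A Q) : II t P (ind Q) (fun _ => 1) = (MU t P).real {x | Q (bl x)} :=
  spos_II_ind h.meas

/-! ### Circuits -/

theorem zr_inc (hL : S_loc) {p : ℤ × ℤ} {r : ℤ} (hr : 1 ≤ r) : IncP (Zr p r) :=
  incP_iff.2 (hL p r hr).1

theorem zr_loc (hL : S_loc) {p : ℤ × ℤ} {r : ℤ} (hr : 1 ≤ r) {A : Set Pt}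
    (hA : tE (bx p (2 * r)) ⊆ A) : LocP A (Zr p r) :=
  (locP_iff.2 (hL p r hr).2.loc).mono fun _ hw => hA hw.1

theorem zr_empty (hL : S_loc) {p : ℤ × ℤ} {r : ℤ} (hr : 1 ≤ r) : ¬ Zr p r ∅ := by
  intro h
  have := (hL p r hr).2.pin
  rw [ind_of h] at this
  norm_num at this

/-- The family of circuits. -/
def Fy (w : ℤ) (Y : Finset (ℤ × ℤ)) (p : ℤ × ℤ) (r : ℤ) (B : Set Pt) : Prop :=
  (∀ y ∈ Y, Zr (ce w y) w B) ∧ Zr p r B

/-- The closing event. -/
def Zy (w s : ℤ) (lo hi : ℕ) (Q : Finset (ℤ × ℤ)) (B : Set Pt) : Prop :=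
  ∀ y ∈ Q, ∃ i, lo ≤ i ∧ i ≤ hi ∧ Zr (ce w y) (4 ^ i * s) B

/-- No circuit at the larger scales. -/
def Gy (p : ℤ × ℤ) (s : ℤ) (lo hi : ℕ) (B : Set Pt) : Prop :=
  ∀ i, lo ≤ i → i ≤ hi → ¬ Zr p (4 ^ i * s) B

section fam
variable {w r s : ℤ} {p : ℤ × ℤ} {Y Q : Finset (ℤ × ℤ)} {lo hi : ℕ} {A : Set Pt}

theorem fy_inc (hL : S_loc) (hw : 1 ≤ w) (hr : 1 ≤ r) : IncP (Fy w Y p r) :=
  fun B B' hB h => ⟨fun y hy => zr_inc hL hw B B' hB (h.1 y hy), zr_inc hL hr B B' hB h.2⟩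

theorem fy_loc (hL : S_loc) (hw : 1 ≤ w) (hr : 1 ≤ r)
    (hY : ∀ y ∈ Y, tE (bx (ce w y) (2 * w)) ⊆ A) (hp : tE (bx p (2 * r)) ⊆ A) :
    LocP A (Fy w Y p r) :=
  (LocP.all Y fun y hy => zr_loc hL hw (hY y hy)).and (zr_loc hL hr hp)

theorem fy_empty (hL : S_loc) (hr : 1 ≤ r) : ¬ Fy w Y p r ∅ := fun h => zr_empty hL hr h.2

theorem pow_ge {s : ℤ} (hs : 1 ≤ s) (i : ℕ) : 1 ≤ 4 ^ i * s := by
  have : (1 : ℤ) ≤ 4 ^ i := one_le_pow₀ (by norm_num)
  nlinarith only [hs, this]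

theorem zy_inc (hL : S_loc) (hs : 1 ≤ s) : IncP (Zy w s lo hi Q) := by
  intro B B' hB h y hy
  obtain ⟨i, h1, h2, h3⟩ := h y hy
  exact ⟨i, h1, h2, zr_inc hL (pow_ge hs i) B B' hB h3⟩

theorem bx_mono {p : ℤ × ℤ} {r r' : ℤ} (h : r ≤ r') : bx p r ⊆ bx p r' := by
  rintro f ⟨h1, h2, h3, h4⟩
  exact ⟨by omega, by omega, by omega, by omega⟩

theorem tE_mono {F F' : Set (ℤ × ℤ)} (h : F ⊆ F') : tE F ⊆ tE F' := by
  rintro w ⟨f, hf, h1⟩
  exact ⟨f, h hf, h1⟩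

theorem pow_le_of {s : ℤ} (hs : 1 ≤ s) {i k : ℕ} (h : i ≤ k) : 4 ^ i * s ≤ 4 ^ k * s := by
  have : (4 : ℤ) ^ i ≤ 4 ^ k := pow_le_pow_right₀ (by norm_num) h
  nlinarith only [this, hs]

theorem zy_loc (hL : S_loc) (hs : 1 ≤ s)
    (hQ : ∀ y ∈ Q, tE (bx (ce w y) (2 * (4 ^ hi * s))) ⊆ A) : LocP A (Zy w s lo hi Q) := by
  refine LocP.all Q fun y hy => ?_
  have h1 : LocP A fun B => ∃ i ∈ Finset.Icc lo hi, Zr (ce w y) (4 ^ i * s) B := by
    refine LocP.ex _ fun i hi => zr_loc hL (pow_ge hs i) ?_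
    refine Subset.trans (tE_mono (bx_mono ?_)) (hQ y hy)
    have := pow_le_of hs (Finset.mem_Icc.1 hi).2
    linarith only [this]
  obtain ⟨Λ, h2, h3⟩ := h1
  refine ⟨Λ, h2, fun B B' hB => ?_⟩
  have h4 := h3 B B' hB
  simpa only [Finset.mem_Icc, and_assoc] using h4

theorem gy_loc (hL : S_loc) (hs : 1 ≤ s) : LocP univ (Gy p s lo hi) := by
  have h1 : LocP univ fun B => ∃ i ∈ Finset.Icc lo hi, Zr p (4 ^ i * s) B :=
    LocP.ex _ fun i _ => zr_loc hL (pow_ge hs i) (subset_univ _)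
  obtain ⟨Λ, h2, h3⟩ := h1
  refine ⟨Λ, h2, fun B B' hB => ?_⟩
  have h4 := not_congr (h3 B B' hB)
  simp only [Finset.mem_Icc, not_exists, not_and, and_imp] at h4
  exact h4

/-- **The union bound**: the closing event fails with small probability. -/
theorem gap_fam {t : ℝ} {P : Measure (Ori (ℤ × ℤ))} (hL : S_loc) (hw : 1 ≤ w) (hr : 1 ≤ r)
    (hs : 1 ≤ s) (hfin : MU t P {x | Fy w Y p r (bl x)} ≠ ⊤) {η : ℝ}
    (hg : ∀ y ∈ Q, II t P (fun B => ind (Fy w Y p r) B * ind (Gy (ce w y) s lo hi) B)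
      (fun _ => 1) ≤ η * II t P (ind (Fy w Y p r)) (fun _ => 1)) :
    (MU t P).real ({x | Fy w Y p r (bl x)} \ {x | Zy w s lo hi Q (bl x)}) ≤
      Q.card * η * (MU t P).real {x | Fy w Y p r (bl x)} := by
  have hF : LocP univ (Fy w Y p r) := fy_loc hL hw hr (fun _ _ => subset_univ _) (subset_univ _)
  have hsub : {x : Hgt × Mk | Fy w Y p r (bl x)} \ {x | Zy w s lo hi Q (bl x)} ⊆
      ⋃ y ∈ Q, {x | Fy w Y p r (bl x) ∧ Gy (ce w y) s lo hi (bl x)} := by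
    rintro x ⟨h1, h2⟩
    have h2' : ¬ ∀ y ∈ Q, ∃ i, lo ≤ i ∧ i ≤ hi ∧ Zr (ce w y) (4 ^ i * s) (bl x) := h2
    push Not at h2'
    obtain ⟨y, hy, h3⟩ := h2'
    rw [mem_iUnion₂]
    exact ⟨y, hy, h1, h3⟩
  have hfy : ∀ y, MU t P {x | Fy w Y p r (bl x) ∧ Gy (ce w y) s lo hi (bl x)} ≠ ⊤ := fun y =>
    ne_top_of_le_ne_top hfin (measure_mono fun x hx => hx.1)
  have h1 : (MU t P).real ({x | Fy w Y p r (bl x)} \ {x | Zy w s lo hi Q (bl x)}) ≤
      ∑ y ∈ Q, (MU t P).real {x | Fy w Y p r (bl x) ∧ Gy (ce w y) s lo hi (bl x)} := by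
    refine (measureReal_mono hsub ?_).trans (measureReal_biUnion_finset_le _ _)
    refine ne_top_of_le_ne_top ?_ (measure_biUnion_finset_le Q _)
    exact (ENNReal.sum_lt_top.2 fun y _ => lt_top_iff_ne_top.2 (hfy y)).ne
  refine h1.trans ?_
  rw [mul_assoc, ← nsmul_eq_mul]
  refine Finset.sum_le_card_nsmul _ _ _ fun y hy => ?_
  have h2 := hg y hy
  have e : (fun B => ind (Fy w Y p r) B * ind (Gy (ce w y) s lo hi) B) =
      ind fun B => Fy w Y p r B ∧ Gy (ce w y) s lo hi B := by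
    funext B
    by_cases h3 : Fy w Y p r B <;> by_cases h4 : Gy (ce w y) s lo hi B <;> simp [ind, h3, h4]
  rw [e, II_one (hF.and (gy_loc hL hs)), II_one hF] at h2
  exact h2

end fam

end Vale.Agent.P145.X
end

section

/-!
P145, X-level: `S_xst0` from the percolation statements of `X/Stmt.lean`; the choice of the scales.
-/

set_option autoImplicit false

namespace Vale.Agent.P145.X

open Filter Topology Set MeasureTheory
open Vale.Agent.P152 (Ori)
open Vale.Agent.P145.FA (Hgt)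
open Vale.Agent.P145.FB (Pt Mk MU bl)
open Vale.Agent.P145.PT Vale.Agent.P145.Top

/-- The family of circuits: the net `Y` at scale `w`, and a far circuit. -/
def QQ (w : ℤ) (Y : Finset (ℤ × ℤ)) (y0 : ℤ × ℤ) (l : ℤ) : Set Pt → Prop :=
  Fy w Y (ce w y0) (4 * (l * w))

/-- The integrals of the conditioned measure. -/
def NuInt (t : ℝ) (P : Measure (Ori (ℤ × ℤ))) (ν : (Set Pt → Prop) → Measure Om) : Prop :=
  ∀ Q : Set Pt → Prop, LocS univ (ind Q) → ind Q ∅ = 0 → 0 < II t P (ind Q) (fun _ => 1) →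
    ∀ A : Om → ℝ, Alg A → ∫ ω, A ω ∂(ν Q) = II t P (ind Q) A / II t P (ind Q) (fun _ => 1)

/-- The sandwich half (helper956). -/
def SandH (c t : ℝ) (P : Measure (Ori (ℤ × ℤ))) (δ : ℕ → ℝ)
    (ν : (Set Pt → Prop) → Measure Om) : Prop :=
  ∀ D₁ D₂ : Set (ℝ × ℝ), IsOpen D₁ → IsOpen D₂ → Bornology.IsBounded D₂ → closure D₁ ⊆ D₂ →
  ∀ R : ℝ, 1 ≤ R → D₁ ⊆ Metric.ball 0 R → ∀ L : List (List (ℝ × ℝ → ℝ)),
  (∀ l ∈ L, ∀ g ∈ l, TestOn D₁ g ∧ ∀ z, 0 ≤ g z) → ∃ C : ℝ, 0 ≤ C ∧ ∀ η : ℝ, 0 ≤ η →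
  ∀ᶠ n in atTop, ∀ (Q : Set Pt → Prop) (p : ℤ × ℤ) (s : ℤ),
    Fn (iE (Fs (δ n) D₁ : Set (ℤ × ℤ)))ᶜ (ind Q) → Monotone (ind Q) → (∀ B, Q B → Zr p (4 * s) B) →
    |δ n * (p.1 : ℝ)| ≤ R → |δ n * (p.2 : ℝ)| ≤ R → R⁻¹ ≤ δ n * (s : ℝ) → δ n * (s : ℝ) ≤ R →
    (∀ v : ℤ × ℤ, (δ n * (v.1 : ℝ), δ n * (v.2 : ℝ)) ∈ D₁ → v ∈ inV (bx p (8 * s))ᶜ) →
    0 < II t P (ind Q) (fun _ => 1) →
    II t P (ind fun B => Q B ∧ ¬ Conf B (Fs (δ n) D₂ : Set (ℤ × ℤ))ᶜ
      (Fs (δ n) D₁ : Set (ℤ × ℤ))ᶜ) (fun _ => 1) ≤ η ^ 2 * II t P (ind Q) (fun _ => 1) →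
    Mom (ν Q) ∧ ∀ l ∈ L, EE c (δ n) D₁ (hvl (δ n) l) ≤ ∫ ω, hvl (δ n) l ω ∂(ν Q) ∧
      ∫ ω, hvl (δ n) l ω ∂(ν Q) ≤ EE c (δ n) D₂ (hvl (δ n) l) + η * C

/-- The Schwinger-Dyson half (helper481, helper651). -/
def SdH (t κ : ℝ) (P : Measure (Ori (ℤ × ℤ))) (δ : ℕ → ℝ) : Prop :=
  ∀ D₁ : Set (ℝ × ℝ), IsOpen D₁ → Bornology.IsBounded D₁ → ∀ a b a' b' : ℝ, a < b → a' < b' →
  ccell a b a' b' ⊆ D₁ → ∀ e : ℝ, 0 < e → ∀ (ψ f0 g : ℝ × ℝ → ℝ) (k : ℕ),
  TestOn (cell a b a' b') ψ → TestOn (cell a b a' b') f0 → TestOn D₁ g →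
  (∀ z, g z ≠ 0 → z ∈ Pin a b a' b' e) → ∀ ε : ℝ, 0 < ε → ∀ (j N : ℕ) (e₁ : ℝ), 0 < e₁ →
  ∀ (Y : ℕ → Finset (ℤ × ℤ)) (y0 : ℕ → ℤ × ℤ) (l : ℕ → ℤ),
  (∀ᶠ n in atTop, (∀ y ∈ Y n, |y.1| ≤ N ∧ |y.2| ≤ N ∧
      ∃ i, Fin6 (δ n) (tE (bx (ce (sc ε (δ n) (j + 1)) y) (2 * sc ε (δ n) (j + 1))))
        (Kq a b a' b' e₁ i)) ∧
    1 ≤ l n ∧ |(y0 n).1| + 8 * l n ≤ N ∧ |(y0 n).2| + 8 * l n ≤ N ∧
    Fin6 (δ n) (tE (bx (ce (sc ε (δ n) (j + 1)) (y0 n)) (8 * (l n * sc ε (δ n) (j + 1)))))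
      {z | z.1 ≤ a - 1}) →
  ∀ c₀ : ℝ, 0 < c₀ →
  (∀ᶠ n in atTop, c₀ ≤ II t P (ind (QQ (sc ε (δ n) (j + 1)) (Y n) (y0 n) (l n))) (fun _ => 1)) →
  (∀ f : ℝ × ℝ → ℝ, TestOn D₁ f → (∀ z, 0 ≤ f z) → ∀ k : ℕ, ∃ C : ℝ, ∀ᶠ n in atTop,
    II t P (ind (QQ (sc ε (δ n) (j + 1)) (Y n) (y0 n) (l n))) (fun ω => hv (δ n) f ω ^ (2 * k)) ≤
      C * II t P (ind (QQ (sc ε (δ n) (j + 1)) (Y n) (y0 n) (l n))) (fun _ => 1)) →
  Tendsto (fun n =>
    (II t P (ind (QQ (sc ε (δ n) (j + 1)) (Y n) (y0 n) (l n)))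
        (fun ω => hv (δ n) (lap ψ) ω * hv (δ n) (fun z => f0 z + g z) ω ^ (k + 1)) +
      κ * (k + 1) * (∫ z, ψ z * (f0 z + g z)) *
        II t P (ind (QQ (sc ε (δ n) (j + 1)) (Y n) (y0 n) (l n)))
          (fun ω => hv (δ n) (fun z => f0 z + g z) ω ^ k)) /
      II t P (ind (QQ (sc ε (δ n) (j + 1)) (Y n) (y0 n) (l n))) (fun _ => 1)) atTop (𝓝 0)

namespace Fr

/-! ### Elementary facts -/

section elem
variable {t : ℝ} {P : Measure (Ori (ℤ × ℤ))} {Q Q' : Set Pt → Prop}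

theorem fin_of (hint : S_int t P) (hQ : LocP univ Q) (h0 : ¬ Q ∅) :
    MU t P {x | Q (bl x)} ≠ ⊤ := by
  have h1 := hint (ind Q) (fun _ => 1) (locP_iff.1 hQ) (ind_not h0) Pol.one
  have e : (fun x : Hgt × Mk => ind Q (bl x) * 1) =
      indicator {x | Q (bl x)} (fun _ => (1 : ℝ)) := by
    funext x
    by_cases hx : Q (bl x)
    · rw [ind_of hx, indicator_of_mem (show x ∈ {x | Q (bl x)} from hx), mul_one]
    · rw [ind_not hx, indicator_of_notMem (show x ∉ {x | Q (bl x)} from hx), zero_mul]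
  rw [e, integrable_indicator_iff hQ.meas] at h1
  rw [integrableOn_const_iff] at h1
  rcases h1 with h1 | h1
  · simp at h1
  · exact h1.ne

theorem ind_mono_of (h : ∀ B, Q B → Q' B) (B : Set Pt) : ind Q B ≤ ind Q' B := by
  by_cases hQ : Q B
  · rw [ind_of hQ, ind_of (h B hQ)]
  · rw [ind_not hQ]; exact ind_nonneg _ _

theorem II_mono_ind (hint : S_int t P) (hQ' : LocP univ Q') (h0' : ¬ Q' ∅)
    (h : ∀ B, Q B → Q' B) : II t P (ind Q) (fun _ => 1) ≤ II t P (ind Q') (fun _ => 1) := by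
  unfold II
  refine integral_mono_of_nonneg (ae_of_all _ fun x => ?_)
    (hint (ind Q') (fun _ => 1) (locP_iff.1 hQ') (ind_not h0') Pol.one) (ae_of_all _ fun x => ?_)
  · simpa only [Pi.zero_apply, mul_one] using ind_nonneg Q (bl x)
  · simpa only [mul_one] using ind_mono_of h (bl x)

theorem II_even_nonneg (Q : Set Pt → Prop) (f : ℝ × ℝ → ℝ) (d : ℝ) (k : ℕ) :
    0 ≤ II t P (ind Q) (fun ω => hv d f ω ^ (2 * k)) :=
  integral_nonneg fun x => mul_nonneg (ind_nonneg _ _) (by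
    show 0 ≤ hv d f (vm x.1) ^ (2 * k)
    rw [pow_mul]; exact pow_nonneg (sq_nonneg _) _)

end elem

/-- Functionals of the heights at the vertices in the support. -/
theorem on_hv {δ : ℝ} {f : ℝ × ℝ → ℝ} {D : Set (ℝ × ℝ)} (hf : TestOn D f) {V : Set (ℤ × ℤ)}
    (hV : ∀ v : ℤ × ℤ, (δ * (v.1 : ℝ), δ * (v.2 : ℝ)) ∈ D → v ∈ V) (k : ℕ) :
    On V (fun ω => hv δ f ω ^ k) := by
  intro ω ω' h
  have e : hv δ f ω = hv δ f ω' := by
    unfold hv
    congr 1
    refine finsum_congr fun v => ?_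
    by_cases h0 : f (δ * v.1, δ * v.2) = 0
    · rw [h0, mul_zero, mul_zero]
    · rw [h v (hV v (hf.2.2 (subset_tsupport _ h0)))]
  simp only [e]

/-- The moments of a family which contains a macroscopic circuit. -/
theorem mom_fam {t : ℝ} {P : Measure (Ori (ℤ × ℤ))} {δ : ℕ → ℝ} (hδ : ∀ n, 0 < δ n)
    (hlim : Tendsto δ atTop (𝓝 0)) (hrsw : S_rsw t P) (hemom : S_emom t P) (hmm : S_mm t P δ)
    {D₁ : Set (ℝ × ℝ)} {R : ℝ} (hR : 1 ≤ R) (hDR : D₁ ⊆ Metric.ball 0 R) {f : ℝ × ℝ → ℝ}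
    (hf : TestOn D₁ f) (hf0 : ∀ z, 0 ≤ f z) (k : ℕ) :
    ∃ C : ℝ, ∀ᶠ n in atTop, ∀ (Q : Set Pt → Prop) (p : ℤ × ℤ) (s : ℤ),
      Fn univ (ind Q) → Monotone (ind Q) → (∀ B, Q B → Zr p (4 * s) B) →
      |δ n * (p.1 : ℝ)| ≤ R → |δ n * (p.2 : ℝ)| ≤ R → R⁻¹ ≤ δ n * (s : ℝ) → δ n * (s : ℝ) ≤ R →
      (∀ v : ℤ × ℤ, (δ n * (v.1 : ℝ), δ n * (v.2 : ℝ)) ∈ D₁ → v ∈ inV (bx p (8 * s))ᶜ) →
      II t P (ind Q) (fun ω => hv (δ n) f ω ^ (2 * k)) ≤ C * II t P (ind Q) (fun _ => 1) := by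
  obtain ⟨c₁, hc₁, r₀, hr₀, hr⟩ := hrsw
  obtain ⟨C, hC0, hC⟩ := hmm R hR k
  refine ⟨C * ((∫ z, f z ^ 2) + 1) ^ k / c₁, ?_⟩
  have hsmall : ∀ᶠ n in atTop, δ n * (r₀ : ℝ) < R⁻¹ := by
    have h1 : Tendsto (fun n => δ n * (r₀ : ℝ)) atTop (𝓝 (0 * (r₀ : ℝ))) := hlim.mul_const _
    rw [zero_mul] at h1
    exact h1.eventually (gt_mem_nhds (by (clear * - hR; positivity)))
  filter_upwards [hC f (hf.mono hDR) 1 one_pos, hsmall] with n hn hn2 Q p s hQ hQm hQZ p1 p2 s1 s2 hv0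
  have hs : r₀ ≤ s := by
    by_contra hlt
    push Not at hlt
    have h1 : (s : ℝ) ≤ r₀ := by exact_mod_cast hlt.le
    have h2 := mul_le_mul_of_nonneg_left h1 (hδ n).le
    linarith only [hn2, s1, h2]
  have h1 := hn p s p1 p2 s1 s2
  obtain ⟨B, hBB⟩ := hv_eq_hB (R := R) (hδ n)
  have hfB : ∀ ω, hv (δ n) f ω = hB B (δ n) f ω := fun ω =>
    hBB f (fun z hz => hDR (hf.2.2 (subset_tsupport _ hz))) ω
  have h2 := hemom p s (ind Q) (fun ω => hv (δ n) f ω ^ (2 * k)) (by omega) hQ hQm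
    (fun B hB' => hQZ B (ind_ne hB')) (by
      have e : (fun ω => hv (δ n) f ω ^ (2 * k)) = fun ω => hB B (δ n) f ω ^ (2 * k) := by
        funext ω; rw [hfB]
      rw [e]
      exact cone_pow hf0 _) (on_hv hf hv0 _)
  have h3 := (hr s hs p).1
  have h4 : 0 ≤ II t P (ind Q) (fun ω => hv (δ n) f ω ^ (2 * k)) := II_even_nonneg _ _ _ _
  have h5 : 0 ≤ II t P (ind Q) (fun _ => 1) := by
    have := II_even_nonneg (t := t) (P := P) Q f (δ n) 0
    simpa only [ge_iff_le, mul_zero, pow_zero] using this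
  rw [div_mul_eq_mul_div, le_div_iff₀ hc₁]
  calc II t P (ind Q) (fun ω => hv (δ n) f ω ^ (2 * k)) * c₁
      ≤ II t P (ind Q) (fun ω => hv (δ n) f ω ^ (2 * k)) *
          II t P (ind (Zr p s)) (fun _ => 1) := mul_le_mul_of_nonneg_left h3 h4
    _ ≤ II t P (ind Q) (fun _ => 1) *
          II t P (ind (Zr p s)) (fun ω => hv (δ n) f ω ^ (2 * k)) := h2
    _ ≤ II t P (ind Q) (fun _ => 1) * (C * ((∫ z, f z ^ 2) + 1) ^ k) :=
        mul_le_mul_of_nonneg_left h1 h5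
    _ = C * ((∫ z, f z ^ 2) + 1) ^ k * II t P (ind Q) (fun _ => 1) := by ring

/-! ### The data of one scale -/

/-- The output of `S_geom` and `S_far` at one scale. -/
structure Sc (δ ε e₁ R a b a' b' : ℝ) (D₁ D₂ : Set (ℝ × ℝ)) (N₀ m N j : ℕ)
    (Y Q : Finset (ℤ × ℤ)) (y0 : ℤ × ℤ) (l : ℤ) : Prop where
  sub : Q ⊆ Y
  card : Q.card ≤ N₀
  bd : ∀ y ∈ Y, |y.1| ≤ N ∧ |y.2| ≤ N
  off : ∀ y ∈ Y, tE (bx (ce (sc ε δ (j + 1)) y) (2 * sc ε δ (j + 1))) ⊆
    (iE (Fs δ D₁ : Set (ℤ × ℤ)))ᶜ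
  kq : ∀ y ∈ Y, ∃ i, Fin6 δ (tE (bx (ce (sc ε δ (j + 1)) y) (2 * sc ε δ (j + 1))))
    (Kq a b a' b' e₁ i)
  conf : ∀ B : Set Pt, (∀ y ∈ Y, Zr (ce (sc ε δ (j + 1)) y) (sc ε δ (j + 1)) B) →
    (∀ y ∈ Q, ∃ i, j + 4 ≤ i ∧ i ≤ m ∧ Zr (ce (sc ε δ (j + 1)) y) (sc ε δ i) B) →
    Conf B (Fs δ D₂ : Set (ℤ × ℤ))ᶜ (Fs δ D₁ : Set (ℤ × ℤ))ᶜ
  l1 : 1 ≤ l
  y1 : |y0.1| + 8 * l ≤ N
  y2 : |y0.2| + 8 * l ≤ N
  p1 : |δ * ((ce (sc ε δ (j + 1)) y0).1 : ℝ)| ≤ R
  p2 : |δ * ((ce (sc ε δ (j + 1)) y0).2 : ℝ)| ≤ R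
  s1 : R⁻¹ ≤ δ * ((l * sc ε δ (j + 1) : ℤ) : ℝ)
  s2 : δ * ((l * sc ε δ (j + 1) : ℤ) : ℝ) ≤ R
  far : Fin6 δ (tE (bx (ce (sc ε δ (j + 1)) y0) (8 * (l * sc ε δ (j + 1))))) {z | z.1 ≤ a - 1}
  inv : ∀ v : ℤ × ℤ, (δ * (v.1 : ℝ), δ * (v.2 : ℝ)) ∈ D₁ →
    v ∈ inV (bx (ce (sc ε δ (j + 1)) y0) (8 * (l * sc ε δ (j + 1))))ᶜ

theorem exists_sc (hgeom : S_geom) (hfar : S_far) {D₁ D₂ : Set (ℝ × ℝ)} (hD1 : IsOpen D₁)
    (hD2 : IsOpen D₂) (hb : Bornology.IsBounded D₂) (hcl : closure D₁ ⊆ D₂) {a b a' b' : ℝ}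
    (hab : a < b) (hab' : a' < b') (hcc : ccell a b a' b' ⊆ D₁) :
    ∃ R : ℝ, 1 ≤ R ∧ D₁ ⊆ Metric.ball 0 R ∧ ∃ N₀ : ℕ, ∀ m : ℕ, ∃ ε : ℝ, 0 < ε ∧ ∃ (N : ℕ) (e₁ : ℝ),
      0 < e₁ ∧ ∀ j : ℕ, j + 4 ≤ m → ∀ᶠ δ in 𝓝[>] (0 : ℝ), ∃ (Y Q : Finset (ℤ × ℤ)) (y0 : ℤ × ℤ)
        (l : ℤ), Sc δ ε e₁ R a b a' b' D₁ D₂ N₀ m N j Y Q y0 l := by
  have hb1 : Bornology.IsBounded D₁ := hb.subset (subset_closure.trans hcl)
  obtain ⟨R, hR1, hDR, hf⟩ := hfar D₁ a hb1
  obtain ⟨N₀, hN₀⟩ := hgeom D₁ D₂ hD1 hD2 hb hcl a b a' b' hab hab' hcc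
  refine ⟨R, hR1, hDR, N₀, fun m => ?_⟩
  obtain ⟨ε₀, hε₀, hg⟩ := hN₀ m
  obtain ⟨ε, hε, hle, hle2⟩ : ∃ ε : ℝ, 0 < ε ∧ ε ≤ ε₀ ∧ 4 ^ (m + 2) * ε ≤ 1 := by
    refine ⟨min ε₀ (1 / 4 ^ (m + 2)), lt_min hε₀ (by positivity), min_le_left _ _, ?_⟩
    have h1 : min ε₀ (1 / (4 : ℝ) ^ (m + 2)) ≤ 1 / 4 ^ (m + 2) := min_le_right _ _
    have h2 : (0 : ℝ) < 4 ^ (m + 2) := by positivity
    calc (4 : ℝ) ^ (m + 2) * min ε₀ (1 / 4 ^ (m + 2)) ≤ 4 ^ (m + 2) * (1 / 4 ^ (m + 2)) :=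
          mul_le_mul_of_nonneg_left h1 h2.le
      _ = 1 := by field_simp
  obtain ⟨Ng, e₁, he₁, hg'⟩ := hg ε hε hle
  obtain ⟨Nf, hf'⟩ := hf m ε hε hle2
  refine ⟨ε, hε, max Ng Nf, e₁, he₁, fun j hj => ?_⟩
  filter_upwards [hg' j hj, hf' j (by omega)] with δ h1 h2
  obtain ⟨Y, Q, g1, g2, g3, g4, g5, g6⟩ := h1
  obtain ⟨y0, l, k1, k2, k3, k4, k5, k6, k7, k8, k9⟩ := h2
  have m1 : (Ng : ℤ) ≤ (max Ng Nf : ℕ) := by exact_mod_cast le_max_left _ _
  have m2 : (Nf : ℤ) ≤ (max Ng Nf : ℕ) := by exact_mod_cast le_max_right _ _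
  exact ⟨Y, Q, y0, l, g1, g2, fun y hy => ⟨(g3 y hy).1.trans m1, (g3 y hy).2.trans m1⟩,
    fun y hy => (g4 y hy).1, fun y hy => (g4 y hy).2, g6, k1, k2.trans m2, k3.trans m2, k4, k5, k6,
    k7, k8, k9⟩

theorem af_inj {f g : ℤ × ℤ} (h : af f = af g) : f = g := by
  obtain ⟨f1, f2⟩ := f
  obtain ⟨g1, g2⟩ := g
  simp only [af, Prod.mk.injEq] at h ⊢
  omega

/-- The far circuit does not use the edges inside the domain. -/
theorem far_off {δ : ℝ} (hδ : 0 < δ) {D : Set (ℝ × ℝ)} (hb : Bornology.IsBounded D)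
    {p : ℤ × ℤ} {r : ℤ} (h : ∀ v : ℤ × ℤ, (δ * (v.1 : ℝ), δ * (v.2 : ℝ)) ∈ D → v ∈ inV (bx p r)ᶜ) :
    tE (bx p r) ⊆ (iE (Fs δ D : Set (ℤ × ℤ)))ᶜ := by
  rintro w ⟨f, hf, hfw⟩ ⟨g, hg, g', hg', h1, h2⟩
  have key : ∀ u ∈ (Fs δ D : Set (ℤ × ℤ)), u ∉ bx p r := by
    intro u hu
    have h3 : sq δ u ⊆ D := (mem_Fs hδ hb).1 hu
    have h4 : (δ * (u.1 : ℝ), δ * (u.2 : ℝ)) ∈ D := by
      refine h3 ⟨le_rfl, ?_, le_rfl, ?_⟩
      · show δ * (u.1 : ℝ) ≤ δ * (u.1 + 1)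
        linarith
      · show δ * (u.2 : ℝ) ≤ δ * (u.2 + 1)
        linarith
    exact (h u h4).1
  rcases hfw with h3 | h3
  · exact key g hg (af_inj (h1.symm.trans h3) ▸ hf)
  · exact key g' hg' (af_inj (h2.symm.trans h3) ▸ hf)

/-- The scale `⌊ε / δ⌋` is large. -/
theorem floor_large {δ : ℕ → ℝ} (hδ : ∀ n, 0 < δ n) (hlim : Tendsto δ atTop (𝓝 0)) {ε : ℝ}
    (hε : 0 < ε) (K : ℤ) : ∀ᶠ n in atTop, K ≤ ⌊ε / δ n⌋ := by
  have h1 : ∀ᶠ n in atTop, δ n * (|(K : ℝ)| + 1) < ε := by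
    have h2 : Tendsto (fun n => δ n * (|(K : ℝ)| + 1)) atTop (𝓝 (0 * (|(K : ℝ)| + 1))) :=
      hlim.mul_const _
    rw [zero_mul] at h2
    exact h2.eventually (gt_mem_nhds hε)
  filter_upwards [h1] with n hn
  rw [Int.le_floor, le_div_iff₀ (hδ n)]
  have h3 := le_abs_self (K : ℝ)
  have h4 := hδ n
  nlinarith

end Fr

open Fr in
/-- **The frame**: `S_xst0` from the statements of the X-level. -/
theorem xst0_of {c t κ : ℝ} {P : Measure (Ori (ℤ × ℤ))} {δ : ℕ → ℝ} (hδ : ∀ n, 0 < δ n)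
    (hlim : Tendsto δ atTop (𝓝 0)) {ν : (Set Pt → Prop) → Measure Om} (hint : S_int t P)
    (hL : S_loc) (hrsw : S_rsw t P) (hgap : S_gap t P) (hpos : S_pos t P) (hemom : S_emom t P)
    (hmm : S_mm t P δ) (hgeom : S_geom) (hfar : S_far) (hν : NuInt t P ν)
    (hsand : SandH c t P δ ν) (hsd : SdH t κ P δ) : S_xst0 c κ δ := by
  classical
  intro D₁ D₂ hD1 hD2 hb hcl a b a' b' hab hab' hcc e he ψ f0 g k hψ hf0 hg _ _ hgP L hLL η hη
  have hb1 : Bornology.IsBounded D₁ := hb.subset (subset_closure.trans hcl)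
  obtain ⟨R, hR1, hDR, N₀, hN₀⟩ := exists_sc hgeom hfar hD1 hD2 hb hcl hab hab' hcc
  obtain ⟨C, hC0, hC⟩ := hsand D₁ D₂ hD1 hD2 hb hcl R hR1 hDR L hLL
  -- the errors
  obtain ⟨η', hη', hη'C⟩ : ∃ η' : ℝ, 0 < η' ∧ η' * C ≤ η := by
    refine ⟨η / (C + 1), by (clear * - hη hC0; positivity), ?_⟩
    rw [div_mul_eq_mul_div, div_le_iff₀ (by (clear * - hC0; positivity))]
    linarith
  obtain ⟨η₀, hη₀, hη₀N⟩ : ∃ η₀ : ℝ, 0 < η₀ ∧ (N₀ : ℝ) * η₀ ≤ η' ^ 2 := by
    refine ⟨η' ^ 2 / (N₀ + 1), by (clear * - hη'; positivity), ?_⟩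
    rw [mul_div_assoc', div_le_iff₀ (by (clear * -; positivity))]
    nlinarith only []
  obtain ⟨J, hJ4, s₀, hs₀, hgp⟩ := hgap η₀ hη₀ 4
  obtain ⟨ε, hε, N, e₁, he₁, hsc⟩ := hN₀ (2 * J)
  -- the sequences
  have hδ' : Tendsto δ atTop (𝓝[>] 0) :=
    tendsto_nhdsWithin_iff.2 ⟨hlim, Eventually.of_forall fun n => hδ n⟩
  have hch : ∀ j : ℕ, ∃ G : ℕ → Finset (ℤ × ℤ) × Finset (ℤ × ℤ) × (ℤ × ℤ) × ℤ, j < J →
      ∀ᶠ n in atTop, Sc (δ n) ε e₁ R a b a' b' D₁ D₂ N₀ (2 * J) N j (G n).1 (G n).2.1 (G n).2.2.1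
        (G n).2.2.2 := by
    intro j
    by_cases hj : j < J
    · have h1 := hδ'.eventually (hsc j (by omega))
      have h2 : ∀ᶠ n in atTop, ∃ G : Finset (ℤ × ℤ) × Finset (ℤ × ℤ) × (ℤ × ℤ) × ℤ,
          Sc (δ n) ε e₁ R a b a' b' D₁ D₂ N₀ (2 * J) N j G.1 G.2.1 G.2.2.1 G.2.2.2 := by
        filter_upwards [h1] with n hn
        obtain ⟨Y, Q, y0, l, h⟩ := hn
        exact ⟨(Y, Q, y0, l), h⟩
      obtain ⟨G, hG⟩ := h2.choice
      exact ⟨G, fun _ => hG⟩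
    · exact ⟨fun _ => (∅, ∅, (0, 0), 0), fun h => absurd h hj⟩
  choose G hG using hch
  set Y : ℕ → ℕ → Finset (ℤ × ℤ) := fun j n => (G j n).1 with hY
  set QQ0 : ℕ → ℕ → Finset (ℤ × ℤ) := fun j n => (G j n).2.1 with hQQ0
  set y0 : ℕ → ℕ → ℤ × ℤ := fun j n => (G j n).2.2.1 with hy0
  set l : ℕ → ℕ → ℤ := fun j n => (G j n).2.2.2 with hl
  set w : ℕ → ℕ → ℤ := fun j n => sc ε (δ n) (j + 1) with hw
  set X : ℕ → ℕ → Set Pt → Prop := fun j n => QQ (w j n) (Y j n) (y0 j n) (l j n) with hX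
  -- the lower bound
  obtain ⟨c₀, hc₀, s₁, hs₁, hps⟩ := hpos N
  have hfl : ∀ K : ℤ, ∀ᶠ n in atTop, K ≤ ⌊ε / δ n⌋ := floor_large hδ hlim hε
  have hwl : ∀ j n, 1 ≤ ⌊ε / δ n⌋ → ⌊ε / δ n⌋ ≤ w j n := by
    intro j n h1
    have h2 : (1 : ℤ) ≤ 4 ^ (j + 1) := one_le_pow₀ (by norm_num)
    show ⌊ε / δ n⌋ ≤ 4 ^ (j + 1) * ⌊ε / δ n⌋
    nlinarith only [h2, h1]
  have hbig : ∀ᶠ n in atTop, s₀ ≤ ⌊ε / δ n⌋ ∧ s₁ ≤ ⌊ε / δ n⌋ ∧ 1 ≤ ⌊ε / δ n⌋ := by
    filter_upwards [hfl s₀, hfl s₁, hfl 1] with n h1 h2 h3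
    exact ⟨h1, h2, h3⟩
  have hall : ∀ᶠ n in atTop, ∀ j < J, Sc (δ n) ε e₁ R a b a' b' D₁ D₂ N₀ (2 * J) N j (Y j n)
      (QQ0 j n) (y0 j n) (l j n) := by
    have h1 : ∀ᶠ n in atTop, ∀ j ∈ Finset.range J, Sc (δ n) ε e₁ R a b a' b' D₁ D₂ N₀ (2 * J) N j
        (Y j n) (QQ0 j n) (y0 j n) (l j n) := by
      rw [Filter.eventually_all_finset]
      intro j hj
      exact hG j (Finset.mem_range.1 hj)
    filter_upwards [h1] with n hn j hj
    exact hn j (Finset.mem_range.2 hj)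
  -- locality of the family
  have hXloc : ∀ j n, 1 ≤ ⌊ε / δ n⌋ → 1 ≤ l j n → LocP univ (X j n) ∧ IncP (X j n) ∧ ¬ X j n ∅ := by
    intro j n h1 h2
    have h3 := hwl j n h1
    have h4 : 1 ≤ w j n := h1.trans h3
    have h5 : 1 ≤ l j n * w j n := by nlinarith only [h1, h2, h3]
    exact ⟨fy_loc hL h4 (by omega) (fun _ _ => subset_univ _) (subset_univ _),
      fy_inc hL h4 (by omega), fy_empty hL (by omega)⟩
  have hXpos : ∀ᶠ n in atTop, ∀ j < J, c₀ ≤ II t P (ind (X j n)) (fun _ => 1) := by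
    filter_upwards [hbig, hall] with n ⟨_, h2, h3⟩ h4 j hj
    have h5 := h4 j hj
    obtain ⟨h6, _, h8⟩ := hXloc j n h3 h5.l1
    refine le_trans (hps (w j n) (h2.trans (hwl j n h3)) (y0 j n) (4 * l j n) (by have := h5.l1; omega)
      (by have := h5.y1; omega) (by have := h5.y2; omega)) ?_
    refine II_mono_ind hint h6 h8 ?_
    rintro B ⟨g1, g2⟩
    refine ⟨fun y hy => g1 y (h5.bd y hy).1 (h5.bd y hy).2, ?_⟩
    have e1 : (w j n * (y0 j n).1, w j n * (y0 j n).2) = ce (w j n) (y0 j n) := rfl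
    have e2 : 4 * l j n * w j n = 4 * (l j n * w j n) := by ring
    rw [e1, e2] at g2
    exact g2
  have hZ : ∀ j n, ∀ B, X j n B → Zr (ce (w j n) (y0 j n)) (4 * (l j n * w j n)) B :=
    fun j n B h => h.2
  -- the Schwinger-Dyson half, at all the scales
  have hSD : ∀ j < J, Tendsto (fun n =>
      (II t P (ind (X j n))
        (fun ω => hv (δ n) (lap ψ) ω * hv (δ n) (fun z => f0 z + g z) ω ^ (k + 1)) +
      κ * (k + 1) * (∫ z, ψ z * (f0 z + g z)) *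
        II t P (ind (X j n)) (fun ω => hv (δ n) (fun z => f0 z + g z) ω ^ k)) /
      II t P (ind (X j n)) (fun _ => 1)) atTop (𝓝 0) := by
    intro j hj
    refine hsd D₁ hD1 hb1 a b a' b' hab hab' hcc e he ψ f0 g k hψ hf0 hg hgP ε hε j N e₁ he₁ (Y j)
      (y0 j) (l j) ?_ c₀ hc₀ ?_ ?_
    · filter_upwards [hall] with n hn
      have h5 := hn j hj
      exact ⟨fun y hy => ⟨(h5.bd y hy).1, (h5.bd y hy).2, h5.kq y hy⟩, h5.l1, h5.y1, h5.y2, h5.far⟩
    · filter_upwards [hXpos] with n hn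
      exact hn j hj
    · intro f hf hf0' k'
      obtain ⟨C', hC'⟩ := mom_fam hδ hlim hrsw hemom hmm hR1 hDR hf hf0' k'
      refine ⟨C', ?_⟩
      filter_upwards [hC', hall, hbig] with n hn h4 ⟨_, _, h3⟩
      have h5 := h4 j hj
      obtain ⟨h6, h7, h8⟩ := hXloc j n h3 h5.l1
      exact hn (X j n) (ce (w j n) (y0 j n)) (l j n * w j n) (fn_ind h6 h8) (incP_iff.1 h7)
        (hZ j n) h5.p1 h5.p2 h5.s1 h5.s2 h5.inv
  -- the choice of the scale
  have hsel : ∀ n, ∃ j < J, s₀ ≤ ⌊ε / δ n⌋ → ∀ (p : ℤ × ℤ) (X : Set Pt → ℝ), Fn univ X →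
      Monotone X → (∀ B, X B ≠ 0 → Zr p (4 ^ (j + 1) * ⌊ε / δ n⌋) B) →
      II t P (fun B => X B * ind (fun B => ∀ i, j + 4 ≤ i → i ≤ 2 * J →
        ¬ Zr p (4 ^ i * ⌊ε / δ n⌋) B) B) (fun _ => 1) ≤ η₀ * II t P X (fun _ => 1) := by
    intro n
    by_cases hn : s₀ ≤ ⌊ε / δ n⌋
    · obtain ⟨j, hj, h⟩ := hgp _ hn
      exact ⟨j, hj, fun _ => h⟩
    · exact ⟨0, by omega, fun h => absurd h hn⟩
  choose jj hjj hjs using hsel
  -- the sandwich half
  have hkey : ∀ᶠ n in atTop, Mom (ν (X (jj n) n)) ∧ ∀ q ∈ L,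
      EE c (δ n) D₁ (hvl (δ n) q) ≤ ∫ ω, hvl (δ n) q ω ∂(ν (X (jj n) n)) ∧
      ∫ ω, hvl (δ n) q ω ∂(ν (X (jj n) n)) ≤ EE c (δ n) D₂ (hvl (δ n) q) + η' * C := by
    filter_upwards [hC η' hη'.le, hbig, hall, hXpos] with n hn ⟨g1, _, g3⟩ g4 g5
    have hsc' := g4 (jj n) (hjj n)
    have hp := g5 (jj n) (hjj n)
    obtain ⟨h6, h7, h8⟩ := hXloc (jj n) n g3 hsc'.l1
    have hw1 : 1 ≤ w (jj n) n := g3.trans (hwl (jj n) n g3)
    have hlw : 1 ≤ l (jj n) n * w (jj n) n := by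
      have := hsc'.l1
      nlinarith only [hw1, this]
    have hoff : tE (bx (ce (w (jj n) n) (y0 (jj n) n)) (2 * (4 * (l (jj n) n * w (jj n) n)))) ⊆
        (iE (Fs (δ n) D₁ : Set (ℤ × ℤ)))ᶜ := by
      have e : 2 * (4 * (l (jj n) n * w (jj n) n)) = 8 * (l (jj n) n * w (jj n) n) := by ring
      rw [e]
      exact far_off (hδ n) hb1 hsc'.inv
    refine hn (X (jj n) n) (ce (w (jj n) n) (y0 (jj n) n)) (l (jj n) n * w (jj n) n)
      (fn_ind (fy_loc hL hw1 (by omega) hsc'.off hoff) h8) (incP_iff.1 h7) (hZ (jj n) n) hsc'.p1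
      hsc'.p2 hsc'.s1 hsc'.s2 hsc'.inv (hc₀.trans_le hp) ?_
    -- the closing event
    have hZl : LocP univ (Zy (w (jj n) n) ⌊ε / δ n⌋ (jj n + 4) (2 * J) (QQ0 (jj n) n)) :=
      zy_loc hL g3 fun _ _ => subset_univ _
    have hXZ : LocP univ fun B => X (jj n) n B ∧
        ¬ Zy (w (jj n) n) ⌊ε / δ n⌋ (jj n + 4) (2 * J) (QQ0 (jj n) n) B := h6.and hZl.not
    have s1 := II_mono_ind (Q := fun B => X (jj n) n B ∧
      ¬ Conf B (Fs (δ n) D₂ : Set (ℤ × ℤ))ᶜ (Fs (δ n) D₁ : Set (ℤ × ℤ))ᶜ) hint hXZ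
      (fun h => h8 h.1) (fun B h => ⟨h.1, fun hz => h.2 (hsc'.conf B h.1.1 hz)⟩)
    refine s1.trans ?_
    rw [II_one hXZ, II_one h6]
    have s2 := gap_fam (t := t) (P := P) hL (w := w (jj n) n) (r := 4 * (l (jj n) n * w (jj n) n))
      (p := ce (w (jj n) n) (y0 (jj n) n)) (s := ⌊ε / δ n⌋) (Y := Y (jj n) n)
      (Q := QQ0 (jj n) n) (lo := jj n + 4) (hi := 2 * J) hw1 (by omega) g3
      (fin_of hint h6 h8) (η := η₀) (fun y hy => hjs n g1 (ce (w (jj n) n) y) (ind (X (jj n) n))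
        (fn_ind h6 h8) (incP_iff.1 h7) (fun B hB => (ind_ne hB).1 y (hsc'.sub hy)))
    refine le_trans ?_ (s2.trans ?_)
    · exact le_of_eq rfl
    · refine mul_le_mul_of_nonneg_right (le_trans ?_ hη₀N) measureReal_nonneg
      refine mul_le_mul_of_nonneg_right ?_ hη₀.le
      exact_mod_cast hsc'.card
  refine ⟨fun n => ν (X (jj n) n), ?_, ?_, ?_⟩
  · filter_upwards [hkey] with n hn
    exact hn.1
  · intro q hq
    filter_upwards [hkey, hall] with n hn h4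
    obtain ⟨h1, h2⟩ := hn.2 q hq
    exact ⟨by linarith only [hη, h1], by linarith only [hη'C, h2]⟩
  · have hSDall : ∀ᶠ n in atTop, ∀ j ∈ Finset.range J, |(II t P (ind (X j n))
        (fun ω => hv (δ n) (lap ψ) ω * hv (δ n) (fun z => f0 z + g z) ω ^ (k + 1)) +
      κ * (k + 1) * (∫ z, ψ z * (f0 z + g z)) *
        II t P (ind (X j n)) (fun ω => hv (δ n) (fun z => f0 z + g z) ω ^ k)) /
      II t P (ind (X j n)) (fun _ => 1)| < η := by
      rw [Filter.eventually_all_finset]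
      intro j hj
      have h1 := (hSD j (Finset.mem_range.1 hj)).abs
      rw [abs_zero] at h1
      exact h1.eventually (gt_mem_nhds hη)
    filter_upwards [hSDall, hbig, hall, hXpos] with n hn ⟨_, _, g3⟩ g4 g5
    have hsc' := g4 (jj n) (hjj n)
    have hp := g5 (jj n) (hjj n)
    obtain ⟨h6, h7, h8⟩ := hXloc (jj n) n g3 hsc'.l1
    have hpos' : 0 < II t P (ind (X (jj n) n)) (fun _ => 1) := hc₀.trans_le hp
    obtain ⟨B, hBB⟩ := hv_eq_hB (R := R) (hδ n)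
    have hal : ∀ f : ℝ × ℝ → ℝ, TestOn D₁ f → Alg (hv (δ n) f) := fun f hf => by
      have e : hv (δ n) f = hB B (δ n) f := funext fun ω =>
        hBB f (fun z hz => hDR (hf.2.2 (subset_tsupport _ hz))) ω
      rw [e]
      exact alg_hB
    have hcell : cell a b a' b' ⊆ D₁ := fun z hz =>
      hcc ⟨hz.1.le, hz.2.1.le, hz.2.2.1.le, hz.2.2.2.le⟩
    have hψ1 : TestOn D₁ (lap ψ) := (hψ.mono hcell).lap
    have hfg : TestOn D₁ (fun z => f0 z + g z) := (hf0.mono hcell).add hg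
    have e1 := hν (X (jj n) n) (locP_iff.1 h6) (ind_not h8) hpos'
      (fun ω => hv (δ n) (lap ψ) ω * hv (δ n) (fun z => f0 z + g z) ω ^ (k + 1))
      ((hal _ hψ1).mul ((hal _ hfg).pow _))
    have e2 := hν (X (jj n) n) (locP_iff.1 h6) (ind_not h8) hpos'
      (fun ω => hv (δ n) (fun z => f0 z + g z) ω ^ k) ((hal _ hfg).pow _)
    rw [e1, e2]
    have h9 := (hn (jj n) (Finset.mem_range.2 (hjj n))).le
    refine le_trans (le_of_eq ?_) h9
    congr 1
    rw [add_div, mul_div_assoc]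

end Vale.Agent.P145.X
end

section

/-!
P145, X-level: the measure `nuX`.
-/

namespace Vale.Agent.P145.X.Sb

open Filter Topology Set MeasureTheory
open Vale.Agent.P152 (Ori)
open Vale.Agent.P145.FA (Hgt)
open Vale.Agent.P145.FB
open Vale.Agent.P145.Top (Om Cone Alg Pol Mom vh EE hv hvl)
open Vale.Agent.P145.Dom (ze)
open Vale.Agent.P145.PT (TestOn)

/-- The law of the heights of the vertices given the event `Q(bl)`. -/
noncomputable def nuX (t : ℝ) (P : Measure (Ori (ℤ × ℤ))) (Q : Set Pt → Prop) : Measure Om :=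
  nuA (MU t P) {x : Hgt × Mk | Q (bl x)} fun x => vm x.1

variable {t : ℝ} {P : Measure (Ori (ℤ × ℤ))} {Q : Set Pt → Prop}

theorem ind_one {B : Set Pt} (h : Q B) : ind Q B = 1 := if_pos h

theorem ind_zero {B : Set Pt} (h : ¬ Q B) : ind Q B = 0 := if_neg h

theorem ind_ne {B : Set Pt} : ind Q B ≠ 0 ↔ Q B := by
  by_cases h : Q B
  · simp [ind_one h, h]
  · simp [ind_zero h, h]

theorem ind_nonneg (B : Set Pt) : 0 ≤ ind Q B := by
  by_cases h : Q B
  · rw [ind_one h]; norm_num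
  · rw [ind_zero h]

theorem ind_le_one (B : Set Pt) : ind Q B ≤ 1 := by
  by_cases h : Q B
  · rw [ind_one h]
  · rw [ind_zero h]; norm_num

theorem ind_congr {B B' : Set Pt} (h : ind Q B = ind Q B') (hB : Q B) : Q B' := by
  refine ind_ne.1 ?_
  rw [← h]
  exact ind_ne.2 hB

theorem locS_mono {A A' : Set Pt} {g : Set Pt → ℝ} (h : LocS A g) (hA : A ⊆ A') : LocS A' g := by
  obtain ⟨Λ, h1, h2⟩ := h
  exact ⟨Λ, fun w hw => hA (h1 w hw), h2⟩

/-- Events which depend on finitely many edges are measurable. -/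
theorem measQ (h : LocS univ (ind Q)) : MeasurableSet {x : Hgt × Mk | Q (bl x)} := by
  obtain ⟨Λ, -, h2⟩ := h
  exact meas_of_opl 0 ⟨Λ, fun A B hAB hA => ind_congr (h2 A B hAB) hA⟩

theorem measurable_vm : Measurable fun x : Hgt × Mk => vm x.1 := by
  refine measurable_pi_lambda _ fun v => ?_
  have h1 : Measurable fun x : Hgt × Mk => (x.1 (av v) : ℝ) :=
    (measurable_of_countable (fun z : ℤ => (z : ℝ))).comp
      ((measurable_pi_apply (av v)).comp measurable_fst)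
  exact h1.div_const 2

theorem ind_mul_eq (A : Om → ℝ) : (fun x : Hgt × Mk => ind Q (bl x) * A (vm x.1)) =
    {x : Hgt × Mk | Q (bl x)}.indicator fun x => A (vm x.1) := by
  funext x
  by_cases h : Q (bl x)
  · rw [ind_one h, one_mul, Set.indicator_of_mem (show x ∈ {x : Hgt × Mk | Q (bl x)} from h)]
  · rw [ind_zero h, zero_mul,
      Set.indicator_of_notMem (show x ∉ {x : Hgt × Mk | Q (bl x)} from h)]

theorem II_ind (h : LocS univ (ind Q)) (A : Om → ℝ) :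
    II t P (ind Q) A = ∫ x in {x : Hgt × Mk | Q (bl x)}, A (vm x.1) ∂(MU t P) := by
  unfold II
  rw [ind_mul_eq, integral_indicator (measQ h)]

theorem II_ind_one (h : LocS univ (ind Q)) :
    II t P (ind Q) (fun _ => 1) = (MU t P).real {x : Hgt × Mk | Q (bl x)} := by
  rw [II_ind h, setIntegral_const, smul_eq_mul, mul_one]

theorem int_ind (hint : S_int t P) (h : LocS univ (ind Q)) (h0 : ind Q ∅ = 0) {A : Om → ℝ}
    (hA : Alg A) : IntegrableOn (fun x => A (vm x.1)) {x : Hgt × Mk | Q (bl x)} (MU t P) := by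
  have h1 := hint (ind Q) A h h0 hA
  rw [ind_mul_eq, integrable_indicator_iff (measQ h)] at h1
  exact h1

theorem meas_fin (hint : S_int t P) (h : LocS univ (ind Q)) (h0 : ind Q ∅ = 0) :
    MU t P {x : Hgt × Mk | Q (bl x)} ≠ ⊤ := by
  have h1 := int_ind hint h h0 (A := fun _ => 1) Pol.one
  have h2 : IntegrableOn (fun _ : Hgt × Mk => (1 : ℝ)) {x : Hgt × Mk | Q (bl x)} (MU t P) := h1
  rw [integrableOn_const_iff] at h2
  rcases h2 with h2 | h2
  · exact absurd h2 (by simp)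
  · exact h2.ne

/-- The event as an `XEv`. -/
theorem xevQ (hint : S_int t P) (h : LocS univ (ind Q)) (h0 : ind Q ∅ = 0)
    (hpos : 0 < II t P (ind Q) fun _ => 1) :
    XEv (MU t P) {x : Hgt × Mk | Q (bl x)} fun x => vm x.1 := by
  refine ⟨measurable_vm, measQ h, ?_, meas_fin hint h h0, fun v => ?_⟩
  · intro h1
    rw [II_ind_one h, Measure.real, h1, ENNReal.toReal_zero] at hpos
    exact lt_irrefl _ hpos
  · exact int_ind hint h h0 (Pol.mon (P := fun _ => True) v)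

theorem nuX_mom (hint : S_int t P) (h : LocS univ (ind Q)) (h0 : ind Q ∅ = 0)
    (hpos : 0 < II t P (ind Q) fun _ => 1) : Mom (nuX t P Q) := by
  exact (xevQ hint h h0 hpos).mom

theorem nuX_int (hint : S_int t P) (h : LocS univ (ind Q)) (h0 : ind Q ∅ = 0)
    (hpos : 0 < II t P (ind Q) fun _ => 1) {A : Om → ℝ} (hA : Alg A) :
    ∫ ω, A ω ∂(nuX t P Q) = II t P (ind Q) A / II t P (ind Q) fun _ => 1 := by
  rw [nuX, (xevQ hint h h0 hpos).integral (measurable_pol hA), II_ind h,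
    II_ind_one h, inv_mul_eq_div]

/-- The same for measurable functions. -/
theorem nuX_int' (hint : S_int t P) (h : LocS univ (ind Q)) (h0 : ind Q ∅ = 0)
    (hpos : 0 < II t P (ind Q) fun _ => 1) {A : Om → ℝ} (hA : Measurable A) :
    ∫ ω, A ω ∂(nuX t P Q) = II t P (ind Q) A / II t P (ind Q) fun _ => 1 := by
  rw [nuX, (xevQ hint h h0 hpos).integral hA, II_ind h, II_ind_one h, inv_mul_eq_div]

end Vale.Agent.P145.X.Sb
end

section

/-!
P145, X-level: `Conf B F'ᶜ Fᶜ` is monotone in `B` and depends on finitely many edges, none of them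
inside `F`.
-/

namespace Vale.Agent.P145.X.Sb

open Filter Topology Set MeasureTheory
open Vale.Agent.P145.FB

theorem af_inj {f g : ℤ × ℤ} (h : af f = af g) : f = g := by
  unfold af at h
  rw [Prod.ext_iff] at h
  simp only at h
  ext <;> omega

theorem conf_mono {B B' : Set Pt} (h : B ⊆ B') {S T : Set (ℤ × ℤ)} (hB : Conf B S T) :
    Conf B' S T := by
  intro f hf g hg
  have key : Relation.ReflTransGen (stp B) f g := by
    induction hg with
    | refl => exact Relation.ReflTransGen.refl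
    | tail _ hs ih =>
      obtain ⟨w, hw, h1⟩ := hs
      exact ih.tail ⟨w, fun h' => hw (h h'), h1⟩
  exact hB f hf g key

/-- The edges of a finite set of faces. -/
theorem tE_finite (F : Finset (ℤ × ℤ)) : (tE (F : Set (ℤ × ℤ))).Finite := by
  classical
  refine ((F.image fun f => af f) ∪ (F.image fun f => ((af f).1 + 1, (af f).2)) ∪
    (F.image fun f => ((af f).1, (af f).2 + 1)) ∪
    (F.image fun f => ((af f).1 + 1, (af f).2 + 1))).finite_toSet.subset ?_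
  rintro w ⟨f, hf, h⟩
  rw [Finset.mem_coe, Finset.mem_union, Finset.mem_union, Finset.mem_union, Finset.mem_image,
    Finset.mem_image, Finset.mem_image, Finset.mem_image]
  have h2 : w = af f ∨ w = ((af f).1 + 1, (af f).2) ∨ w = ((af f).1, (af f).2 + 1) ∨
      w = ((af f).1 + 1, (af f).2 + 1) := by
    simp only [Prod.ext_iff]
    rcases h with h | h
    · unfold o1 at h
      split_ifs at h
      · rw [Prod.ext_iff] at h
        simp only at h
        omega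
      · rw [h]
        omega
    · unfold o2 at h
      split_ifs at h
      · rw [Prod.ext_iff] at h
        simp only at h
        omega
      · rw [Prod.ext_iff] at h
        simp only at h
        omega
  rcases h2 with h2 | h2 | h2 | h2
  · exact Or.inl (Or.inl (Or.inl ⟨f, hf, h2.symm⟩))
  · exact Or.inl (Or.inl (Or.inr ⟨f, hf, h2.symm⟩))
  · exact Or.inl (Or.inr ⟨f, hf, h2.symm⟩)
  · exact Or.inr ⟨f, hf, h2.symm⟩

theorem conf_congr {F F' : Finset (ℤ × ℤ)} {B B' : Set Pt}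
    (h : ∀ w, w ∈ tE (F' : Set (ℤ × ℤ)) → w ∉ iE (F : Set (ℤ × ℤ)) → w ∈ B → w ∈ B')
    (hB : Conf B (F' : Set (ℤ × ℤ))ᶜ (F : Set (ℤ × ℤ))ᶜ) :
    Conf B' (F' : Set (ℤ × ℤ))ᶜ (F : Set (ℤ × ℤ))ᶜ := by
  intro f hf g hg
  have key : ∃ f₀ ∈ (F' : Set (ℤ × ℤ))ᶜ, Relation.ReflTransGen (stp B) f₀ g := by
    induction hg with
    | refl => exact ⟨f, hf, Relation.ReflTransGen.refl⟩
    | tail _ hs ih =>
      rename_i a b _
      obtain ⟨f₀, hf₀, hp⟩ := ih
      by_cases hb : b ∈ (F' : Set (ℤ × ℤ))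
      · have ha : a ∈ (F : Set (ℤ × ℤ))ᶜ := hB f₀ hf₀ a hp
        obtain ⟨w, hw, h1⟩ := hs
        refine ⟨f₀, hf₀, hp.tail ⟨w, fun hwB => hw (h w ?_ ?_ hwB), h1⟩⟩
        · rcases h1 with h1 | h1
          · exact ⟨b, hb, Or.inr h1.2⟩
          · exact ⟨b, hb, Or.inl h1.1⟩
        · rintro ⟨f1, hf1, f2, hf2, h2, h3⟩
          rcases h1 with h1 | h1
          · have : a = f1 := af_inj (h1.1.symm.trans h2)
            exact ha (this ▸ hf1)
          · have : a = f2 := af_inj (h1.2.symm.trans h3)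
            exact ha (this ▸ hf2)
      · exact ⟨b, hb, Relation.ReflTransGen.refl⟩
  obtain ⟨f₀, hf₀, hp⟩ := key
  exact hB f₀ hf₀ g hp

/-- Locality of the confinement. -/
theorem conf_loc (F F' : Finset (ℤ × ℤ)) : LocS (iE (F : Set (ℤ × ℤ)))ᶜ
    (ind fun B => Conf B (F' : Set (ℤ × ℤ))ᶜ (F : Set (ℤ × ℤ))ᶜ) := by
  classical
  have hfin : (tE (F' : Set (ℤ × ℤ)) \ iE (F : Set (ℤ × ℤ))).Finite :=
    (tE_finite F').subset fun w hw => hw.1
  refine ⟨hfin.toFinset, fun w hw => ?_, fun B B' hBB => ?_⟩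
  · rw [Set.Finite.mem_toFinset] at hw
    exact hw.2
  · have h1 : Conf B (F' : Set (ℤ × ℤ))ᶜ (F : Set (ℤ × ℤ))ᶜ ↔
        Conf B' (F' : Set (ℤ × ℤ))ᶜ (F : Set (ℤ × ℤ))ᶜ := by
      constructor
      · refine conf_congr fun w h1 h2 h3 => (hBB w ?_).1 h3
        rw [Set.Finite.mem_toFinset]
        exact ⟨h1, h2⟩
      · refine conf_congr fun w h1 h2 h3 => (hBB w ?_).2 h3
        rw [Set.Finite.mem_toFinset]
        exact ⟨h1, h2⟩
    by_cases h : Conf B (F' : Set (ℤ × ℤ))ᶜ (F : Set (ℤ × ℤ))ᶜ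
    · rw [ind_one (Q := fun B => Conf B (F' : Set (ℤ × ℤ))ᶜ (F : Set (ℤ × ℤ))ᶜ) h,
        ind_one (Q := fun B => Conf B (F' : Set (ℤ × ℤ))ᶜ (F : Set (ℤ × ℤ))ᶜ) (h1.1 h)]
    · rw [ind_zero (Q := fun B => Conf B (F' : Set (ℤ × ℤ))ᶜ (F : Set (ℤ × ℤ))ᶜ) h,
        ind_zero (Q := fun B => Conf B (F' : Set (ℤ × ℤ))ᶜ (F : Set (ℤ × ℤ))ᶜ)
          fun h' => h (h1.2 h')]

theorem ind_and (Q G : Set Pt → Prop) (B : Set Pt) :
    ind (fun B => Q B ∧ G B) B = ind Q B * ind G B := by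
  by_cases h : Q B
  · by_cases h' : G B
    · rw [ind_one (Q := fun B => Q B ∧ G B) ⟨h, h'⟩, ind_one h, ind_one h', one_mul]
    · rw [ind_zero (Q := fun B => Q B ∧ G B) fun h2 => h' h2.2, ind_zero h', mul_zero]
  · rw [ind_zero (Q := fun B => Q B ∧ G B) fun h2 => h h2.1, ind_zero h, zero_mul]

theorem locS_mul {A : Set Pt} {g g' : Set Pt → ℝ} (h : LocS A g) (h' : LocS A g') :
    LocS A fun B => g B * g' B := by
  classical
  obtain ⟨Λ, h1, h2⟩ := h
  obtain ⟨Λ', h1', h2'⟩ := h'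
  refine ⟨Λ ∪ Λ', fun w hw => ?_, fun B B' hBB => ?_⟩
  · rcases Finset.mem_union.1 hw with hw | hw
    · exact h1 w hw
    · exact h1' w hw
  · have e1 := h2 B B' fun w hw => hBB w (Finset.mem_union_left _ hw)
    have e2 := h2' B B' fun w hw => hBB w (Finset.mem_union_right _ hw)
    simp only [e1, e2]

theorem locS_and {A : Set Pt} {Q G : Set Pt → Prop} (h : LocS A (ind Q)) (h' : LocS A (ind G)) :
    LocS A (ind fun B => Q B ∧ G B) := by
  have : (ind fun B => Q B ∧ G B) = fun B => ind Q B * ind G B := funext fun B => ind_and Q G B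
  rw [this]
  exact locS_mul h h'

theorem locS_not {A : Set Pt} {Q : Set Pt → Prop} (h : LocS A (ind Q)) :
    LocS A (ind fun B => ¬ Q B) := by
  obtain ⟨Λ, h1, h2⟩ := h
  refine ⟨Λ, h1, fun B B' hBB => ?_⟩
  have h3 := h2 B B' hBB
  by_cases hQ : Q B
  · have hQ' := ind_congr h3 hQ
    rw [ind_zero (Q := fun B => ¬ Q B) (not_not.2 hQ), ind_zero (Q := fun B => ¬ Q B)
      (not_not.2 hQ')]
  · have hQ' : ¬ Q B' := fun h' => hQ (ind_congr h3.symm h')
    rw [ind_one (Q := fun B => ¬ Q B) hQ, ind_one (Q := fun B => ¬ Q B) hQ']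

theorem mono_ind {Q : Set Pt → Prop} (h : ∀ B B' : Set Pt, B ⊆ B' → Q B → Q B') :
    Monotone (ind Q) := by
  intro B B' hBB
  by_cases hQ : Q B
  · rw [ind_one hQ, ind_one (h B B' hBB hQ)]
  · rw [ind_zero hQ]
    exact ind_nonneg B'

theorem of_mono_ind {Q : Set Pt → Prop} (h : Monotone (ind Q)) {B B' : Set Pt} (hBB : B ⊆ B')
    (hQ : Q B) : Q B' := by
  have h1 := h hBB
  rw [ind_one hQ] at h1
  by_contra h2
  rw [ind_zero h2] at h1
  norm_num at h1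

end Vale.Agent.P145.X.Sb
end

section

/-!
P145, X-level: the sandwich for the measures `nuX t P Q`.
-/

namespace Vale.Agent.P145.X.Sb

open Filter Topology Set MeasureTheory
open Vale.Agent.P152 (Ori)
open Vale.Agent.P145.FA (Hgt)
open Vale.Agent.P145.FB
open Vale.Agent.P145.Top (Om Cone Alg Pol Mom vh EE hv hvl Fs sq S_mono)
open Vale.Agent.P145.Dom (ze)
open Vale.Agent.P145.PT (TestOn)

/-! ### Test functions on the lattice -/

theorem vert_in {D : Set (ℝ × ℝ)} (hD : IsOpen D) (hb : Bornology.IsBounded D)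
    {g : ℝ × ℝ → ℝ} (hg : TestOn D g) {δ : ℕ → ℝ} (hδ : ∀ n, 0 < δ n)
    (hlim : Tendsto δ atTop (𝓝 0)) : ∀ᶠ n in atTop, ∀ v : ℤ × ℤ,
      g (δ n * v.1, δ n * v.2) ≠ 0 → v ∈ inV (Fs (δ n) D : Set (ℤ × ℤ)) := by
  have hK : IsCompact (tsupport g) := hg.2.1
  obtain ⟨r, hr, hsub⟩ := hK.exists_cthickening_subset_open hD hg.2.2
  filter_upwards [hlim.eventually (gt_mem_nhds hr)] with n hn v hv
  have hz : ((δ n * v.1, δ n * v.2) : ℝ × ℝ) ∈ tsupport g := subset_tsupport _ hv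
  have key : ∀ f : ℤ × ℤ, (f.1 = v.1 ∨ f.1 = v.1 - 1) → (f.2 = v.2 ∨ f.2 = v.2 - 1) →
      f ∈ (Fs (δ n) D : Set (ℤ × ℤ)) := by
    intro f h1 h2
    rw [Finset.mem_coe, Top.mem_Fs (hδ n) hb]
    intro w hw
    refine hsub (Metric.mem_cthickening_of_dist_le w _ r _ hz ?_)
    obtain ⟨w1, w2, w3, w4⟩ := hw
    have hδn := hδ n
    rw [Prod.dist_eq, Real.dist_eq, Real.dist_eq]
    refine max_le ?_ ?_
    · simp only
      rcases h1 with h1 | h1
      · rw [h1] at w1 w2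
        rw [abs_le]
        constructor <;> linarith
      · rw [h1] at w1 w2
        push_cast at w1 w2
        rw [abs_le]
        constructor <;> linarith
    · simp only
      rcases h2 with h2 | h2
      · rw [h2] at w3 w4
        rw [abs_le]
        constructor <;> linarith
      · rw [h2] at w3 w4
        push_cast at w3 w4
        rw [abs_le]
        constructor <;> linarith
  exact ⟨key v (Or.inl rfl) (Or.inl rfl), key _ (Or.inr rfl) (Or.inl rfl),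
    key _ (Or.inl rfl) (Or.inr rfl), key _ (Or.inr rfl) (Or.inr rfl)⟩

theorem on_hv {V : Set (ℤ × ℤ)} {δ : ℝ} {g : ℝ × ℝ → ℝ}
    (h : ∀ v : ℤ × ℤ, g (δ * v.1, δ * v.2) ≠ 0 → v ∈ V) : On V (hv δ g) := by
  intro ω ω' hω
  unfold hv
  congr 1
  refine finsum_congr fun v => ?_
  by_cases h0 : g (δ * v.1, δ * v.2) = 0
  · rw [h0, mul_zero, mul_zero]
  · rw [hω v (h v h0)]

theorem on_hvl {V : Set (ℤ × ℤ)} {δ : ℝ} {l : List (ℝ × ℝ → ℝ)}
    (h : ∀ g ∈ l, ∀ v : ℤ × ℤ, g (δ * v.1, δ * v.2) ≠ 0 → v ∈ V) : On V (hvl δ l) := by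
  intro ω ω' hω
  unfold hvl
  congr 1
  exact List.map_congr_left fun g hg => on_hv (h g hg) ω ω' hω

/-- The square of a product is at most the sum of the powers. -/
theorem sq_prod_le (l : List ℝ) (hl : l ≠ []) :
    l.prod ^ 2 ≤ (l.map fun a => a ^ (2 * l.length)).sum := by
  classical
  have hne : l.toFinset.Nonempty := by
    rw [List.toFinset_nonempty_iff]
    exact hl
  obtain ⟨a, ha, hmax⟩ := l.toFinset.exists_max_image (fun a => |a|) hne
  rw [List.mem_toFinset] at ha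
  have h1 : ∀ m : List ℝ, (∀ b ∈ m, |b| ≤ |a|) → |m.prod| ≤ |a| ^ m.length := by
    intro m
    induction m with
    | nil => intro _; simp
    | cons b m ih =>
      intro hm
      rw [List.prod_cons, List.length_cons, abs_mul, pow_succ, mul_comm (|a| ^ m.length)]
      exact mul_le_mul (hm b List.mem_cons_self)
        (ih fun b' hb' => hm b' (List.mem_cons_of_mem _ hb')) (abs_nonneg _) (abs_nonneg _)
  have h2 := h1 l fun b hb => hmax b (List.mem_toFinset.2 hb)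
  have h3 : l.prod ^ 2 ≤ a ^ (2 * l.length) := by
    calc l.prod ^ 2 = |l.prod| ^ 2 := (sq_abs _).symm
      _ ≤ (|a| ^ l.length) ^ 2 := pow_le_pow_left₀ (abs_nonneg _) h2 2
      _ = a ^ (2 * l.length) := by rw [← pow_mul, mul_comm, pow_mul, sq_abs, ← pow_mul]
  refine h3.trans ?_
  exact List.single_le_sum (l := l.map fun a => a ^ (2 * l.length)) (by
    intro x hx
    obtain ⟨b, -, rfl⟩ := List.mem_map.1 hx
    exact (even_two_mul _).pow_nonneg b) _ (List.mem_map.2 ⟨a, ha, rfl⟩)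

theorem hvl_sq_le (δ : ℝ) (l : List (ℝ × ℝ → ℝ)) (hl : l ≠ []) (ω : Om) :
    hvl δ (l ++ l) ω ≤ (l.map fun g => hv δ g ω ^ (2 * l.length)).sum := by
  rw [hvl_append, ← _root_.sq]
  have h := sq_prod_le (l.map fun g => hv δ g ω) (by simpa using hl)
  rw [List.map_map, List.length_map] at h
  exact h

/-! ### Moments -/

variable {c t : ℝ} {P : Measure (Ori (ℤ × ℤ))} {Q : Set Pt → Prop}

theorem alg_hv {δ : ℝ} (hδ : 0 < δ) {D : Set (ℝ × ℝ)} (hb : Bornology.IsBounded D)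
    {g : ℝ × ℝ → ℝ} (hg : TestOn D g) : Alg (hv δ g) := by
  obtain ⟨R, hR⟩ := hb.subset_ball (0 : ℝ × ℝ)
  obtain ⟨B, hB⟩ := Top.hv_eq_hB (R := R) hδ
  exact (Top.alg_hB (B := B) (δ := δ) (f := g)).of_eq fun ω =>
    (hB g (fun z hz => hR (hg.2.2 (subset_tsupport _ hz))) ω).symm

/-- Sums of powers. -/
theorem II_list (hint : S_int t P) (hQ : LocS univ (ind Q)) (h0 : ind Q ∅ = 0)
    (l : List (Om → ℝ)) (hl : ∀ A ∈ l, Alg A) :
    (Integrable (fun x => ind Q (bl x) * (l.map fun A => A (vm x.1)).sum) (MU t P)) ∧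
    II t P (ind Q) (fun ω => (l.map fun A => A ω).sum) = (l.map fun A => II t P (ind Q) A).sum := by
  induction l with
  | nil => simp only [List.map_nil, List.sum_nil, mul_zero, integrable_fun_zero, II, integral_zero, and_self]
  | cons A l ih =>
    obtain ⟨i1, i2⟩ := ih fun B hB => hl B (List.mem_cons_of_mem _ hB)
    have i3 := hint (ind Q) A hQ h0 (hl A List.mem_cons_self)
    simp only [List.map_cons, List.sum_cons, mul_add]
    refine ⟨i3.add i1, ?_⟩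
    unfold II at i2 ⊢
    simp only [mul_add]
    rw [integral_add i3 i1, i2]

/-- **Moments** of products given a macroscopic circuit. -/
theorem mom_one (hint : S_int t P) (hloc : S_loc) {δ : ℕ → ℝ} (hδ : ∀ n, 0 < δ n)
    (hlim : Tendsto δ atTop (𝓝 0)) (hmm : S_mm t P δ) (hrsw : S_rsw t P) {R : ℝ} (hR : 1 ≤ R)
    (l : List (ℝ × ℝ → ℝ)) (hl : ∀ g ∈ l, TestOn (Metric.ball (0 : ℝ × ℝ) R) g) :
    ∃ C : ℝ, 0 ≤ C ∧ ∀ᶠ n in atTop, ∀ (p : ℤ × ℤ) (s : ℤ), |δ n * p.1| ≤ R → |δ n * p.2| ≤ R →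
      R⁻¹ ≤ δ n * s → δ n * s ≤ R → 1 ≤ s ∧ 0 < II t P (ind (Zr p s)) (fun _ => 1) ∧
        II t P (ind (Zr p s)) (hvl (δ n) (l ++ l)) ≤ C * II t P (ind (Zr p s)) (fun _ => 1) := by
  have hR0 : 0 < R := by linarith
  obtain ⟨c₁, hc₁, r₀, hr₀, hcirc⟩ := hrsw
  -- `s` is large
  have hs : ∀ᶠ n in atTop, ∀ s : ℤ, R⁻¹ ≤ δ n * s → r₀ ≤ s ∧ 1 ≤ s := by
    have h1 : 0 < R⁻¹ / (|(r₀ : ℝ)| + 1) := by (clear * - hR hr₀; positivity)
    filter_upwards [hlim.eventually (gt_mem_nhds h1)] with n hn s hs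
    have hpos := hδ n
    have h2 : δ n * (|(r₀ : ℝ)| + 1) < R⁻¹ := by
      rwa [lt_div_iff₀ (by positivity)] at hn
    have h3 : |(r₀ : ℝ)| + 1 < (s : ℝ) := by
      by_contra h4
      push Not at h4
      nlinarith only [hs, h2, hpos, h4]
    have h5 : (r₀ : ℝ) < s := by linarith only [h3, le_abs_self (r₀ : ℝ)]
    have h6 : (1 : ℝ) < s := by linarith only [h3, abs_nonneg (r₀ : ℝ)]
    exact ⟨by exact_mod_cast h5.le, by exact_mod_cast h6.le⟩
  obtain ⟨C, hC0, hC⟩ := hmm R hR l.length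
  -- the bound for each factor
  have hone : ∀ g ∈ l, ∀ᶠ n in atTop, ∀ (p : ℤ × ℤ) (s : ℤ), |δ n * p.1| ≤ R →
      |δ n * p.2| ≤ R → R⁻¹ ≤ δ n * s → δ n * s ≤ R →
        II t P (ind (Zr p s)) (fun ω => hv (δ n) g ω ^ (2 * l.length)) ≤
          C * ((∫ z, g z ^ 2) + 1) ^ l.length := fun g hg =>
    hC g (hl g hg) 1 one_pos
  have hall : ∀ᶠ n in atTop, ∀ g ∈ {g | g ∈ l}, ∀ (p : ℤ × ℤ) (s : ℤ), |δ n * p.1| ≤ R →
      |δ n * p.2| ≤ R → R⁻¹ ≤ δ n * s → δ n * s ≤ R →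
        II t P (ind (Zr p s)) (fun ω => hv (δ n) g ω ^ (2 * l.length)) ≤
          C * ((∫ z, g z ^ 2) + 1) ^ l.length :=
    (Filter.eventually_all_finite (List.finite_toSet l)).2 fun g hg => hone g hg
  set K : ℝ := (l.map fun g => C * ((∫ z, g z ^ 2) + 1) ^ l.length).sum with hK
  have hK0 : 0 ≤ K := by
    refine List.sum_nonneg fun x hx => ?_
    obtain ⟨g, -, rfl⟩ := List.mem_map.1 hx
    have : 0 ≤ ∫ z, g z ^ 2 := integral_nonneg fun z => sq_nonneg _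
    (clear * - hC0; positivity)
  refine ⟨K / c₁ + 1, by positivity, ?_⟩
  filter_upwards [hs, hall] with n h1 h2 p s a1 a2 a3 a4
  obtain ⟨b1, b2⟩ := h1 s a3
  obtain ⟨d1, d2⟩ := hcirc s b1 p
  have hd : 0 < II t P (ind (Zr p s)) (fun _ => 1) := hc₁.trans_le d1
  refine ⟨b2, hd, ?_⟩
  obtain ⟨-, hFn⟩ := hloc p s b2
  have hL : LocS univ (ind (Zr p s)) := locS_mono hFn.loc (subset_univ _)
  by_cases hnil : l = []
  · have e : II t P (ind (Zr p s)) (hvl (δ n) (l ++ l)) = II t P (ind (Zr p s)) (fun _ => 1) := by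
      rw [hnil]
      rfl
    rw [e]
    have : 0 ≤ K / c₁ := by (clear * - hK0 hc₁; positivity)
    nlinarith only [hc₁, this, d1]
  · have hb : Bornology.IsBounded (Metric.ball (0 : ℝ × ℝ) R) := Metric.isBounded_ball
    obtain ⟨i1, i2⟩ := II_list hint hL hFn.pin
      (l.map fun g ω => hv (δ n) g ω ^ (2 * l.length)) (by
        intro A hA
        obtain ⟨g, hg, rfl⟩ := List.mem_map.1 hA
        exact (alg_hv (hδ n) hb (hl g hg)).pow _)
    simp only [List.map_map, Function.comp_def] at i1 i2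
    have i3 : Integrable (fun x => ind (Zr p s) (bl x) * hvl (δ n) (l ++ l) (vm x.1))
        (MU t P) := by
      refine hint _ _ hL hFn.pin ?_
      obtain ⟨B, hB⟩ := Top.hv_eq_hB (R := R) (hδ n)
      refine (Top.alg_hl (B := B) (δ := δ n) (l ++ l)).of_eq fun ω => ?_
      unfold hvl Top.hl
      congr 1
      refine List.map_congr_left fun g hg => (hB g (fun z hz => ?_) ω).symm
      have hg' : g ∈ l := by
        rcases List.mem_append.1 hg with h | h <;> exact h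
      exact (hl g hg').2.2 (subset_tsupport _ hz)
    have e1 : II t P (ind (Zr p s)) (hvl (δ n) (l ++ l)) ≤
        II t P (ind (Zr p s)) (fun ω => (l.map fun g => hv (δ n) g ω ^ (2 * l.length)).sum) := by
      refine integral_mono i3 i1 fun x => ?_
      exact mul_le_mul_of_nonneg_left (hvl_sq_le (δ n) l hnil (vm x.1)) (ind_nonneg _)
    have e2 : (l.map fun g => II t P (ind (Zr p s)) (fun ω => hv (δ n) g ω ^ (2 * l.length))).sum ≤
        K := by
      rw [hK]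
      exact List.sum_le_sum fun g hg => h2 g hg p s a1 a2 a3 a4
    have e3 : K ≤ (K / c₁ + 1) * II t P (ind (Zr p s)) (fun _ => 1) := by
      have h5 : K / c₁ * c₁ = K := div_mul_cancel₀ K hc₁.ne'
      have h6 : 0 ≤ K / c₁ := by (clear * - hK0 hc₁; positivity)
      nlinarith only [hc₁, d1, h5, hK0]
    rw [i2] at e1
    linarith only [e1, e2, e3]

theorem support_in {δ : ℝ} {D : Set (ℝ × ℝ)} {V : Set (ℤ × ℤ)}
    (hV : ∀ v : ℤ × ℤ, (δ * (v.1 : ℝ), δ * (v.2 : ℝ)) ∈ D → v ∈ V)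
    {g : ℝ × ℝ → ℝ} (hg : TestOn D g) (v : ℤ × ℤ)
    (hv : g (δ * v.1, δ * v.2) ≠ 0) : v ∈ V :=
  hV v (hg.2.2 (subset_tsupport _ hv))

/-- **Moments** of products given a monotone event which contains a macroscopic circuit. -/
theorem mom_Q (hint : S_int t P) (hemom : S_emom t P) (hloc : S_loc) (hrsw : S_rsw t P)
    {δ : ℕ → ℝ} (hδ : ∀ n, 0 < δ n) (hlim : Tendsto δ atTop (𝓝 0)) (hmm : S_mm t P δ)
    {D : Set (ℝ × ℝ)} {R : ℝ} (hR : 1 ≤ R) (hDR : D ⊆ Metric.ball 0 R)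
    (l : List (ℝ × ℝ → ℝ)) (hl : ∀ g ∈ l, TestOn D g ∧ ∀ z, 0 ≤ g z) :
    ∃ C : ℝ, 0 ≤ C ∧ ∀ᶠ n in atTop, ∀ (Q : Set Pt → Prop) (p : ℤ × ℤ) (s : ℤ),
      LocS univ (ind Q) → Monotone (ind Q) → (∀ B, Q B → Zr p (4 * s) B) →
      |δ n * p.1| ≤ R → |δ n * p.2| ≤ R → R⁻¹ ≤ δ n * s → δ n * s ≤ R →
      (∀ v : ℤ × ℤ, (δ n * (v.1 : ℝ), δ n * (v.2 : ℝ)) ∈ D → v ∈ inV (bx p (8 * s))ᶜ) →
      ind Q ∅ = 0 ∧
      II t P (ind Q) (hvl (δ n) (l ++ l)) ≤ C * II t P (ind Q) (fun _ => 1) := by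
  have hb : Bornology.IsBounded D := Metric.isBounded_ball.subset hDR
  obtain ⟨C, hC0, hC⟩ := mom_one hint hloc hδ hlim hmm hrsw hR l fun g hg =>
    ⟨(hl g hg).1.1, (hl g hg).1.2.1, (hl g hg).1.2.2.trans hDR⟩
  refine ⟨C, hC0, ?_⟩
  filter_upwards [hC] with n hn Q p s hQ hQm hQZ a1 a2 a3 a4 hV
  obtain ⟨b1, b2, b3⟩ := hn p s a1 a2 a3 a4
  have h4 : 1 ≤ 4 * s := by linarith only [b1]
  have h0 : ind Q ∅ = 0 := by
    refine ind_zero fun h => ?_
    have h1 := hQZ ∅ h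
    have h2 := (hloc p (4 * s) h4).2.pin
    rw [ind_one h1] at h2
    norm_num at h2
  refine ⟨h0, ?_⟩
  have hl2 : ∀ g ∈ l ++ l, TestOn D g ∧ ∀ z, 0 ≤ g z := by
    intro g hg
    rcases List.mem_append.1 hg with hg | hg <;> exact hl g hg
  have key := hemom p s (ind Q) (hvl (δ n) (l ++ l)) b1 ⟨ind_nonneg, hQ, h0⟩ hQm
    (fun B hB => hQZ B (ind_ne.1 hB)) (cone_hvl (hδ n) hb hl2)
    (on_hvl fun g hg v hv => support_in hV (hl2 g hg).1 v hv)
  have hpos : 0 ≤ II t P (ind Q) (fun _ => 1) :=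
    integral_nonneg fun x => by
      simp only [mul_one]
      exact ind_nonneg _
  have h5 : II t P (ind Q) (hvl (δ n) (l ++ l)) * II t P (ind (Zr p s)) (fun _ => 1) ≤
      (C * II t P (ind Q) (fun _ => 1)) * II t P (ind (Zr p s)) (fun _ => 1) := by
    refine key.trans ((mul_le_mul_of_nonneg_left b3 hpos).trans (le_of_eq ?_))
    ring
  exact le_of_mul_le_mul_right h5 b2

/-- **The sandwich** for the measures `nuX t P Q`. -/
theorem sand_n (hc : 0 < c) (hm : S_mono c) (hint : S_int t P) (hlow : S_low c t P)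
    (hup : S_up c t P) (hemom : S_emom t P) (hloc : S_loc) (hrsw : S_rsw t P)
    {δ : ℕ → ℝ} (hδ : ∀ n, 0 < δ n) (hlim : Tendsto δ atTop (𝓝 0)) (hmm : S_mm t P δ)
    {D₁ D₂ : Set (ℝ × ℝ)} (hD₁ : IsOpen D₁) (hb₂ : Bornology.IsBounded D₂) (hsub : D₁ ⊆ D₂)
    {R : ℝ} (hR : 1 ≤ R) (hDR : D₁ ⊆ Metric.ball 0 R)
    (L : List (List (ℝ × ℝ → ℝ))) (hL : ∀ l ∈ L, ∀ g ∈ l, TestOn D₁ g ∧ ∀ z, 0 ≤ g z) :
    ∃ C : ℝ, 0 ≤ C ∧ ∀ᶠ n in atTop, ∀ (η : ℝ) (Q : Set Pt → Prop) (p : ℤ × ℤ) (s : ℤ), 0 ≤ η →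
      Fn (iE (Fs (δ n) D₁ : Set (ℤ × ℤ)))ᶜ (ind Q) → Monotone (ind Q) →
      (∀ B, Q B → Zr p (4 * s) B) →
      |δ n * p.1| ≤ R → |δ n * p.2| ≤ R → R⁻¹ ≤ δ n * s → δ n * s ≤ R →
      (∀ v : ℤ × ℤ, (δ n * (v.1 : ℝ), δ n * (v.2 : ℝ)) ∈ D₁ → v ∈ inV (bx p (8 * s))ᶜ) →
      0 < II t P (ind Q) (fun _ => 1) →
      II t P (ind fun B => Q B ∧
        ¬ Conf B (Fs (δ n) D₂ : Set (ℤ × ℤ))ᶜ (Fs (δ n) D₁ : Set (ℤ × ℤ))ᶜ) (fun _ => 1) ≤
        η ^ 2 * II t P (ind Q) (fun _ => 1) →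
      Mom (nuX t P Q) ∧ ∀ l ∈ L,
        EE c (δ n) D₁ (hvl (δ n) l) ≤ ∫ ω, hvl (δ n) l ω ∂(nuX t P Q) ∧
        ∫ ω, hvl (δ n) l ω ∂(nuX t P Q) ≤ EE c (δ n) D₂ (hvl (δ n) l) + η * C := by
  have hb₁ : Bornology.IsBounded D₁ := hb₂.subset hsub
  -- the constants
  have hmomL : ∃ C : ℝ, 0 ≤ C ∧ ∀ᶠ n in atTop, ∀ l ∈ L, ∀ (Q : Set Pt → Prop) (p : ℤ × ℤ) (s : ℤ),
      LocS univ (ind Q) → Monotone (ind Q) → (∀ B, Q B → Zr p (4 * s) B) →
      |δ n * p.1| ≤ R → |δ n * p.2| ≤ R → R⁻¹ ≤ δ n * s → δ n * s ≤ R →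
      (∀ v : ℤ × ℤ, (δ n * (v.1 : ℝ), δ n * (v.2 : ℝ)) ∈ D₁ → v ∈ inV (bx p (8 * s))ᶜ) →
      II t P (ind Q) (hvl (δ n) (l ++ l)) ≤ C ^ 2 * II t P (ind Q) (fun _ => 1) := by
    clear hup hlow
    induction L with
    | nil =>
      refine ⟨0, le_rfl, Eventually.of_forall fun n l hl => ?_⟩
      exact absurd hl List.not_mem_nil
    | cons l L ih =>
      obtain ⟨C, hC0, hC⟩ := ih fun l' hl' => hL l' (List.mem_cons_of_mem _ hl')
      obtain ⟨C', hC'0, hC'⟩ := mom_Q hint hemom hloc hrsw hδ hlim hmm hR hDR l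
        (hL l List.mem_cons_self)
      refine ⟨C + C' + 1, by (clear * - hC0 hC'0; positivity), ?_⟩
      filter_upwards [hC, hC'] with n h1 h2 l' hl' Q p s hQ hQm hQZ a1 a2 a3 a4 hV
      have hpos : 0 ≤ II t P (ind Q) (fun _ => 1) :=
        integral_nonneg fun x => by
          simp only [mul_one]
          exact ind_nonneg _
      rcases List.mem_cons.1 hl' with rfl | hl'
      · refine (h2 Q p s hQ hQm hQZ a1 a2 a3 a4 hV).2.trans
          (mul_le_mul_of_nonneg_right ?_ hpos)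
        (clear * - hC0 hC'0; nlinarith)
      · refine (h1 l' hl' Q p s hQ hQm hQZ a1 a2 a3 a4 hV).trans
          (mul_le_mul_of_nonneg_right ?_ hpos)
        exact pow_le_pow_left₀ hC0 (by linarith only [hC'0]) 2
  obtain ⟨C, hC0, hC⟩ := hmomL
  refine ⟨C, hC0, ?_⟩
  -- the test functions live on the interior vertices
  have hsupp : ∀ᶠ n in atTop, ∀ l ∈ L, ∀ g ∈ l, ∀ v : ℤ × ℤ, g (δ n * v.1, δ n * v.2) ≠ 0 →
      v ∈ inV (Fs (δ n) D₁ : Set (ℤ × ℤ)) := by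
    have h1 : ∀ᶠ n in atTop, ∀ l ∈ {l | l ∈ L}, ∀ g ∈ {g | g ∈ l}, ∀ v : ℤ × ℤ,
        g (δ n * v.1, δ n * v.2) ≠ 0 → v ∈ inV (Fs (δ n) D₁ : Set (ℤ × ℤ)) :=
      (Filter.eventually_all_finite (List.finite_toSet L)).2 fun l hl =>
        (Filter.eventually_all_finite (List.finite_toSet l)).2 fun g hg =>
          vert_in hD₁ hb₁ (hL l hl g hg).1 hδ hlim
    exact h1
  filter_upwards [hC, hsupp] with n hn1 hn2 η Q p s hη hQ hQm hQZ a1 a2 a3 a4 hV hpos hgap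
  have hQu : LocS univ (ind Q) := locS_mono hQ.loc (subset_univ _)
  have hx := xevQ hint hQu hQ.pin hpos
  refine ⟨nuX_mom hint hQu hQ.pin hpos, fun l hl => ?_⟩
  have hA := cone_hvl (hδ n) hb₁ (hL l hl)
  have hOn : On (inV (Fs (δ n) D₁ : Set (ℤ × ℤ))) (hvl (δ n) l) :=
    on_hvl fun g hg v hv => hn2 l hl g hg v hv
  set F := Fs (δ n) D₁ with hF
  set F' := Fs (δ n) D₂ with hF'
  have hFF : F ⊆ F' := Top.Fs_mono (hδ n) hsub hb₂
  -- the confinement
  have hcl := conf_loc F F'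
  have hQC := locS_and hQ.loc hcl
  have hQCm : Monotone (ind fun B => Q B ∧ Conf B (F' : Set (ℤ × ℤ))ᶜ (F : Set (ℤ × ℤ))ᶜ) :=
    mono_ind fun B B' hBB h => ⟨of_mono_ind hQm hBB h.1, conf_mono hBB h.2⟩
  have hQCu := locS_mono hQC (subset_univ _)
  have hQN := locS_and hQu (locS_not (locS_mono hcl (subset_univ _)))
  have h0 : ind (fun B => Q B ∧ Conf B (F' : Set (ℤ × ℤ))ᶜ (F : Set (ℤ × ℤ))ᶜ) ∅ = 0 := by
    refine ind_zero fun h => ?_
    have := hQ.pin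
    rw [ind_one h.1] at this
    norm_num at this
  have f1 := hlow F (ind Q) (hvl (δ n) l) hQ hA
  have f2 := hup F F' (ind fun B => Q B ∧ Conf B (F' : Set (ℤ × ℤ))ᶜ (F : Set (ℤ × ℤ))ᶜ)
    (hvl (δ n) l) hFF ⟨ind_nonneg, hQC, h0⟩ hQCm (fun B hB => (ind_ne.1 hB).2) hA hOn
  rw [II_ind_one hQu, II_ind hQu] at f1
  rw [II_ind_one hQCu, II_ind hQCu] at f2
  rw [II_ind_one hQN, II_ind_one hQu] at hgap
  have f3 : 0 ≤ EE c (δ n) D₂ (hvl (δ n) l) := by
    obtain ⟨ρ, hρ, e⟩ := Top.exists_meas hc (Fs (δ n) D₂)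
    have h1 : 0 ≤ ∫ ω, hvl (δ n) l ω ∂ρ :=
      hρ.nonneg (fun v => by rw [e]; exact (hm _ _ subset_rfl v).1) hA
    rw [e] at h1
    exact h1
  have f4 := hn1 l hl Q p s hQu hQm hQZ a1 a2 a3 a4 hV
  rw [II_ind_one hQu, II_ind hQu] at f4
  have hZ : MeasurableSet {x : Hgt × Mk | Conf (bl x) (F' : Set (ℤ × ℤ))ᶜ (F : Set (ℤ × ℤ))ᶜ} :=
    measQ (locS_mono hcl (subset_univ _))
  refine hx.sand (Z := {x : Hgt × Mk | Conf (bl x) (F' : Set (ℤ × ℤ))ᶜ (F : Set (ℤ × ℤ))ᶜ}) hZ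
    hA f3 hη hC0 f1 f2 hgap ?_
  refine le_trans (le_of_eq ?_) f4
  refine integral_congr_ae (ae_of_all _ fun x => ?_)
  simp only []
  rw [hvl_append, _root_.sq]

end Vale.Agent.P145.X.Sb
end

section

/-!
P145: the sign of a cluster. The signs at all sites of the cluster of a set of odd sites
(connected by medial vertices which are not blocked) can be changed simultaneously; so products of
an observable near `O`, which is odd, and an observable near `I` only see the configurations in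
which `O` and `I` are connected.
-/

namespace Vale.Agent.P145.FK

open Finset
open scoped Classical

namespace Net

variable {V F E : Type*} {K : ℕ}

/-- The site `i` is in `C` or adjacent to `C`. -/
def adj (N : Net V F E) (C : Set F) (i : V ⊕ F) : Prop :=
  Sum.elim (fun v => ∃ f, N.inc v f ∧ f ∈ C) (fun f => f ∈ C) i

/-- Change of the signs at the odd sites of `C` and at the even sites adjacent to `C`. -/
noncomputable def flp (N : Net V F E) (C : Set F) (s : V ⊕ F → Bool) : V ⊕ F → Bool :=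
  fun i => if N.adj C i then !(s i) else s i

lemma flp_flp (N : Net V F E) (C : Set F) (s : V ⊕ F → Bool) : N.flp C (N.flp C s) = s := by
  funext i
  by_cases h : N.adj C i
  · simp [flp, h]
  · simp [flp, h]

/-- The change of signs as a permutation. -/
noncomputable def flpE (N : Net V F E) (C : Set F) : Equiv.Perm (V ⊕ F → Bool) where
  toFun := N.flp C
  invFun := N.flp C
  left_inv := N.flp_flp C
  right_inv := N.flp_flp C

/-- `C` is a union of clusters. -/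
def closedC (N : Net V F E) (x : Cfg V F E K) (C : Set F) : Prop :=
  (∀ v, (x.1 (.inl v) : ℕ) ≠ 0 → ∀ f f', N.inc v f → N.inc v f' → f ∈ C → f' ∈ C) ∧
    ∀ e, x.2 e = true → (N.f e ∈ C ↔ N.g e ∈ C)

lemma closedC_expl {N : Net V F E} (hN : N.Loc) (O : Set F) (x : Cfg V F E K) :
    N.closedC x (N.expl O x) := by
  constructor
  · intro v hv f f' hf hf' hfC
    by_contra hf'C
    obtain ⟨e, he, hne⟩ := hN v (N.expl O x) ⟨f, hf, hfC⟩ ⟨f', hf', hf'C⟩
    have hb := expl_blocked hne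
    rcases he with he | he
    · exact hv (by rw [← he]; exact hb.1)
    · exact hv (by rw [← he]; exact hb.2.1)
  · intro e he
    by_contra hne
    have hb := expl_blocked hne
    rw [hb.2.2] at he
    exact Bool.false_ne_true he

lemma sv_not (b : Bool) : sv (!b) = -sv b := by cases b <;> simp

section
variable [Fintype V] [Fintype F] [Fintype E]

lemma cst_flp (N : Net V F E) {x : Cfg V F E K} {C : Set F} (hC : N.closedC x C)
    (s : V ⊕ F → Bool) : N.cst (act x) (N.flp C s) = N.cst (act x) s := by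
  unfold cst
  refine Finset.prod_congr rfl fun i hi => ?_
  rcases i with v | e
  · have hv : (x.1 (.inl v) : ℕ) ≠ 0 := mem_act_inl.mp hi
    simp only [con, Sum.elim_inl]
    unfold cv
    refine Finset.prod_congr rfl fun f hf => ?_
    have hvf : N.inc v f := (Finset.mem_filter.mp hf).2
    unfold pr
    by_cases h : N.adj C (.inl v)
    · have h' : N.adj C (.inr f) := by
        obtain ⟨f', hf', hfC⟩ := h
        exact hC.1 v hv f' f hf' hvf hfC
      simp only [flp, h, h', if_true, sv_not]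
      ring
    · have h' : ¬ N.adj C (.inr f) := fun h' => h ⟨f, hvf, h'⟩
      simp only [flp, h, h', if_false]
  · have he : x.2 e = true := mem_act_inr.mp hi
    simp only [con, Sum.elim_inr]
    unfold th pr
    have hiff := hC.2 e he
    by_cases h : N.adj C (.inr (N.f e))
    · have h' : N.adj C (.inr (N.g e)) := hiff.mp h
      simp only [flp, h, h', if_true, sv_not]
      ring
    · have h' : ¬ N.adj C (.inr (N.g e)) := fun h' => h (hiff.mpr h')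
      simp only [flp, h, h', if_false]

/-- Functions which are odd under the change of the signs of the cluster of `O` have integral
zero. -/
theorem J_odd (N : Net V F E) (hN : N.Loc) (t : ℝ) (κ : V ⊕ F → Fin (K + 1) → ℝ)
    (β : E → Bool → ℝ) (O : Set F) {G : Cfg V F E K → (V ⊕ F → Bool) → ℝ}
    (hG : ∀ x s, G x (N.flp (N.expl O x) s) = -G x s) : N.J t κ β G = 0 := by
  unfold J
  refine Finset.sum_eq_zero fun x _ => ?_
  have h1 : ∑ s, N.jw t κ β x * N.cst (act x) s * G x s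
      = ∑ s, N.jw t κ β x * N.cst (act x) (N.flp (N.expl O x) s) *
        G x (N.flp (N.expl O x) s) :=
    (Equiv.sum_comp (N.flpE (N.expl O x)) fun s => N.jw t κ β x * N.cst (act x) s * G x s).symm
  have h2 : ∑ s, N.jw t κ β x * N.cst (act x) (N.flp (N.expl O x) s) *
        G x (N.flp (N.expl O x) s) = -∑ s, N.jw t κ β x * N.cst (act x) s * G x s := by
    rw [← Finset.sum_neg_distrib]
    refine Finset.sum_congr rfl fun s _ => ?_
    rw [N.cst_flp (closedC_expl hN O x), hG]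
    ring
  linarith only [h1, h2]

/-- Indicator of the event that `O` and `I` are connected. -/
noncomputable def cnn (N : Net V F E) (O I : Set F) (x : Cfg V F E K) : ℝ :=
  if Disjoint (N.expl O x) I then 0 else 1

omit [Fintype V] [Fintype F] [Fintype E] in
lemma cnn_cases (N : Net V F E) (O I : Set F) (x : Cfg V F E K) :
    N.cnn O I x = 0 ∨ N.cnn O I x = 1 := by
  unfold cnn; split_ifs <;> simp

omit [Fintype V] [Fintype F] [Fintype E] in
lemma cnn_nonneg (N : Net V F E) (O I : Set F) (x : Cfg V F E K) : 0 ≤ N.cnn O I x := by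
  rcases N.cnn_cases O I x with h | h <;> simp [h]

omit [Fintype V] [Fintype F] [Fintype E] in
lemma cnn_le_one (N : Net V F E) (O I : Set F) (x : Cfg V F E K) : N.cnn O I x ≤ 1 := by
  rcases N.cnn_cases O I x with h | h <;> simp [h]

omit [Fintype V] [Fintype F] [Fintype E] in
lemma cnn_monotone (N : Net V F E) (O I : Set F) :
    Monotone (N.cnn O I : Cfg V F E K → ℝ) := by
  intro x y hxy
  unfold cnn
  by_cases h : Disjoint (N.expl O y) I
  · have h' : Disjoint (N.expl O x) I := h.mono_left (expl_mono O hxy)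
    rw [if_pos h, if_pos h']
  · rw [if_neg h]
    split_ifs <;> norm_num

/-- The signed height of an even site. -/
def vht (x : Cfg V F E K) (s : V ⊕ F → Bool) (v : V) : ℤ :=
  sg (s (.inl v)) * (2 * ((x.1 (.inl v) : ℕ) : ℤ))

lemma sg_not (b : Bool) : sg (!b) = -sg b := by cases b <;> simp [sg]

omit [Fintype V] [Fintype F] [Fintype E] in
lemma vht_flp_adj {N : Net V F E} {C : Set F} {x : Cfg V F E K} {s : V ⊕ F → Bool} {v : V}
    (hv : ∃ f, N.inc v f ∧ f ∈ C) : vht x (N.flp C s) v = -vht x s v := by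
  have h : N.adj C (.inl v) := hv
  simp only [vht, flp, h, if_true, sg_not]
  ring

omit [Fintype V] [Fintype F] [Fintype E] in
lemma vht_flp_not {N : Net V F E} {C : Set F} {x : Cfg V F E K} (hC : N.closedC x C)
    {s : V ⊕ F → Bool} {v : V} (hv : ∃ f, N.inc v f ∧ f ∉ C) :
    vht x (N.flp C s) v = vht x s v := by
  by_cases h : N.adj C (.inl v)
  · have h0 : (x.1 (.inl v) : ℕ) = 0 := by
      by_contra hne
      obtain ⟨f, hf, hfC⟩ := hv
      obtain ⟨f', hf', hfC'⟩ := h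
      exact hfC (hC.1 v hne f' f hf' hf hfC')
    simp only [vht, h0]
    simp
  · simp only [vht, flp, h, if_false]

/-- An observable `A` of the heights near `O` which is odd times an observable `B` of the heights
near `I` only sees the configurations in which `O` and `I` are connected. -/
theorem J_cnn (N : Net V F E) (hN : N.Loc) (t : ℝ) (κ : V ⊕ F → Fin (K + 1) → ℝ)
    (β : E → Bool → ℝ) (O I : Set F) (P : Cfg V F E K → ℝ) {A B : (V → ℤ) → ℝ}
    (hA : ∀ y y' : V → ℤ, (∀ v, (∃ f, N.inc v f ∧ f ∈ O) → y' v = -y v) → A y' = -A y)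
    (hB : ∀ y y' : V → ℤ, (∀ v, (∃ f, N.inc v f ∧ f ∈ I) → y' v = y v) → B y' = B y) :
    N.J t κ β (fun x s => P x * (A (vht x s) * B (vht x s)))
      = N.J t κ β (fun x s => P x * N.cnn O I x * (A (vht x s) * B (vht x s))) := by
  have h1 := N.J_odd hN t κ β O
    (G := fun x s => P x * (1 - N.cnn O I x) * (A (vht x s) * B (vht x s))) (by
      intro x s
      by_cases hd : Disjoint (N.expl O x) I
      · have h1 : A (vht x (N.flp (N.expl O x) s)) = -A (vht x s) := by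
          refine hA _ _ fun v hv => ?_
          obtain ⟨f, hf, hfO⟩ := hv
          exact vht_flp_adj ⟨f, hf, N.subset_expl O x hfO⟩
        have h2 : B (vht x (N.flp (N.expl O x) s)) = B (vht x s) := by
          refine hB _ _ fun v hv => ?_
          obtain ⟨f, hf, hfI⟩ := hv
          exact vht_flp_not (closedC_expl hN O x) ⟨f, hf, fun h => Set.disjoint_left.mp hd h hfI⟩
        rw [h1, h2]
        ring
      · have h0 : N.cnn O I x = 1 := if_neg hd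
        rw [h0]
        ring)
  have h2 : N.J t κ β (fun x s => P x * (A (vht x s) * B (vht x s)))
      = N.J t κ β (fun x s => P x * N.cnn O I x * (A (vht x s) * B (vht x s))) +
        N.J t κ β (fun x s => P x * (1 - N.cnn O I x) * (A (vht x s) * B (vht x s))) := by
    rw [← N.J_add]
    congr 1
    funext x s
    ring
  rw [h2, h1, add_zero]

/-- Cauchy-Schwarz inequality. -/
theorem J_cs (N : Net V F E) {t : ℝ} (ht0 : 0 ≤ t) {κ : V ⊕ F → Fin (K + 1) → ℝ}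
    (hκ : ∀ i z, 0 ≤ κ i z) {β : E → Bool → ℝ} (hβ : ∀ e b, 0 ≤ β e b)
    (G H : Cfg V F E K → (V ⊕ F → Bool) → ℝ) :
    N.J t κ β (fun x s => G x s * H x s) ^ 2
      ≤ N.J t κ β (fun x s => G x s ^ 2) * N.J t κ β (fun x s => H x s ^ 2) := by
  rw [J_eq_tw, J_eq_tw, J_eq_tw]
  have h := Finset.sum_mul_sq_le_sq_mul_sq (Finset.univ : Finset (Cfg V F E K × (V ⊕ F → Bool)))
    (fun p => √(N.tw t κ β p.1 p.2) * G p.1 p.2) (fun p => √(N.tw t κ β p.1 p.2) * H p.1 p.2)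
  have e1 : ∀ p : Cfg V F E K × (V ⊕ F → Bool),
      √(N.tw t κ β p.1 p.2) * √(N.tw t κ β p.1 p.2) = N.tw t κ β p.1 p.2 := fun p =>
    Real.mul_self_sqrt (N.tw_nonneg ht0 hκ hβ _ _)
  calc _ = (∑ p : Cfg V F E K × (V ⊕ F → Bool), √(N.tw t κ β p.1 p.2) * G p.1 p.2 *
        (√(N.tw t κ β p.1 p.2) * H p.1 p.2)) ^ 2 := by
        congr 1
        refine Finset.sum_congr rfl fun p _ => ?_
        calc N.tw t κ β p.1 p.2 * (G p.1 p.2 * H p.1 p.2)
            = (√(N.tw t κ β p.1 p.2) * √(N.tw t κ β p.1 p.2)) * (G p.1 p.2 * H p.1 p.2) := by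
              rw [e1 p]
          _ = _ := by ring
    _ ≤ _ := h
    _ = _ := by
        congr 1
        · refine Finset.sum_congr rfl fun p _ => ?_
          rw [mul_pow, sq, e1 p]
        · refine Finset.sum_congr rfl fun p _ => ?_
          rw [mul_pow, sq, e1 p]

/-! ### Connections inside a set of faces -/

/-- One step through a medial vertex inside `S` which is not blocked. -/
def stepI (N : Net V F E) (S : Set F) (x : Cfg V F E K) (f f' : F) : Prop :=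
  ∃ e, N.inE S e ∧ ¬ N.blocked x e ∧ ((N.f e = f ∧ N.g e = f') ∨ (N.g e = f ∧ N.f e = f'))

/-- The odd sites which are connected to `O` inside `S`. -/
def explI (N : Net V F E) (S O : Set F) (x : Cfg V F E K) : Set F :=
  {f | ∃ f0 ∈ O, Relation.ReflTransGen (N.stepI S x) f0 f}

omit [Fintype V] [Fintype F] [Fintype E] in
lemma zb_blocked {N : Net V F E} {S : Set F} {x : Cfg V F E K} (hx : N.zb S x) {e : E}
    (he : ¬ N.inE S e) : N.blocked x e := by
  have h1 : ∀ v, N.inc v (N.f e) → N.inc v (N.g e) → (x.1 (.inl v) : ℕ) = 0 := by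
    intro v h1 h2
    refine hx.1 _ fun h => he ⟨h _ h1, h _ h2⟩
  exact ⟨h1 _ (N.huf e) (N.hug e), h1 _ (N.hvf e) (N.hvg e), hx.2 e he⟩

omit [Fintype V] [Fintype F] [Fintype E] in
lemma expl_eq_explI {N : Net V F E} {S O : Set F} {x : Cfg V F E K} (hx : N.zb S x) :
    N.expl O x = N.explI S O x := by
  ext f
  constructor
  · rintro ⟨f0, hf0, hf⟩
    refine ⟨f0, hf0, Relation.ReflTransGen.mono (fun a b => ?_) _ _ hf⟩
    rintro ⟨e, he, h⟩
    exact ⟨e, by_contra fun h' => he (zb_blocked hx h'), he, h⟩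
  · rintro ⟨f0, hf0, hf⟩
    refine ⟨f0, hf0, Relation.ReflTransGen.mono (fun a b => ?_) _ _ hf⟩
    rintro ⟨e, _, he, h⟩
    exact ⟨e, he, h⟩

/-- Indicator of the event that `O` and `I` are connected inside `S`. -/
noncomputable def cnnI (N : Net V F E) (S O I : Set F) (x : Cfg V F E K) : ℝ :=
  if Disjoint (N.explI S O x) I then 0 else 1

omit [Fintype V] [Fintype F] [Fintype E] in
lemma cnnI_cases (N : Net V F E) (S O I : Set F) (x : Cfg V F E K) :
    N.cnnI S O I x = 0 ∨ N.cnnI S O I x = 1 := by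
  unfold cnnI; split_ifs <;> simp

omit [Fintype V] [Fintype F] [Fintype E] in
lemma cnnI_nonneg (N : Net V F E) (S O I : Set F) (x : Cfg V F E K) : 0 ≤ N.cnnI S O I x := by
  rcases N.cnnI_cases S O I x with h | h <;> simp [h]

omit [Fintype V] [Fintype F] [Fintype E] in
lemma cnnI_le_one (N : Net V F E) (S O I : Set F) (x : Cfg V F E K) : N.cnnI S O I x ≤ 1 := by
  rcases N.cnnI_cases S O I x with h | h <;> simp [h]

omit [Fintype V] [Fintype F] [Fintype E] in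
lemma explI_mono {N : Net V F E} (S O : Set F) {x y : Cfg V F E K} (h : x ≤ y) :
    N.explI S O x ⊆ N.explI S O y := by
  rintro f ⟨f0, hf0, hf⟩
  refine ⟨f0, hf0, Relation.ReflTransGen.mono (fun a b => ?_) _ _ hf⟩
  rintro ⟨e, he, hb, h'⟩
  exact ⟨e, he, fun hb' => hb (blocked_anti h hb'), h'⟩

omit [Fintype V] [Fintype F] [Fintype E] in
lemma cnnI_monotone (N : Net V F E) (S O I : Set F) :
    Monotone (N.cnnI S O I : Cfg V F E K → ℝ) := by
  intro x y hxy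
  unfold cnnI
  by_cases h : Disjoint (N.explI S O y) I
  · have h' : Disjoint (N.explI S O x) I := h.mono_left (explI_mono S O hxy)
    rw [if_pos h, if_pos h']
  · rw [if_neg h]
    split_ifs <;> norm_num

omit [Fintype V] [Fintype F] [Fintype E] in
lemma cnnI_le_cnn (N : Net V F E) (S O I : Set F) (x : Cfg V F E K) :
    N.cnnI S O I x ≤ N.cnn O I x := by
  unfold cnnI cnn
  have hs : N.explI S O x ⊆ N.expl O x := by
    rintro f ⟨f0, hf0, hf⟩
    refine ⟨f0, hf0, Relation.ReflTransGen.mono (fun a b => ?_) _ _ hf⟩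
    rintro ⟨e, _, hb, h'⟩
    exact ⟨e, hb, h'⟩
  by_cases h : Disjoint (N.expl O x) I
  · rw [if_pos h, if_pos (h.mono_left hs)]
  · rw [if_neg h]
    split_ifs <;> norm_num

omit [Fintype V] [Fintype F] [Fintype E] in
lemma zbi_cnn (N : Net V F E) (S O I : Set F) (x : Cfg V F E K) :
    N.zbi S x * N.cnn O I x = N.zbi S x * N.cnnI S O I x := by
  by_cases h : N.zb S x
  · unfold cnn cnnI
    rw [expl_eq_explI h]
  · have h0 : N.zbi S x = 0 := if_neg h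
    rw [h0, zero_mul, zero_mul]

/-- Product of an odd observable near `O` and an observable near `I`, with zero boundary
conditions on the complement of `S`: bound by the probability of a connection inside `S` under any
law which is tilted by a function of the outside of `S`. -/
theorem J_low_cnn (N : Net V F E) (hN : N.Loc) {t : ℝ} (ht0 : 0 ≤ t) (ht : t ≤ 1)
    {κ : V ⊕ F → Fin (K + 1) → ℝ} (hκ : ∀ i z, 0 ≤ κ i z) {β : E → Bool → ℝ}
    (hβ : ∀ e b, 0 ≤ β e b) (S O I : Set F) {A B : (V → ℤ) → ℝ}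
    (hA : ∀ y y' : V → ℤ, (∀ v, (∃ f, N.inc v f ∧ f ∈ O) → y' v = -y v) → A y' = -A y)
    (hB : ∀ y y' : V → ℤ, (∀ v, (∃ f, N.inc v f ∧ f ∈ I) → y' v = y v) → B y' = B y)
    {Θ : Cfg V F E K → ℝ} (hΘ : ∀ x, 0 ≤ Θ x) (hΘS : ∀ x y, N.agOut S x y → Θ x = Θ y) :
    N.J t κ β (fun x s => N.zbi S x * (A (vht x s) * B (vht x s))) ^ 4 * N.J t κ β (fun x _ => Θ x) ^ 2
      ≤ N.J t κ β (fun x s => N.zbi S x * A (vht x s) ^ 4) *
        N.J t κ β (fun x s => N.zbi S x * B (vht x s) ^ 4) *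
        (N.J t κ β (fun x _ => N.zbi S x) * N.J t κ β (fun x _ => Θ x * N.cnnI S O I x)) ^ 2 := by
  have z2 : ∀ x : Cfg V F E K, N.zbi S x * N.zbi S x = N.zbi S x := by
    intro x
    unfold zbi
    split_ifs <;> simp
  have c2 : ∀ x : Cfg V F E K, N.cnnI S O I x * N.cnnI S O I x = N.cnnI S O I x := by
    intro x
    rcases N.cnnI_cases S O I x with h | h <;> simp [h]
  -- only connected configurations count
  have h1 : N.J t κ β (fun x s => N.zbi S x * (A (vht x s) * B (vht x s)))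
      = N.J t κ β (fun x s => (N.zbi S x * N.cnnI S O I x) *
          (N.zbi S x * (A (vht x s) * B (vht x s)))) := by
    rw [N.J_cnn hN t κ β O I (N.zbi S) hA hB]
    congr 1
    funext x s
    rw [zbi_cnn]
    calc N.zbi S x * N.cnnI S O I x * (A (vht x s) * B (vht x s))
        = (N.zbi S x * N.zbi S x) * N.cnnI S O I x * (A (vht x s) * B (vht x s)) := by rw [z2]
      _ = _ := by ring
  -- Cauchy-Schwarz, twice
  have h2 := N.J_cs ht0 hκ hβ (K := K) (fun x _ => N.zbi S x * N.cnnI S O I x)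
    (fun x s => N.zbi S x * (A (vht x s) * B (vht x s)))
  have h3 := N.J_cs ht0 hκ hβ (K := K) (fun x s => N.zbi S x * A (vht x s) ^ 2)
    (fun x s => N.zbi S x * B (vht x s) ^ 2)
  have e1 : N.J t κ β (fun x _ => (N.zbi S x * N.cnnI S O I x) ^ 2)
      = N.J t κ β (fun x (_ : V ⊕ F → Bool) => N.zbi S x * N.cnnI S O I x) := by
    congr 1
    funext x s
    calc (N.zbi S x * N.cnnI S O I x) ^ 2
        = (N.zbi S x * N.zbi S x) * (N.cnnI S O I x * N.cnnI S O I x) := by ring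
      _ = _ := by rw [z2, c2]
  have e2 : N.J t κ β (fun x s => (N.zbi S x * (A (vht x s) * B (vht x s))) ^ 2)
      = N.J t κ β (fun x s => (N.zbi S x * A (vht x s) ^ 2) * (N.zbi S x * B (vht x s) ^ 2)) := by
    congr 1
    funext x s
    ring
  have e3 : N.J t κ β (fun x s => (N.zbi S x * A (vht x s) ^ 2) ^ 2)
      = N.J t κ β (fun x s => N.zbi S x * A (vht x s) ^ 4) := by
    congr 1
    funext x s
    calc (N.zbi S x * A (vht x s) ^ 2) ^ 2 = (N.zbi S x * N.zbi S x) * A (vht x s) ^ 4 := by ring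
      _ = _ := by rw [z2]
  have e4 : N.J t κ β (fun x s => (N.zbi S x * B (vht x s) ^ 2) ^ 2)
      = N.J t κ β (fun x s => N.zbi S x * B (vht x s) ^ 4) := by
    congr 1
    funext x s
    calc (N.zbi S x * B (vht x s) ^ 2) ^ 2 = (N.zbi S x * N.zbi S x) * B (vht x s) ^ 4 := by ring
      _ = _ := by rw [z2]
  rw [e1, e2] at h2
  rw [e3, e4] at h3
  rw [← h1] at h2
  -- comparison with the tilted law
  have h4 := N.zero_le_out ht0 ht hκ hβ S (X := fun _ => 1) (Θ := Θ) (C := fun _ => 1)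
    (fun _ => zero_le_one) (fun _ _ _ => le_rfl) hΘ hΘS (fun _ => zero_le_one) (fun _ _ _ => le_rfl)
    (Mon.mag (N.cnnI_nonneg S O I) (N.cnnI_monotone S O I))
  simp only [one_mul, mul_one] at h4
  have n1 : 0 ≤ N.J t κ β (fun x (_ : V ⊕ F → Bool) => N.zbi S x * N.cnnI S O I x) :=
    N.J_nonneg ht0 hκ hβ fun x _ => mul_nonneg (N.zbi_nonneg S x) (N.cnnI_nonneg S O I x)
  have n2 : 0 ≤ N.J t κ β (fun x (_ : V ⊕ F → Bool) => Θ x) :=
    N.J_nonneg ht0 hκ hβ fun x _ => hΘ x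
  have n3 : 0 ≤ N.J t κ β (fun x s => (N.zbi S x * A (vht x s) ^ 2) * (N.zbi S x * B (vht x s) ^ 2)) :=
    N.J_nonneg ht0 hκ hβ fun x s => mul_nonneg (mul_nonneg (N.zbi_nonneg S x) (sq_nonneg _))
      (mul_nonneg (N.zbi_nonneg S x) (sq_nonneg _))
  have n4 : 0 ≤ N.J t κ β (fun x s => N.zbi S x * A (vht x s) ^ 4) *
      N.J t κ β (fun x s => N.zbi S x * B (vht x s) ^ 4) :=
    mul_nonneg (N.J_nonneg ht0 hκ hβ fun x s => mul_nonneg (N.zbi_nonneg S x) (by (clear * -; positivity)))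
      (N.J_nonneg ht0 hκ hβ fun x s => mul_nonneg (N.zbi_nonneg S x) (by (clear * -; positivity)))
  set j := N.J t κ β (fun x s => N.zbi S x * (A (vht x s) * B (vht x s)))
  set θ := N.J t κ β (fun x (_ : V ⊕ F → Bool) => Θ x)
  set p := N.J t κ β (fun x (_ : V ⊕ F → Bool) => N.zbi S x * N.cnnI S O I x)
  set q := N.J t κ β (fun x s => (N.zbi S x * A (vht x s) ^ 2) * (N.zbi S x * B (vht x s) ^ 2))
  set a4 := N.J t κ β (fun x s => N.zbi S x * A (vht x s) ^ 4)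
  set b4 := N.J t κ β (fun x s => N.zbi S x * B (vht x s) ^ 4)
  set z := N.J t κ β (fun x (_ : V ⊕ F → Bool) => N.zbi S x)
  set r := N.J t κ β (fun x (_ : V ⊕ F → Bool) => Θ x * N.cnnI S O I x)
  calc j ^ 4 * θ ^ 2 = (j ^ 2) ^ 2 * θ ^ 2 := by ring
    _ ≤ (p * q) ^ 2 * θ ^ 2 := by
        refine mul_le_mul_of_nonneg_right ?_ (sq_nonneg _)
        exact pow_le_pow_left₀ (sq_nonneg _) h2 2
    _ = q ^ 2 * (p * θ) ^ 2 := by ring
    _ ≤ (a4 * b4) * (z * r) ^ 2 :=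
        mul_le_mul h3 (pow_le_pow_left₀ (mul_nonneg n1 n2) h4 2) (sq_nonneg _) n4

end

end Net

open Vale.Agent.P145.FP Vale.Agent.P145.Dom

/-- Product of an odd observable of the heights near `O` and an observable of the heights near `I`
in the domain `F` with zero boundary condition: bound by the probability of a connection inside
`F` under any law which is tilted by a function `Θ` of the outside of `F`. -/
theorem ze_low_cnn {B F : Finset (ℤ × ℤ)} (hBF : Nb B F) (hN : (boxN B).Loc) {K : ℕ}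
    (hK : KF F ≤ K) {c : ℝ} (hc : 1 ≤ c) {O I : Set (ℤ × ℤ)} (hO : ∀ f ∈ O, f ∈ B)
    (hI : ∀ f ∈ I, f ∈ B) {A D : (ℤ × ℤ → ℤ) → ℝ}
    (hA : ∀ y y' : ℤ × ℤ → ℤ, (∀ v, (∃ f, Cor v f ∧ f ∈ O) → y' v = -y v) → A y' = -A y)
    (hD : ∀ y y' : ℤ × ℤ → ℤ, (∀ v, (∃ f, Cor v f ∧ f ∈ I) → y' v = y v) → D y' = D y)
    {Θ : Net.Cfg (VB B) (FB B) (EB B) K → ℝ} (hΘ : ∀ x, 0 ≤ Θ x)
    (hΘF : ∀ x y, (boxN B).agOut (inB B F) x y → Θ x = Θ y) :
    ze c F (fun x => A (fun v => x (.inl v)) * D (fun v => x (.inl v))) ^ 4 *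
        (boxN B).J c⁻¹ Net.κ6 (Net.β6 c⁻¹) (fun x _ => Θ x) ^ 2
      ≤ ze c F (fun x => A (fun v => x (.inl v)) ^ 4) *
        ze c F (fun x => D (fun v => x (.inl v)) ^ 4) *
        (boxN B).J c⁻¹ Net.κ6 (Net.β6 c⁻¹)
          (fun x _ => Θ x * (boxN B).cnnI (inB B F) (inB B O) (inB B I) x) ^ 2 := by
  have hc0 : 0 < c := by linarith only [hc]
  have ht : 0 < c⁻¹ := inv_pos.mpr hc0
  have ht1 : c⁻¹ ≤ 1 := inv_le_one_of_one_le₀ hc
  set ex : (VB B → ℤ) → (ℤ × ℤ → ℤ) := fun y v => if h : v ∈ verts B then y ⟨v, h⟩ else 0 with hex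
  have hsg : ∀ (x : Net.Cfg (VB B) (FB B) (EB B) K) (s : VB B ⊕ FB B → Bool),
      (fun v => sgh (F : Set (ℤ × ℤ)) x s (.inl v)) = ex (Net.vht x s) := by
    intro x s
    funext v
    simp only [sgh, xt, Sum.elim_inl, hex, Net.pv, Net.vht]
  have hver : ∀ f ∈ B, ∀ v, Cor v f → v ∈ verts B := fun f hf v hv => mem_verts.mpr ⟨f, hf, hv⟩
  have key := (boxN B).J_low_cnn hN ht.le ht1 (K := K) Net.κ6_nonneg (Net.β6_nonneg ht.le ht1)
    (inB B F) (inB B O) (inB B I) (A := fun y => A (ex y)) (B := fun y => D (ex y))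
    (by
      intro y y' h
      refine hA _ _ fun v hv => ?_
      obtain ⟨f, hvf, hf⟩ := hv
      have hvB := hver f (hO f hf) v hvf
      simp only [hex, dif_pos hvB]
      exact h ⟨v, hvB⟩ ⟨⟨f, hO f hf⟩, hvf, hf⟩)
    (by
      intro y y' h
      refine hD _ _ fun v hv => ?_
      obtain ⟨f, hvf, hf⟩ := hv
      have hvB := hver f (hI f hf) v hvf
      simp only [hex, dif_pos hvB]
      exact h ⟨v, hvB⟩ ⟨⟨f, hI f hf⟩, hvf, hf⟩) hΘ hΘF
  have e1 := J_ze hBF hK ht ht1 (fun x => A (fun v => x (.inl v)) * D (fun v => x (.inl v)))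
  have e2 := J_ze hBF hK ht ht1 (fun x => A (fun v => x (.inl v)) ^ 4)
  have e3 := J_ze hBF hK ht ht1 (fun x => D (fun v => x (.inl v)) ^ 4)
  rw [inv_inv] at e1 e2 e3
  simp only [hsg] at e1 e2 e3
  rw [e1, e2, e3] at key
  have hz := (boxN B).J_zbi_pos (K := K) ht.le Net.κ6_nonneg (Net.β6_nonneg ht.le ht1)
    (fun i => Net.κ6_pos i 0) (fun e => Net.β6_pos ht e) (inB B (F : Set (ℤ × ℤ)))
  set z := (boxN B).J (K := K) c⁻¹ Net.κ6 (Net.β6 c⁻¹)
    (fun x _ => (boxN B).zbi (inB B (F : Set (ℤ × ℤ))) x)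
  refine le_of_mul_le_mul_left ?_ (pow_pos hz 4)
  calc _ = _ := ?_
    _ ≤ _ := key
    _ = _ := ?_
  · ring
  · ring

/-- The same with the probability of the connection under the zero boundary condition. -/
theorem ze_cnn {B F : Finset (ℤ × ℤ)} (hBF : Nb B F) (hN : (boxN B).Loc) {K : ℕ}
    (hK : KF F ≤ K) {c : ℝ} (hc : 1 ≤ c) {O I : Set (ℤ × ℤ)} (hO : ∀ f ∈ O, f ∈ B)
    (hI : ∀ f ∈ I, f ∈ B) {A D : (ℤ × ℤ → ℤ) → ℝ}
    (hA : ∀ y y' : ℤ × ℤ → ℤ, (∀ v, (∃ f, Cor v f ∧ f ∈ O) → y' v = -y v) → A y' = -A y)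
    (hD : ∀ y y' : ℤ × ℤ → ℤ, (∀ v, (∃ f, Cor v f ∧ f ∈ I) → y' v = y v) → D y' = D y) :
    ze c F (fun x => A (fun v => x (.inl v)) * D (fun v => x (.inl v))) ^ 4
      ≤ ze c F (fun x => A (fun v => x (.inl v)) ^ 4) *
        ze c F (fun x => D (fun v => x (.inl v)) ^ 4) *
        ((boxN B).J (K := K) c⁻¹ Net.κ6 (Net.β6 c⁻¹)
          (fun x _ => (boxN B).zbi (inB B F) x * (boxN B).cnnI (inB B F) (inB B O) (inB B I) x) /
          (boxN B).J (K := K) c⁻¹ Net.κ6 (Net.β6 c⁻¹)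
          (fun x _ => (boxN B).zbi (inB B F) x)) ^ 2 := by
  have hc0 : 0 < c := by linarith only [hc]
  have ht : 0 < c⁻¹ := inv_pos.mpr hc0
  have ht1 : c⁻¹ ≤ 1 := inv_le_one_of_one_le₀ hc
  have h := ze_low_cnn hBF hN hK hc hO hI hA hD (Θ := fun x => (boxN B).zbi (inB B F) x)
    (fun x => (boxN B).zbi_nonneg _ x) (fun x y hxy => by
      unfold Net.zbi
      simp only [Net.zb_congr hxy])
  have hz := (boxN B).J_zbi_pos (K := K) ht.le Net.κ6_nonneg (Net.β6_nonneg ht.le ht1)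
    (fun i => Net.κ6_pos i 0) (fun e => Net.β6_pos ht e) (inB B (F : Set (ℤ × ℤ)))
  rw [div_pow, ← mul_div_assoc, le_div_iff₀ (pow_pos hz 2)]
  exact h

end Vale.Agent.P145.FK
end

section

/-!
P145, decay at the boundary: the expectation of the product of two functionals of the heights is
bounded by the probability that their supports are connected.
-/

namespace Vale.Agent.P145.X

open Filter Topology Set MeasureTheory
open Vale.Agent.P152 (Ori)
open Vale.Agent.P145.FA (Hgt)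
open Vale.Agent.P145.FB (Pt Mk e1 e2 o1 o2 Ann MU bl fine mkm om)
open Vale.Agent.P145.Top (Om Cone vh EE hv hvl)
open Vale.Agent.P145.Dom (ze)
open Vale.Agent.P145.PT (TestOn)
open Vale.Agent.P145.FK (Nb boxN VB FB EB inB KF Cor)

/-- Probability, with zero boundary condition on the complement of `F`, that `O` and `I` are
connected by edges which are not blocked (computed in the box `B` with cutoff `K`). -/
noncomputable def pcn (c : ℝ) (B F : Finset (ℤ × ℤ)) (K : ℕ) (O I : Set (ℤ × ℤ)) : ℝ :=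
  (boxN B).J (K := K) c⁻¹ FK.Net.κ6 (FK.Net.β6 c⁻¹)
      (fun x _ => (boxN B).zbi (inB B F) x * (boxN B).cnnI (inB B F) (inB B O) (inB B I) x) /
    (boxN B).J (K := K) c⁻¹ FK.Net.κ6 (FK.Net.β6 c⁻¹) (fun x _ => (boxN B).zbi (inB B F) x)

theorem pcn_nonneg {c : ℝ} (hc : 1 ≤ c) (B F : Finset (ℤ × ℤ)) (K : ℕ) (O I : Set (ℤ × ℤ)) :
    0 ≤ pcn c B F K O I := by
  have hc0 : 0 < c := by linarith
  have ht : 0 < c⁻¹ := inv_pos.mpr hc0
  have ht1 : c⁻¹ ≤ 1 := inv_le_one_of_one_le₀ hc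
  refine div_nonneg ?_ ?_
  · exact (boxN B).J_nonneg ht.le FK.Net.κ6_nonneg (FK.Net.β6_nonneg ht.le ht1) fun x _ =>
      mul_nonneg ((boxN B).zbi_nonneg _ x) ((boxN B).cnnI_nonneg _ _ _ x)
  · exact (boxN B).J_nonneg ht.le FK.Net.κ6_nonneg (FK.Net.β6_nonneg ht.le ht1) fun x _ =>
      (boxN B).zbi_nonneg _ x

/-- The box `B` and the cutoff `K` are admissible for `F`, `O`, `I`. -/
structure BoxOK (B F : Finset (ℤ × ℤ)) (K : ℕ) (O I : Set (ℤ × ℤ)) : Prop where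
  nb : Nb B (F : Set (ℤ × ℤ))
  loc : (boxN B).Loc
  cut : KF F ≤ K
  o : ∀ f ∈ O, f ∈ B
  i : ∀ f ∈ I, f ∈ B

theorem cor_selfD (v : ℤ × ℤ) : Cor v v := FK.cor00 v

/-- The functional `hv` of the heights. -/
theorem hv_neg {δ : ℝ} {b : ℝ × ℝ → ℝ} {ω ω' : Om}
    (h : ∀ v : ℤ × ℤ, b (δ * v.1, δ * v.2) ≠ 0 → ω' v = -ω v) : hv δ b ω' = -hv δ b ω := by
  unfold hv
  rw [← mul_neg, ← finsum_neg_distrib]
  congr 1
  refine finsum_congr fun v => ?_
  by_cases hv : b (δ * v.1, δ * v.2) = 0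
  · rw [hv]; ring
  · rw [h v hv]; ring

theorem hv_congr {δ : ℝ} {b : ℝ × ℝ → ℝ} {ω ω' : Om}
    (h : ∀ v : ℤ × ℤ, b (δ * v.1, δ * v.2) ≠ 0 → ω' v = ω v) : hv δ b ω' = hv δ b ω := by
  unfold hv
  congr 1
  refine finsum_congr fun v => ?_
  by_cases hv : b (δ * v.1, δ * v.2) = 0
  · rw [hv]; ring
  · rw [h v hv]

/-- The mixed moment is bounded by the probability of a connection. -/
theorem ze_mixed {c : ℝ} (hc : 1 ≤ c) {δ : ℝ} {F : Finset (ℤ × ℤ)} {b f : ℝ × ℝ → ℝ} (k : ℕ)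
    {O I : Set (ℤ × ℤ)} (hO : ∀ v : ℤ × ℤ, b (δ * v.1, δ * v.2) ≠ 0 → v ∈ O)
    (hI : ∀ v : ℤ × ℤ, f (δ * v.1, δ * v.2) ≠ 0 → v ∈ I) {B : Finset (ℤ × ℤ)} {K : ℕ}
    (hB : BoxOK B F K O I) :
    ze c F (fun x => hv δ b (vh x) * hv δ f (vh x) ^ k) ^ 4 ≤
      ze c F (fun x => hv δ b (vh x) ^ 4) * ze c F (fun x => hv δ f (vh x) ^ (4 * k)) *
        pcn c B F K O I ^ 2 := by
  have h := FK.ze_cnn hB.nb hB.loc hB.cut hc hB.o hB.i
    (A := fun y => hv δ b (fun v => (y v : ℝ) / 2)) (D := fun y => hv δ f (fun v => (y v : ℝ) / 2) ^ k)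
    (by
      intro y y' hy
      refine hv_neg fun v hv => ?_
      rw [hy v ⟨v, cor_selfD v, hO v hv⟩]
      push_cast
      ring)
    (by
      intro y y' hy
      have : hv δ f (fun v => (y' v : ℝ) / 2) = hv δ f (fun v => (y v : ℝ) / 2) := by
        refine hv_congr fun v hv => ?_
        rw [hy v ⟨v, cor_selfD v, hI v hv⟩]
      simp only [this])
  have e : ∀ x : FP.Site → ℤ, (hv δ f (fun v => (x (Sum.inl v) : ℝ) / 2) ^ k) ^ 4 =
      hv δ f (vh x) ^ (4 * k) := by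
    intro x
    rw [← pow_mul, mul_comm k 4]
    rfl
  simp only [e] at h
  exact h

end Vale.Agent.P145.X
end

section

/-!
P145, decay at the boundary.
-/

namespace Vale.Agent.P145.X

open Filter Topology Set MeasureTheory
open Vale.Agent.P152 (Ori)
open Vale.Agent.P145.FA (Hgt)
open Vale.Agent.P145.FB (Pt Mk e1 e2 o1 o2 Ann MU bl fine mkm om)
open Vale.Agent.P145.Top (Om Cone vh EE hv hvl S_mb S_dec Fs sq ThickC)
open Vale.Agent.P145.Dom (ze zs zw)
open Vale.Agent.P145.PT (TestOn dd bump)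

/-- Indicator of the event that `O` and `I` are connected inside `F` by edges not in `B`. -/
noncomputable def cn (F O I : Set (ℤ × ℤ)) : Set Pt → ℝ :=
  ind fun B => ∃ f ∈ O, ∃ g ∈ I, Relation.ReflTransGen (fun a b => a ∈ F ∧ b ∈ F ∧ stp B a b) f g

/-- Comparison of the probability of a connection under the zero boundary condition with the one
in the plane. -/
def S_lowc (c t : ℝ) (P : Measure (Ori (ℤ × ℤ))) : Prop :=
  ∀ (F : Finset (ℤ × ℤ)) (O I : Set (ℤ × ℤ)) (Θ : Set Pt → ℝ), Fn (iE F)ᶜ Θ → O.Finite →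
    I.Finite → ∃ (B : Finset (ℤ × ℤ)) (K : ℕ), BoxOK B F K O I ∧
      pcn c B F K O I * II t P Θ (fun _ => 1) ≤
        II t P (fun E => Θ E * cn (F : Set (ℤ × ℤ)) O I E) (fun _ => 1)

theorem ind_casesD (Q : Set Pt → Prop) (B : Set Pt) : ind Q B = 0 ∨ ind Q B = 1 := by
  unfold ind; split_ifs <;> simp

theorem ind_nonnegD (Q : Set Pt → Prop) (B : Set Pt) : 0 ≤ ind Q B := by
  rcases ind_casesD Q B with h | h <;> simp [h]

theorem ind_leD {Q Q' : Set Pt → Prop} {B : Set Pt} (h : Q B → Q' B) : ind Q B ≤ ind Q' B := by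
  unfold ind
  by_cases h1 : Q B
  · rw [if_pos h1, if_pos (h h1)]
  · rw [if_neg h1]; split_ifs <;> norm_num

theorem ind_neD {Q : Set Pt → Prop} {B : Set Pt} (h : ind Q B ≠ 0) : Q B := by
  by_contra h1
  exact h (if_neg h1)

theorem locS_iff {A : Set Pt} {Q : Set Pt → Prop} : LocS A (ind Q) ↔
    ∃ Λ : Finset Pt, (∀ w ∈ Λ, w ∈ A) ∧ ∀ B B' : Set Pt, (∀ w ∈ Λ, w ∈ B ↔ w ∈ B') →
      (Q B ↔ Q B') := by
  constructor
  · rintro ⟨Λ, h1, h2⟩
    refine ⟨Λ, h1, fun B B' hB => ?_⟩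
    have h3 := h2 B B' hB
    unfold ind at h3
    by_cases a : Q B <;> by_cases b : Q B' <;> simp_all
  · rintro ⟨Λ, h1, h2⟩
    refine ⟨Λ, h1, fun B B' hB => ?_⟩
    have h3 := h2 B B' hB
    unfold ind
    by_cases a : Q B
    · rw [if_pos a, if_pos (h3.1 a)]
    · rw [if_neg a, if_neg fun h => a (h3.2 h)]

theorem locS_all {A : Set Pt} {S : Finset ℕ} {Q : ℕ → Set Pt → Prop}
    (h : ∀ i ∈ S, LocS A (ind (Q i))) : LocS A (ind fun B => ∀ i ∈ S, ¬ Q i B) := by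
  classical
  rw [locS_iff]
  choose! Λ h1 h2 using fun i (hi : i ∈ S) => locS_iff.1 (h i hi)
  refine ⟨S.biUnion Λ, fun w hw => ?_, fun B B' hB => ?_⟩
  · obtain ⟨i, hi, hw⟩ := Finset.mem_biUnion.1 hw
    exact h1 i hi w hw
  · refine forall_congr' fun i => forall_congr' fun hi => not_congr ?_
    exact h2 i hi B B' fun w hw => hB w (Finset.mem_biUnion.2 ⟨i, hi, hw⟩)

theorem II_monoD {t : ℝ} {P : Measure (Ori (ℤ × ℤ))} (hint : S_int t P) {g g' : Set Pt → ℝ}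
    (h0 : ∀ B, 0 ≤ g B) (hle : ∀ B, g B ≤ g' B) (hl : LocS univ g') (he : g' ∅ = 0) :
    II t P g (fun _ => 1) ≤ II t P g' (fun _ => 1) := by
  unfold II
  refine integral_mono_of_nonneg (Eventually.of_forall fun x => ?_)
    (hint g' (fun _ => 1) hl he Top.Pol.one) (Eventually.of_forall fun x => ?_)
  · simp only [mul_one]
    exact h0 _
  · simp only [mul_one]
    exact hle _

theorem fin_pts {δ : ℝ} (hδ : 0 < δ) {S : Set (ℝ × ℝ)} (hS : Bornology.IsBounded S) :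
    {v : ℤ × ℤ | (δ * (v.1 : ℝ), δ * (v.2 : ℝ)) ∈ S}.Finite := by
  obtain ⟨R, hR⟩ := hS.subset_closedBall 0
  set M : ℤ := ⌈R / δ⌉ with hM
  refine (Set.finite_Icc ((-M, -M) : ℤ × ℤ) (M, M)).subset fun v hv => ?_
  have h1 := hR hv
  rw [Metric.mem_closedBall, Prod.dist_eq, max_le_iff, Real.dist_eq, Real.dist_eq] at h1
  simp only [Prod.fst_zero, Prod.snd_zero, sub_zero] at h1
  have key : ∀ a : ℤ, |δ * (a : ℝ)| ≤ R → -M ≤ a ∧ a ≤ M := by
    intro a ha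
    rw [abs_mul, abs_of_pos hδ] at ha
    have h2 : |(a : ℝ)| ≤ R / δ := by rw [le_div_iff₀ hδ]; linarith only [ha]
    have h3 : |(a : ℝ)| ≤ M := h2.trans (Int.le_ceil _)
    rw [abs_le] at h3
    constructor
    · have : (-(M : ℝ)) ≤ a := h3.1
      exact_mod_cast this
    · exact_mod_cast h3.2
  obtain ⟨a1, a2⟩ := key v.1 h1.1
  obtain ⟨b1, b2⟩ := key v.2 h1.2
  exact ⟨⟨a1, b1⟩, ⟨a2, b2⟩⟩

theorem zw_nonneg {c : ℝ} (hc : 0 ≤ c) (F : Finset (ℤ × ℤ)) (x : FP.Site → ℤ) : 0 ≤ zw c F x := by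
  unfold zw
  refine mul_nonneg (Finset.prod_nonneg fun e _ => ?_) (Finset.prod_nonneg fun e _ => ?_)
  · split_ifs <;> linarith
  · split_ifs <;> linarith only [hc]

theorem zs_nonneg {c : ℝ} (hc : 0 ≤ c) (F : Finset (ℤ × ℤ)) {Φ : (FP.Site → ℤ) → ℝ}
    (h : ∀ x, 0 ≤ Φ x) : 0 ≤ zs c F Φ :=
  finsum_nonneg fun x => finsum_nonneg fun _ => mul_nonneg (zw_nonneg hc F x) (h x)

theorem ze_nonneg' {c : ℝ} (hc : 0 ≤ c) (F : Finset (ℤ × ℤ)) {Φ : (FP.Site → ℤ) → ℝ}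
    (h : ∀ x, 0 ≤ Φ x) : 0 ≤ ze c F Φ :=
  div_nonneg (zs_nonneg hc F h) (zs_nonneg hc F fun _ => zero_le_one)

end Vale.Agent.P145.X
end

section

/-!
P145, decay at the boundary: the probability of a connection between a small neighbourhood of a
point near the boundary and a compact subset of the domain.
-/

namespace Vale.Agent.P145.X

open Filter Topology Set MeasureTheory
open Vale.Agent.P152 (Ori)
open Vale.Agent.P145.FB (Pt)
open Vale.Agent.P145.Top (Fs sq ThickC)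
open Vale.Agent.P145.PT (dd)

/-- The event of a connection excludes the circuits in between. -/
theorem cn_excl (hconf : S_conf) {F O I : Set (ℤ × ℤ)} {p : ℤ × ℤ} {r : ℤ} (hr : 1 ≤ r)
    (hO : ∀ v ∈ O, v ∈ bx p r) (hI : ∀ v ∈ I, v ∉ bx p (2 * r)) {B : Set Pt}
    (h : ∃ f ∈ O, ∃ g ∈ I, Relation.ReflTransGen (fun a b => a ∈ F ∧ b ∈ F ∧ stp B a b) f g) :
    ¬ Zr p r B := by
  intro hZ
  obtain ⟨f, hf, g, hg, hfg⟩ := h
  have h1 : Relation.ReflTransGen (stp B) f g :=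
    Relation.ReflTransGen.mono (fun _ _ h => h.2.2) _ _ hfg
  exact hI g hg (hconf p r B hr hZ f (hO f hf) g h1)

/-- One coordinate: points near `x`. -/
theorem one_O {e d s W a b c q : ℝ} (he : 0 < e) (hes : d ≤ e * s) (hsW : 4 * s ≤ W) (hW : 1 ≤ W)
    (h1 : |e * a - b| ≤ d / 2) (h2 : |b - c| ≤ d) (h3 : |e * q - c| ≤ 2 * (e * W) + 4 * e) :
    |a - q| ≤ 7 * W := by
  have h0 : 4 * (e * s) ≤ e * W := by
    have := mul_le_mul_of_nonneg_left hsW he.le
    linarith only [this]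
  have h0' : e ≤ e * W := by
    have := mul_le_mul_of_nonneg_left hW he.le
    linarith only [this]
  have h4 : |e * (a - q)| ≤ e * (7 * W) := by
    have : e * (a - q) = (e * a - b) + (b - c) - (e * q - c) := by ring
    rw [this]
    have i1 := abs_sub ((e * a - b) + (b - c)) (e * q - c)
    have i2 := abs_add_le (e * a - b) (b - c)
    linarith only [he, hes, h1, h2, h3, h0, h0', i1, i2]
  rw [abs_mul, abs_of_pos he] at h4
  exact le_of_mul_le_mul_left h4 he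

/-- One coordinate: points near the centre. -/
theorem one_I {e r W R a c q : ℝ} (he : 0 < e) (h1 : |a - q| ≤ r)
    (h2 : |e * q - c| ≤ 2 * (e * W) + 4 * e) (h : e * r + (2 * (e * W) + 4 * e) < R) :
    |c - e * a| < R := by
  have h3 : |e * (a - q)| ≤ e * r := by
    rw [abs_mul, abs_of_pos he]
    exact mul_le_mul_of_nonneg_left h1 he.le
  have h4 : c - e * a = -(e * (a - q)) - (e * q - c) := by ring
  rw [h4]
  have h5 := abs_sub (-(e * (a - q))) (e * q - c)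
  rw [abs_neg] at h5
  linarith only [h2, h, h3, h5]

theorem pos_O {e d : ℝ} (he : 0 < e) {s W r : ℤ} (hes : d ≤ e * s) (hsW : 4 * s ≤ W) (hW : 1 ≤ W)
    (hr : 64 * W ≤ r) {x z : ℝ × ℝ} (hxz : dist x z ≤ d) {p v : ℤ × ℤ}
    (hp1 : |e * p.1 - z.1| ≤ 2 * (e * W) + 4 * e) (hp2 : |e * p.2 - z.2| ≤ 2 * (e * W) + 4 * e)
    (hv : (e * (v.1 : ℝ), e * (v.2 : ℝ)) ∈ Metric.closedBall x (d / 2)) : v ∈ bx p r := by
  rw [Metric.mem_closedBall, Prod.dist_eq, Real.dist_eq, Real.dist_eq, max_le_iff] at hv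
  rw [Prod.dist_eq, Real.dist_eq, Real.dist_eq, max_le_iff] at hxz
  have hsW' : (4 : ℝ) * s ≤ W := by exact_mod_cast hsW
  have hW' : (1 : ℝ) ≤ W := by exact_mod_cast hW
  have a1 := one_O he hes hsW' hW' hv.1 hxz.1 hp1
  have a2 := one_O he hes hsW' hW' hv.2 hxz.2 hp2
  have b1 : |v.1 - p.1| ≤ 7 * W := by exact_mod_cast a1
  have b2 : |v.2 - p.2| ≤ 7 * W := by exact_mod_cast a2
  rw [abs_le] at b1 b2
  refine ⟨?_, ?_, ?_, ?_⟩ <;> omega

theorem pos_I {e R : ℝ} (he : 0 < e) {W r : ℤ} {z : ℝ × ℝ} {p v : ℤ × ℤ}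
    (hp1 : |e * p.1 - z.1| ≤ 2 * (e * W) + 4 * e) (hp2 : |e * p.2 - z.2| ≤ 2 * (e * W) + 4 * e)
    (h : e * r + (2 * (e * W) + 4 * e) < R) (hv : v ∈ bx p r) :
    dist z (e * (v.1 : ℝ), e * (v.2 : ℝ)) < R := by
  obtain ⟨k1, k2, k3, k4⟩ := hv
  have l1 : |(v.1 : ℝ) - p.1| ≤ r := by
    have : |v.1 - p.1| ≤ r := by rw [abs_le]; omega
    exact_mod_cast this
  have l2 : |(v.2 : ℝ) - p.2| ≤ r := by
    have : |v.2 - p.2| ≤ r := by rw [abs_le]; omega
    exact_mod_cast this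
  rw [Prod.dist_eq, Real.dist_eq, Real.dist_eq, max_lt_iff]
  exact ⟨one_I he l1 hp1 h, one_I he l2 hp2 h⟩

/-- The scale of the distance to the boundary. -/
theorem scale {d e N₀ : ℝ} (he : 0 < e) (hN : 1 ≤ N₀) (he1 : e < d / 100) (he2 : e < d / N₀) :
    d ≤ e * (⌈d / e⌉ : ℤ) ∧ e * (⌈d / e⌉ : ℤ) ≤ 101 / 100 * d ∧ N₀ ≤ (⌈d / e⌉ : ℤ) := by
  have hs1 : d / e ≤ (⌈d / e⌉ : ℤ) := Int.le_ceil _
  have hs2 : ((⌈d / e⌉ : ℤ) : ℝ) < d / e + 1 := Int.ceil_lt_add_one _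
  refine ⟨?_, ?_, ?_⟩
  · rw [div_le_iff₀ he] at hs1
    linarith only [hs1]
  · have h1 := mul_le_mul_of_nonneg_left hs2.le he.le
    rw [mul_add, mul_div_cancel₀ _ he.ne', mul_one] at h1
    (clear * - he1 h1; linarith)
  · refine le_trans ?_ hs1
    rw [le_div_iff₀ he]
    rw [lt_div_iff₀ (by linarith only [hN])] at he2
    linarith only [he2]

/-- The event that there is no circuit at the larger scales is local. -/
theorem locS_no (hloc : S_loc) (p : ℤ × ℤ) {s : ℤ} (hs : 1 ≤ s) (j m : ℕ) :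
    LocS univ (ind fun B => ∀ i, j + 4 ≤ i → i ≤ 2 * m → ¬ Zr p (4 ^ i * s) B) := by
  have h3 := locS_all (A := univ) (S := (Finset.range (2 * m + 1)).filter fun i => j + 4 ≤ i)
    (Q := fun i => Zr p (4 ^ i * s)) (fun i _ => by
      have h41 : (1 : ℤ) ≤ 4 ^ i := one_le_pow₀ (by norm_num)
      exact (hloc p (4 ^ i * s) (one_le_mul_of_one_le_of_one_le h41 hs)).2.loc.monoD
        (Set.subset_univ _))
  have h4 : (fun B => ∀ i ∈ (Finset.range (2 * m + 1)).filter fun i => j + 4 ≤ i,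
      ¬ Zr p (4 ^ i * s) B) = fun B => ∀ i, j + 4 ≤ i → i ≤ 2 * m → ¬ Zr p (4 ^ i * s) B := by
    funext B
    refine propext ⟨fun h i h1 h2 => h i ?_, fun h i hi => ?_⟩
    · rw [Finset.mem_filter, Finset.mem_range]
      exact ⟨by omega, h1⟩
    · rw [Finset.mem_filter, Finset.mem_range] at hi
      exact h i hi.2 (by omega)
  rw [h4] at h3
  exact h3

/-- The probabilistic step. -/
theorem pcn_le {c t : ℝ} {P : Measure (Ori (ℤ × ℤ))} (hint : S_int t P)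
    (hlowc : S_lowc c t P) (hloc : S_loc) (hconf : S_conf) {F : Finset (ℤ × ℤ)}
    {O I : Set (ℤ × ℤ)} (hOf : O.Finite) (hIf : I.Finite) {p : ℤ × ℤ} {s W : ℤ} {j m : ℕ}
    (hs : 1 ≤ s) (hW : 1 ≤ W) (hF : tE (bx p (2 * W)) ⊆ (iE (F : Set (ℤ × ℤ)))ᶜ)
    (hO : ∀ i, j + 4 ≤ i → ∀ v ∈ O, v ∈ bx p (4 ^ i * s))
    (hI : ∀ i, i ≤ 2 * m → ∀ v ∈ I, v ∉ bx p (2 * (4 ^ i * s))) {η c₁ : ℝ} (hc₁ : 0 < c₁)
    (hgap : II t P (fun B => ind (Zr p W) B *
        ind (fun B => ∀ i, j + 4 ≤ i → i ≤ 2 * m → ¬ Zr p (4 ^ i * s) B) B) (fun _ => 1) ≤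
      η * II t P (ind (Zr p W)) (fun _ => 1))
    (hrsw : c₁ ≤ II t P (ind (Zr p W)) (fun _ => 1)) :
    ∃ (B : Finset (ℤ × ℤ)) (K : ℕ), BoxOK B F K O I ∧ pcn c B F K O I ≤ η := by
  obtain ⟨hm1, hf1⟩ := hloc p W hW
  have hΘ : Fn (iE (F : Set (ℤ × ℤ)))ᶜ (ind (Zr p W)) := hf1.monoD fun w hw => hF hw.1
  obtain ⟨B, K, hBK, hlow⟩ := hlowc F O I _ hΘ hOf hIf
  refine ⟨B, K, hBK, ?_⟩
  have hle : II t P (fun E => ind (Zr p W) E * cn (F : Set (ℤ × ℤ)) O I E) (fun _ => 1) ≤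
      II t P (fun B => ind (Zr p W) B *
        ind (fun B => ∀ i, j + 4 ≤ i → i ≤ 2 * m → ¬ Zr p (4 ^ i * s) B) B) (fun _ => 1) := by
    refine II_monoD hint (fun B => mul_nonneg (ind_nonnegD _ _) (ind_nonnegD _ _)) (fun B => ?_) ?_ ?_
    · refine mul_le_mul_of_nonneg_left (ind_leD fun h => ?_) (ind_nonnegD _ _)
      intro i hi1 hi2
      have h41 : (1 : ℤ) ≤ 4 ^ i := one_le_pow₀ (by norm_num)
      exact cn_excl hconf (one_le_mul_of_one_le_of_one_le h41 hs) (hO i hi1) (hI i hi2) h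
    · exact LocS.mulD (hf1.loc.monoD (Set.subset_univ _)) (locS_no hloc p hs j m)
    · show ind (Zr p W) ∅ * _ = 0
      rw [hf1.pin, zero_mul]
  exact le_of_mul_le_mul_right (hlow.trans (hle.trans hgap)) (hc₁.trans_le hrsw)

theorem dec_prob {c t : ℝ} {P : Measure (Ori (ℤ × ℤ))} (hint : S_int t P)
    (hlowc : S_lowc c t P) (hgap : S_gap t P) (hrsw : S_rsw t P) (hloc : S_loc) (hconf : S_conf)
    {δ : ℕ → ℝ} (hδ : ∀ n, 0 < δ n) (hlim : Tendsto δ atTop (𝓝 0)) {D : Set (ℝ × ℝ)}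
    (hD : IsOpen D) (hb : Bornology.IsBounded D) (hT : ThickC D) {S : Set (ℝ × ℝ)}
    (hS : IsCompact S) (hSD : S ⊆ D) {η : ℝ} (hη : 0 < η) :
    ∃ r : ℝ, 0 < r ∧ ∀ x ∈ D, dd D x < r → ∀ᶠ n in atTop, ∃ (B : Finset (ℤ × ℤ)) (K : ℕ),
      BoxOK B (Fs (δ n) D) K
        {v | (δ n * (v.1 : ℝ), δ n * (v.2 : ℝ)) ∈ Metric.closedBall x (dd D x / 2)}
        {v | (δ n * (v.1 : ℝ), δ n * (v.2 : ℝ)) ∈ S} ∧
      pcn c B (Fs (δ n) D) K
        {v | (δ n * (v.1 : ℝ), δ n * (v.2 : ℝ)) ∈ Metric.closedBall x (dd D x / 2)}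
        {v | (δ n * (v.1 : ℝ), δ n * (v.2 : ℝ)) ∈ S} ≤ η := by
  obtain ⟨g, hg, hT⟩ := hT
  obtain ⟨R, hR, hRS⟩ := hS.exists_thickening_subset_open hD hSD
  have hRS' : ∀ z ∈ S, ∀ y ∉ D, ¬ dist y z < R := by
    intro z hz y hy hc
    exact hy (hRS (Metric.mem_thickening_iff.2 ⟨z, hz, hc⟩))
  obtain ⟨m, -, s₁, hs₁, hgap⟩ := hgap η hη 0
  obtain ⟨c₁, hc₁, r₀, hr₀, hrsw⟩ := hrsw
  have hM0 : (0 : ℝ) < 16 * 4 ^ (2 * m) := by positivity
  refine ⟨min g R / (16 * 4 ^ (2 * m)), div_pos (lt_min hg hR) hM0, fun x hx hxr => ?_⟩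
  have hd0 : 0 < dd D x := (PT.dd_pos hD hb).2 hx
  obtain ⟨z₀, hz₀, hdz⟩ := hD.isClosed_compl.exists_infDist_eq_dist (PT.compl_ne hb) x
  have hdz' : dist x z₀ = dd D x := hdz.symm
  generalize dd D x = d at hxr hd0 hdz' ⊢
  rw [lt_div_iff₀ hM0] at hxr
  have hdg : 16 * (4 ^ (2 * m) * d) < g := by linarith only [hxr, min_le_left g R]
  have hdR : 16 * (4 ^ (2 * m) * d) < R := by linarith only [hxr, min_le_right g R]
  -- small mesh
  have hN₀1 : (1 : ℝ) ≤ max (s₁ : ℝ) r₀ := le_max_of_le_left (by exact_mod_cast hs₁)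
  have hev : ∀ᶠ n in atTop, δ n < min (d / 100) (d / max (s₁ : ℝ) r₀) :=
    (tendsto_order.1 hlim).2 _ (lt_min (by positivity) (by positivity))
  filter_upwards [hev] with n hn
  have hδn := hδ n
  generalize δ n = e at hn hδn ⊢
  have he1 : e < d / 100 := hn.trans_le (min_le_left _ _)
  obtain ⟨hes1, hes3, hsN⟩ := scale hδn hN₀1 he1 (hn.trans_le (min_le_right _ _))
  generalize ⌈d / e⌉ = s at hes1 hes3 hsN
  have hss : s₁ ≤ s := by exact_mod_cast (le_max_left (s₁ : ℝ) r₀).trans hsN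
  have hsr : r₀ ≤ s := by exact_mod_cast (le_max_right (s₁ : ℝ) r₀).trans hsN
  have hs0 : 1 ≤ s := hs₁.trans hss
  obtain ⟨j, hj, hgap⟩ := hgap s hss
  have h41 : (1 : ℤ) ≤ 4 ^ j := one_le_pow₀ (by norm_num)
  have hW4 : 4 * s ≤ 4 ^ (j + 1) * s := by
    have : 1 * s ≤ 4 ^ j * s := mul_le_mul_of_nonneg_right h41 (by omega)
    rw [pow_succ]
    linarith only [this]
  have heW : e * ((4 ^ (j + 1) * s : ℤ) : ℝ) ≤ 101 / 100 * (4 ^ (2 * m) * d) := by
    have hp1 : (4 : ℝ) ^ (j + 1) ≤ 4 ^ (2 * m) := pow_le_pow_right₀ (by norm_num) (by omega)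
    have h0 : 0 ≤ e * s := hd0.le.trans hes1
    push_cast
    calc e * (4 ^ (j + 1) * (s : ℝ)) = 4 ^ (j + 1) * (e * s) := by ring
      _ ≤ 4 ^ (2 * m) * (e * s) := mul_le_mul_of_nonneg_right hp1 h0
      _ ≤ 4 ^ (2 * m) * (101 / 100 * d) := mul_le_mul_of_nonneg_left hes3 (by positivity)
      _ = _ := by ring
  have hmd : d ≤ 4 ^ (2 * m) * d := by
    have : (1 : ℝ) * d ≤ 4 ^ (2 * m) * d :=
      mul_le_mul_of_nonneg_right (one_le_pow₀ (by norm_num)) hd0.le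
    linarith only [this]
  have hr64 : ∀ i, j + 4 ≤ i → 64 * (4 ^ (j + 1) * s) ≤ 4 ^ i * s := by
    intro i hi
    have h1 : (4 : ℤ) ^ (j + 4) ≤ 4 ^ i := pow_le_pow_right₀ (by norm_num) hi
    have h2 : (4 : ℤ) ^ (j + 4) = 64 * 4 ^ (j + 1) := by rw [pow_add, pow_add]; ring
    rw [h2] at h1
    have h3 := mul_le_mul_of_nonneg_right h1 (by omega : (0 : ℤ) ≤ s)
    linarith only [h3]
  have hri : ∀ i, i ≤ 2 * m →
      e * ((2 * (4 ^ i * s) : ℤ) : ℝ) ≤ 2 * (101 / 100 * (4 ^ (2 * m) * d)) := by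
    intro i hi
    have hq : (4 : ℝ) ^ i ≤ 4 ^ (2 * m) := pow_le_pow_right₀ (by norm_num) hi
    have h0 : 0 ≤ e * s := hd0.le.trans hes1
    push_cast
    calc e * (2 * (4 ^ i * (s : ℝ))) = 2 * (4 ^ i * (e * s)) := by ring
      _ ≤ 2 * (4 ^ (2 * m) * (e * s)) := by
          have := mul_le_mul_of_nonneg_right hq h0
          linarith only [this]
      _ ≤ 2 * (4 ^ (2 * m) * (101 / 100 * d)) := by
          have := mul_le_mul_of_nonneg_left hes3 (by positivity : (0 : ℝ) ≤ 4 ^ (2 * m))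
          linarith only [this]
      _ = _ := by ring
  have hrW : r₀ ≤ 4 ^ (j + 1) * s := by omega
  have hgap' := fun p => hgap p (ind (Zr p (4 ^ (j + 1) * s)))
    ((hloc p (4 ^ (j + 1) * s) (by omega)).2.monoD (Set.subset_univ _))
    (hloc p (4 ^ (j + 1) * s) (by omega)).1 fun B hB => ind_neD hB
  generalize (4 ^ (j + 1) * s : ℤ) = W at hW4 heW hr64 hrW hgap'
  have hW0 : 0 < W := by omega
  obtain ⟨p, hp, hpz1, hpz2⟩ := exists_box hg hT hz₀ hδn hW0 (by linarith only [hdg, hδn, he1, hmd, heW])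
  exact pcn_le hint hlowc hloc hconf (fin_pts hδn Metric.isBounded_closedBall)
    (fin_pts hδn hS.isBounded) hs0 hW0 (tE_compl hδn hp)
    (fun i hi v hv => pos_O hδn hes1 hW4 hW0 (hr64 i hi) hdz'.le hpz1 hpz2 hv)
    (fun i hi v hv hvb => hRS' _ hv z₀ hz₀
      (pos_I hδn hpz1 hpz2 (by have := hri i hi; linarith only [hdR, hδn, he1, hmd, heW, this]) hvb))
    hc₁ (hgap' p) (hrsw W hrW p).1

end Vale.Agent.P145.X
end

section

/-!
P145: decay at the boundary, `S_dec`.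
-/

namespace Vale.Agent.P145.X

open Filter Topology Set MeasureTheory
open Vale.Agent.P152 (Ori)
open Vale.Agent.P145.FB (Pt)
open Vale.Agent.P145.Top (Fs sq ThickC Om EE hv vh S_mb S_dec)
open Vale.Agent.P145.PT (dd TestOn bump)

/-- Fourth moments of the bump near the boundary. -/
def S_bump (c : ℝ) (δ : ℕ → ℝ) : Prop :=
  ∀ D : Set (ℝ × ℝ), IsOpen D → Bornology.IsBounded D → ThickC D → ∃ C r : ℝ, 0 < C ∧ 0 < r ∧
    ∀ x ∈ D, dd D x < r → ∀ᶠ n in atTop,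
      EE c (δ n) D (fun ω => hv (δ n) (bump (dd D x / 2) x) ω ^ 4) ≤ C

theorem s_dec_of {c t : ℝ} (hc : 1 ≤ c) {P : Measure (Ori (ℤ × ℤ))} (hint : S_int t P)
    (hlowc : S_lowc c t P) (hgap : S_gap t P) (hrsw : S_rsw t P) (hloc : S_loc) (hconf : S_conf)
    {δ : ℕ → ℝ} (hδ : ∀ n, 0 < δ n) (hlim : Tendsto δ atTop (𝓝 0)) (hmb : S_mb c δ)
    (hbump : S_bump c δ) : S_dec c δ := by
  intro D hD hb hT f hf hf0 k ε hε
  obtain ⟨C, r₁, hC, hr₁, hbump⟩ := hbump D hD hb hT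
  obtain ⟨C', hmb⟩ := hmb D hD hb f ⟨hf.1, hf.2.1, Set.subset_univ _⟩ hf0 (4 * k)
  set C'' : ℝ := max C' 1 with hC''
  have hC0 : 0 < C'' := lt_of_lt_of_le one_pos (le_max_right _ _)
  -- the size of the probability
  set η : ℝ := ε ^ 2 / √(C * C'') with hη
  have hCC : 0 < C * C'' := mul_pos hC hC0
  have hη0 : 0 < η := div_pos (pow_pos hε 2) (Real.sqrt_pos.2 hCC)
  have hη2 : C * C'' * η ^ 2 = ε ^ 4 := by
    rw [hη, div_pow, Real.sq_sqrt hCC.le]
    (clear * - hC hC0 hε; field_simp)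
  obtain ⟨r₂, hr₂, hprob⟩ := dec_prob (c := c) hint hlowc hgap hrsw hloc hconf hδ hlim hD hb hT
    hf.2.1 hf.2.2 hη0
  refine ⟨min r₁ r₂, lt_min hr₁ hr₂, fun x hx hxr => ?_⟩
  have hd0 : 0 < dd D x := (PT.dd_pos hD hb).2 hx
  filter_upwards [hbump x hx (hxr.trans_le (min_le_left _ _)),
    hprob x hx (hxr.trans_le (min_le_right _ _)), hmb] with n h1 h2 h3
  obtain ⟨B, K, hBK, hp⟩ := h2
  have h4 := ze_mixed hc (δ := δ n) (F := Fs (δ n) D) (b := bump (dd D x / 2) x) (f := f) k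
    (O := {v | (δ n * (v.1 : ℝ), δ n * (v.2 : ℝ)) ∈ Metric.closedBall x (dd D x / 2)})
    (I := {v | (δ n * (v.1 : ℝ), δ n * (v.2 : ℝ)) ∈ tsupport f})
    (fun v hv => PT.bump_supp (by linarith only [hd0]) x hv) (fun v hv => subset_tsupport f hv) hBK
  have hc0 : (0 : ℝ) ≤ c := by linarith only [hc]
  have n1 : 0 ≤ Dom.ze c (Fs (δ n) D) (fun x' => hv (δ n) (bump (dd D x / 2) x) (vh x') ^ 4) :=
    ze_nonneg' hc0 _ fun x' => by (clear * -; positivity)
  have n2 : 0 ≤ Dom.ze c (Fs (δ n) D) (fun x' => hv (δ n) f (vh x') ^ (4 * k)) :=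
    ze_nonneg' hc0 _ fun x' => by
      rw [mul_comm, pow_mul]
      (clear * -; positivity)
  have h5 : Dom.ze c (Fs (δ n) D)
      (fun x' => hv (δ n) (bump (dd D x / 2) x) (vh x') * hv (δ n) f (vh x') ^ k) ^ 4 ≤ ε ^ 4 := by
    refine h4.trans ?_
    rw [← hη2]
    refine mul_le_mul (mul_le_mul h1 (h3.trans (le_max_left _ _)) n2 hC.le)
      (pow_le_pow_left₀ (pcn_nonneg hc _ _ _ _ _) hp 2) (by (clear * -; positivity)) hCC.le
  show Dom.ze c (Fs (δ n) D)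
      (fun x' => hv (δ n) (bump (dd D x / 2) x) (vh x') * hv (δ n) f (vh x') ^ k) ≤ ε
  by_contra hcon
  push Not at hcon
  exact absurd h5 (not_le.2 (pow_lt_pow_left₀ hcon hε.le (by norm_num)))

end Vale.Agent.P145.X
end

section

/-!
P145, decay at the boundary: fourth moments of the bump near the boundary, uniformly in the
distance to the boundary.
-/

namespace Vale.Agent.P145.X

open Filter Topology Set MeasureTheory
open Vale.Agent.P152 (Ori)
open Vale.Agent.P145.FB (Pt)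
open Vale.Agent.P145.Top (Fs sq ThickC Om Cone EE hv vh hB)
open Vale.Agent.P145.PT (dd TestOn bump Z0)

theorem bump_le (s : ℝ) (x z : ℝ × ℝ) : bump s x z ≤ Z0⁻¹ * (s ^ 2)⁻¹ := by
  unfold PT.bump PT.rs
  have h0 : 0 ≤ Z0⁻¹ * (s ^ 2)⁻¹ :=
    mul_nonneg (inv_nonneg.2 PT.Z0_pos.le) (inv_nonneg.2 (sq_nonneg _))
  calc Z0⁻¹ * (s ^ 2)⁻¹ * PT.kk (PT.sqn (z - x) / s ^ 2) ≤ Z0⁻¹ * (s ^ 2)⁻¹ * 1 :=
        mul_le_mul_of_nonneg_left (PT.kk_le_one _) h0
    _ = _ := mul_one _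

/-- The functional as a finitely supported function. -/
theorem exists_u {e : ℝ} (he : 0 < e) {b : ℝ × ℝ → ℝ} {x : ℝ × ℝ} {r : ℝ}
    (hb : ∀ z, b z ≠ 0 → z ∈ Metric.closedBall x r) :
    ∃ u : (ℤ × ℤ) →₀ ℝ, (∀ v : ℤ × ℤ, u v = e ^ 2 * b (e * v.1, e * v.2)) ∧
      ∀ ω : Om, (u.sum fun v a => a * ω v) = hv e b ω := by
  have hfin : (Function.support fun v : ℤ × ℤ => e ^ 2 * b (e * v.1, e * v.2)).Finite := by
    refine (fin_pts he (S := Metric.closedBall x r) Metric.isBounded_closedBall).subset fun v hv => ?_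
    exact hb _ (right_ne_zero_of_mul hv)
  refine ⟨Finsupp.ofSupportFinite _ hfin, fun v => rfl, fun ω => ?_⟩
  unfold hv
  rw [finsum_eq_sum_of_support_subset (s := (Finsupp.ofSupportFinite
    (fun v : ℤ × ℤ => e ^ 2 * b (e * v.1, e * v.2)) hfin).support), Finset.mul_sum, Finsupp.sum]
  · refine Finset.sum_congr rfl fun v _ => ?_
    show e ^ 2 * b (e * v.1, e * v.2) * ω v = _
    ring
  · intro v hv
    rw [Finset.mem_coe, Finsupp.mem_support_iff]
    exact mul_ne_zero (pow_ne_zero 2 he.ne') (right_ne_zero_of_mul hv)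

theorem cone_hv {e : ℝ} (he : 0 < e) {b : ℝ × ℝ → ℝ} (h0 : ∀ z, 0 ≤ b z)
    (hb : HasCompactSupport b) (k : ℕ) : Cone fun ω => hv e b ω ^ k := by
  obtain ⟨R, hR⟩ := hb.isBounded.subset_ball (0 : ℝ × ℝ)
  obtain ⟨B, hB⟩ := Top.hv_eq_hB (R := R) he
  refine (Top.cone_pow (B := B) (δ := e) h0 k).of_eq fun ω => ?_
  rw [hB b fun z hz => hR (subset_tsupport b hz)]

/-- One coordinate: points of the bump. -/
theorem one_b {e d s a b c q : ℝ} (he : 0 < e) (hes : d ≤ e * s) (hs : 1 ≤ s)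
    (h1 : |e * a - b| ≤ d / 2) (h2 : |b - c| ≤ d) (h3 : |e * q - c| ≤ 2 * (e * s) + 4 * e) :
    |a - q| ≤ 10 * s := by
  have h0' : e ≤ e * s := by
    have := mul_le_mul_of_nonneg_left hs he.le
    linarith only [this]
  have h4 : |e * (a - q)| ≤ e * (10 * s) := by
    have : e * (a - q) = (e * a - b) + (b - c) - (e * q - c) := by ring
    rw [this]
    have i1 := abs_sub ((e * a - b) + (b - c)) (e * q - c)
    have i2 := abs_add_le (e * a - b) (b - c)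
    linarith
  rw [abs_mul, abs_of_pos he] at h4
  exact le_of_mul_le_mul_left h4 he

theorem pos_b {e d : ℝ} (he : 0 < e) {s : ℤ} (hes : d ≤ e * s) (hs : 1 ≤ s)
    {x z : ℝ × ℝ} (hxz : dist x z ≤ d) {p v : ℤ × ℤ}
    (hp1 : |e * p.1 - z.1| ≤ 2 * (e * s) + 4 * e) (hp2 : |e * p.2 - z.2| ≤ 2 * (e * s) + 4 * e)
    (hv : (e * (v.1 : ℝ), e * (v.2 : ℝ)) ∈ Metric.closedBall x (d / 2)) {K : ℝ} (hK : 10 ≤ K) :
    |((v.1 - p.1 : ℤ) : ℝ)| ≤ K * s ∧ |((v.2 - p.2 : ℤ) : ℝ)| ≤ K * s := by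
  rw [Metric.mem_closedBall, Prod.dist_eq, Real.dist_eq, Real.dist_eq, max_le_iff] at hv
  rw [Prod.dist_eq, Real.dist_eq, Real.dist_eq, max_le_iff] at hxz
  have hs' : (1 : ℝ) ≤ s := by exact_mod_cast hs
  have a1 := one_b he hes hs' hv.1 hxz.1 hp1
  have a2 := one_b he hes hs' hv.2 hxz.2 hp2
  have h3 : 10 * (s : ℝ) ≤ K * s := mul_le_mul_of_nonneg_right hK (by linarith only [hs'])
  push_cast
  exact ⟨a1.trans h3, a2.trans h3⟩

theorem u_le {e d s : ℝ} (he : 0 < e) (hd : 0 < d) (hs : 0 < s) (hes : e * s ≤ 101 / 100 * d)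
    {y K : ℝ} (hy : y ≤ Z0⁻¹ * ((d / 2) ^ 2)⁻¹) (hK : 5 * Z0⁻¹ ≤ K) : e ^ 2 * y ≤ K / s ^ 2 := by
  have hZ : 0 < Z0⁻¹ := inv_pos.2 PT.Z0_pos
  have h1 : (e * s) ^ 2 ≤ (101 / 100 * d) ^ 2 := pow_le_pow_left₀ (by positivity) hes 2
  rw [le_div_iff₀ (by positivity)]
  calc e ^ 2 * y * s ^ 2 = (e * s) ^ 2 * y := by ring
    _ ≤ (e * s) ^ 2 * (Z0⁻¹ * ((d / 2) ^ 2)⁻¹) := mul_le_mul_of_nonneg_left hy (sq_nonneg _)
    _ ≤ (101 / 100 * d) ^ 2 * (Z0⁻¹ * ((d / 2) ^ 2)⁻¹) :=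
        mul_le_mul_of_nonneg_right h1 (by positivity)
    _ = (101 / 100) ^ 2 * 4 * Z0⁻¹ := by field_simp; ring
    _ ≤ 5 * Z0⁻¹ := by nlinarith only [hZ]
    _ ≤ K := hK

theorem s_bump {c t : ℝ} {P : Measure (Ori (ℤ × ℤ))} (hc : 1 ≤ c) (hlow : S_low c t P)
    (hmom : S_mom t P) (hrsw : S_rsw t P) (hloc : S_loc) {δ : ℕ → ℝ} (hδ : ∀ n, 0 < δ n)
    (hlim : Tendsto δ atTop (𝓝 0)) : S_bump c δ := by
  intro D hD hb hT
  obtain ⟨g, hg, hT⟩ := hT
  set K : ℝ := max 10 (5 * Z0⁻¹) with hK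
  have hK10 : 10 ≤ K := le_max_left _ _
  obtain ⟨C, s₁, hs₁, hmom⟩ := hmom K 2 (by linarith only [hK10])
  obtain ⟨c₁, hc₁, r₀, hr₀, hrsw⟩ := hrsw
  refine ⟨|C| / c₁ + 1, g / 16, by (clear * - hc₁; positivity), by positivity, fun x hx hxr => ?_⟩
  have hd0 : 0 < dd D x := (PT.dd_pos hD hb).2 hx
  obtain ⟨z₀, hz₀, hdz⟩ := hD.isClosed_compl.exists_infDist_eq_dist (PT.compl_ne hb) x
  have hdz' : dist x z₀ = dd D x := hdz.symm
  generalize dd D x = d at hxr hd0 hdz' ⊢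
  have hN₀1 : (1 : ℝ) ≤ max (s₁ : ℝ) r₀ := le_max_of_le_left (by exact_mod_cast hs₁)
  have hev : ∀ᶠ n in atTop, δ n < min (d / 100) (d / max (s₁ : ℝ) r₀) :=
    (tendsto_order.1 hlim).2 _ (lt_min (by positivity) (by positivity))
  filter_upwards [hev] with n hn
  have hδn := hδ n
  generalize δ n = e at hn hδn ⊢
  have he1 : e < d / 100 := hn.trans_le (min_le_left _ _)
  obtain ⟨hes1, hes3, hsN⟩ := scale hδn hN₀1 he1 (hn.trans_le (min_le_right _ _))
  generalize ⌈d / e⌉ = s at hes1 hes3 hsN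
  have hss : s₁ ≤ s := by exact_mod_cast (le_max_left (s₁ : ℝ) r₀).trans hsN
  have hsr : r₀ ≤ s := by exact_mod_cast (le_max_right (s₁ : ℝ) r₀).trans hsN
  have hs0 : 1 ≤ s := hs₁.trans hss
  have hs0' : (0 : ℝ) < s := by exact_mod_cast hs0
  obtain ⟨p, hp, hpz1, hpz2⟩ := exists_box hg hT hz₀ hδn (W := s) hs0 (by linarith only [hxr, hδn, he1, hes3])
  set b : ℝ × ℝ → ℝ := bump (d / 2) x with hbdef
  have hbs : ∀ z, b z ≠ 0 → z ∈ Metric.closedBall x (d / 2) := fun z hz =>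
    PT.bump_supp (by linarith only [hδn, he1]) x hz
  obtain ⟨u, hu, hus⟩ := exists_u hδn hbs
  have h1 := hmom s hss p u (fun v => by
      rw [hu]
      exact ⟨mul_nonneg (sq_nonneg _) (PT.bump_nonneg _ _ _),
        u_le hδn hd0 hs0' hes3 (bump_le _ _ _) (le_max_right _ _)⟩)
    (fun v hv => by
      rw [hu] at hv
      exact pos_b hδn hes1 hs0 hdz'.le hpz1 hpz2 (hbs _ (right_ne_zero_of_mul hv)) hK10)
  have e1 : (fun ω : Om => (u.sum fun v a => a * ω v) ^ (2 * 2)) = fun ω => hv e b ω ^ 4 := by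
    funext ω
    rw [hus]
  rw [e1] at h1
  obtain ⟨-, hf1⟩ := hloc p s hs0
  have hΘ : Fn (iE (Fs e D : Set (ℤ × ℤ)))ᶜ (ind (Zr p s)) :=
    hf1.monoD fun w hw => tE_compl hδn hp hw.1
  have h2 := hlow (Fs e D) (ind (Zr p s)) (fun ω => hv e b ω ^ 4) hΘ
    (cone_hv hδn (fun z => PT.bump_nonneg _ _ _)
      (HasCompactSupport.intro' (isCompact_closedBall x (d / 2)) Metric.isClosed_closedBall
        fun z hz => by_contra fun h => hz (hbs z h)) 4)
  have h3 := (hrsw s hsr p).1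
  show Dom.ze c (Fs e D) (fun x' => hv e b (vh x') ^ 4) ≤ |C| / c₁ + 1
  have hc0 : (0 : ℝ) ≤ c := by linarith only [hc]
  have n1 : 0 ≤ Dom.ze c (Fs e D) (fun x' => hv e b (vh x') ^ 4) :=
    ze_nonneg' hc0 _ fun x' => by (clear * -; positivity)
  have h4 : Dom.ze c (Fs e D) (fun x' => hv e b (vh x') ^ 4) * c₁ ≤ |C| :=
    (mul_le_mul_of_nonneg_left h3 n1).trans (h2.trans (h1.trans (le_abs_self C)))
  have h5 : Dom.ze c (Fs e D) (fun x' => hv e b (vh x') ^ 4) ≤ |C| / c₁ := by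
    rw [le_div_iff₀ hc₁]; exact h4
  linarith only [h5]

/-- The decay at the boundary. -/
theorem s_dec {c t : ℝ} (hc : 1 ≤ c) {P : Measure (Ori (ℤ × ℤ))} (hint : S_int t P)
    (hlow : S_low c t P) (hlowc : S_lowc c t P) (hgap : S_gap t P) (hmom : S_mom t P)
    (hrsw : S_rsw t P) (hloc : S_loc) (hconf : S_conf) {δ : ℕ → ℝ} (hδ : ∀ n, 0 < δ n)
    (hlim : Tendsto δ atTop (𝓝 0)) (hmb : Top.S_mb c δ) : Top.S_dec c δ :=
  s_dec_of hc hint hlowc hgap hrsw hloc hconf hδ hlim hmb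
    (s_bump hc hlow hmom hrsw hloc hδ hlim)

end Vale.Agent.P145.X
end

section

/-!
P145, X-level: the bounds `S_mb` and `S_l2` for the moments in bounded domains, by comparison with
the plane given a circuit outside of the domain.
-/

namespace Vale.Agent.P145.X

open Filter Topology Set MeasureTheory
open Vale.Agent.P152 (Ori)
open Vale.Agent.P145.FB (Pt Mk e1 e2 o1 o2 MU bl)
open Vale.Agent.P145.Top (Om Cone vh EE hv hvl S_mb S_l2 exists_meas)
open Vale.Agent.P145.Dom (ze)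
open Vale.Agent.P145.PT (TestOn)

lemma mb_mem_Fs {δ : ℝ} {D : Set (ℝ × ℝ)} {f : ℤ × ℤ} (h : f ∈ Top.Fs δ D) : Top.sq δ f ⊆ D := by
  classical
  unfold Top.Fs at h
  split_ifs at h with h1
  · rw [Set.Finite.mem_toFinset] at h
    exact h
  · exact absurd h (Finset.notMem_empty _)

lemma mb_af_inj : Function.Injective af := by
  rintro ⟨a, b⟩ ⟨a', b'⟩ h
  simp only [af, Prod.mk.injEq] at h
  refine Prod.ext ?_ ?_ <;> simp only <;> omega

lemma mb_hvl_replicate (δ : ℝ) (f : ℝ × ℝ → ℝ) (k : ℕ) (ω : Om) :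
    hvl δ (List.replicate k f) ω = hv δ f ω ^ k := by
  unfold hvl
  rw [List.map_replicate, List.prod_replicate]

lemma mb_cone {δ : ℝ} (hδ : 0 < δ) {R : ℝ} {f : ℝ × ℝ → ℝ} (hf : TestOn (Metric.ball 0 R) f)
    (hf0 : ∀ z, 0 ≤ f z) (k : ℕ) : Cone (fun ω => hv δ f ω ^ k) := by
  have h1 := cone_hvl (D := Metric.ball (0 : ℝ × ℝ) R) hδ Metric.isBounded_ball
    (l := List.replicate k f) (fun g hg => by
      rw [List.eq_of_mem_replicate hg]; exact ⟨hf, hf0⟩)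
  exact h1.of_eq fun ω => mb_hvl_replicate δ f k ω

/-- The square around `p` does not meet the domain. -/
lemma mb_off {δ R : ℝ} (hδ : 0 < δ) {D : Set (ℝ × ℝ)} (hD : D ⊆ Metric.ball 0 R) {p : ℤ × ℤ}
    {r : ℤ} (hp : R ≤ δ * (p.1 - r : ℤ)) :
    tE (bx p r) ⊆ (iE (Top.Fs δ D : Set (ℤ × ℤ)))ᶜ := by
  rintro w ⟨f, hf, hw⟩ ⟨f1, hf1, f2, hf2, h1, h2⟩
  have hfF : f ∈ Top.Fs δ D := by
    rcases hw with hw | hw
    · rw [h1] at hw
      rw [← mb_af_inj hw]; exact hf1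
    · rw [h2] at hw
      rw [← mb_af_inj hw]; exact hf2
  have h3 : ((δ * f.1, δ * f.2) : ℝ × ℝ) ∈ Top.sq δ f := by
    refine ⟨le_refl _, ?_, le_refl _, ?_⟩ <;> simp only <;> linarith
  have h4 := hD (mb_mem_Fs hfF h3)
  rw [mem_ball_zero_iff, Prod.norm_mk, Real.norm_eq_abs, Real.norm_eq_abs] at h4
  have h5 : δ * (f.1 : ℝ) < R := lt_of_le_of_lt (le_abs_self _) (lt_of_le_of_lt (le_max_left _ _) h4)
  have h6 : (((p.1 - r : ℤ)) : ℝ) ≤ (f.1 : ℝ) := by exact_mod_cast hf.1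
  have h7 := mul_le_mul_of_nonneg_left h6 hδ.le
  linarith

/-- The moments in a bounded domain. -/
theorem mb_core {c t : ℝ} (hc : 0 < c) {P : Measure (Ori (ℤ × ℤ))} {δ : ℕ → ℝ}
    (hδ : ∀ n, 0 < δ n) (hlim : Tendsto δ atTop (𝓝 0)) (hlow : S_low c t P) (hmm : S_mm t P δ)
    (hrsw : S_rsw t P) (hloc : S_loc) {R : ℝ} (hR : 0 < R) (k : ℕ) :
    ∃ C : ℝ, 0 ≤ C ∧ ∀ D : Set (ℝ × ℝ), D ⊆ Metric.ball 0 R →
      ∀ f : ℝ × ℝ → ℝ, TestOn (Metric.ball 0 R) f → (∀ z, 0 ≤ f z) → ∀ ε : ℝ, 0 < ε →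
        ∀ᶠ n in atTop, EE c (δ n) D (fun ω => hv (δ n) f ω ^ (2 * k)) ≤
          C * ((∫ z, f z ^ 2) + ε) ^ k := by
  set R' : ℝ := 2 * R + 10 with hR'
  obtain ⟨C, hC0, hC⟩ := hmm R' (by linarith only [hR]) k
  obtain ⟨c₁, hc₁, r₀, hr₀, hr⟩ := hrsw
  refine ⟨C / c₁, div_nonneg hC0 hc₁.le, fun D hD f hf hf0 ε hε => ?_⟩
  have hf' : TestOn (Metric.ball 0 R') f :=
    ⟨hf.1, hf.2.1, hf.2.2.trans (Metric.ball_subset_ball (by linarith only [hR]))⟩
  have hsmall : ∀ᶠ n in atTop, δ n < min (1 / 2) (1 / ((r₀ : ℝ) + 2)) :=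
    hlim.eventually_lt_const (by positivity)
  filter_upwards [hC f hf' ε hε, hsmall] with n hn hδn
  have hδ0 := hδ n
  have hd1 : δ n < 1 / 2 := lt_of_lt_of_le hδn (min_le_left _ _)
  have hr₀' : (0 : ℝ) < (r₀ : ℝ) + 2 := by
    have : (1 : ℝ) ≤ (r₀ : ℝ) := by exact_mod_cast hr₀
    linarith only [this]
  have hd2 : δ n * ((r₀ : ℝ) + 2) < 1 := by
    have := lt_of_lt_of_le hδn (min_le_right _ _)
    rwa [lt_div_iff₀ hr₀'] at this
  set s : ℤ := ⌊1 / δ n⌋ with hs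
  set p : ℤ × ℤ := (⌈(R + 4) / δ n⌉, 0) with hp
  have s1 : δ n * s ≤ 1 := by
    have := Int.floor_le (1 / δ n)
    rw [le_div_iff₀ hδ0] at this
    linarith only [this]
  have s2 : 1 - δ n < δ n * s := by
    have := Int.lt_floor_add_one (1 / δ n)
    rw [div_lt_iff₀ hδ0] at this
    linarith only [this]
  have hsr : r₀ ≤ s := by
    have h1 : (r₀ : ℝ) < s + 1 := by
      have h2 : δ n * (r₀ + 2) < δ n * (s + 2) := by nlinarith only [hδ0, hd2, s2]
      have := lt_of_mul_lt_mul_left h2 hδ0.le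
      have h3 : δ n * ((r₀ : ℝ) + 2) < δ n * (s : ℝ) + δ n := by linarith only [hd2, s2]
      have h4 : δ n * ((r₀ : ℝ) + 2) < δ n * ((s : ℝ) + 1) := by linarith only [hd2, s2]
      have := lt_of_mul_lt_mul_left h4 hδ0.le
      linarith only [this]
    have h2 : r₀ < s + 1 := by exact_mod_cast h1
    omega
  have hs1 : 1 ≤ s := hr₀.trans hsr
  have p1 : R + 4 ≤ δ n * (p.1 : ℝ) := by
    have := Int.le_ceil ((R + 4) / δ n)
    rw [div_le_iff₀ hδ0] at this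
    simp only [hp]
    linarith only [this]
  have p2 : δ n * (p.1 : ℝ) < R + 5 := by
    have := Int.ceil_lt_add_one ((R + 4) / δ n)
    have h1 : δ n * (⌈(R + 4) / δ n⌉ : ℝ) < δ n * ((R + 4) / δ n + 1) :=
      mul_lt_mul_of_pos_left this hδ0
    have h2 : δ n * ((R + 4) / δ n + 1) = R + 4 + δ n := by (clear * - hδ0 hR; field_simp)
    simp only [hp]
    linarith only [hd1, h1, h2]
  have hoff : tE (bx p (2 * s)) ⊆ (iE (Top.Fs (δ n) D : Set (ℤ × ℤ)))ᶜ := by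
    refine mb_off hδ0 hD ?_
    push_cast
    nlinarith only [s1, p1]
  obtain ⟨-, hFn⟩ := hloc p s hs1
  have hFn' : Fn (iE (Top.Fs (δ n) D : Set (ℤ × ℤ)))ᶜ (ind (Zr p s)) := by
    refine ⟨hFn.nonneg, ?_, hFn.pin⟩
    obtain ⟨Λ, h1, h2⟩ := hFn.loc
    exact ⟨Λ, fun w hw => hoff (h1 w hw).1, h2⟩
  have hcone := mb_cone hδ0 hf hf0 (2 * k)
  have h1 := hlow _ _ _ hFn' hcone
  have h2 := (hr s hsr p).1
  have h3 : 0 ≤ ze c (Top.Fs (δ n) D) (fun x => hv (δ n) f (vh x) ^ (2 * k)) := by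
    obtain ⟨μ, hμ, hμi⟩ := exists_meas hc (Top.Fs (δ n) D)
    rw [← hμi (fun ω => hv (δ n) f ω ^ (2 * k))]
    exact integral_nonneg fun ω => by
      simp only [Pi.zero_apply]
      exact (even_two_mul k).pow_nonneg _
  have h4 := hn p s (by rw [abs_le]; constructor <;> linarith only [hR, p1, p2])
    (by simp only [hp]; push_cast; rw [mul_zero, abs_zero]; linarith only [hR]) (by
      have : R'⁻¹ ≤ 1 / 2 := by
        rw [inv_le_comm₀ (by linarith only [hR]) (by norm_num)]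
        norm_num
        linarith only [hR]
      linarith only [hd1, s2, this]) (by linarith only [hR, s1])
  show ze c (Top.Fs (δ n) D) (fun x => hv (δ n) f (vh x) ^ (2 * k)) ≤ _
  rw [div_mul_eq_mul_div, le_div_iff₀ hc₁]
  calc ze c (Top.Fs (δ n) D) (fun x => hv (δ n) f (vh x) ^ (2 * k)) * c₁
      ≤ ze c (Top.Fs (δ n) D) (fun x => hv (δ n) f (vh x) ^ (2 * k)) *
        II t P (ind (Zr p s)) (fun _ => 1) := mul_le_mul_of_nonneg_left h2 h3
    _ ≤ II t P (ind (Zr p s)) (fun ω => hv (δ n) f ω ^ (2 * k)) := h1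
    _ ≤ _ := h4

/-- L2B. -/
theorem s_l2 {c t : ℝ} (hc : 0 < c) {P : Measure (Ori (ℤ × ℤ))} {δ : ℕ → ℝ}
    (hδ : ∀ n, 0 < δ n) (hlim : Tendsto δ atTop (𝓝 0)) (hlow : S_low c t P) (hmm : S_mm t P δ)
    (hrsw : S_rsw t P) (hloc : S_loc) : S_l2 c δ := by
  intro R hR
  obtain ⟨C, hC0, hC⟩ := mb_core hc hδ hlim hlow hmm hrsw hloc hR 1
  refine ⟨C, hC0, fun D _ hD f hf hf0 ε hε => ?_⟩
  have h1 : 0 < ε / (C + 1) := by (clear * - hε hC0; positivity)
  filter_upwards [hC D hD f hf hf0 _ h1] with n hn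
  rw [mul_one, pow_one] at hn
  refine hn.trans ?_
  have h2 : C * (ε / (C + 1)) ≤ ε := by
    rw [← mul_div_assoc, div_le_iff₀ (by (clear * - hC0; linarith))]
    nlinarith only [hε]
  linarith only [h2]

/-- MB. -/
theorem s_mb {c t : ℝ} (hc : 0 < c) {P : Measure (Ori (ℤ × ℤ))} {δ : ℕ → ℝ}
    (hδ : ∀ n, 0 < δ n) (hlim : Tendsto δ atTop (𝓝 0)) (hlow : S_low c t P) (hmm : S_mm t P δ)
    (hrsw : S_rsw t P) (hloc : S_loc) : S_mb c δ := by
  intro D _ hD f hf hf0 k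
  obtain ⟨R, hR⟩ := (hD.union hf.2.1.isBounded).subset_ball (0 : ℝ × ℝ)
  have hR1 : Metric.ball (0 : ℝ × ℝ) R ⊆ Metric.ball 0 (max R 1) :=
    Metric.ball_subset_ball (le_max_left _ _)
  have hR0 : 0 < max R 1 := lt_of_lt_of_le one_pos (le_max_right _ _)
  have hf' : TestOn (Metric.ball 0 (max R 1)) f :=
    ⟨hf.1, hf.2.1, fun z hz => hR1 (hR (Or.inr hz))⟩
  have hD' : D ⊆ Metric.ball 0 (max R 1) := fun z hz => hR1 (hR (Or.inl hz))
  obtain ⟨C, hC0, hC⟩ := mb_core hc hδ hlim hlow hmm hrsw hloc hR0 k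
  refine ⟨1 + C * ((∫ z, f z ^ 2) + 1) ^ k, ?_⟩
  filter_upwards [hC D hD' f hf' hf0 1 one_pos] with n hn
  obtain ⟨μ, hμ, hμi⟩ := exists_meas hc (Top.Fs (δ n) D)
  have e1 : EE c (δ n) D (fun ω => hv (δ n) f ω ^ k) = ∫ ω, hv (δ n) f ω ^ k ∂μ :=
    (hμi (fun ω => hv (δ n) f ω ^ k)).symm
  have e2 : EE c (δ n) D (fun ω => hv (δ n) f ω ^ (2 * k)) = ∫ ω, hv (δ n) f ω ^ (2 * k) ∂μ :=
    (hμi (fun ω => hv (δ n) f ω ^ (2 * k))).symm
  rw [e2] at hn
  rw [e1]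
  have i1 := hμ.integrable (mb_cone (hδ n) hf' hf0 k)
  have i2 := hμ.integrable (mb_cone (hδ n) hf' hf0 (2 * k))
  have := hμ.prob
  have h1 : ∫ ω, hv (δ n) f ω ^ k ∂μ ≤ ∫ ω, (1 + hv (δ n) f ω ^ (2 * k)) ∂μ := by
    refine integral_mono i1 ((integrable_const 1).add i2) fun ω => ?_
    simp only
    have h2 : hv (δ n) f ω ^ (2 * k) = (hv (δ n) f ω ^ k) ^ 2 := by rw [mul_comm, pow_mul]
    rw [h2]
    nlinarith only []
  rw [integral_add (integrable_const 1) i2, integral_const, probReal_univ, one_smul] at h1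
  linarith

end Vale.Agent.P145.X
end

section

/-!
P145, block K1: exploration from a set `O` compared with a tilt inside `O` (box form).
-/

namespace Vale.Agent.P145.FK

open Finset
open scoped Classical

namespace Net

variable {V F E : Type*} {K : ℕ} [Fintype V] [Fintype F] [Fintype E]

/-- **Decorrelation by a blocked contour.** `X` decreases in the configuration and is carried by the
event that `I` is not reached from `O`; `A` is an increasing observable inside `I`; `Θ` depends only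
on what is outside the complement of `O`. -/
theorem ext_le (N : Net V F E) (hN : N.Loc) {t : ℝ} (ht0 : 0 ≤ t) (ht : t ≤ 1)
    {κ : V ⊕ F → Fin (K + 1) → ℝ} (hκ : ∀ i z, 0 ≤ κ i z) {β : E → Bool → ℝ}
    (hβ : ∀ e b, 0 ≤ β e b) (hκ0 : ∀ i, 0 < κ i 0) (hβ0 : ∀ e, 0 < β e false)
    {O I : Set F} {X Θ : Cfg V F E K → ℝ} (hX : ∀ x, 0 ≤ X x) (hXa : Antitone X)
    (hXd : ∀ x, X x ≠ 0 → Disjoint (N.expl O x) I) (hΘ : ∀ x, 0 ≤ Θ x)
    (hΘO : ∀ x y, N.agOut Oᶜ x y → Θ x = Θ y)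
    {A : Cfg V F E K → (V ⊕ F → Bool) → ℝ} (hA : Mon A)
    (hAI : ∀ x x' s s', N.agIn I x x' → (∀ i, N.inD I i → s i = s' i) → A x s = A x' s') :
    N.J t κ β (fun x s => X x * A x s) * N.J t κ β (fun x _ => Θ x)
      ≤ N.J t κ β (fun x _ => X x) * N.J t κ β (fun x s => Θ x * A x s) := by
  have h1 := N.expl_le hN ht0 ht hκ hβ hκ0 hβ0 (O := O) (I := I) hX hXa hA hAI
  have h2 := N.zero_le_out ht0 ht hκ hβ Oᶜ (X := fun _ => 1) (Θ := Θ) (C := fun _ => 1)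
    (fun _ => zero_le_one) (fun _ _ _ => le_rfl) hΘ hΘO (fun _ => zero_le_one)
    (fun _ _ _ => le_rfl) hA
  have e : ∀ x, X x * (if Disjoint (N.expl O x) I then (1 : ℝ) else 0) = X x := by
    intro x
    by_cases h : X x = 0
    · rw [h, zero_mul]
    · rw [if_pos (hXd x h), mul_one]
  simp only [e] at h1
  simp only [one_mul, mul_one] at h2
  have p := N.J_zbi_pos ht0 hκ hβ hκ0 hβ0 Oᶜ
  have n1 : 0 ≤ N.J t κ β (fun x _ => Θ x) := N.J_nonneg ht0 hκ hβ fun x _ => hΘ x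
  have n2 : 0 ≤ N.J t κ β (fun x _ => X x) := N.J_nonneg ht0 hκ hβ fun x _ => hX x
  set z := N.J t κ β (fun x _ => N.zbi Oᶜ x)
  set a := N.J t κ β (fun x s => X x * A x s)
  set b := N.J t κ β (fun x _ => X x)
  set u := N.J t κ β (fun x s => N.zbi Oᶜ x * A x s)
  set v := N.J t κ β (fun x _ => Θ x)
  set w := N.J t κ β (fun x s => Θ x * A x s)
  have h3 : z * (a * v) ≤ z * (b * w) := by
    calc z * (a * v) = (a * z) * v := by ring
      _ ≤ (b * u) * v := mul_le_mul_of_nonneg_right h1 n1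
      _ = b * (u * v) := by ring
      _ ≤ b * (z * w) := mul_le_mul_of_nonneg_left h2 n2
      _ = z * (b * w) := by ring
  exact le_of_mul_le_mul_left h3 p

end Net

end Vale.Agent.P145.FK
end

section

/-!
P145, block K1: plane observables (functions of the absolute heights and of the set of the blocked
vertices) on boxes with free heights; the inequalities LOW and EXT on boxes.
-/

namespace Vale.Agent.P145.FK

open Finset Vale.Agent.P145.FP Vale.Agent.P145.Dom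
open Vale.Agent.P145.FA (Hgt)
open Vale.Agent.P145.FB (Pt Mk)
open scoped Classical

/-! ### Plane observables -/

/-- The cone of the increasing plane observables: generated by the nonnegative constants, the
heights at the even faces, and the nonnegative functions which are increasing in the moduli of the
heights and decreasing in the set of the blocked vertices. -/
inductive PosM : (Hgt → Set Pt → ℝ) → Prop
  | const (c : ℝ) (hc : 0 ≤ c) : PosM (fun _ _ => c)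
  | ht (v : ℤ × ℤ) : PosM (fun h _ => (h (FP.fc (.inl v)) : ℝ))
  | inc (a : (Pt → ℕ) → Set Pt → ℝ) (h0 : ∀ u b, 0 ≤ a u b)
      (hm : ∀ u u' b b', u ≤ u' → b' ⊆ b → a u b ≤ a u' b') :
      PosM (fun h b => a (fun q => (h q).natAbs) b)
  | add {f g : Hgt → Set Pt → ℝ} : PosM f → PosM g → PosM (fun h b => f h b + g h b)
  | mul {f g : Hgt → Set Pt → ℝ} : PosM f → PosM g → PosM (fun h b => f h b * g h b)

/-- Polynomials in the heights. -/
lemma PosH.posM {A : (Site → ℤ) → ℝ} (h : PosH A) : PosM (fun η _ => A (fun s => η (FP.fc s))) := by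
  induction h with
  | const c hc => exact PosM.const c hc
  | ht v => exact PosM.ht v
  | add h1 h2 ih1 ih2 => exact PosM.add ih1 ih2
  | mul h1 h2 ih1 ih2 => exact PosM.mul ih1 ih2

/-- A decreasing function of the set of blocked vertices. -/
lemma PosM.dec {a : Set Pt → ℝ} (h0 : ∀ b, 0 ≤ a b) (ha : Antitone a) : PosM (fun _ b => a b) :=
  PosM.inc (fun _ b => a b) (fun _ b => h0 b) (fun _ _ _ _ _ h => ha h)

/-- Inside sites of the set `F` of faces of the square lattice. -/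
def Ins (F : Set (ℤ × ℤ)) (q : Pt) : Prop :=
  Sum.elim (fun v => ∀ f, Cor v f → f ∈ F) (fun f => f ∈ F) (FP.cf q)

/-- `Θ` depends on the moduli of the heights and on the blocked vertices outside `F`. -/
def OutM (F : Set (ℤ × ℤ)) (Θ : Hgt → Set Pt → ℝ) : Prop :=
  ∀ h h' b b', (∀ q, ¬ Ins F q → (h q).natAbs = (h' q).natAbs) →
    (∀ w, ¬ In6 F w → (w ∈ b ↔ w ∈ b')) → Θ h b = Θ h' b'

/-- `A` depends on the heights and the blocked vertices inside `F`. -/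
def InM (F : Set (ℤ × ℤ)) (A : Hgt → Set Pt → ℝ) : Prop :=
  ∀ h h' b b', (∀ q, Ins F q → h q = h' q) →
    (∀ w, In6 F w → Ins F (FB.e1 w) → Ins F (FB.e2 w) → (w ∈ b ↔ w ∈ b')) → A h b = A h' b'

/-- `X` is decreasing in the moduli of the heights, increasing in the set of blocked vertices. -/
def DecM (X : Hgt → Set Pt → ℝ) : Prop :=
  ∀ h h' b b', (∀ q, (h q).natAbs ≤ (h' q).natAbs) → b' ⊆ b → X h' b' ≤ X h b

/-! ### Configurations on a box -/

section box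
variable {B : Finset (ℤ × ℤ)} {K : ℕ}

/-- Heights of a configuration. -/
noncomputable def hg6 (x : Net.Cfg (V6 B) (F6 B) (E6 B) K) (s : V6 B ⊕ F6 B → Bool) : Hgt :=
  ex6 (fun i => Net.pv (V := V6 B) (Set.univ : Set (F6 B)) i (x.1 i, s i))

/-- Blocked vertices of a configuration. -/
def bk6 (x : Net.Cfg (V6 B) (F6 B) (E6 B) K) : Set Pt :=
  {p | ∃ h : p ∈ FC.VB B, (n6 B).blocked x ⟨p, h⟩}

lemma hg6_inl (x : Net.Cfg (V6 B) (F6 B) (E6 B) K) (s : V6 B ⊕ F6 B → Bool) (v : V6 B) :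
    hg6 x s v.1 = Net.sg (s (.inl v)) * (2 * ((x.1 (.inl v) : ℕ) : ℤ)) := by
  rw [hg6, ex6_inl]; rfl

lemma hg6_inr (x : Net.Cfg (V6 B) (F6 B) (E6 B) K) (s : V6 B ⊕ F6 B → Bool) (f : F6 B) :
    hg6 x s f.1 = Net.sg (s (.inr f)) * (2 * ((x.1 (.inr f) : ℕ) : ℤ) + 1) := by
  rw [hg6, ex6_inr]
  simp only [Net.pv, Sum.elim_inr, if_pos (Set.mem_univ f)]

lemma sg_natAbs (b : Bool) (z : ℤ) : (Net.sg b * z).natAbs = z.natAbs := by
  rcases Net.sg_cases b with h | h <;> rw [h] <;> simp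

lemma abs_inl (x : Net.Cfg (V6 B) (F6 B) (E6 B) K) (s : V6 B ⊕ F6 B → Bool) (v : V6 B) :
    (hg6 x s v.1).natAbs = 2 * (x.1 (.inl v) : ℕ) := by
  rw [hg6_inl, sg_natAbs]; omega

lemma abs_inr (x : Net.Cfg (V6 B) (F6 B) (E6 B) K) (s : V6 B ⊕ F6 B → Bool) (f : F6 B) :
    (hg6 x s f.1).natAbs = 2 * (x.1 (.inr f) : ℕ) + 1 := by
  rw [hg6_inr, sg_natAbs]; omega

lemma mem_cases {B : Finset (ℤ × ℤ)} {q : ℤ × ℤ} (hq : q ∈ B) :
    (∃ v : V6 B, v.1 = q) ∨ ∃ f : F6 B, f.1 = q := by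
  by_cases h : Even (q.1 + q.2)
  · exact Or.inl ⟨⟨q, mem_ev6.2 ⟨hq, h⟩⟩, rfl⟩
  · exact Or.inr ⟨⟨q, mem_od6.2 ⟨hq, h⟩⟩, rfl⟩

lemma abs_le_of {x y : Net.Cfg (V6 B) (F6 B) (E6 B) K} (h : x ≤ y) (s s' : V6 B ⊕ F6 B → Bool)
    (q : Pt) : (hg6 x s q).natAbs ≤ (hg6 y s' q).natAbs := by
  by_cases hq : q ∈ B
  · rcases mem_cases hq with ⟨v, rfl⟩ | ⟨f, rfl⟩
    · rw [abs_inl, abs_inl]
      have : (x.1 (.inl v) : ℕ) ≤ y.1 (.inl v) := by exact_mod_cast h.1 _
      omega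
    · rw [abs_inr, abs_inr]
      have : (x.1 (.inr f) : ℕ) ≤ y.1 (.inr f) := by exact_mod_cast h.1 _
      (clear * - this; omega)
  · rw [hg6, ex6_of_not _ hq]
    simp only [Int.natAbs_zero, zero_le]

lemma abs_eq_of (x : Net.Cfg (V6 B) (F6 B) (E6 B) K) (s s' : V6 B ⊕ F6 B → Bool)
    (q : Pt) : (hg6 x s q).natAbs = (hg6 x s' q).natAbs :=
  le_antisymm (abs_le_of le_rfl s s' q) (abs_le_of le_rfl s' s q)

lemma bk6_anti {x y : Net.Cfg (V6 B) (F6 B) (E6 B) K} (h : x ≤ y) : bk6 y ⊆ bk6 x := by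
  rintro p ⟨hp, hb⟩
  exact ⟨hp, Net.blocked_anti h hb⟩

/-- The plane observable on the box. -/
lemma PosM.mon {A : Hgt → Set Pt → ℝ} (hA : PosM A) :
    Mon (fun (x : Net.Cfg (V6 B) (F6 B) (E6 B) K) (s : V6 B ⊕ F6 B → Bool) =>
      A (hg6 x s) (bk6 x)) := by
  induction hA with
  | const c hc => exact Mon.const hc
  | ht v =>
    by_cases hv : FP.fc (.inl v) ∈ B
    · have h1 : Mon (fun (x : Net.Cfg (V6 B) (F6 B) (E6 B) K) (s : V6 B ⊕ F6 B → Bool) =>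
          (2 * ((x.1 (.inl ⟨_, ev6_fc hv⟩) : ℕ) : ℝ)) * sv (s (.inl ⟨_, ev6_fc hv⟩))) := by
        refine Mon.one (B := fun x : Net.Cfg (V6 B) (F6 B) (E6 B) K =>
          2 * ((x.1 (.inl ⟨_, ev6_fc hv⟩) : ℕ) : ℝ)) (fun x => by positivity) ?_ (Pos.single _)
        intro x y hxy
        have h2 : (x.1 (.inl ⟨_, ev6_fc hv⟩) : ℕ) ≤ y.1 (.inl ⟨_, ev6_fc hv⟩) := by
          exact_mod_cast hxy.1 _
        have h3 : ((x.1 (.inl ⟨_, ev6_fc hv⟩) : ℕ) : ℝ) ≤ ((y.1 (.inl ⟨_, ev6_fc hv⟩) : ℕ) : ℝ) := by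
          exact_mod_cast h2
        show 2 * ((x.1 (.inl ⟨_, ev6_fc hv⟩) : ℕ) : ℝ) ≤ 2 * ((y.1 (.inl ⟨_, ev6_fc hv⟩) : ℕ) : ℝ)
        (clear * - hv h3; linarith)
      refine (congrArg Mon ?_).mp h1
      funext x s
      have := hg6_inl x s ⟨_, ev6_fc hv⟩
      simp only at this
      show _ = ((hg6 x s (FP.fc (.inl v)) : ℤ) : ℝ)
      rw [this]
      push_cast
      rw [sg_cast]
      ring
    · have h1 := Mon.const (α := Net.Cfg (V6 B) (F6 B) (E6 B) K) (I := V6 B ⊕ F6 B) (c := 0) le_rfl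
      refine (congrArg Mon ?_).mp h1
      funext x s
      show _ = ((hg6 x s (FP.fc (.inl v)) : ℤ) : ℝ)
      rw [hg6, ex6_of_not _ hv]
      simp
  | inc a h0 hm =>
    have h1 : Mon (fun (x : Net.Cfg (V6 B) (F6 B) (E6 B) K) (s : V6 B ⊕ F6 B → Bool) =>
        a (fun q => (hg6 x (fun _ => false) q).natAbs) (bk6 x) * 1) := by
      refine Mon.one (B := fun x : Net.Cfg (V6 B) (F6 B) (E6 B) K =>
        a (fun q => (hg6 x (fun _ => false) q).natAbs) (bk6 x)) (fun x => h0 _ _) ?_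
        (Pos.const 1 zero_le_one)
      intro x y hxy
      exact hm _ _ _ _ (fun q => abs_le_of hxy _ _ q) (bk6_anti hxy)
    refine (congrArg Mon ?_).mp h1
    funext x s
    rw [mul_one]
    congr 1
    funext q
    exact abs_eq_of x _ _ q
  | add h1 h2 ih1 ih2 => exact Mon.add ih1 ih2
  | mul h1 h2 ih1 ih2 => exact Mon.mul ih1 ih2

/-! ### Inside and outside -/

lemma ins_iff {F : Set (ℤ × ℤ)} (hI : NI B) (hB : Nb6 B F) (i : V6 B ⊕ F6 B) :
    (n6 B).inD (in6 B F) i ↔ Ins F (Sum.elim (fun v : V6 B => v.1) (fun f : F6 B => f.1) i) := by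
  rcases i with v | f
  · obtain ⟨v', hv'⟩ := exists_ev v
    have e1 : FP.cf v.1 = .inl v' := by rw [← hv', cf_fc]
    simp only [Net.inD, Ins, Sum.elim_inl, e1]
    constructor
    · intro h f hf
      obtain ⟨f0, hf0⟩ := hI v
      obtain ⟨g, hgF, hg⟩ := h f0 hf0
      have hc : Cor v' g := by
        rw [← adj_fc, hv', hg]
        exact hf0
      have h6 : FP.fc (.inr f) ∈ B := (hB g hgF _ hc).2 f hf
      refine (mem_in6 (od6_fc h6)).1 (h ⟨_, od6_fc h6⟩ ?_)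
      show Adj v.1 _
      rw [← hv']
      exact adj_fc.2 hf
    · intro h f hf
      obtain ⟨g, hg⟩ := exists_od f
      have hf' : Adj v.1 f.1 := hf
      rw [← hv', ← hg, adj_fc] at hf'
      exact ⟨g, h g hf', hg⟩
  · obtain ⟨g, hg⟩ := exists_od f
    have e1 : FP.cf f.1 = .inr g := by rw [← hg, cf_fc]
    simp only [Net.inD, Ins, Sum.elim_inr, e1]
    constructor
    · rintro ⟨g', hg', he⟩
      rw [← hg] at he
      have := fc_inj he
      simp only [Sum.inr.injEq] at this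
      rwa [← this]
    · intro h
      exact ⟨g, h, hg⟩

lemma hg6_congr {x y : Net.Cfg (V6 B) (F6 B) (E6 B) K} {s s' : V6 B ⊕ F6 B → Bool} (q : Pt)
    (h : ∀ i : V6 B ⊕ F6 B, Sum.elim (fun v : V6 B => v.1) (fun f : F6 B => f.1) i = q →
      x.1 i = y.1 i ∧ s i = s' i) : hg6 x s q = hg6 y s' q := by
  by_cases hq : q ∈ B
  · rcases mem_cases hq with ⟨v, rfl⟩ | ⟨f, rfl⟩
    · obtain ⟨h1, h2⟩ := h (.inl v) rfl
      rw [hg6_inl, hg6_inl, h1, h2]
    · obtain ⟨h1, h2⟩ := h (.inr f) rfl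
      rw [hg6_inr, hg6_inr, h1, h2]
  · rw [hg6, hg6, ex6_of_not _ hq, ex6_of_not _ hq]

lemma bk6_congr {x y : Net.Cfg (V6 B) (F6 B) (E6 B) K} {w : Pt}
    (h : ∀ hw : w ∈ FC.VB B, x.2 ⟨w, hw⟩ = y.2 ⟨w, hw⟩ ∧
      x.1 (.inl ((n6 B).u ⟨w, hw⟩)) = y.1 (.inl ((n6 B).u ⟨w, hw⟩)) ∧
      x.1 (.inl ((n6 B).v ⟨w, hw⟩)) = y.1 (.inl ((n6 B).v ⟨w, hw⟩))) :
    w ∈ bk6 x ↔ w ∈ bk6 y := by
  constructor
  · rintro ⟨hw, hb⟩
    obtain ⟨h1, h2, h3⟩ := h hw
    refine ⟨hw, ?_⟩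
    unfold Net.blocked at hb ⊢
    rw [← h1, ← h2, ← h3]
    exact hb
  · rintro ⟨hw, hb⟩
    obtain ⟨h1, h2, h3⟩ := h hw
    refine ⟨hw, ?_⟩
    unfold Net.blocked at hb ⊢
    rw [h1, h2, h3]
    exact hb

/-- Outside functions on the box. -/
lemma OutM.agOut' {F : Set (ℤ × ℤ)} (hD : ∀ i : V6 B ⊕ F6 B, (n6 B).inD (in6 B F) i →
      Ins F (Sum.elim (fun v : V6 B => v.1) (fun f : F6 B => f.1) i)) {Θ : Hgt → Set Pt → ℝ}
    (hΘ : OutM F Θ) {x y : Net.Cfg (V6 B) (F6 B) (E6 B) K} (h : (n6 B).agOut (in6 B F) x y)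
    (s s' : V6 B ⊕ F6 B → Bool) : Θ (hg6 x s) (bk6 x) = Θ (hg6 y s') (bk6 y) := by
  refine hΘ _ _ _ _ (fun q hq => ?_) (fun w hw => ?_)
  · have h1 : hg6 x s q = hg6 y s q := by
      refine hg6_congr q fun i hi => ⟨h.1 i fun h' => hq ?_, rfl⟩
      rw [← hi]
      exact hD i h'
    rw [h1]
    exact abs_eq_of y s s' q
  · refine bk6_congr fun hwB => ?_
    have hE : ¬ (n6 B).inE (in6 B F) ⟨w, hwB⟩ := hw
    refine ⟨h.2 _ hE, h.1 _ fun h' => hE ?_, h.1 _ fun h' => hE ?_⟩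
    · exact ⟨h' _ ((n6 B).huf ⟨w, hwB⟩), h' _ ((n6 B).hug ⟨w, hwB⟩)⟩
    · exact ⟨h' _ ((n6 B).hvf ⟨w, hwB⟩), h' _ ((n6 B).hvg ⟨w, hwB⟩)⟩

lemma OutM.agOut {F : Set (ℤ × ℤ)} (hI : NI B) (hB : Nb6 B F) {Θ : Hgt → Set Pt → ℝ}
    (hΘ : OutM F Θ) {x y : Net.Cfg (V6 B) (F6 B) (E6 B) K} (h : (n6 B).agOut (in6 B F) x y)
    (s s' : V6 B ⊕ F6 B → Bool) : Θ (hg6 x s) (bk6 x) = Θ (hg6 y s') (bk6 y) :=
  hΘ.agOut' (fun i => (ins_iff hI hB i).1) h s s'

lemma in6_compl (O : Set (ℤ × ℤ)) : in6 B Oᶜ = (in6 B O)ᶜ := by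
  ext f
  obtain ⟨g, hg⟩ := exists_od f
  constructor
  · rintro ⟨g1, h1, e1⟩ ⟨g2, h2, e2⟩
    have := fc_inj (e1.trans e2.symm)
    simp only [Sum.inr.injEq] at this
    rw [this] at h1
    exact h1 h2
  · intro h
    exact ⟨g, fun hO => h ⟨g, hO, hg⟩, hg⟩

lemma ins_compl {O : Set (ℤ × ℤ)} (hB : Nb6 B O) (i : V6 B ⊕ F6 B)
    (h : (n6 B).inD (in6 B Oᶜ) i) :
    Ins Oᶜ (Sum.elim (fun v : V6 B => v.1) (fun f : F6 B => f.1) i) := by
  rcases i with v | f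
  · obtain ⟨v', hv'⟩ := exists_ev v
    have e1 : FP.cf v.1 = .inl v' := by rw [← hv', cf_fc]
    simp only [Ins, Sum.elim_inl, e1]
    intro f hf hO
    have h6 : FP.fc (.inr f) ∈ B := hB.mem hO
    refine (mem_in6 (od6_fc h6)).1 (h ⟨_, od6_fc h6⟩ ?_) hO
    show Adj v.1 _
    rw [← hv']
    exact adj_fc.2 hf
  · obtain ⟨g, hg⟩ := exists_od f
    have e1 : FP.cf f.1 = .inr g := by rw [← hg, cf_fc]
    simp only [Ins, Sum.elim_inr, e1]
    obtain ⟨g', hg', he⟩ := h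
    rw [← hg] at he
    have := fc_inj he
    simp only [Sum.inr.injEq] at this
    rwa [← this]

lemma inD_of_ins {F : Set (ℤ × ℤ)} (i : V6 B ⊕ F6 B)
    (h : Ins F (Sum.elim (fun v : V6 B => v.1) (fun f : F6 B => f.1) i)) :
    (n6 B).inD (in6 B F) i := by
  rcases i with v | f
  · obtain ⟨v', hv'⟩ := exists_ev v
    have e1 : FP.cf v.1 = .inl v' := by rw [← hv', cf_fc]
    simp only [Ins, Sum.elim_inl, e1] at h
    intro f hf
    obtain ⟨g, hg⟩ := exists_od f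
    have hf' : Adj v.1 f.1 := hf
    rw [← hv', ← hg, adj_fc] at hf'
    exact ⟨g, h g hf', hg⟩
  · obtain ⟨g, hg⟩ := exists_od f
    have e1 : FP.cf f.1 = .inr g := by rw [← hg, cf_fc]
    simp only [Ins, Sum.elim_inr, e1] at h
    exact ⟨g, h, hg⟩

/-- Inside functions on the box. -/
lemma InM.agIn {F : Set (ℤ × ℤ)} {A : Hgt → Set Pt → ℝ} (hA : InM F A)
    {x y : Net.Cfg (V6 B) (F6 B) (E6 B) K} (h : (n6 B).agIn (in6 B F) x y)
    {s s' : V6 B ⊕ F6 B → Bool} (hs : ∀ i, (n6 B).inD (in6 B F) i → s i = s' i) :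
    A (hg6 x s) (bk6 x) = A (hg6 y s') (bk6 y) := by
  refine hA _ _ _ _ (fun q hq => ?_) (fun w hw hw1 hw2 => ?_)
  · refine hg6_congr q fun i hi => ?_
    have hD : (n6 B).inD (in6 B F) i := inD_of_ins i (by rw [hi]; exact hq)
    exact ⟨h.1 i hD, hs i hD⟩
  · refine bk6_congr fun hwB => ?_
    refine ⟨h.2 ⟨w, hwB⟩ hw, h.1 _ (inD_of_ins _ ?_), h.1 _ (inD_of_ins _ ?_)⟩
    · exact hw1
    · exact hw2

/-- Decreasing functions on the box. -/
lemma DecM.anti {X : Hgt → Set Pt → ℝ} (hX : DecM X) {x y : Net.Cfg (V6 B) (F6 B) (E6 B) K}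
    (h : x ≤ y) (s s' : V6 B ⊕ F6 B → Bool) : X (hg6 y s') (bk6 y) ≤ X (hg6 x s) (bk6 x) :=
  hX _ _ _ _ (fun q => abs_le_of h s s' q) (bk6_anti h)

/-! ### The inequalities on the box -/

/-- Sums over the configurations of the box with free heights. -/
noncomputable def J6 (B : Finset (ℤ × ℤ)) (K : ℕ) (t : ℝ) (G : Hgt → Set Pt → ℝ) : ℝ :=
  (n6 B).J (K := K) t Net.κ6 (Net.β6 t) (fun x s => G (hg6 x s) (bk6 x))

/-- The zero boundary condition. -/
noncomputable def Jz (B : Finset (ℤ × ℤ)) (K : ℕ) (t : ℝ) (F : Set (ℤ × ℤ))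
    (G : Hgt → Set Pt → ℝ) : ℝ :=
  (n6 B).J (K := K) t Net.κ6 (Net.β6 t)
    (fun x s => (n6 B).zbi (in6 B F) x * G (hg6 x s) (bk6 x))

lemma Jz_one_pos {t : ℝ} (ht : 0 < t) (ht1 : t ≤ 1) (F : Set (ℤ × ℤ)) :
    0 < Jz B K t F (fun _ _ => 1) := by
  have := (n6 B).J_zbi_pos (K := K) ht.le Net.κ6_nonneg (Net.β6_nonneg ht.le ht1)
    (fun i => Net.κ6_pos i 0) (fun e => Net.β6_pos ht e) (in6 B F)
  unfold Jz
  simpa only [mul_one] using this

/-- LOW on the box. -/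
theorem low6 {t : ℝ} (ht : 0 < t) (ht1 : t ≤ 1) {F : Set (ℤ × ℤ)} (hI : NI B) (hB : Nb6 B F)
    {A Θ : Hgt → Set Pt → ℝ} (hA : PosM A) (hΘ0 : ∀ h b, 0 ≤ Θ h b) (hΘ : OutM F Θ) :
    Jz B K t F A * J6 B K t Θ ≤
      Jz B K t F (fun _ _ => 1) * J6 B K t (fun h b => Θ h b * A h b) := by
  have key := (n6 B).zero_le_out (K := K) ht.le ht1 (κ := Net.κ6) Net.κ6_nonneg (β := Net.β6 t)
    (Net.β6_nonneg ht.le ht1) (in6 B F) (X := fun _ => 1)
    (Θ := fun x => Θ (hg6 x (fun _ => false)) (bk6 x)) (C := fun _ => 1)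
    (fun _ => zero_le_one) (fun _ _ _ => le_rfl) (fun _ => hΘ0 _ _)
    (fun x y h => hΘ.agOut hI hB h _ _) (fun _ => zero_le_one) (fun _ _ _ => le_rfl) hA.mon
  simp only [one_mul, mul_one] at key
  have e1 : ∀ (x : Net.Cfg (V6 B) (F6 B) (E6 B) K) (s : V6 B ⊕ F6 B → Bool),
      Θ (hg6 x (fun _ => false)) (bk6 x) = Θ (hg6 x s) (bk6 x) := fun x s =>
    hΘ.agOut hI hB ((n6 B).agOut_refl _ x) _ _
  unfold Jz J6
  simp only [mul_one]
  have e2 : (fun (x : Net.Cfg (V6 B) (F6 B) (E6 B) K) (s : V6 B ⊕ F6 B → Bool) =>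
      Θ (hg6 x (fun _ => false)) (bk6 x) * A (hg6 x s) (bk6 x)) =
      fun x s => Θ (hg6 x s) (bk6 x) * A (hg6 x s) (bk6 x) := by
    funext x s
    rw [e1 x s]
  have e3 : (fun (x : Net.Cfg (V6 B) (F6 B) (E6 B) K) (_ : V6 B ⊕ F6 B → Bool) =>
      Θ (hg6 x (fun _ => false)) (bk6 x)) = fun x s => Θ (hg6 x s) (bk6 x) := by
    funext x s
    rw [e1 x s]
  rw [e2, e3] at key
  exact key

/-- EXT on the box: `O` and `I` are sets of faces of the square lattice. -/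
theorem ext6 {t : ℝ} (ht : 0 < t) (ht1 : t ≤ 1) {O I : Set (ℤ × ℤ)} (hN : (n6 B).Loc)
    {A X Θ : Hgt → Set Pt → ℝ} (hA : PosM A) (hAI : InM I A)
    (hX0 : ∀ h b, 0 ≤ X h b) (hX : DecM X)
    (hXd : ∀ x s, X (hg6 x s) (bk6 x) ≠ 0 → Disjoint ((n6 B).expl (K := K) (in6 B O) x) (in6 B I))
    (hΘ0 : ∀ h b, 0 ≤ Θ h b)
    (hΘ : ∀ x y s s', (n6 B).agOut (K := K) (in6 B O)ᶜ x y →
      Θ (hg6 x s) (bk6 x) = Θ (hg6 y s') (bk6 y)) :
    J6 B K t (fun h b => X h b * A h b) * J6 B K t Θ ≤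
      J6 B K t X * J6 B K t (fun h b => Θ h b * A h b) := by
  have hXs : ∀ (x : Net.Cfg (V6 B) (F6 B) (E6 B) K) (s s' : V6 B ⊕ F6 B → Bool),
      X (hg6 x s) (bk6 x) = X (hg6 x s') (bk6 x) := fun x s s' =>
    le_antisymm (hX.anti le_rfl s' s) (hX.anti le_rfl s s')
  have key := (n6 B).ext_le hN ht.le ht1 (κ := Net.κ6) Net.κ6_nonneg (β := Net.β6 t)
    (Net.β6_nonneg ht.le ht1) (fun i => Net.κ6_pos i 0) (fun e => Net.β6_pos ht e)
    (O := in6 B O) (I := in6 B I)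
    (X := fun x => X (hg6 x (fun _ => false)) (bk6 x))
    (Θ := fun x => Θ (hg6 x (fun _ => false)) (bk6 x))
    (fun _ => hX0 _ _) (fun x y h => hX.anti h _ _) (fun x h => hXd x _ h) (fun _ => hΘ0 _ _)
    (fun x y h => hΘ x y _ _ h) hA.mon (fun x x' s s' h hs => hAI.agIn h hs)
  have e1 : ∀ (x : Net.Cfg (V6 B) (F6 B) (E6 B) K) (s : V6 B ⊕ F6 B → Bool),
      Θ (hg6 x (fun _ => false)) (bk6 x) = Θ (hg6 x s) (bk6 x) := fun x s =>
    hΘ x x _ _ ((n6 B).agOut_refl _ x)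
  have e1' : ∀ (x : Net.Cfg (V6 B) (F6 B) (E6 B) K) (s : V6 B ⊕ F6 B → Bool),
      X (hg6 x (fun _ => false)) (bk6 x) = X (hg6 x s) (bk6 x) := fun x s => hXs x _ _
  have e2 : (fun (x : Net.Cfg (V6 B) (F6 B) (E6 B) K) (s : V6 B ⊕ F6 B → Bool) =>
      Θ (hg6 x (fun _ => false)) (bk6 x) * A (hg6 x s) (bk6 x)) =
      fun x s => Θ (hg6 x s) (bk6 x) * A (hg6 x s) (bk6 x) := by
    funext x s
    rw [e1 x s]
  have e3 : (fun (x : Net.Cfg (V6 B) (F6 B) (E6 B) K) (_ : V6 B ⊕ F6 B → Bool) =>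
      Θ (hg6 x (fun _ => false)) (bk6 x)) = fun x s => Θ (hg6 x s) (bk6 x) := by
    funext x s
    rw [e1 x s]
  have e2' : (fun (x : Net.Cfg (V6 B) (F6 B) (E6 B) K) (s : V6 B ⊕ F6 B → Bool) =>
      X (hg6 x (fun _ => false)) (bk6 x) * A (hg6 x s) (bk6 x)) =
      fun x s => X (hg6 x s) (bk6 x) * A (hg6 x s) (bk6 x) := by
    funext x s
    rw [e1' x s]
  have e3' : (fun (x : Net.Cfg (V6 B) (F6 B) (E6 B) K) (_ : V6 B ⊕ F6 B → Bool) =>
      X (hg6 x (fun _ => false)) (bk6 x)) = fun x s => X (hg6 x s) (bk6 x) := by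
    funext x s
    rw [e1' x s]
  rw [e2, e3, e2', e3'] at key
  exact key

/-- One step between faces of the square lattice which does not cross a blocked vertex. -/
def st6 (b : Set Pt) (f g : ℤ × ℤ) : Prop :=
  ∃ w, w ∉ b ∧ ((FB.o1 w = FP.fc (.inr f) ∧ FB.o2 w = FP.fc (.inr g)) ∨
    (FB.o1 w = FP.fc (.inr g) ∧ FB.o2 w = FP.fc (.inr f)))

/-- The faces joined to `S` are in `T`. -/
def Cf6 (b : Set Pt) (S T : Set (ℤ × ℤ)) : Prop :=
  ∀ f ∈ S, ∀ g, Relation.ReflTransGen (st6 b) f g → g ∈ T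

lemma expl_path {O : Set (ℤ × ℤ)} {x : Net.Cfg (V6 B) (F6 B) (E6 B) K} {f : F6 B}
    (h : f ∈ (n6 B).expl (in6 B O) x) : ∃ f0 ∈ O, ∃ g, FP.fc (.inr g) = f.1 ∧
      Relation.ReflTransGen (st6 (bk6 x)) f0 g := by
  obtain ⟨f0, ⟨g0, hg0, hgf⟩, hp⟩ := h
  refine ⟨g0, hg0, ?_⟩
  induction hp with
  | refl => exact ⟨g0, hgf, Relation.ReflTransGen.refl⟩
  | @tail u v _ huv ih =>
    obtain ⟨g, hg, hgp⟩ := ih
    obtain ⟨e, he, hor⟩ := huv
    obtain ⟨g', hg'⟩ := exists_od v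
    refine ⟨g', hg', hgp.tail ⟨e.1, ?_, ?_⟩⟩
    · rintro ⟨h1, h2⟩
      exact he h2
    · rcases hor with ⟨h1, h2⟩ | ⟨h1, h2⟩
      · left
        rw [hg, hg', ← h1, ← h2]
        exact ⟨rfl, rfl⟩
      · right
        rw [hg, hg', ← h1, ← h2]
        exact ⟨rfl, rfl⟩

lemma Cf6.disj {O I : Set (ℤ × ℤ)} {x : Net.Cfg (V6 B) (F6 B) (E6 B) K}
    (h : Cf6 (bk6 x) O Iᶜ) : Disjoint ((n6 B).expl (in6 B O) x) (in6 B I) := by
  rw [Set.disjoint_left]
  rintro f h1 ⟨g', hg', he⟩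
  obtain ⟨f0, hf0, g, hg, hp⟩ := expl_path h1
  rw [← hg] at he
  have := fc_inj he
  simp only [Sum.inr.injEq] at this
  exact h f0 hf0 g hp (this ▸ hg')

/-- EXT on the box, plane form. -/
theorem ext6' {t : ℝ} (ht : 0 < t) (ht1 : t ≤ 1) {O I : Set (ℤ × ℤ)} (hN : (n6 B).Loc)
    (hB : Nb6 B O) {A X Θ : Hgt → Set Pt → ℝ} (hA : PosM A) (hAI : InM I A)
    (hX0 : ∀ h b, 0 ≤ X h b) (hX : DecM X) (hXd : ∀ h b, X h b ≠ 0 → Cf6 b O Iᶜ)
    (hΘ0 : ∀ h b, 0 ≤ Θ h b) (hΘ : OutM Oᶜ Θ) :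
    J6 B K t (fun h b => X h b * A h b) * J6 B K t Θ ≤
      J6 B K t X * J6 B K t (fun h b => Θ h b * A h b) := by
  refine ext6 ht ht1 hN hA hAI hX0 hX (fun x s h => (hXd _ _ h).disj) hΘ0 ?_
  intro x y s s' h
  rw [← in6_compl] at h
  exact hΘ.agOut' (fun i hi => ins_compl hB i hi) h s s'

end box

end Vale.Agent.P145.FK
end

section

/-!
P145: zero boundary expectations of functions of the heights and the blocked edges, in the
coordinates of the six-vertex lattice.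
-/

namespace Vale.Agent.P145.FK

open Finset MeasureTheory Vale.Agent.P145.FP Vale.Agent.P145.Dom
open Vale.Agent.P145.FA (Hgt)
open Vale.Agent.P145.FB (Pt Mk)
open scoped Classical

namespace Net

variable {V F E : Type*} [Fintype V] [Fintype F] [Fintype E]

/-- The probability of the value `b` of the edge variable. -/
noncomputable def mueN (N : Net V F E) (t : ℝ) (S : Set F) (y : V ⊕ F → ℤ) (e : E)
    (b : Bool) : ℝ :=
  if N.inE S e then
    (if y (.inl (N.u e)) = 0 ∧ y (.inl (N.v e)) = 0 then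
      (if y (.inr (N.f e)) = y (.inr (N.g e)) then (if b = true then 1 - t else t)
        else (if b = true then 0 else 1))
      else (if b = true then 1 else 0))
  else (if b = true then 0 else 1)

/-- The edge variable as a function of the mark. -/
noncomputable def rveN (N : Net V F E) (S : Set F) (y : V ⊕ F → ℤ) (e : E) (b : Bool) : Bool :=
  if N.inE S e then
    (if y (.inl (N.u e)) = 0 ∧ y (.inl (N.v e)) = 0 then
      (if y (.inr (N.f e)) = y (.inr (N.g e)) then !b else false) else true)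
  else false

omit [Fintype V] [Fintype F] [Fintype E] in
lemma sum_rveN (N : Net V F E) (t : ℝ) (S : Set F) (y : V ⊕ F → ℤ) (e : E) (w : Bool) :
    ∑ z ∈ Finset.univ.filter (fun z => N.rveN S y e z = w), (if z = true then t else 1 - t) =
      N.mueN t S y e w := by
  rw [Finset.sum_filter, Fintype.sum_bool]
  unfold rveN mueN
  by_cases h : N.inE S e
  · by_cases h1 : y (.inl (N.u e)) = 0 ∧ y (.inl (N.v e)) = 0
    · by_cases h3 : y (.inr (N.f e)) = y (.inr (N.g e))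
      · cases w <;> simp [h, h1, h3]
      · cases w <;> simp [h, h1, h3]
    · cases w <;> simp [h, h1]
  · cases w <;> simp [h]

omit [Fintype V] [Fintype F] in
lemma Phi_prodN (N : Net V F E) {t : ℝ} (ht : 0 < t) {S : Set F}
    {y : V ⊕ F → ℤ} (h : N.HS S y) (w : E → Bool) :
    N.Φ t S (toCf y w) = N.hw t⁻¹ S y * ∏ e, N.mueN t S y e (w e) := by
  unfold Net.hw
  rw [← Finset.prod_mul_distrib]
  have e1 : N.Φ t S (Net.toCf y w) = ∏ e, (if N.inE S e then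
      (if w e = false ∧ ¬ (y (.inl (N.u e)) = 0 ∧ y (.inl (N.v e)) = 0) then 0
        else (if y (.inl (N.u e)) = 0 ∧ y (.inl (N.v e)) = 0 then
          (if w e = true then (if y (.inr (N.f e)) = y (.inr (N.g e)) then t⁻¹ - 1 else 0) else 1)
          else (if y (.inl (N.u e)) = y (.inl (N.v e)) ∧ y (.inr (N.f e)) = y (.inr (N.g e))
            then t⁻¹ else 1)))
      else (if w e = true then 0 else 1)) := by
    unfold Net.Φ
    by_cases hC : Net.toCf y w ∈ FC.Cfg N.toInc (N.UU S) S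
    · rw [if_pos hC]
      unfold FC.wt
      refine Finset.prod_congr rfl fun e _ => ?_
      by_cases he : N.inE S e
      · have he' : N.toInc.a e ∈ S ∧ N.toInc.b e ∈ S := he
        rw [if_pos he, if_pos he', if_neg]
        · rfl
        · rintro ⟨hw, hn⟩
          exact hn (hC.2.2.2.2.2 e he.1 he.2 hw)
      · have he' : ¬ (N.toInc.a e ∈ S ∧ N.toInc.b e ∈ S) := he
        have hw : w e = false := hC.2.2.2.2.1 e he
        rw [if_neg he, if_neg he', if_neg]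
        rw [hw]
        simp
    · rw [if_neg hC]
      have hn : ¬ ((∀ e, ¬ N.inE S e → w e = false) ∧
          (∀ e, N.inE S e → w e = false → y (.inl (N.u e)) = 0 ∧ y (.inl (N.v e)) = 0)) := by
        intro h'
        exact hC ⟨h.1, h.2.1, h.2.2.1, h.2.2.2, h'.1, fun e h1 h2 => h'.2 e ⟨h1, h2⟩⟩
      symm
      by_cases h2 : ∀ e, ¬ N.inE S e → w e = false
      · have h3 : ¬ ∀ e, N.inE S e → w e = false → y (.inl (N.u e)) = 0 ∧
            y (.inl (N.v e)) = 0 := fun h' => hn ⟨h2, h'⟩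
        push Not at h3
        obtain ⟨e, he, hw, hz⟩ := h3
        refine Finset.prod_eq_zero (Finset.mem_univ e) ?_
        rw [if_pos he, if_pos]
        exact ⟨hw, fun h' => hz h'.1 h'.2⟩
      · push Not at h2
        obtain ⟨e, he, hw⟩ := h2
        refine Finset.prod_eq_zero (Finset.mem_univ e) ?_
        rw [if_neg he, if_pos]
        simpa using hw
  rw [e1]
  refine Finset.prod_congr rfl fun e _ => ?_
  unfold mueN
  have ht' : t⁻¹ * t = 1 := inv_mul_cancel₀ ht.ne'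
  by_cases he : N.inE S e
  · simp only [if_pos he]
    by_cases hz : y (.inl (N.u e)) = 0 ∧ y (.inl (N.v e)) = 0
    · have huv : y (.inl (N.u e)) = y (.inl (N.v e)) := hz.1.trans hz.2.symm
      by_cases hk : y (.inr (N.f e)) = y (.inr (N.g e))
      · cases hw : w e
        · simp [hz, hk, ht']
        · simp [hz, hk, mul_sub, ht']
      · cases hw : w e <;> simp [hz, hk]
    · cases hw : w e <;> simp [hz]
  · simp [he]

omit [Fintype V] [Fintype F] in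
/-- Summation over the edge variables: the marks. -/
theorem sum_coinN (N : Net V F E) {t : ℝ} (ht : 0 < t) (ht1 : t ≤ 1) {S : Set F}
    {y : V ⊕ F → ℤ} (h : N.HS S y) {g : E → ℤ × ℤ} (hg : Function.Injective g)
    (H : (E → Bool) → ℝ) :
    ∑ w : E → Bool, N.Φ t S (toCf y w) * H w =
      N.hw t⁻¹ S y * ∫ ξ, H (fun e => N.rveN S y e (ξ (g e))) ∂(FB.mkm t) := by
  have e2 := mkm_fin ht.le ht1 hg (fun η => H (fun e => N.rveN S y e (η e)))
  have e3 := sum_fiber (fun e b => N.rveN S y e b) (fun _ => Finset.univ)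
    (fun _ _ => Finset.mem_univ _) (fun _ b => if b = true then t else 1 - t) H
  rw [Fintype.piFinset_univ] at e3
  have e4 : ∑ η : E → Bool, (∏ e, (if η e = true then t else 1 - t)) *
      H (fun e => N.rveN S y e (η e)) =
      ∑ w : E → Bool, (∏ e, N.mueN t S y e (w e)) * H w := by
    refine Eq.trans ?_ (e3.trans ?_)
    · exact Finset.sum_congr (Finset.ext fun _ => by simp) fun _ _ => rfl
    · refine Finset.sum_congr (Finset.ext fun _ => by simp) fun w _ => ?_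
      congr 1
      refine Finset.prod_congr rfl fun e _ => ?_
      rw [← sum_rveN]
  have e5 := e2.trans (Eq.trans (Finset.sum_congr (Finset.ext fun _ => by simp)
    fun _ _ => rfl) e4)
  refine Eq.trans ?_ (congrArg (fun z => N.hw t⁻¹ S y * z) e5).symm
  rw [Finset.mul_sum]
  refine Finset.sum_congr (Finset.ext fun _ => by simp) fun w _ => ?_
  rw [N.Phi_prodN ht h, mul_assoc]

/-- The bridge for functions of the heights and of the edge variables. -/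
theorem bridge_coin (N : Net V F E) {K : ℕ} {t : ℝ} (ht : 0 < t) (ht1 : t ≤ 1) (S : Set F)
    {g : E → ℤ × ℤ} (hg : Function.Injective g) (H : (V ⊕ F → ℤ) → (E → Bool) → ℝ) :
    N.J (K := K) t κ6 (β6 t) (fun x s => N.zbi S x *
        H (fun i => pv (V := V) S i (x.1 i, s i)) (N.wx x))
      = (t ^ Fintype.card E * 2 ^ (Finset.univ.filter (fun f => f ∉ S)).card) *
        ∑ y ∈ TTs (V := V) K S, (if N.HS S y then N.hw t⁻¹ S y else 0) *
          ∫ ξ, H y (fun e => N.rveN S y e (ξ (g e))) ∂(FB.mkm t) := by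
  have h1 := bridge_sum (K := K) N ht S (fun y => H (Sum.elim y.h y.k) y.w)
  have e1 : (fun (x : Cfg V F E K) (s : V ⊕ F → Bool) => N.zbi S x *
      H (Sum.elim (N.img S x s).h (N.img S x s).k) (N.img S x s).w) =
      fun x s => N.zbi S x * H (fun i => pv (V := V) S i (x.1 i, s i)) (N.wx x) := by
    funext x s
    by_cases hz : N.zb S x
    · have e2 : (Sum.elim (N.img S x s).h (N.img S x s).k : V ⊕ F → ℤ) =
          fun i => Net.pv (V := V) S i (x.1 i, s i) := by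
        funext i
        rcases i with v | f <;> rfl
      have e3 : (N.img S x s).w = N.wx x := by
        funext e
        rw [Bool.eq_iff_iff, Net.img_w_true, Net.wx_true]
        refine ⟨fun h => h.2, fun h => ⟨?_, h⟩⟩
        by_contra he
        apply h
        have hu : ¬ N.inD S (.inl (N.u e)) := fun h' =>
          he ⟨h' _ (N.huf e), h' _ (N.hug e)⟩
        have hv : ¬ N.inD S (.inl (N.v e)) := fun h' =>
          he ⟨h' _ (N.hvf e), h' _ (N.hvg e)⟩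
        exact ⟨hz.1 _ hu, hz.1 _ hv, hz.2 e he⟩
      rw [e2, e3]
    · have h0 : N.zbi S x = 0 := if_neg hz
      rw [h0, zero_mul, zero_mul]
  rw [e1] at h1
  rw [h1]
  congr 1
  unfold Net.TTs
  refine Finset.sum_congr rfl fun y _ => ?_
  by_cases hy : N.HS S y
  · rw [if_pos hy]
    have e6 := N.sum_coinN ht ht1 hy hg (fun w => H y w)
    rw [← e6]
    refine Finset.sum_congr (Finset.ext fun _ => by simp) fun w _ => ?_
    have e4 : (Sum.elim (Net.toCf y w : FC.Cf V F E).h (Net.toCf y w).k :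
        V ⊕ F → ℤ) = y := by
      funext i
      rcases i with v | f <;> rfl
    rw [e4]
    rfl
  · rw [if_neg hy, zero_mul]
    refine Finset.sum_eq_zero fun w _ => ?_
    have h0 : N.Φ t S (Net.toCf y w) = 0 := by
      unfold Net.Φ
      rw [if_neg]
      intro hC
      exact hy ⟨hC.1, hC.2.1, hC.2.2.1, hC.2.2.2.1⟩
    rw [h0, zero_mul]

end Net

/-- `A` depends on the heights at the even faces and on the blocked vertices of `B`. -/
def EvM (B : Finset (ℤ × ℤ)) (A : Hgt → Set Pt → ℝ) : Prop :=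
  ∀ h h' b b', (∀ q : ℤ × ℤ, Even (q.1 + q.2) → h q = h' q) →
    (∀ w ∈ FC.VB B, (w ∈ b ↔ w ∈ b')) → A h b = A h' b'

lemma intE_iff {F : Set (ℤ × ℤ)} {w : ℤ × ℤ} : intE F w ↔ In6 F w := by
  unfold intE In6
  constructor
  · rintro ⟨⟨f, hf, h1⟩, ⟨g, hg, h2⟩⟩
    exact ⟨⟨f, hf, h1.symm⟩, ⟨g, hg, h2.symm⟩⟩
  · rintro ⟨⟨f, hf, h1⟩, ⟨g, hg, h2⟩⟩
    exact ⟨⟨f, hf, h1.symm⟩, ⟨g, hg, h2.symm⟩⟩

lemma ex6_even {B : Finset (ℤ × ℤ)} {y y' : V6 B ⊕ F6 B → ℤ} (h : ∀ v, y (.inl v) = y' (.inl v))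
    {q : ℤ × ℤ} (hq : Even (q.1 + q.2)) : ex6 y q = ex6 y' q := by
  unfold ex6
  by_cases h1 : q ∈ ev6 B
  · rw [dif_pos h1, dif_pos h1, h]
  · have h2 : q ∉ od6 B := fun h' => (mem_od6.1 h').2 hq
    rw [dif_neg h1, dif_neg h1, dif_neg h2, dif_neg h2]

lemma blM_rve {B F : Finset (ℤ × ℤ)} (y : V6 B ⊕ F6 B → ℤ) (ξ : FB.Mk) (w : E6 B) :
    blM F (fun s => ex6 y (fc s)) ξ w.1 = true ↔
      (n6 B).rveN (in6 B F) y w (ξ w.1) = false := by
  have hx : ∀ q, ex6 y (fc (cf q)) = ex6 y q := fun q => by rw [fc_cf]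
  have e1 : ex6 y (FB.e1 w.1) = y (.inl ((n6 B).u w)) := ex6_inl y ((n6 B).u w)
  have e2 : ex6 y (FB.e2 w.1) = y (.inl ((n6 B).v w)) := ex6_inl y ((n6 B).v w)
  have e3 : ex6 y (FB.o1 w.1) = y (.inr ((n6 B).f w)) := ex6_inr y ((n6 B).f w)
  have e4 : ex6 y (FB.o2 w.1) = y (.inr ((n6 B).g w)) := ex6_inr y ((n6 B).g w)
  unfold blM Net.rveN
  simp only [hx, e1, e2, e3, e4]
  by_cases h : (n6 B).inE (in6 B F) w
  · rw [if_pos (intE_iff.2 ((inE_iff w).1 h)), if_pos h]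
    by_cases h1 : y (.inl ((n6 B).u w)) = 0
    · by_cases h2 : y (.inl ((n6 B).v w)) = 0
      · by_cases h3 : y (.inr ((n6 B).f w)) = y (.inr ((n6 B).g w))
        · cases h4 : ξ w.1 <;> simp [h1, h2, h3]
        · simp only [h1, h2, ne_eq, h3, not_false_eq_true, true_or, and_self, decide_true, ↓reduceIte]
      · simp [h2]
    · simp [h1]
  · rw [if_neg (fun h' => h ((inE_iff w).2 (intE_iff.1 h'))), if_neg h]
    simp

/-- The constant in the bridge. -/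
noncomputable def Cst6 (t : ℝ) (B : Finset (ℤ × ℤ)) (F : Set (ℤ × ℤ)) : ℝ :=
  t ^ Fintype.card (E6 B) * 2 ^ (Finset.univ.filter (fun f => f ∉ in6 B F)).card

/-- The bridge for functions of the heights and the blocked edges. -/
theorem Jz_zsM {B F : Finset (ℤ × ℤ)} (hI : NI B) (hB : Nb6 B F) {K : ℕ} (hK : KF F ≤ K)
    {t : ℝ} (ht : 0 < t) (ht1 : t ≤ 1) {A : Hgt → Set Pt → ℝ} (hA : EvM B A) :
    Jz B K t F A = Cst6 t B F *
      zs t⁻¹ F (fun x => ∫ ξ, A (fun q => x (cf q)) {w | blM F x ξ w = true} ∂(FB.mkm t)) := by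
  have h1 := (n6 B).bridge_coin (K := K) ht ht1 (in6 B F)
    (g := fun w : E6 B => w.1) Subtype.val_injective
    (fun y u => A (ex6 y) {w | ∃ h : w ∈ FC.VB B, u ⟨w, h⟩ = false})
  rw [zs6_eq hI hB hK]
  refine Eq.trans ?_ (h1.trans ?_)
  · unfold Jz
    congr 1
    funext x s
    congr 1
    refine hA _ _ _ _ (fun q hq => ?_) (fun w hw => ?_)
    · unfold hg6
      refine ex6_even ?_ hq
      intro v
      rfl
    constructor
    · rintro ⟨h, hb⟩
      refine ⟨h, ?_⟩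
      by_contra h'
      rw [Bool.not_eq_false, Net.wx_true] at h'
      exact h' hb
    · rintro ⟨h, hb⟩
      refine ⟨h, ?_⟩
      by_contra h'
      rw [← Net.wx_true] at h'
      rw [hb] at h'
      exact Bool.noConfusion h'
  · unfold Cst6
    refine congrArg _ (Finset.sum_congr rfl fun y _ => ?_)
    congr 1
    refine integral_congr_ae (Filter.Eventually.of_forall fun ξ => ?_)
    have hx : (fun q => ex6 y (fc (cf q))) = ex6 y := by
      funext q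
      rw [fc_cf]
    simp only [hx]
    refine hA _ _ _ _ (fun q _ => rfl) (fun w hw => ?_)
    constructor
    · rintro ⟨h, hb⟩
      exact (blM_rve y ξ ⟨w, h⟩).2 hb
    · intro h
      exact ⟨hw, (blM_rve y ξ ⟨w, hw⟩).1 h⟩

/-- The zero boundary sums of the box in terms of the zero boundary expectation. -/
theorem Jz_zeM {B F : Finset (ℤ × ℤ)} (hI : NI B) (hB : Nb6 B F) {K : ℕ} (hK : KF F ≤ K)
    {t : ℝ} (ht : 0 < t) (ht1 : t ≤ 1) {A : Hgt → Set Pt → ℝ} (hA : EvM B A) :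
    Jz B K t F A = Jz B K t F (fun _ _ => 1) *
      zeM t⁻¹ F (fun x b => A (fun q => x (cf q)) {w | b w = true}) := by
  have h1 := Jz_zsM hI hB hK ht ht1 hA
  have h2 := Jz_zsM hI hB hK ht ht1 (A := fun _ _ => 1) (fun _ _ _ _ _ _ => rfl)
  simp only [integral_const, probReal_univ, smul_eq_mul, mul_one] at h2
  have h3 := zs_one_pos F ht ht1
  rw [h1, h2, zeM, inv_inv, ze, mul_assoc, mul_div_cancel₀ _ h3.ne']

end Vale.Agent.P145.FK
end

section

/-!
P145, block X: reflection of the Ashkin-Teller lattice in the first axis. The faces `FP.fc s` and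
`av v`, `af f` of the six-vertex lattice differ by this reflection.
-/

namespace Vale.Agent.P145.X

open Filter Topology Set MeasureTheory
open Vale.Agent.P145.FP (Site)
open Vale.Agent.P145.Dom (ZH zw zs ze)
open Vale.Agent.P145.Top (vh Om)

/-- Reflection of the vertices. -/
def rv (v : ℤ × ℤ) : ℤ × ℤ := (v.1, -v.2)

/-- Reflection of the faces. -/
def rf (f : ℤ × ℤ) : ℤ × ℤ := (f.1, -f.2 - 1)

@[simp] theorem rv_rv (v : ℤ × ℤ) : rv (rv v) = v := Prod.ext rfl (by simp [rv])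
@[simp] theorem rf_rf (f : ℤ × ℤ) : rf (rf f) = f := Prod.ext rfl (by simp [rf])

theorem rf_inj : Function.Injective rf := Function.LeftInverse.injective rf_rf
theorem rv_inj : Function.Injective rv := Function.LeftInverse.injective rv_rv

/-- Reflection of the sites. -/
def rs : Site → Site
  | Sum.inl v => Sum.inl (rv v)
  | Sum.inr f => Sum.inr (rf f)

@[simp] theorem rs_rs (s : Site) : rs (rs s) = s := by cases s <;> simp [rs]

theorem fc_rs (s : Site) : FP.fc (rs s) = s.elim av af := by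
  cases s with
  | inl v =>
    show ((v.1 - -v.2, v.1 + -v.2) : ℤ × ℤ) = (v.1 + v.2, v.1 - v.2)
    exact Prod.ext (by ring) (by ring)
  | inr f =>
    show ((f.1 - (-f.2 - 1), f.1 + (-f.2 - 1) + 1) : ℤ × ℤ) = (f.1 + f.2 + 1, f.1 - f.2)
    exact Prod.ext (by ring) (by ring)

theorem fc_rv (v : ℤ × ℤ) : FP.fc (Sum.inl (rv v)) = av v := fc_rs (Sum.inl v)
theorem fc_rf (f : ℤ × ℤ) : FP.fc (Sum.inr (rf f)) = af f := fc_rs (Sum.inr f)
theorem av_rv (v : ℤ × ℤ) : av (rv v) = FP.fc (Sum.inl v) := by rw [← fc_rv, rv_rv]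
theorem af_rf (f : ℤ × ℤ) : af (rf f) = FP.fc (Sum.inr f) := by rw [← fc_rf, rf_rf]

theorem vh_rs (x : Site → ℤ) (v : ℤ × ℤ) : vh (fun s => x (rs s)) v = vh x (rv v) := rfl

theorem mem_image_rf {F : Finset (ℤ × ℤ)} {f : ℤ × ℤ} : f ∈ F.image rf ↔ rf f ∈ F := by
  rw [Finset.mem_image]
  constructor
  · rintro ⟨g, hg, rfl⟩
    rwa [rf_rf]
  · intro h
    exact ⟨rf f, h, rf_rf f⟩

theorem zh_rs {F : Finset (ℤ × ℤ)} {x : Site → ℤ} (hx : x ∈ ZH F) :
    (fun s => x (rs s)) ∈ ZH (F.image rf) := by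
  obtain ⟨h1, h2, h3⟩ := hx
  refine ⟨fun v => h1 (rv v), fun f hf => h2 (rf f) fun h => hf (mem_image_rf.2 h),
    fun f a b ha hb => ?_⟩
  have hb' : (1 - b = 0 ∨ 1 - b = 1) := by omega
  have h := h3 (rf f) a (1 - b) ha hb'
  have e : (((rf f).1 + a, (rf f).2 + (1 - b)) : ℤ × ℤ) = rv (f.1 + a, f.2 + b) :=
    Prod.ext rfl (by simp only [rf, sub_add_sub_cancel, rv, neg_add_rev]; ring)
  rw [e] at h
  exact ⟨fun hf => h.1 fun h' => hf (mem_image_rf.2 h'), fun hf => h.2 (mem_image_rf.1 hf)⟩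

theorem image_rf_rf (F : Finset (ℤ × ℤ)) : (F.image rf).image rf = F := by
  ext f
  rw [mem_image_rf, mem_image_rf, rf_rf]

theorem zw_rs (c : ℝ) (F : Finset (ℤ × ℤ)) (x : Site → ℤ) :
    zw c (F.image rf) (fun s => x (rs s)) = zw c F x := by
  unfold zw
  congr 1
  · refine Finset.prod_nbij' rv rv ?_ ?_ (fun e _ => rv_rv e) (fun e _ => rv_rv e) ?_
    · intro e he
      rw [Finset.mem_filter, mem_image_rf, mem_image_rf] at he
      rw [Finset.mem_filter]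
      have e1 : rf (e - (0, 1)) = rv e := Prod.ext (by simp [rf, rv]) (by simp [rf, rv])
      have e2 : rf e = rv e - (0, 1) := Prod.ext (by simp [rf, rv]) (by simp [rf, rv])
      rw [e1, e2] at he
      exact ⟨he.2, he.1⟩
    · intro e he
      rw [Finset.mem_filter] at he
      rw [Finset.mem_filter, mem_image_rf, mem_image_rf]
      have e1 : rf (rv e - (0, 1)) = e := Prod.ext (by simp [rf, rv]) (by simp [rf, rv])
      have e2 : rf (rv e) = e - (0, 1) := Prod.ext (by simp [rf, rv]) (by simp [rf, rv])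
      rw [e1, e2]
      exact ⟨he.2, he.1⟩
    · intro e he
      have e1 : rs (Sum.inl (e.1 + 1, e.2)) = Sum.inl ((rv e).1 + 1, (rv e).2) := rfl
      have e2 : rs (Sum.inr e) = Sum.inr ((rv e).1, (rv e).2 - 1) := rfl
      have e3 : rs (Sum.inr (e.1, e.2 - 1)) = Sum.inr (rv e) :=
        congrArg Sum.inr (Prod.ext rfl (by simp only [rf, neg_sub, sub_sub_cancel_left, rv]))
      have e4 : rs (Sum.inl e) = Sum.inl (rv e) := rfl
      simp only [e1, e2, e3, e4]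
      have e5 : (x (Sum.inr ((rv e).1, (rv e).2 - 1)) = x (Sum.inr (rv e))) ↔
          (x (Sum.inr (rv e)) = x (Sum.inr ((rv e).1, (rv e).2 - 1))) := eq_comm
      simp only [e5]
  · refine Finset.prod_nbij' rf rf ?_ ?_ (fun e _ => rf_rf e) (fun e _ => rf_rf e) ?_
    · intro e he
      rw [Finset.mem_filter, mem_image_rf, mem_image_rf] at he
      rw [Finset.mem_filter]
      have e1 : rf (e - (1, 0)) = rf e - (1, 0) := Prod.ext (by simp only [rf, Prod.fst_sub, Prod.snd_sub, sub_zero, Prod.mk_sub_mk]) (by simp [rf])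
      rwa [e1] at he
    · intro e he
      rw [Finset.mem_filter] at he
      rw [Finset.mem_filter, mem_image_rf, mem_image_rf]
      have e1 : rf (rf e - (1, 0)) = e - (1, 0) := Prod.ext (by simp [rf]) (by simp only [rf, Prod.mk_sub_mk, sub_zero, neg_sub, sub_neg_eq_add, add_sub_cancel_left, Prod.snd_sub])
      rw [e1, rf_rf]
      exact he
    · intro e he
      have e1 : rs (Sum.inl (e.1, e.2 + 1)) = Sum.inl (rf e) :=
        congrArg Sum.inl (Prod.ext rfl (by simp only [rv, neg_add_rev, Int.reduceNeg, rf]; ring))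
      have e2 : rs (Sum.inl e) = Sum.inl ((rf e).1, (rf e).2 + 1) :=
        congrArg Sum.inl (Prod.ext rfl (by simp [rf, rv]))
      have e3 : rs (Sum.inr e) = Sum.inr (rf e) := rfl
      have e4 : rs (Sum.inr (e.1 - 1, e.2)) = Sum.inr ((rf e).1 - 1, (rf e).2) := rfl
      simp only [e1, e2, e3, e4]
      have e5 : (x (Sum.inl ((rf e).1, (rf e).2 + 1)) = x (Sum.inl (rf e))) ↔
          (x (Sum.inl (rf e)) = x (Sum.inl ((rf e).1, (rf e).2 + 1))) := eq_comm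
      simp only [e5]

theorem zs_rs (c : ℝ) (F : Finset (ℤ × ℤ)) (Φ : (Site → ℤ) → ℝ) :
    zs c (F.image rf) Φ = zs c F fun x => Φ fun s => x (rs s) := by
  unfold zs
  symm
  refine finsum_mem_eq_of_bijOn (fun x s => x (rs s)) ⟨fun x hx => zh_rs hx, ?_, ?_⟩ ?_
  · intro x _ y _ h
    funext s
    have := congrFun h (rs s)
    simpa using this
  · intro y hy
    refine ⟨fun s => y (rs s), ?_, ?_⟩
    · have := zh_rs hy
      rwa [image_rf_rf] at this
    · funext s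
      simp
  · intro x _
    rw [zw_rs]

/-- Reflection invariance of the zero boundary law. -/
theorem ze_rs (c : ℝ) (F : Finset (ℤ × ℤ)) (Φ : (Site → ℤ) → ℝ) :
    ze c (F.image rf) Φ = ze c F fun x => Φ fun s => x (rs s) := by
  unfold ze
  rw [zs_rs, zs_rs]

/-- The same for functions of the heights of the vertices. -/
theorem ze_rv (c : ℝ) (F : Finset (ℤ × ℤ)) (A : Om → ℝ) :
    ze c (F.image rf) (fun x => A (vh x)) = ze c F fun x => A fun v => vh x (rv v) :=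
  ze_rs c F fun x => A (vh x)

/-- The same, with the reflection on the other side. -/
theorem ze_rv' (c : ℝ) (F : Finset (ℤ × ℤ)) (A : Om → ℝ) :
    ze c (F.image rf) (fun x => A fun v => vh x (rv v)) = ze c F fun x => A (vh x) := by
  have h := ze_rv c F fun ω => A fun v => ω (rv v)
  simpa only [rv_rv] using h

end Vale.Agent.P145.X
end

section

/-!
P145, decay at the boundary: comparison of the probability of a connection under the zero boundary
condition with the one in the plane (`S_lowc`).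
-/

namespace Vale.Agent.P145.X

open Filter Topology Set MeasureTheory
open Vale.Agent.P152 (Ori)
open Vale.Agent.P145.FA (Hgt)
open Vale.Agent.P145.FB (Pt Mk e1 e2 o1 o2 MU mkm om)
open Vale.Agent.P145.FP (Site)
open Vale.Agent.P145.Top (Om)
open Vale.Agent.P145.Dom (ze)
open Vale.Agent.P145.FK (Nb boxN VB FB EB inB KF blM zeM intE we bwM)

namespace LC

/-! ### Reflection -/

theorem int_msw (t : ℝ) (H : Mk → ℝ) :
    ∫ ξ, H (fun w => ξ w.swap) ∂(mkm t) = ∫ ξ, H ξ ∂(mkm t) := by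
  have h := Measure.infinitePi_map_piCongrLeft (X := fun _ : Pt => Bool)
    (μ := fun _ : Pt => FB.bern t) (Equiv.prodComm ℤ ℤ)
  have e : ∀ ξ : Mk, (MeasurableEquiv.piCongrLeft (fun _ : Pt => Bool) (Equiv.prodComm ℤ ℤ) :
      Mk → Mk) ξ = fun w => ξ w.swap := by
    intro ξ
    funext w
    exact Equiv.piCongrLeft_apply_apply (P := fun _ : Pt => Bool) (Equiv.prodComm ℤ ℤ) ξ w.swap
  have h3 := integral_map_equiv (μ := mkm t)
    (MeasurableEquiv.piCongrLeft (fun _ : Pt => Bool) (Equiv.prodComm ℤ ℤ)) H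
  have h2 : (mkm t).map (MeasurableEquiv.piCongrLeft (fun _ : Pt => Bool)
      (Equiv.prodComm ℤ ℤ)) = mkm t := h
  rw [h2] at h3
  simp only [e] at h3
  exact h3.symm

theorem fc_swap (s : Site) : (FP.fc s).swap = FP.fc (rs s) := by
  rw [fc_rs]
  rcases s with v | f
  · rfl
  · rfl

theorem cf_swap (q : Pt) : FP.cf q.swap = rs (FP.cf q) := by
  have h := fc_swap (FP.cf q)
  rw [FP.fc_cf] at h
  rw [h, FP.cf_fc]

theorem e_swap (w : Pt) : s(e1 w.swap, e2 w.swap) = s((e1 w).swap, (e2 w).swap) := by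
  rw [Sym2.eq_iff]
  have hc : Even (w.swap.1 + w.swap.2) ↔ Even (w.1 + w.2) := by
    rw [Prod.fst_swap, Prod.snd_swap, add_comm]
  unfold e1 e2
  by_cases h : Even (w.1 + w.2)
  · rw [if_pos (hc.2 h), if_pos (hc.2 h), if_pos h, if_pos h]
    exact Or.inl ⟨rfl, rfl⟩
  · rw [if_neg fun h' => h (hc.1 h'), if_neg fun h' => h (hc.1 h'), if_neg h, if_neg h]
    exact Or.inr ⟨rfl, rfl⟩

theorem o_swap (w : Pt) : s(o1 w.swap, o2 w.swap) = s((o1 w).swap, (o2 w).swap) := by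
  rw [Sym2.eq_iff]
  have hc : Even (w.swap.1 + w.swap.2) ↔ Even (w.1 + w.2) := by
    rw [Prod.fst_swap, Prod.snd_swap, add_comm]
  unfold o1 o2
  by_cases h : Even (w.1 + w.2)
  · rw [if_pos (hc.2 h), if_pos (hc.2 h), if_pos h, if_pos h]
    exact Or.inr ⟨rfl, rfl⟩
  · rw [if_neg fun h' => h (hc.1 h'), if_neg fun h' => h (hc.1 h'), if_neg h, if_neg h]
    exact Or.inl ⟨rfl, rfl⟩

theorem mem_rf {F : Finset (ℤ × ℤ)} {q : Pt} :
    (∃ f ∈ ((F.image rf : Finset (ℤ × ℤ)) : Set (ℤ × ℤ)), q = FP.fc (Sum.inr f)) ↔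
      ∃ f ∈ (F : Set (ℤ × ℤ)), q.swap = FP.fc (Sum.inr f) := by
  constructor
  · rintro ⟨f, hf, rfl⟩
    rw [Finset.mem_coe, mem_image_rf] at hf
    exact ⟨rf f, hf, fc_swap (Sum.inr f)⟩
  · rintro ⟨f, hf, h⟩
    refine ⟨rf f, ?_, ?_⟩
    · rw [Finset.mem_coe, mem_image_rf, rf_rf]
      exact hf
    · have h1 := congrArg Prod.swap h
      rw [Prod.swap_swap, fc_swap] at h1
      exact h1

theorem intE_swap {F : Finset (ℤ × ℤ)} (w : Pt) :
    intE ((F.image rf : Finset (ℤ × ℤ)) : Set (ℤ × ℤ)) w ↔ intE (F : Set (ℤ × ℤ)) w.swap := by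
  unfold intE
  rw [mem_rf, mem_rf]
  have h := o_swap w
  rw [Sym2.eq_iff] at h
  rcases h with ⟨h1, h2⟩ | ⟨h1, h2⟩
  · rw [h1, h2]
  · rw [h1, h2, and_comm]

theorem blM_swap (F : Finset (ℤ × ℤ)) (x : Site → ℤ) (ξ : Mk) (w : Pt) :
    blM ((F.image rf : Finset (ℤ × ℤ)) : Set (ℤ × ℤ)) (fun s => x (rs s)) ξ w =
      blM (F : Set (ℤ × ℤ)) x (fun w => ξ w.swap) w.swap := by
  unfold blM
  have h := o_swap w
  have h' := e_swap w
  rw [Sym2.eq_iff] at h h'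
  have hE := intE_swap (F := F) w
  have ho : (x (FP.cf (o1 w).swap) ≠ x (FP.cf (o2 w).swap)) ↔
      (x (FP.cf (o1 w.swap)) ≠ x (FP.cf (o2 w.swap))) := by
    rcases h with ⟨h1, h2⟩ | ⟨h1, h2⟩
    · rw [h1, h2]
    · rw [h1, h2, ne_comm]
  have he : (x (FP.cf (e1 w).swap) = 0 ∧ x (FP.cf (e2 w).swap) = 0) ↔
      (x (FP.cf (e1 w.swap)) = 0 ∧ x (FP.cf (e2 w.swap)) = 0) := by
    rcases h' with ⟨h1, h2⟩ | ⟨h1, h2⟩
    · rw [h1, h2]
    · rw [h1, h2, and_comm]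
  simp only [← cf_swap, Prod.swap_swap]
  by_cases hi : intE (F : Set (ℤ × ℤ)) w.swap
  · rw [if_pos (hE.2 hi), if_pos hi]
    apply Bool.decide_congr
    rw [← and_assoc, ← and_assoc, he, ho]
  · rw [if_neg fun h => hi (hE.1 h), if_neg hi]

/-- Reflection invariance for functions of the blocked edges. -/
theorem zeM_swap (c : ℝ) (F : Finset (ℤ × ℤ)) (G : Mk → ℝ) :
    zeM c (F.image rf) (fun _ b => G b) = zeM c F fun _ b => G fun w => b w.swap := by
  unfold zeM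
  rw [ze_rs c F fun x => ∫ ξ, G (blM ((F.image rf : Finset (ℤ × ℤ)) : Set (ℤ × ℤ)) x ξ)
    ∂(mkm c⁻¹)]
  congr 1
  funext x
  have e : ∀ ξ : Mk, blM ((F.image rf : Finset (ℤ × ℤ)) : Set (ℤ × ℤ)) (fun s => x (rs s)) ξ =
      fun w => blM (F : Set (ℤ × ℤ)) x (fun w => ξ w.swap) w.swap := fun ξ =>
    funext fun w => blM_swap F x ξ w
  simp only [e]
  exact int_msw c⁻¹ fun ξ => G fun w => blM (F : Set (ℤ × ℤ)) x ξ w.swap

/-! ### The probability of a connection as a zero boundary expectation -/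

theorem af_fc (f : ℤ × ℤ) : (FP.fc (Sum.inr f)).swap = af f := by
  rw [fc_swap, fc_rs]
  rfl

theorem lc_af_inj {f g : ℤ × ℤ} (h : af f = af g) : f = g := by
  have h1 : f.1 + f.2 + 1 = g.1 + g.2 + 1 := congrArg Prod.fst h
  have h2 : f.1 - f.2 = g.1 - g.2 := congrArg Prod.snd h
  exact Prod.ext (by omega) (by omega)

theorem stp_iff {E : Set Pt} {f g : ℤ × ℤ} :
    stp E f g ↔ ∃ w, w ∉ E ∧ s(o1 w, o2 w) = s(af f, af g) := by
  unfold stp
  simp only [Sym2.eq_iff]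

/-- The blocked edges of a configuration, in the coordinates of block X. -/
def bX {B : Finset (ℤ × ℤ)} (u : EB B → Bool) : Set Pt := {w | bwM u w.swap = true}

theorem step_iff {B F : Finset (ℤ × ℤ)} {K : ℕ} (x : FK.Net.Cfg (VB B) (FB B) (EB B) K)
    (a b : FB B) : (boxN B).stepI (inB B F) x a b ↔
      (a.1 ∈ (F : Set (ℤ × ℤ)) ∧ b.1 ∈ (F : Set (ℤ × ℤ)) ∧ stp (bX ((boxN B).wx x)) a.1 b.1) := by
  have key : ∀ e : EB B, s(o1 (we e).swap, o2 (we e).swap) =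
      s(af ((boxN B).f e).1, af ((boxN B).g e).1) := by
    intro e
    rw [o_swap, FK.o1_we, FK.o2_we, af_fc, af_fc]
  rw [stp_iff]
  constructor
  · rintro ⟨e, he, hb, hor⟩
    have hw : (we e).swap ∉ bX ((boxN B).wx x) := by
      intro h
      have h' : bwM ((boxN B).wx x) (we e) = true := h
      rw [FK.bwM_we, FK.Net.wx_true.2 hb] at h'
      exact Bool.noConfusion h'
    rcases hor with ⟨rfl, rfl⟩ | ⟨rfl, rfl⟩
    · exact ⟨he.1, he.2, (we e).swap, hw, key e⟩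
    · exact ⟨he.2, he.1, (we e).swap, hw, (key e).trans Sym2.eq_swap⟩
  · rintro ⟨ha, hb, w, hw, hs⟩
    have h1 : ∃ e : EB B, we e = w.swap := by
      by_contra h
      exact hw (FK.bwM_out ((boxN B).wx x) h)
    obtain ⟨e, he⟩ := h1
    have h2 := key e
    rw [he, Prod.swap_swap, hs, Sym2.eq_iff] at h2
    have h3 : (boxN B).wx x e = true := by
      by_contra h
      apply hw
      show bwM ((boxN B).wx x) w.swap = true
      rw [← he, FK.bwM_we]
      simpa using h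
    have h4 : ((boxN B).f e = a ∧ (boxN B).g e = b) ∨ ((boxN B).g e = a ∧ (boxN B).f e = b) := by
      rcases h2 with ⟨h5, h6⟩ | ⟨h5, h6⟩
      · exact Or.inl ⟨(Subtype.ext (lc_af_inj h5)).symm, (Subtype.ext (lc_af_inj h6)).symm⟩
      · exact Or.inr ⟨(Subtype.ext (lc_af_inj h5)).symm, (Subtype.ext (lc_af_inj h6)).symm⟩
    refine ⟨e, ?_, FK.Net.wx_true.1 h3, h4⟩
    rcases h4 with ⟨h5, h6⟩ | ⟨h5, h6⟩
    · exact ⟨by rw [h5]; exact ha, by rw [h6]; exact hb⟩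
    · exact ⟨by rw [h6]; exact hb, by rw [h5]; exact ha⟩

theorem cnnI_eq {B F : Finset (ℤ × ℤ)} (hF : ∀ f ∈ F, f ∈ B) {O I : Set (ℤ × ℤ)}
    (hO : ∀ f ∈ O, f ∈ B) {K : ℕ} (x : FK.Net.Cfg (VB B) (FB B) (EB B) K) :
    (boxN B).cnnI (inB B F) (inB B O) (inB B I) x =
      cn (F : Set (ℤ × ℤ)) O I (bX ((boxN B).wx x)) := by
  unfold FK.Net.cnnI cn ind
  have key : (¬ Disjoint ((boxN B).explI (inB B F) (inB B O) x) (inB B I)) ↔
      ∃ f ∈ O, ∃ g ∈ I, Relation.ReflTransGen (fun a b => a ∈ (F : Set (ℤ × ℤ)) ∧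
        b ∈ (F : Set (ℤ × ℤ)) ∧ stp (bX ((boxN B).wx x)) a b) f g := by
    rw [Set.not_disjoint_iff]
    constructor
    · rintro ⟨f, ⟨f0, hf0, hp⟩, hf⟩
      refine ⟨f0.1, hf0, f.1, hf, ?_⟩
      exact hp.lift (fun a : FB B => a.1) fun a b h => (step_iff x a b).1 h
    · rintro ⟨f, hf, g, hg, hp⟩
      have h : ∃ hg : g ∈ B, Relation.ReflTransGen ((boxN B).stepI (inB B F) x)
          ⟨f, hO f hf⟩ ⟨g, hg⟩ := by
        clear hg
        induction hp with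
        | refl => exact ⟨hO f hf, Relation.ReflTransGen.refl⟩
        | @tail u v _ huv ih =>
          obtain ⟨hu, ih⟩ := ih
          have hv : v ∈ B := hF v huv.2.1
          exact ⟨hv, ih.tail ((step_iff x ⟨u, hu⟩ ⟨v, hv⟩).2 huv)⟩
      obtain ⟨hgB, hr⟩ := h
      exact ⟨⟨g, hgB⟩, ⟨⟨f, hO f hf⟩, hf, hr⟩, hg⟩
  by_cases h : Disjoint ((boxN B).explI (inB B F) (inB B O) x) (inB B I)
  · rw [if_pos h, if_neg fun h' => (key.2 h') h]
  · rw [if_neg h, if_pos (key.1 h)]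

theorem pcn_eq {c : ℝ} (hc : 1 ≤ c) {B F : Finset (ℤ × ℤ)} {K : ℕ} {O I : Set (ℤ × ℤ)}
    (h : BoxOK B F K O I) : pcn c B F K O I =
      zeM c F fun _ b => cn (F : Set (ℤ × ℤ)) O I {w | b w.swap = true} := by
  have hc0 : 0 < c := by linarith only [hc]
  have ht : 0 < c⁻¹ := inv_pos.mpr hc0
  have ht1 : c⁻¹ ≤ 1 := inv_le_one_of_one_le₀ hc
  have h1 := FK.J_zeM h.nb h.cut ht ht1
    (fun _ b => cn (F : Set (ℤ × ℤ)) O I {w | b w.swap = true})
  rw [inv_inv] at h1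
  have h2 : 0 < (boxN B).J (K := K) c⁻¹ FK.Net.κ6 (FK.Net.β6 c⁻¹)
      (fun x _ => (boxN B).zbi (inB B F) x) :=
    (boxN B).J_zbi_pos (K := K) ht.le FK.Net.κ6_nonneg (FK.Net.β6_nonneg ht.le ht1)
      (fun i => FK.Net.κ6_pos i 0) (fun e => FK.Net.β6_pos ht e) (inB B F)
  unfold pcn
  rw [div_eq_iff h2.ne', mul_comm (zeM _ _ _), ← h1]
  congr 1
  funext x _
  rw [cnnI_eq (fun f hf => h.nb.mem hf) h.o]
  rfl

/-! ### Locality and monotonicity -/

theorem cn_anti (F O I : Set (ℤ × ℤ)) : Antitone (cn F O I) := by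
  intro E E' h
  unfold cn ind
  have h1 : (∃ f ∈ O, ∃ g ∈ I, Relation.ReflTransGen (fun a b => a ∈ F ∧ b ∈ F ∧ stp E' a b) f g) →
      ∃ f ∈ O, ∃ g ∈ I, Relation.ReflTransGen (fun a b => a ∈ F ∧ b ∈ F ∧ stp E a b) f g := by
    rintro ⟨f, hf, g, hg, hp⟩
    refine ⟨f, hf, g, hg, Relation.ReflTransGen.mono (fun a b => ?_) _ _ hp⟩
    rintro ⟨ha, hb, w, hw, h'⟩
    exact ⟨ha, hb, w, fun h1 => hw (h h1), h'⟩
  by_cases h2 : ∃ f ∈ O, ∃ g ∈ I, Relation.ReflTransGen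
      (fun a b => a ∈ F ∧ b ∈ F ∧ stp E' a b) f g
  · rw [if_pos h2, if_pos (h1 h2)]
  · rw [if_neg h2]
    split_ifs
    · exact zero_le_one
    · exact le_rfl

/-- The edges which can be interior to `F`. -/
noncomputable def Lf (F : Finset (ℤ × ℤ)) : Finset Pt :=
  F.image af ∪ F.image fun f => ((af f).1 + 1, (af f).2)

theorem mem_Lf {F : Finset (ℤ × ℤ)} {f : ℤ × ℤ} (hf : f ∈ F) {w : Pt} (h : o1 w = af f) :
    w ∈ Lf F := by
  unfold o1 at h
  rw [Lf, Finset.mem_union]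
  by_cases he : Even (w.1 + w.2)
  · rw [if_pos he] at h
    right
    refine Finset.mem_image.2 ⟨f, hf, ?_⟩
    rw [← h]
    exact Prod.ext (by simp) rfl
  · rw [if_neg he] at h
    left
    exact Finset.mem_image.2 ⟨f, hf, h.symm⟩

theorem cn_congr {F : Finset (ℤ × ℤ)} {O I : Set (ℤ × ℤ)} {E E' : Set Pt}
    (h : ∀ w ∈ Lf F, w ∈ E ↔ w ∈ E') :
    cn (F : Set (ℤ × ℤ)) O I E = cn (F : Set (ℤ × ℤ)) O I E' := by
  have e : (fun a b : ℤ × ℤ => a ∈ (F : Set (ℤ × ℤ)) ∧ b ∈ (F : Set (ℤ × ℤ)) ∧ stp E a b) =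
      fun a b : ℤ × ℤ => a ∈ (F : Set (ℤ × ℤ)) ∧ b ∈ (F : Set (ℤ × ℤ)) ∧ stp E' a b := by
    funext a b
    refine propext ⟨?_, ?_⟩
    · rintro ⟨ha, hb, w, hw, h'⟩
      refine ⟨ha, hb, w, fun h1 => hw ((h w ?_).2 h1), h'⟩
      rcases h' with h' | h'
      · exact mem_Lf ha h'.1
      · exact mem_Lf hb h'.1
    · rintro ⟨ha, hb, w, hw, h'⟩
      refine ⟨ha, hb, w, fun h1 => hw ((h w ?_).1 h1), h'⟩
      rcases h' with h' | h'
      · exact mem_Lf ha h'.1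
      · exact mem_Lf hb h'.1
  have h2 : (∃ f ∈ O, ∃ g ∈ I, Relation.ReflTransGen (fun a b => a ∈ (F : Set (ℤ × ℤ)) ∧
      b ∈ (F : Set (ℤ × ℤ)) ∧ stp E a b) f g) ↔ ∃ f ∈ O, ∃ g ∈ I, Relation.ReflTransGen
      (fun a b => a ∈ (F : Set (ℤ × ℤ)) ∧ b ∈ (F : Set (ℤ × ℤ)) ∧ stp E' a b) f g := by
    rw [e]
  unfold cn ind
  by_cases h3 : ∃ f ∈ O, ∃ g ∈ I, Relation.ReflTransGen (fun a b => a ∈ (F : Set (ℤ × ℤ)) ∧
      b ∈ (F : Set (ℤ × ℤ)) ∧ stp E a b) f g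
  · rw [if_pos h3, if_pos (h2.1 h3)]
  · rw [if_neg h3, if_neg fun h => h3 (h2.2 h)]

theorem cn_loc (F : Finset (ℤ × ℤ)) (O I : Set (ℤ × ℤ)) :
    LocS univ (cn (F : Set (ℤ × ℤ)) O I) :=
  ⟨Lf F, fun _ _ => Set.mem_univ _, fun _ _ h => cn_congr h⟩

theorem exists_VB (Λ : Finset Pt) : ∃ m : ℕ, ∀ n, m ≤ n → ∀ w ∈ Λ, w ∈ FC.VB (FK.Sq n) := by
  classical
  set m : ℕ := Λ.sup (fun w => w.1.natAbs + w.2.natAbs) with hm
  have hF : ∀ w ∈ Λ, w.1.natAbs + w.2.natAbs ≤ m := fun w hw =>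
    Finset.le_sup (f := fun w : ℤ × ℤ => w.1.natAbs + w.2.natAbs) hw
  refine ⟨m + 1, fun n hn w hw => ?_⟩
  have h := hF w hw
  have hn' : ((m : ℤ) + 1) ≤ n := by exact_mod_cast hn
  have key : ∀ q : Pt, |q.1 - w.1| ≤ 1 → |q.2 - w.2| ≤ 1 → q ∈ FK.Sq n := by
    intro q h1 h2
    rw [FK.mem_Sq]
    rw [abs_le] at h1 h2 ⊢
    rw [abs_le]
    omega
  rw [FK.mem_VB]
  unfold FB.e1 FB.e2 FB.o1 FB.o2
  refine ⟨?_, ?_, ?_, ?_⟩ <;> split_ifs <;> exact key _ (by simp) (by simp)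

theorem in6_iE {F : Finset (ℤ × ℤ)} {w : Pt} :
    FK.In6 ((F.image rf : Finset (ℤ × ℤ)) : Set (ℤ × ℤ)) w ↔ w ∈ iE (F : Set (ℤ × ℤ)) := by
  rw [← FK.intE_iff]
  unfold intE
  rw [mem_rf, mem_rf]
  have e : ∀ (q : Pt) (f : ℤ × ℤ), q.swap = FP.fc (Sum.inr f) ↔ q = af f := by
    intro q f
    rw [← af_fc]
    constructor
    · intro h
      rw [← h, Prod.swap_swap]
    · intro h
      rw [h, Prod.swap_swap]
  simp only [e]
  constructor
  · rintro ⟨⟨f, hf, h1⟩, g, hg, h2⟩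
    exact ⟨f, hf, g, hg, h1, h2⟩
  · rintro ⟨f, hf, g, hg, h1, h2⟩
    exact ⟨⟨f, hf, h1⟩, g, hg, h2⟩

theorem outM_of {F : Finset (ℤ × ℤ)} {Θ : Set Pt → ℝ} (h : LocS (iE (F : Set (ℤ × ℤ)))ᶜ Θ) :
    FK.OutM ((F.image rf : Finset (ℤ × ℤ)) : Set (ℤ × ℤ)) fun _ b => Θ b := by
  obtain ⟨Λ, h1, h2⟩ := h
  intro _ _ b b' _ hb
  exact h2 b b' fun w hw => hb w fun h' => h1 w hw (in6_iE.1 h')

/-- The probability of a connection on the boxes of the plane. -/
theorem Jz_cn {c : ℝ} (hc : 1 ≤ c) {B F : Finset (ℤ × ℤ)} {K : ℕ} {O I : Set (ℤ × ℤ)}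
    (h : BoxOK B F K O I) {n : ℕ} (hI : FK.NI (FK.Sq n))
    (hB : FK.Nb6 (FK.Sq n) ((F.image rf : Finset (ℤ × ℤ)) : Set (ℤ × ℤ)))
    (hV : ∀ w ∈ Lf F, w ∈ FC.VB (FK.Sq n)) {K' : ℕ} (hK : KF (F.image rf) ≤ K') :
    FK.Jz (FK.Sq n) K' c⁻¹ ((F.image rf : Finset (ℤ × ℤ)) : Set (ℤ × ℤ))
        (fun _ b => cn (F : Set (ℤ × ℤ)) O I b) =
      pcn c B F K O I * FK.Jz (FK.Sq n) K' c⁻¹ ((F.image rf : Finset (ℤ × ℤ)) : Set (ℤ × ℤ))
        (fun _ _ => 1) := by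
  have hc0 : 0 < c := by linarith only [hc]
  have ht : 0 < c⁻¹ := inv_pos.mpr hc0
  have ht1 : c⁻¹ ≤ 1 := inv_le_one_of_one_le₀ hc
  have h1 := FK.Jz_zeM hI hB hK ht ht1 (A := fun _ b => cn (F : Set (ℤ × ℤ)) O I b)
    (fun _ _ _ _ _ hb => cn_congr fun w hw => hb w (hV w hw))
  rw [inv_inv] at h1
  have h2 := zeM_swap c F fun b => cn (F : Set (ℤ × ℤ)) O I {w | b w = true}
  rw [h1, h2, ← pcn_eq hc h, mul_comm]

end LC

end Vale.Agent.P145.X
end

section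

/-!
P145, block F-B, (A): positive association of the triple (spins, open bonds with positive spins,
closed bonds with negative spins), abstract finite graph theorem.
-/

namespace Vale.Agent.P145.FB

open Finset

set_option linter.unusedSectionVars false

section AsFin3

variable {X B : Type*} [Fintype X] [DecidableEq X] [Fintype B] [DecidableEq B]
  (bd : X → Prop) [DecidablePred bd] (p q : B → X)

/-- Product FK sum over the open sets in `A` and in `A'`. -/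
noncomputable def GT (c : ℝ) (A A' : Finset B) (h : Finset B → Finset B → ℝ) : ℝ :=
  ∑ z : Finset B × (Finset B)ᵒᵈ, gw bd p q c A z.1 * gw bd p q c A' (OrderDual.ofDual z.2) *
    h z.1 (OrderDual.ofDual z.2)

variable {bd p q}

/-- Functions increasing in the first and decreasing in the second set. -/
def Up2 (h : Finset B → Finset B → ℝ) : Prop := ∀ a a' b b', a ⊆ a' → b' ⊆ b → h a b ≤ h a' b'

/-- Functions increasing in the spins and in the first set and decreasing in the second set. -/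
def Up3 (f : (X → Bool) → Finset B → Finset B → ℝ) : Prop :=
  ∀ s t a a' b b', s ≤ t → a ⊆ a' → b' ⊆ b → f s a b ≤ f t a' b'

lemma GT_one (c : ℝ) (A A' : Finset B) : GT bd p q c A A' (fun _ _ => 1) =
    GS bd p q c A (fun _ => 1) * GS bd p q c A' (fun _ => 1) := by
  unfold GT GS
  rw [Fintype.sum_prod_type, Finset.sum_mul_sum]
  refine Finset.sum_congr rfl (fun a _ => ?_)
  rw [← OrderDual.toDual.sum_comp]
  refine Finset.sum_congr rfl (fun b _ => ?_)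
  simp

lemma GT_pos {c : ℝ} (hc : 1 ≤ c) (A A' : Finset B) : 0 < GT bd p q c A A' (fun _ _ => 1) := by
  rw [GT_one]
  exact mul_pos (GS_pos hc _) (GS_pos hc _)

lemma gw_super2 {c : ℝ} (hc : 1 ≤ c) {A A' D D' : Finset B} (h : A ⊆ D) (h' : D' ⊆ A')
    (x y : Finset B × (Finset B)ᵒᵈ) :
    gw bd p q c A x.1 * gw bd p q c A' (OrderDual.ofDual x.2) *
      (gw bd p q c D y.1 * gw bd p q c D' (OrderDual.ofDual y.2)) ≤
    gw bd p q c A (x ⊓ y).1 * gw bd p q c A' (OrderDual.ofDual (x ⊓ y).2) *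
      (gw bd p q c D (x ⊔ y).1 * gw bd p q c D' (OrderDual.ofDual (x ⊔ y).2)) := by
  obtain ⟨a, b⟩ := x
  obtain ⟨a', b'⟩ := y
  have e1 : ((a, b) ⊓ (a', b') : Finset B × (Finset B)ᵒᵈ).1 = a ∩ a' := rfl
  have e2 : ((a, b) ⊔ (a', b') : Finset B × (Finset B)ᵒᵈ).1 = a ∪ a' := rfl
  have e3 : OrderDual.ofDual ((a, b) ⊓ (a', b') : Finset B × (Finset B)ᵒᵈ).2 =
      OrderDual.ofDual b ∪ OrderDual.ofDual b' := rfl
  have e4 : OrderDual.ofDual ((a, b) ⊔ (a', b') : Finset B × (Finset B)ᵒᵈ).2 =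
      OrderDual.ofDual b ∩ OrderDual.ofDual b' := rfl
  rw [e1, e2, e3, e4]
  have h1 := gw_super (bd := bd) (p := p) (q := q) hc A D a a'
  rw [inter_eq_left.mpr h, union_eq_right.mpr h] at h1
  have h2 := gw_super (bd := bd) (p := p) (q := q) hc A' D' (OrderDual.ofDual b)
    (OrderDual.ofDual b')
  rw [inter_eq_right.mpr h', union_eq_left.mpr h'] at h2
  have n1 := gw_nonneg (bd := bd) (p := p) (q := q) hc
  calc _ = (gw bd p q c A a * gw bd p q c D a') *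
        (gw bd p q c A' (OrderDual.ofDual b) * gw bd p q c D' (OrderDual.ofDual b')) := by ring
    _ ≤ _ := mul_le_mul h1 h2 (mul_nonneg (n1 _ _) (n1 _ _)) (mul_nonneg (n1 _ _) (n1 _ _))
    _ = _ := by ring

lemma GT_holley {c : ℝ} (hc : 1 ≤ c) {A A' D D' : Finset B} (h : A ⊆ D) (h' : D' ⊆ A')
    {f g : Finset B → Finset B → ℝ} (hf0 : ∀ a b, 0 ≤ f a b) (hf : Up2 f)
    (hfg : ∀ a b, f a b ≤ g a b) :
    GT bd p q c A A' f * GT bd p q c D D' (fun _ _ => 1) ≤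
      GT bd p q c A A' (fun _ _ => 1) * GT bd p q c D D' g := by
  have n1 := gw_nonneg (bd := bd) (p := p) (q := q) hc
  have hg0 : ∀ a b, 0 ≤ g a b := fun a b => (hf0 a b).trans (hfg a b)
  unfold GT
  simp only [mul_one]
  refine four_functions_theorem_univ _ _ _ _
    (fun z => mul_nonneg (mul_nonneg (n1 _ _) (n1 _ _)) (hf0 _ _))
    (fun z => mul_nonneg (n1 _ _) (n1 _ _)) (fun z => mul_nonneg (n1 _ _) (n1 _ _))
    (fun z => mul_nonneg (mul_nonneg (n1 _ _) (n1 _ _)) (hg0 _ _)) (fun x y => ?_)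
  have h1 := gw_super2 (bd := bd) (p := p) (q := q) hc h h' x y
  have h2 : f x.1 (OrderDual.ofDual x.2) ≤ g (x ⊔ y).1 (OrderDual.ofDual (x ⊔ y).2) := by
    refine (hf _ (x ⊔ y).1 _ (OrderDual.ofDual (x ⊔ y).2) ?_ ?_).trans (hfg _ _)
    · exact le_sup_left (a := x.1) (b := y.1)
    · exact inf_le_left (a := OrderDual.ofDual x.2) (b := OrderDual.ofDual y.2)
  calc _ = (gw bd p q c A x.1 * gw bd p q c A' (OrderDual.ofDual x.2) *
      (gw bd p q c D y.1 * gw bd p q c D' (OrderDual.ofDual y.2))) *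
        f x.1 (OrderDual.ofDual x.2) := by ring
    _ ≤ (gw bd p q c A (x ⊓ y).1 * gw bd p q c A' (OrderDual.ofDual (x ⊓ y).2) *
      (gw bd p q c D (x ⊔ y).1 * gw bd p q c D' (OrderDual.ofDual (x ⊔ y).2))) *
        g (x ⊔ y).1 (OrderDual.ofDual (x ⊔ y).2) :=
      mul_le_mul h1 h2 (hf0 _ _) (mul_nonneg (mul_nonneg (n1 _ _) (n1 _ _))
        (mul_nonneg (n1 _ _) (n1 _ _)))
    _ = _ := by ring

lemma GT_fkg {c : ℝ} (hc : 1 ≤ c) (A A' : Finset B) {f g : Finset B → Finset B → ℝ}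
    (hf0 : ∀ a b, 0 ≤ f a b) (hg0 : ∀ a b, 0 ≤ g a b) (hf : Up2 f) (hg : Up2 g) :
    GT bd p q c A A' f * GT bd p q c A A' g ≤
      GT bd p q c A A' (fun _ _ => 1) * GT bd p q c A A' (fun a b => f a b * g a b) := by
  have n1 := gw_nonneg (bd := bd) (p := p) (q := q) hc
  have hm : ∀ h : Finset B → Finset B → ℝ, Up2 h →
      Monotone (fun z : Finset B × (Finset B)ᵒᵈ => h z.1 (OrderDual.ofDual z.2)) :=
    fun h hh x y hxy => hh _ _ _ _ hxy.1 hxy.2
  have h := fkg (fun z : Finset B × (Finset B)ᵒᵈ => f z.1 (OrderDual.ofDual z.2))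
    (fun z : Finset B × (Finset B)ᵒᵈ => g z.1 (OrderDual.ofDual z.2))
    (fun z : Finset B × (Finset B)ᵒᵈ => gw bd p q c A z.1 *
      gw bd p q c A' (OrderDual.ofDual z.2))
    (fun z => mul_nonneg (n1 _ _) (n1 _ _)) (fun z => hf0 _ _) (fun z => hg0 _ _)
    (hm f hf) (hm g hg)
    (fun x y => gw_super2 (bd := bd) (p := p) (q := q) hc (Subset.refl A) (Subset.refl A') x y)
  unfold GT
  simpa only [mul_one] using h

lemma GT_eq (c : ℝ) (A A' : Finset B) (h : Finset B → Finset B → ℝ) :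
    GT bd p q c A A' h = ∑ z ∈ A.powerset ×ˢ A'.powerset,
      gw bd p q c A z.1 * gw bd p q c A' z.2 * h z.1 z.2 := by
  unfold GT
  rw [Fintype.sum_prod_type, Finset.sum_product]
  have h1 : ∀ a : Finset B, ∑ y : (Finset B)ᵒᵈ, gw bd p q c A a *
      gw bd p q c A' (OrderDual.ofDual y) * h a (OrderDual.ofDual y) =
      ∑ b ∈ A'.powerset, gw bd p q c A a * gw bd p q c A' b * h a b := by
    intro a
    rw [← OrderDual.toDual.sum_comp]
    simp only [OrderDual.ofDual_toDual]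
    symm
    apply Finset.sum_subset (subset_univ _)
    intro b _ hb
    rw [mem_powerset] at hb
    have : gw bd p q c A' b = 0 := by
      unfold gw
      rw [if_neg hb]
    rw [this, mul_zero, zero_mul]
  rw [Finset.sum_congr rfl (fun a _ => h1 a)]
  symm
  apply Finset.sum_subset (subset_univ _)
  intro a _ ha
  rw [mem_powerset] at ha
  have : gw bd p q c A a = 0 := by
    unfold gw
    rw [if_neg ha]
  simp [this]

lemma sum_Jw3 (c : ℝ) (tau : X → Bool) (f : Finset B → Finset B → ℝ) :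
    (∑ om, Jw bd p q c tau om * f (om.filter (fun v => tau (p v) = true))
      (om.filter (fun v => tau (p v) = false))) * NW bd p q ∅ =
      GT bd p q c (Ep p q tau) (Em p q tau) f := by
  classical
  have hd : Disjoint (Ep p q tau) (Em p q tau) := by
    rw [Finset.disjoint_left]
    intro v h1 h2
    rw [mem_Ep] at h1
    rw [mem_Em] at h2
    rw [h1.1] at h2
    simp at h2
  rw [Finset.sum_mul]
  have h1 : ∀ om : Finset B, Jw bd p q c tau om * f (om.filter (fun v => tau (p v) = true))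
      (om.filter (fun v => tau (p v) = false)) *
      NW bd p q ∅ = if om ⊆ Ep p q tau ∪ Em p q tau then
        gw bd p q c (Ep p q tau) (om ∩ Ep p q tau) *
          gw bd p q c (Em p q tau) (om ∩ Em p q tau) *
            f (om ∩ Ep p q tau) (om ∩ Em p q tau) else 0 := by
    intro om
    have h2 := Jw_split (bd := bd) (p := p) (q := q) c tau om
    calc _ = (Jw bd p q c tau om * NW bd p q ∅) * f (om.filter (fun v => tau (p v) = true))
          (om.filter (fun v => tau (p v) = false)) := by ring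
      _ = _ := by
        rw [h2]
        split_ifs with h
        · have h3 : om.filter (fun v => tau (p v) = true) = om ∩ Ep p q tau := by
            ext v
            simp only [mem_filter, mem_inter, mem_Ep]
            constructor
            · rintro ⟨hv, hv1⟩
              have h4 := h hv
              simp only [mem_union, mem_Ep, mem_Em] at h4
              rcases h4 with h4 | h4
              · exact ⟨hv, h4⟩
              · rw [hv1] at h4
                simp at h4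
            · rintro ⟨hv, hv1⟩
              exact ⟨hv, hv1.1⟩
          have h3' : om.filter (fun v => tau (p v) = false) = om ∩ Em p q tau := by
            ext v
            simp only [mem_filter, mem_inter, mem_Em]
            constructor
            · rintro ⟨hv, hv1⟩
              have h4 := h hv
              simp only [mem_union, mem_Ep, mem_Em] at h4
              rcases h4 with h4 | h4
              · rw [hv1] at h4
                simp at h4
              · exact ⟨hv, h4⟩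
            · rintro ⟨hv, hv1⟩
              exact ⟨hv, hv1.1⟩
          rw [h3, h3']
        · rw [zero_mul]
  rw [Finset.sum_congr rfl (fun om _ => h1 om), ← Finset.sum_filter, GT_eq]
  refine Finset.sum_nbij' (fun om => (om ∩ Ep p q tau, om ∩ Em p q tau)) (fun z => z.1 ∪ z.2)
    ?_ ?_ ?_ ?_ ?_
  · intro om _
    simp only [mem_product, mem_powerset]
    exact ⟨inter_subset_right, inter_subset_right⟩
  · rintro ⟨a, b⟩ hz
    simp only [mem_product, mem_powerset] at hz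
    simp only [mem_filter, mem_univ, true_and]
    exact union_subset_union hz.1 hz.2
  · intro om hom
    simp only [mem_filter, mem_univ, true_and] at hom
    show om ∩ Ep p q tau ∪ om ∩ Em p q tau = om
    rw [← inter_union_distrib_left]
    exact inter_eq_left.mpr hom
  · rintro ⟨a, b⟩ hz
    simp only [mem_product, mem_powerset] at hz
    obtain ⟨ha, hb⟩ := hz
    simp only [Prod.mk.injEq]
    constructor
    · rw [union_inter_distrib_right, inter_eq_left.mpr ha]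
      have : b ∩ Ep p q tau = ∅ := by
        rw [← disjoint_iff_inter_eq_empty]
        exact hd.symm.mono_left hb
      rw [this, union_empty]
    · rw [union_inter_distrib_right, inter_eq_left.mpr hb]
      have : a ∩ Em p q tau = ∅ := by
        rw [← disjoint_iff_inter_eq_empty]
        exact hd.mono_left ha
      rw [this, empty_union]
  · intro om _
    rfl

/-- Weighted sum of a function of the spins and of the open bonds with positive and with
negative spins. -/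
noncomputable def SJ (bd : X → Prop) [DecidablePred bd] (p q : B → X) (c : ℝ)
    (f : (X → Bool) → Finset B → Finset B → ℝ) : ℝ :=
  ∑ tau : X → Bool, ∑ om, Jw bd p q c tau om * f tau (om.filter (fun v => tau (p v) = true))
    (om.filter (fun v => tau (p v) = false))

lemma SJ_add (c : ℝ) (f g : (X → Bool) → Finset B → Finset B → ℝ) :
    SJ bd p q c (fun s a b => f s a b + g s a b) = SJ bd p q c f + SJ bd p q c g := by
  unfold SJ
  simp only [mul_add, Finset.sum_add_distrib]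

lemma SJ_smul (c r : ℝ) (f : (X → Bool) → Finset B → Finset B → ℝ) :
    SJ bd p q c (fun s a b => r * f s a b) = r * SJ bd p q c f := by
  unfold SJ
  rw [Finset.mul_sum]
  refine Finset.sum_congr rfl (fun tau _ => ?_)
  rw [Finset.mul_sum]
  exact Finset.sum_congr rfl (fun om _ => by ring)

lemma assoc_nonneg {c : ℝ} (hc : 1 ≤ c) {f g : (X → Bool) → Finset B → Finset B → ℝ}
    (hf0 : ∀ s a b, 0 ≤ f s a b) (hg0 : ∀ s a b, 0 ≤ g s a b) (hf : Up3 f) (hg : Up3 g) :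
    SJ bd p q c f * SJ bd p q c g ≤
      SJ bd p q c (fun _ _ _ => 1) * SJ bd p q c (fun s a b => f s a b * g s a b) := by
  classical
  have hN := NW_pos (bd := bd) (p := p) (q := q) ∅
  set T : (X → Bool) → (Finset B → Finset B → ℝ) → ℝ := fun tau h =>
    GT bd p q c (Ep p q tau) (Em p q tau) h with hT
  have hS : ∀ h : (X → Bool) → Finset B → Finset B → ℝ, SJ bd p q c h * NW bd p q ∅ =
      ∑ tau : X → Bool, T tau (h tau) := by
    intro h
    unfold SJ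
    rw [Finset.sum_mul]
    exact Finset.sum_congr rfl (fun tau _ => sum_Jw3 c tau (h tau))
  set W : (X → Bool) → ℝ := fun tau => T tau (fun _ _ => 1) with hW
  have hW0 : ∀ tau, 0 < W tau := fun tau => GT_pos hc _ _
  have hT0 : ∀ tau (h : Finset B → Finset B → ℝ), (∀ a b, 0 ≤ h a b) → 0 ≤ T tau h :=
    fun tau h h0 => Finset.sum_nonneg (fun z _ => mul_nonneg (mul_nonneg (gw_nonneg hc _ _)
      (gw_nonneg hc _ _)) (h0 _ _))
  have hEm : ∀ {s t : X → Bool}, s ≤ t → Em p q t ⊆ Em p q s := by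
    intro s t h v hv
    rw [mem_Em] at *
    have h1 := h (p v)
    have h2 := h (q v)
    rw [hv.1] at h1
    rw [hv.2] at h2
    exact ⟨le_bot_iff.mp h1, le_bot_iff.mp h2⟩
  have hmon : ∀ h : (X → Bool) → Finset B → Finset B → ℝ, (∀ s a b, 0 ≤ h s a b) → Up3 h →
      Monotone (fun tau : X → Bool => T tau (h tau) / W tau) := by
    intro h h0 hm s t hst
    have := GT_holley (bd := bd) (p := p) (q := q) hc (Ep_mono (p := p) (q := q) hst)
      (hEm hst) (f := h s) (g := h t) (h0 s)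
      (fun a a' b b' h1 h2 => hm s s a a' b b' le_rfl h1 h2)
      (fun a b => hm s t a a b b hst (Subset.refl _) (Subset.refl _))
    show T s (h s) / W s ≤ T t (h t) / W t
    rw [div_le_div_iff₀ (hW0 s) (hW0 t)]
    calc _ ≤ _ := this
      _ = _ := by ring
  have hμ : ∀ s t : X → Bool, W s * W t ≤ W (s ⊓ t) * W (s ⊔ t) := by
    intro s t
    simp only [hW, hT, GT_one]
    have a1 : GS bd p q c (Ep p q s) (fun _ => 1) * GS bd p q c (Ep p q t) (fun _ => 1) ≤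
        GS bd p q c (Ep p q (s ⊓ t)) (fun _ => 1) * GS bd p q c (Ep p q (s ⊔ t)) (fun _ => 1) := by
      have b1 := GS_super (bd := bd) (p := p) (q := q) hc (Ep p q s) (Ep p q t)
      have b2 := GS_mono (bd := bd) (p := p) (q := q) hc (Ep_sup (p := p) (q := q) s t)
      rw [Ep_inf]
      exact b1.trans (mul_le_mul_of_nonneg_left b2 (GS_pos hc _).le)
    have a2 : GS bd p q c (Em p q s) (fun _ => 1) * GS bd p q c (Em p q t) (fun _ => 1) ≤
        GS bd p q c (Em p q (s ⊓ t)) (fun _ => 1) * GS bd p q c (Em p q (s ⊔ t)) (fun _ => 1) := by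
      have b1 := GS_super (bd := bd) (p := p) (q := q) hc (Em p q s) (Em p q t)
      have b2 := GS_mono (bd := bd) (p := p) (q := q) hc (Em_inf (p := p) (q := q) s t)
      rw [Em_sup]
      calc _ ≤ _ := b1
        _ ≤ _ := mul_le_mul_of_nonneg_left b2 (GS_pos hc _).le
        _ = _ := by ring
    have n1 : ∀ A : Finset B, 0 ≤ GS bd p q c A (fun _ => 1) := fun A => (GS_pos hc A).le
    calc _ = (GS bd p q c (Ep p q s) (fun _ => 1) * GS bd p q c (Ep p q t) (fun _ => 1)) *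
          (GS bd p q c (Em p q s) (fun _ => 1) * GS bd p q c (Em p q t) (fun _ => 1)) := by ring
      _ ≤ _ := mul_le_mul a1 a2 (mul_nonneg (n1 _) (n1 _)) (mul_nonneg (n1 _) (n1 _))
      _ = _ := by ring
  have hfkg := fkg (fun tau : X → Bool => T tau (f tau) / W tau)
    (fun tau : X → Bool => T tau (g tau) / W tau) W
    (fun tau => (hW0 tau).le)
    (fun tau => div_nonneg (hT0 _ _ (hf0 tau)) (hW0 _).le)
    (fun tau => div_nonneg (hT0 _ _ (hg0 tau)) (hW0 _).le) (hmon f hf0 hf) (hmon g hg0 hg) hμ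
  have e1 : ∀ h : (X → Bool) → Finset B → Finset B → ℝ, ∑ tau : X → Bool, W tau *
      (T tau (h tau) / W tau) = ∑ tau : X → Bool, T tau (h tau) := by
    intro h
    refine Finset.sum_congr rfl (fun tau _ => ?_)
    have := (hW0 tau).ne'
    field_simp
  have e2 : ∑ tau : X → Bool, W tau * (T tau (f tau) / W tau * (T tau (g tau) / W tau)) ≤
      ∑ tau : X → Bool, T tau (fun a b => f tau a b * g tau a b) := by
    refine Finset.sum_le_sum (fun tau _ => ?_)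
    have h3 := GT_fkg (bd := bd) (p := p) (q := q) hc (Ep p q tau) (Em p q tau) (hf0 tau)
      (hg0 tau) (fun a a' b b' h1 h2 => hf tau tau a a' b b' le_rfl h1 h2)
      (fun a a' b b' h1 h2 => hg tau tau a a' b b' le_rfl h1 h2)
    have h4 : W tau * (T tau (f tau) / W tau * (T tau (g tau) / W tau)) =
        (T tau (f tau) * T tau (g tau)) / W tau := by
      have := (hW0 tau).ne'
      (clear * - this; field_simp)
    rw [h4, div_le_iff₀ (hW0 tau)]
    calc _ ≤ _ := h3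
      _ = _ := by ring
  rw [e1, e1] at hfkg
  have hW1 : 0 ≤ ∑ tau : X → Bool, W tau := Finset.sum_nonneg (fun tau _ => (hW0 tau).le)
  have hfin := hfkg.trans (mul_le_mul_of_nonneg_left e2 hW1)
  have h1' : SJ bd p q c (fun _ _ _ => 1) * NW bd p q ∅ = ∑ tau : X → Bool, W tau :=
    hS (fun _ _ _ => 1)
  rw [← hS f, ← hS g, ← h1', ← hS (fun s a b => f s a b * g s a b)] at hfin
  have hN2 : 0 < NW bd p q ∅ * NW bd p q ∅ := mul_pos hN hN
  refine le_of_mul_le_mul_right ?_ hN2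
  calc _ = _ := by ring
    _ ≤ _ := hfin
    _ = _ := by ring

/-- Positive association of the spins, the open bonds with positive spins and the closed bonds
with negative spins. -/
theorem assoc_fin3 {c : ℝ} (hc : 1 ≤ c) {f g : (X → Bool) → Finset B → Finset B → ℝ}
    (hf : Up3 f) (hg : Up3 g) :
    SJ bd p q c f * SJ bd p q c g ≤
      SJ bd p q c (fun _ _ _ => 1) * SJ bd p q c (fun s a b => f s a b * g s a b) := by
  classical
  have hbd : ∀ h : (X → Bool) → Finset B → Finset B → ℝ, Up3 h →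
      ∀ s a b, 0 ≤ h s a b + -(h (fun _ => false) ∅ univ) := by
    intro h hh s a b
    have := hh (fun _ => false) s ∅ a univ b (fun i => bot_le) (empty_subset _) (subset_univ _)
    linarith only [this]
  have hup : ∀ (h : (X → Bool) → Finset B → Finset B → ℝ) (r : ℝ), Up3 h →
      Up3 (fun s a b => h s a b + r) := by
    intro h r hh s t a a' b b' h1 h2 h3
    have := hh s t a a' b b' h1 h2 h3
    show h s a b + r ≤ h t a' b' + r
    linarith only [this]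
  set r := -(f (fun _ => false) ∅ univ) with hr
  set r' := -(g (fun _ => false) ∅ univ) with hr'
  have key := assoc_nonneg (bd := bd) (p := p) (q := q) hc (hbd f hf) (hbd g hg) (hup f r hf)
    (hup g r' hg)
  have hconst : ∀ x : ℝ, SJ bd p q c (fun _ _ _ => x) = x * SJ bd p q c (fun _ _ _ => 1) := by
    intro x
    have := SJ_smul (bd := bd) (p := p) (q := q) c x (fun _ _ _ => 1)
    simpa using this
  have e1 : SJ bd p q c (fun s a b => f s a b + r) =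
      SJ bd p q c f + r * SJ bd p q c (fun _ _ _ => 1) := by
    rw [SJ_add (bd := bd) (p := p) (q := q) c f (fun _ _ _ => r), hconst]
  have e2 : SJ bd p q c (fun s a b => g s a b + r') =
      SJ bd p q c g + r' * SJ bd p q c (fun _ _ _ => 1) := by
    rw [SJ_add (bd := bd) (p := p) (q := q) c g (fun _ _ _ => r'), hconst]
  have e3 : SJ bd p q c (fun s a b => (f s a b + r) * (g s a b + r')) =
      SJ bd p q c (fun s a b => f s a b * g s a b) + r' * SJ bd p q c f + r * SJ bd p q c g +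
        r * r' * SJ bd p q c (fun _ _ _ => 1) := by
    have e4 : (fun (s : X → Bool) (a b : Finset B) => (f s a b + r) * (g s a b + r')) =
        (fun s a b => ((f s a b * g s a b + r' * f s a b) + r * g s a b) + r * r') := by
      funext s a b
      ring
    rw [e4, SJ_add c (fun s a b => (f s a b * g s a b + r' * f s a b) + r * g s a b)
      (fun _ _ _ => r * r'), SJ_add c (fun s a b => f s a b * g s a b + r' * f s a b)
      (fun s a b => r * g s a b), SJ_add c (fun s a b => f s a b * g s a b)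
      (fun s a b => r' * f s a b), SJ_smul c r' f, SJ_smul c r g, hconst (r * r')]
  rw [e1, e2, e3] at key
  nlinarith only [key]

/-- Two decreasing functions. -/
theorem assoc_fin3_anti {c : ℝ} (hc : 1 ≤ c) {f g : (X → Bool) → Finset B → Finset B → ℝ}
    (hf : Up3 (fun s a b => -f s a b)) (hg : Up3 (fun s a b => -g s a b)) :
    SJ bd p q c f * SJ bd p q c g ≤
      SJ bd p q c (fun _ _ _ => 1) * SJ bd p q c (fun s a b => f s a b * g s a b) := by
  have key := assoc_fin3 (bd := bd) (p := p) (q := q) hc hf hg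
  have e1 : ∀ h : (X → Bool) → Finset B → Finset B → ℝ,
      SJ bd p q c (fun s a b => -h s a b) = -SJ bd p q c h := by
    intro h
    have := SJ_smul (bd := bd) (p := p) (q := q) c (-1) h
    simpa only [neg_mul, one_mul] using this
  rw [e1, e1] at key
  have e2 : (fun (s : X → Bool) (a b : Finset B) => -f s a b * -g s a b) =
      (fun s a b => f s a b * g s a b) := by
    funext s a b
    ring
  rw [e2] at key
  linarith only [key]

/-- The form with the spins and the open bonds with positive spins only. -/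
theorem assoc_fin2 {c : ℝ} (hc : 1 ≤ c) {f g : (X → Bool) → Finset B → ℝ}
    (hf : ∀ s t a a', s ≤ t → a ⊆ a' → f s a ≤ f t a')
    (hg : ∀ s t a a', s ≤ t → a ⊆ a' → g s a ≤ g t a') :
    (∑ tau : X → Bool, ∑ om, Jw bd p q c tau om *
        f tau (om.filter (fun v => tau (p v) = true))) *
      (∑ tau : X → Bool, ∑ om, Jw bd p q c tau om *
        g tau (om.filter (fun v => tau (p v) = true))) ≤
    (∑ tau : X → Bool, ∑ om, Jw bd p q c tau om) *
      (∑ tau : X → Bool, ∑ om, Jw bd p q c tau om *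
        (f tau (om.filter (fun v => tau (p v) = true)) *
          g tau (om.filter (fun v => tau (p v) = true)))) := by
  have key := assoc_fin3 (bd := bd) (p := p) (q := q) hc (f := fun s a _ => f s a)
    (g := fun s a _ => g s a) (fun s t a a' _ _ h1 h2 _ => hf s t a a' h1 h2)
    (fun s t a a' _ _ h1 h2 _ => hg s t a a' h1 h2)
  unfold SJ at key
  simpa only [mul_one] using key

end AsFin3

end Vale.Agent.P145.FB
end

section

/-!
`Inputs` imply `S_key`, modulo three lemmas on test functions.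
-/

namespace Vale.Agent.P145.Top

open Filter Topology Set MeasureTheory
open Vale.Agent.P145.PT Vale.Agent.P145.FP Vale.Agent.P145.Dom

/-- A test function is a finite sum of test functions in small cells. -/
def S_cells : Prop := ∀ {D : Set (ℝ × ℝ)}, IsOpen D → ∀ {ψ : ℝ × ℝ → ℝ}, TestOn D ψ →
  ∃ (m : ℕ) (g : Fin m → ℝ × ℝ → ℝ) (a b a' b' : Fin m → ℝ),
    (∀ i, a i < b i ∧ a' i < b' i ∧ ccell (a i) (b i) (a' i) (b' i) ⊆ D ∧
      TestOn (cell (a i) (b i) (a' i) (b' i)) (g i)) ∧ ∀ z, ψ z = ∑ i, g i z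

/-- A test function is dominated by a nonnegative one with almost the same `L²` norm. -/
def S_dom : Prop := ∀ {D : Set (ℝ × ℝ)}, IsOpen D → Bornology.IsBounded D →
  ∀ {f : ℝ × ℝ → ℝ}, TestOn D f → ∀ {ε : ℝ}, 0 < ε → ∃ g : ℝ × ℝ → ℝ, TestOn D g ∧
    (∀ z, |f z| ≤ g z) ∧ ∫ z, g z ^ 2 ≤ (∫ z, f z ^ 2) + ε

/-- A nonnegative test function which is at least one on a ball. -/
def S_big : Prop := ∀ {R : ℝ}, 0 < R → ∃ f0 : ℝ × ℝ → ℝ,
  TestOn (Metric.ball (0 : ℝ × ℝ) (2 * R)) f0 ∧ (∀ z, 0 ≤ f0 z) ∧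
    ∀ z ∈ Metric.ball (0 : ℝ × ℝ) R, 1 ≤ f0 z

/-- Decomposition of a test function. -/
def S_pp : Prop := ∀ {D : Set (ℝ × ℝ)}, IsOpen D → Bornology.IsBounded D →
  ∀ {f : ℝ × ℝ → ℝ}, TestOn D f → ∀ {R : ℝ} {f0 : ℝ × ℝ → ℝ},
    D ⊆ Metric.ball (0 : ℝ × ℝ) R → (∀ z, 0 ≤ f0 z) →
    (∀ z ∈ Metric.ball (0 : ℝ × ℝ) R, 1 ≤ f0 z) → ∃ (p m : ℝ × ℝ → ℝ) (C : ℝ), 0 ≤ C ∧
      TestOn D p ∧ TestOn D m ∧ (∀ z, 0 ≤ p z ∧ p z ≤ C * f0 z) ∧
      (∀ z, 0 ≤ m z ∧ m z ≤ C * f0 z) ∧ ∀ z, f z = p z - m z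

section

variable {c κ : ℝ} {δ : ℕ → ℝ} {R : ℝ} {B : ℕ → Finset (ℤ × ℤ)} {f0 : ℝ × ℝ → ℝ}
  {μ : ℕ → Set (ℝ × ℝ) → Measure Om}

theorem Setup.fix (S : Setup c κ δ R B f0 μ) (hcells : S_cells) (hdom : S_dom) (hpp : S_pp)
    {a b : ℝ} {D : ℝ → Set (ℝ × ℝ)}
    (hN : Nest a b D) (hR : ∀ s ∈ Ioo a b, D s ⊆ Metric.ball 0 R) {U : Ultrafilter ℕ}
    (hU : (U : Filter ℕ) ≤ atTop) {s : ℝ} (hs : s ∈ Ioo a b) (hG : Good δ B f0 μ a b D U s) :
    Fix κ δ B (fun n => μ n (D s)) (D s) U where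
  κpos := S.inp.κpos
  op := hN.op s hs
  bdd := hN.bdd s hs
  pos := fun n => S.pos n _
  mean := fun n u => S.mean n _ u
  mb := by
    intro f hf hf0 k
    obtain ⟨C, hC⟩ := S.bdd_pow (hN.op s hs) (hR s hs) hf.cs hf.sm (S.supp (hR s hs) hf) hf0 k
    exact ⟨C, hU hC⟩
  l2 := by
    obtain ⟨C, hC0, hC⟩ := S.l2 hdom
    exact ⟨C, hC0, fun f hf ε hε => hU (hC (D s) (hN.op s hs) (hR s hs) f hf ε hε)⟩
  dec := by
    intro f hf hf0 k ε hε
    obtain ⟨r, hr, h⟩ := S.inp.dec (D s) (hN.op s hs) (hN.bdd s hs) (hN.thick s hs) f hf hf0 k ε hε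
    refine ⟨r, hr, fun x hx hxr => ?_⟩
    filter_upwards [hU (h x hx hxr)] with n hn
    rw [← S.ee n (D s) (fun ω => hv (δ n) (bump (dd (D s) x / 2) x) ω * hv (δ n) f ω ^ k)] at hn
    refine le_trans (le_of_eq ?_) hn
    congr 1
    funext ω
    rw [S.hvB n f (S.supp (hR s hs) hf) ω,
      S.hvB n _ (S.supp (hR s hs) (bump_test' (hN.op s hs) (hN.bdd s hs) hx)) ω]
  sd := by
    intro ψ f hψ hf hf0 k
    obtain ⟨m, g, x, y, x', y', hg, hsum⟩ := hcells (hN.op s hs) hψ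
    have e : ψ = fun z => ∑ i, g i z := funext hsum
    have h1 : ∀ i, Tendsto (fun n => sdE κ (B n) (δ n) (μ n (D s)) (g i) f k) U (𝓝 0) := by
      intro i
      obtain ⟨h1, h2, h3, h4⟩ := hg i
      rw [Metric.tendsto_nhds]
      intro ε hε
      have := S.sd_cell (fun hD hb _ hf hR' => hpp hD hb hf hR' S.f00 S.f01) hN hR hU hs hG
        h1 h2 h3 h4 hf hf0 k (half_pos hε)
      filter_upwards [this] with n hn
      rw [Real.dist_eq, sub_zero]
      linarith only [hε, hn]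
    have h2 : Tendsto (fun n => ∑ i, sdE κ (B n) (δ n) (μ n (D s)) (g i) f k) U
        (𝓝 (∑ _i : Fin m, (0 : ℝ))) := tendsto_finsetSum _ fun i _ => h1 i
    rw [Finset.sum_const_zero] at h2
    refine h2.congr fun n => ?_
    rw [e, sdE_sum (S.pos n _).mom Finset.univ g (D := D s) (fun i _ =>
      (hg i).2.2.2.mono ((cell_sub_ccell _ _ _ _).trans (hg i).2.2.1)) hf.cont k]

end

theorem exists_setup {c κ : ℝ} {δ : ℕ → ℝ} (H : Inputs c κ δ) (hbig : S_big) {R : ℝ}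
    (hR : 0 < R) : ∃ (B : ℕ → Finset (ℤ × ℤ)) (f0 : ℝ × ℝ → ℝ) (μ : ℕ → Set (ℝ × ℝ) → Measure Om),
      Setup c κ δ R B f0 μ := by
  obtain ⟨f0, h1, h2, h3⟩ := hbig hR
  choose B hB' using fun n => hv_eq_hB (R := 2 * R) (H.δpos n)
  choose μ hμ hμ' using fun (n : ℕ) (D : Set (ℝ × ℝ)) => exists_meas H.cpos (Fs (δ n) D)
  refine ⟨B, f0, μ, ?_⟩
  refine ⟨H, hR, fun n D => ⟨hμ n D, fun v => ?_⟩, fun n D A => hμ' n D A,
    fun n D D' hDD hD' v => ?_, fun n D u => ?_, h1, h2, h3, fun n f hf ω => hB' n f hf ω⟩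
  · rw [hμ']
    exact (H.mono _ _ (Finset.Subset.refl (Fs (δ n) D)) v).1
  · rw [hμ', hμ']
    exact (H.mono _ _ (Fs_mono (H.δpos n) hDD (Metric.isBounded_ball.subset hD')) v).2.1
  · rw [hμ']
    exact (H.mono _ _ (Finset.Subset.refl (Fs (δ n) D)) []).2.2 u

theorem key_of {c κ : ℝ} {δ : ℕ → ℝ} (H : Inputs c κ δ) (hcells : S_cells) (hdom : S_dom)
    (hbig : S_big) (hpp : S_pp) : S_key c κ δ := by
  rintro a b D hN ⟨R, hR⟩ U hU
  set R' : ℝ := max R 1 with hR'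
  have hR'0 : 0 < R' := lt_of_lt_of_le one_pos (le_max_right _ _)
  have hRR : ∀ s ∈ Ioo a b, D s ⊆ Metric.ball 0 R' := fun s hs =>
    (hR s hs).trans (Metric.ball_subset_ball (le_max_left _ _))
  obtain ⟨B, f0, μ, S⟩ := exists_setup H hbig hR'0
  obtain ⟨s, hs, hG⟩ := S.exists_good hN hRR hU
  refine ⟨s, hs, fun f hf hf0 k => ?_⟩
  have F := S.fix hcells hdom hpp hN hRR hU hs hG
  refine (F.gauss hf hf0 k).congr fun n => ?_
  rw [← S.ee n (D s) (fun ω => hv (δ n) f ω ^ k)]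
  congr 1
  funext ω
  rw [S.hvB n f (S.supp (hRR s hs) hf) ω]

end Vale.Agent.P145.Top
end
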