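import Mathlib
import Vale.Agent.P145.Bdl.B4
import Vale.Agent.P145.Bdl.B5
import Vale.Agent.P145.Bdl.B3
import Vale.Agent.P145.Bdl.B2
import Vale.Agent.P145.Bdl.B1
import Vale.Agent.P152.Bd3.B16

set_option linter.all false

section

/-!
P145, block F-A: the lattice functionals `Wd δ f a`, `∑ 2 δ² h(q) f(δ (q + a))` over the even
faces `q`; normalised functionals of mass one and of mass zero.
-/

namespace Vale.Agent.P145.FA

open Finset Filter Topology MeasureTheory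
open Vale.Agent.P152
open Vale.Agent.P152.GFF.S (hcell hbox hint Test gffCov)
open Vale.Agent.P145.PT (Sm TestOn lap)

/-- Value of the lattice functional. -/
noncomputable def wd (δ : ℝ) (f : ℝ × ℝ → ℝ) (a q : ℤ × ℤ) : ℝ :=
  2 * δ ^ 2 * (FP.ev q * f (δ * ((q.1 + a.1 : ℤ) : ℝ), δ * ((q.2 + a.2 : ℤ) : ℝ)))

open Classical in
/-- The lattice functional `2 δ² ∑ h(q) f(δ (q + a))` over the even faces. -/
noncomputable def Wd (δ : ℝ) (f : ℝ × ℝ → ℝ) (a : ℤ × ℤ) : (ℤ × ℤ) →₀ ℝ :=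
  if h : {q | wd δ f a q ≠ 0}.Finite then
    Finsupp.onFinset h.toFinset (wd δ f a) (fun q hq => by simpa using hq)
  else 0

lemma abs_int_le {δ R : ℝ} (hδ : 0 < δ) {a : ℤ} (h : |δ * (a : ℝ)| ≤ R) :
    |(a : ℝ)| ≤ R / δ := by
  rw [abs_mul, abs_of_pos hδ] at h
  rw [le_div_iff₀ hδ]
  linarith only [h]

lemma mem_hbox_of {δ R : ℝ} (hδ : 0 < δ) {N : ℕ} (hN : R / δ ≤ N) {q : ℤ × ℤ}
    (h : |δ * (q.1 : ℝ)| ≤ R ∧ |δ * (q.2 : ℝ)| ≤ R) : q ∈ hbox N := by
  have key : ∀ a : ℤ, |δ * (a : ℝ)| ≤ R → a ∈ Finset.Icc (-(N : ℤ)) (N : ℤ) := by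
    intro a ha
    have h2 : |(a : ℝ)| ≤ (N : ℝ) := (abs_int_le hδ ha).trans hN
    have h3 : |a| ≤ (N : ℤ) := by exact_mod_cast h2
    rw [Finset.mem_Icc]
    exact abs_le.1 h3
  exact Finset.mem_product.2 ⟨key _ h.1, key _ h.2⟩

lemma wd_fin {δ : ℝ} (hδ : 0 < δ) {f : ℝ × ℝ → ℝ} (cf : HasCompactSupport f) (a : ℤ × ℤ) :
    {q | wd δ f a q ≠ 0}.Finite := by
  obtain ⟨R, hR, h⟩ := P152.GFF.S.bound_of_compact cf
  obtain ⟨N, hN⟩ := exists_nat_ge (R / δ)
  have h1 : {q : ℤ × ℤ | q + a ∈ hbox N}.Finite := by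
    refine ((hbox N).finite_toSet.image (fun q => q - a)).subset fun q hq => ?_
    exact ⟨q + a, hq, by simp⟩
  refine h1.subset fun q hq => ?_
  have h2 : f (δ * ((q.1 + a.1 : ℤ) : ℝ), δ * ((q.2 + a.2 : ℤ) : ℝ)) ≠ 0 := by
    intro h0
    apply hq
    unfold wd
    rw [h0]
    ring
  exact mem_hbox_of hδ hN (h _ h2)

lemma Wd_apply {δ : ℝ} (hδ : 0 < δ) {f : ℝ × ℝ → ℝ} (cf : HasCompactSupport f) (a q : ℤ × ℤ) :
    Wd δ f a q =
      2 * δ ^ 2 * (FP.ev q * f (δ * ((q.1 + a.1 : ℤ) : ℝ), δ * ((q.2 + a.2 : ℤ) : ℝ))) := by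
  unfold Wd
  rw [dif_pos (wd_fin hδ cf a), Finsupp.onFinset_apply]
  rfl

lemma Wd_supp {δ : ℝ} (hδ : 0 < δ) {f : ℝ × ℝ → ℝ} (cf : HasCompactSupport f) {a q : ℤ × ℤ}
    (hq : Wd δ f a q ≠ 0) : (q.1 + q.2) % 2 = 0 ∧
      f (δ * ((q.1 + a.1 : ℤ) : ℝ), δ * ((q.2 + a.2 : ℤ) : ℝ)) ≠ 0 := by
  rw [Wd_apply hδ cf] at hq
  constructor
  · by_contra h
    apply hq
    unfold FP.ev
    rw [if_neg h]
    ring
  · intro h
    apply hq
    rw [h]
    ring

theorem app_Wd {δ : ℕ → ℝ} (hδ : ∀ n, 0 < δ n) (hδ1 : ∀ n, δ n ≤ 1) {f : ℝ × ℝ → ℝ}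
    (cf : HasCompactSupport f) {L : ℝ} (hL0 : 0 ≤ L) (hL : ∀ x y, |f x - f y| ≤ L * ‖x - y‖)
    {a : ℕ → ℤ × ℤ} {x0 : ℝ × ℝ}
    (ha : ∀ n, |δ n * ((a n).1 : ℝ) - x0.1| ≤ 2 * δ n ∧ |δ n * ((a n).2 : ℝ) - x0.2| ≤ 2 * δ n) :
    App δ (fun x => f (x + x0)) (fun n => Wd (δ n) f (a n)) := by
  obtain ⟨R, hR, h⟩ := P152.GFF.S.bound_of_compact cf
  refine ⟨R + |x0.1| + |x0.2| + 2, 4 * L, by positivity, by (clear * - hL0; positivity), fun n => ⟨?_, ?_⟩⟩
  · intro q hq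
    have h1 := h _ (Wd_supp (hδ n) cf hq).2
    simp only at h1
    have h2 := ha n
    have key : ∀ (q a : ℤ) (x : ℝ), |δ n * (((q + a : ℤ)) : ℝ)| ≤ R → |δ n * (a : ℝ) - x| ≤ 2 * δ n →
        |δ n * (q : ℝ)| ≤ R + |x| + 2 := by
      intro q a x h3 h4
      push_cast at h3
      have h5 : δ n * (q : ℝ) = (δ n * ((q : ℝ) + a) - (δ n * (a : ℝ) - x)) - x := by ring
      rw [h5]
      have h6 := abs_sub (δ n * ((q : ℝ) + a) - (δ n * (a : ℝ) - x)) x
      have h7 := abs_sub (δ n * ((q : ℝ) + a)) (δ n * (a : ℝ) - x)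
      linarith only [h4, h3, h6, h7, hδ1 n]
    have h3 := key _ _ _ h1.1 h2.1
    have h4 := key _ _ _ h1.2 h2.2
    constructor
    · linarith only [h3, abs_nonneg x0.2]
    · linarith only [h4, abs_nonneg x0.1]
  · intro q
    rw [Wd_apply (hδ n) cf]
    have e : ∀ A B E d : ℝ, 2 * d ^ 2 * (E * A) - 2 * d ^ 2 * (E * B) = 2 * d ^ 2 * (E * (A - B)) :=
      fun A B E d => by ring
    rw [e, abs_mul (2 * δ n ^ 2), abs_mul (FP.ev q),
      abs_of_nonneg (by (clear * -; positivity) : (0 : ℝ) ≤ 2 * δ n ^ 2)]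
    have h1 : |f (δ n * (((q.1 + (a n).1 : ℤ)) : ℝ), δ n * (((q.2 + (a n).2 : ℤ)) : ℝ)) -
        f ((δ n * (q.1 : ℝ), δ n * (q.2 : ℝ)) + x0)| ≤ L * (2 * δ n) := by
      refine (hL _ _).trans (mul_le_mul_of_nonneg_left ?_ hL0)
      rw [Prod.norm_def, max_le_iff]
      simp only [Prod.fst_sub, Prod.snd_sub, Prod.fst_add, Prod.snd_add, Real.norm_eq_abs]
      push_cast
      constructor
      · rw [show δ n * ((q.1 : ℝ) + ((a n).1 : ℝ)) - (δ n * (q.1 : ℝ) + x0.1) =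
          δ n * ((a n).1 : ℝ) - x0.1 by ring]
        exact (ha n).1
      · rw [show δ n * ((q.2 : ℝ) + ((a n).2 : ℝ)) - (δ n * (q.2 : ℝ) + x0.2) =
          δ n * ((a n).2 : ℝ) - x0.2 by ring]
        exact (ha n).2
    have h2 := FP.ev_abs q
    have h3 : |FP.ev q| * |f (δ n * (((q.1 + (a n).1 : ℤ)) : ℝ), δ n * (((q.2 + (a n).2 : ℤ)) : ℝ)) -
        f ((δ n * (q.1 : ℝ), δ n * (q.2 : ℝ)) + x0)| ≤ 1 * (L * (2 * δ n)) :=
      mul_le_mul h2 h1 (abs_nonneg _) zero_le_one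
    calc 2 * δ n ^ 2 * (|FP.ev q| * |f (δ n * (((q.1 + (a n).1 : ℤ)) : ℝ),
          δ n * (((q.2 + (a n).2 : ℤ)) : ℝ)) - f ((δ n * (q.1 : ℝ), δ n * (q.2 : ℝ)) + x0)|)
        ≤ 2 * δ n ^ 2 * (1 * (L * (2 * δ n))) :=
          mul_le_mul_of_nonneg_left h3 (by positivity)
      _ = 4 * L * δ n ^ 3 := by ring

/-! ### Translations -/

lemma ev_even_shift {a : ℤ × ℤ} (ha : (2 : ℤ) ∣ a.1 + a.2) (q : ℤ × ℤ) : FP.ev (q + a) = FP.ev q := by
  unfold FP.ev
  have h1 : (q + a).1 + (q + a).2 = (q.1 + q.2) + (a.1 + a.2) := by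
    simp only [Prod.fst_add, Prod.snd_add]; ring
  rw [h1]
  by_cases h : (q.1 + q.2) % 2 = 0
  · rw [if_pos h, if_pos (by omega)]
  · rw [if_neg h, if_neg (by omega)]

lemma Wd_shift {δ : ℝ} (hδ : 0 < δ) {f : ℝ × ℝ → ℝ} (cf : HasCompactSupport f) {a b : ℤ × ℤ}
    (ha : (2 : ℤ) ∣ a.1 + a.2) (q : ℤ × ℤ) : Wd δ f b (q + a) = Wd δ f (a + b) q := by
  rw [Wd_apply hδ cf, Wd_apply hδ cf, ev_even_shift ha]
  simp only [Prod.fst_add, add_assoc, Prod.snd_add]

lemma Wd_shift0 {δ : ℝ} (hδ : 0 < δ) {f : ℝ × ℝ → ℝ} (cf : HasCompactSupport f) {a : ℤ × ℤ}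
    (ha : (2 : ℤ) ∣ a.1 + a.2) (q : ℤ × ℤ) : Wd δ f 0 (q + a) = Wd δ f a q := by
  rw [Wd_shift hδ cf ha, add_zero]

lemma ev_tsum (w : (ℤ × ℤ) →₀ ℝ) (h : Hgt) : ev w h = ∑' q, w q * (h q : ℝ) := by
  unfold ev Finsupp.sum
  symm
  refine tsum_eq_sum fun q hq => ?_
  rw [Finsupp.notMem_support_iff.1 hq, zero_mul]

lemma mass_tsum (w : (ℤ × ℤ) →₀ ℝ) : mass w = ∑' q, w q := by
  unfold mass Finsupp.sum
  symm
  exact tsum_eq_sum fun q hq => Finsupp.notMem_support_iff.1 hq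

/-- The functional `Wd δ f a` of the height function seen from `a`. -/
theorem ev_Wd_pb {δ : ℝ} (hδ : 0 < δ) {f : ℝ × ℝ → ℝ} (cf : HasCompactSupport f) {a : ℤ × ℤ}
    (ha : (2 : ℤ) ∣ a.1 + a.2) (h : Hgt) :
    ev (Wd δ f a) (pb (fun q => q + a) h) = ev (Wd δ f 0) h := by
  rw [ev_tsum, ev_tsum, ← (Equiv.addRight a).tsum_eq (fun q => Wd δ f 0 q * (h q : ℝ))]
  refine tsum_congr fun q => ?_
  rw [Equiv.coe_addRight, Wd_shift0 hδ cf ha]
  rfl

theorem mass_Wd_shift {δ : ℝ} (hδ : 0 < δ) {f : ℝ × ℝ → ℝ} (cf : HasCompactSupport f) {a : ℤ × ℤ}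
    (ha : (2 : ℤ) ∣ a.1 + a.2) : mass (Wd δ f a) = mass (Wd δ f 0) := by
  rw [mass_tsum, mass_tsum, ← (Equiv.addRight a).tsum_eq (fun q => Wd δ f 0 q)]
  refine tsum_congr fun q => ?_
  rw [Equiv.coe_addRight, Wd_shift0 hδ cf ha]

/-- Linearity in the test function. -/
lemma Wd_add {δ : ℝ} (hδ : 0 < δ) {f g : ℝ × ℝ → ℝ} (cf : HasCompactSupport f)
    (cg : HasCompactSupport g) (a : ℤ × ℤ) :
    Wd δ (fun x => f x + g x) a = Wd δ f a + Wd δ g a := by
  have c : HasCompactSupport (fun x => f x + g x) := cf.add cg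
  ext q
  rw [Finsupp.add_apply, Wd_apply hδ cf, Wd_apply hδ cg, Wd_apply hδ c]
  ring

lemma Wd_smul {δ : ℝ} (hδ : 0 < δ) {f : ℝ × ℝ → ℝ} (cf : HasCompactSupport f) (r : ℝ)
    (a : ℤ × ℤ) : Wd δ (fun x => r * f x) a = r • Wd δ f a := by
  have c : HasCompactSupport (fun x => r * f x) := cf.mul_left
  ext q
  rw [Finsupp.smul_apply, smul_eq_mul, Wd_apply hδ cf, Wd_apply hδ c]
  ring

/-! ### The mass -/

/-- Sum over the even faces against the integral. -/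
theorem mass_Wd {f : ℝ × ℝ → ℝ} (cf : HasCompactSupport f) (hc : Continuous f) {L : ℝ}
    (hL0 : 0 ≤ L) (hL : ∀ x y, |f x - f y| ≤ L * ‖x - y‖) :
    ∃ C : ℝ, 0 ≤ C ∧ ∀ δ : ℝ, 0 < δ → δ ≤ 1 → ∀ a : ℤ × ℤ, (2 : ℤ) ∣ a.1 + a.2 →
      |mass (Wd δ f a) - ∫ x, f x| ≤ C * δ := by
  obtain ⟨R, hR, h⟩ := P152.GFF.S.bound_of_compact cf
  have hf : Integrable f := hc.integrable_of_hasCompactSupport cf
  refine ⟨3 * L * (2 * R + 7) ^ 2, by (clear * - hL0 hR; positivity), fun δ hδ hδ1 a ha => ?_⟩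
  rw [mass_Wd_shift hδ cf ha]
  set N := FP.NN R δ with hN
  have hNge := FP.NN_ge R δ
  have hNle := FP.NN_le hR hδ hδ1
  rw [← hN] at hNge hNle
  -- the integral
  have hN1 : R / δ + 1 ≤ ((N + 1 : ℕ) : ℝ) := by push_cast; linarith only [hNge]
  have h1 : ∫ x, f x = ∑ q ∈ hbox (N + 1), FP.cI f δ q := by
    have h2 := P152.GFF.S.hint_cells (fun _ => 1) hδ hf h hN1
    have h3 : hint (fun _ => 1) δ f = ∫ x, f x := by
      unfold P152.GFF.S.hint P152.GFF.S.hd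
      simp
    rw [h3] at h2
    rw [h2]
    refine Finset.sum_congr rfl fun q _ => ?_
    unfold FP.cI
    simp only [Int.cast_one, one_mul]
  have hz : ∀ v, v ∉ hbox N → FP.cI f δ v = 0 := fun v hv =>
    P152.GFF.S.cell_zero hδ hNge h hv
  set g : ℤ × ℤ → ℝ := fun q => (1 - FP.ev q) * FP.cI f δ q with hg
  have g1 : ∑' q, g q = ∑ q ∈ hbox (N + 1), g q := by
    refine tsum_eq_sum (fun q hq => ?_)
    rw [hg]
    simp only
    rw [hz q (fun h => hq (FP.hbox_mono h)), mul_zero]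
  have g2 : ∑' q : ℤ × ℤ, g (q.1, q.2 - 1) = ∑ q ∈ hbox (N + 1), g (q.1, q.2 - 1) := by
    refine tsum_eq_sum (fun q hq => ?_)
    rw [hg]
    simp only
    rw [hz _ (fun h => hq (FP.hbox_succ h)), mul_zero]
  have g3 : ∑' q : ℤ × ℤ, g (q.1, q.2 - 1) = ∑' q, g q := by
    have := (Equiv.subRight ((0, 1) : ℤ × ℤ)).tsum_eq g
    rw [← this]
    refine tsum_congr (fun q => ?_)
    rw [Equiv.subRight_apply]
    congr 1
    refine Prod.ext ?_ ?_ <;> simp
  have h4 : ∫ x, f x = ∑ q ∈ hbox (N + 1), FP.ev q * (FP.cI f δ q + FP.cI f δ (q.1, q.2 - 1)) := by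
    have e1 : ∑ q ∈ hbox (N + 1), FP.cI f δ q =
        ∑ q ∈ hbox (N + 1), FP.ev q * FP.cI f δ q + ∑ q ∈ hbox (N + 1), g q := by
      rw [← Finset.sum_add_distrib]
      refine Finset.sum_congr rfl (fun q _ => ?_)
      rw [hg]; ring
    rw [h1, e1, ← g1, ← g3, g2, ← Finset.sum_add_distrib]
    refine Finset.sum_congr rfl (fun q _ => ?_)
    rw [hg]
    simp only
    rw [FP.ev_shift]
    ring
  have h5 : mass (Wd δ f 0) = ∑ q ∈ hbox (N + 1), FP.ev q * (2 * δ ^ 2 * f (δ * q.1, δ * q.2)) := by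
    rw [mass_tsum]
    have h6 : ∀ q, Wd δ f 0 q = FP.ev q * (2 * δ ^ 2 * f (δ * q.1, δ * q.2)) := by
      intro q
      rw [Wd_apply hδ cf]
      simp only [Prod.fst_zero, Prod.snd_zero, add_zero]
      ring
    simp only [h6]
    refine tsum_eq_sum fun q hq => ?_
    by_cases h7 : f (δ * q.1, δ * q.2) = 0
    · rw [h7]; ring
    · exfalso
      apply hq
      refine mem_hbox_of hδ ?_ (h _ h7)
      linarith only [hN1]
  rw [h5, h4, ← Finset.sum_sub_distrib]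
  refine (Finset.abs_sum_le_sum_abs _ _).trans ?_
  have h8 : ∀ q ∈ hbox (N + 1), |FP.ev q * (2 * δ ^ 2 * f (δ * q.1, δ * q.2)) -
      FP.ev q * (FP.cI f δ q + FP.cI f δ (q.1, q.2 - 1))| ≤ 3 * L * δ ^ 3 := by
    intro q _
    have e : FP.ev q * (2 * δ ^ 2 * f (δ * q.1, δ * q.2)) -
        FP.ev q * (FP.cI f δ q + FP.cI f δ (q.1, q.2 - 1)) =
        FP.ev q * (2 * δ ^ 2 * f (δ * q.1, δ * q.2) - FP.cI f δ q - FP.cI f δ (q.1, q.2 - 1)) := by
      ring
    rw [e, abs_mul]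
    have h9 := FP.K_abs hf hL0 hL hδ q
    have h10 := mul_le_mul (FP.ev_abs q) h9 (abs_nonneg _) zero_le_one
    linarith only [h10]
  refine (Finset.sum_le_sum h8).trans ?_
  rw [Finset.sum_const, nsmul_eq_mul, FP.hbox_card]
  have h11 : (δ * (2 * (((N + 1 : ℕ)) : ℝ) + 1)) ^ 2 ≤ (2 * R + 7) ^ 2 :=
    pow_le_pow_left₀ (by (clear * - hδ; positivity)) hNle 2
  calc (2 * (((N + 1 : ℕ)) : ℝ) + 1) ^ 2 * (3 * L * δ ^ 3)
      = (3 * L * δ) * (δ * (2 * (((N + 1 : ℕ)) : ℝ) + 1)) ^ 2 := by ring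
    _ ≤ (3 * L * δ) * (2 * R + 7) ^ 2 := mul_le_mul_of_nonneg_left h11 (by (clear * - hL0 hδ; positivity))
    _ = 3 * L * (2 * R + 7) ^ 2 * δ := by ring

/-! ### Normalised functionals -/

lemma mass_smul' (r : ℝ) (w : (ℤ × ℤ) →₀ ℝ) : mass (r • w) = r * mass w := by
  rw [mass_tsum, mass_tsum, ← tsum_mul_left]
  rfl

lemma mass_sub' (w v : (ℤ × ℤ) →₀ ℝ) : mass (w - v) = mass w - mass v := by
  have key : ∀ w : (ℤ × ℤ) →₀ ℝ, Summable fun q => w q := fun w =>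
    summable_of_ne_finset_zero (s := w.support) fun q hq => Finsupp.notMem_support_iff.1 hq
  rw [mass_tsum, mass_tsum, mass_tsum, ← (key w).tsum_sub (key v)]
  rfl

/-- Normalised functional of mass one. -/
noncomputable def nW (δ : ℝ) (χ : ℝ × ℝ → ℝ) (a : ℤ × ℤ) : (ℤ × ℤ) →₀ ℝ :=
  (mass (Wd δ χ a))⁻¹ • Wd δ χ a

/-- Corrected functional of mass zero. -/
noncomputable def zW (δ : ℝ) (g χ : ℝ × ℝ → ℝ) (a : ℤ × ℤ) : (ℤ × ℤ) →₀ ℝ :=
  Wd δ g a - mass (Wd δ g a) • nW δ χ a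

lemma nW_supp {δ : ℝ} {χ : ℝ × ℝ → ℝ} {a q : ℤ × ℤ} (hq : nW δ χ a q ≠ 0) : Wd δ χ a q ≠ 0 := by
  intro h
  apply hq
  unfold nW
  rw [Finsupp.smul_apply, h, smul_zero]

lemma zW_supp {δ : ℝ} {g χ : ℝ × ℝ → ℝ} {a q : ℤ × ℤ} (hq : zW δ g χ a q ≠ 0) :
    Wd δ g a q ≠ 0 ∨ Wd δ χ a q ≠ 0 := by
  by_contra h
  push Not at h
  apply hq
  unfold zW nW
  rw [Finsupp.sub_apply, Finsupp.smul_apply, Finsupp.smul_apply, h.1, h.2]
  simp

/-- The normalised functionals are admissible for small `δ`. -/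
theorem exists_nW {χ : ℝ × ℝ → ℝ} (cχ : HasCompactSupport χ) (hχ : Continuous χ) {L : ℝ}
    (hL0 : 0 ≤ L) (hL : ∀ x y, |χ x - χ y| ≤ L * ‖x - y‖) (h1 : ∫ x, χ x = 1) :
    ∃ δ0 C : ℝ, 0 < δ0 ∧ δ0 ≤ 1 ∧ 0 ≤ C ∧ ∀ δ : ℝ, 0 < δ → δ ≤ δ0 → ∀ a : ℤ × ℤ,
      (2 : ℤ) ∣ a.1 + a.2 → mass (nW δ χ a) = 1 ∧
        (∀ q, |nW δ χ a q - Wd δ χ a q| ≤ C * δ ^ 3) ∧ ∀ q, |nW δ χ a q| ≤ C * δ ^ 2 := by
  obtain ⟨C, hC, hm⟩ := mass_Wd cχ hχ hL0 hL
  obtain ⟨F, hF⟩ := cχ.exists_bound_of_continuous hχ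
  have hF0 : 0 ≤ F := (norm_nonneg _).trans (hF 0)
  refine ⟨min 1 (1 / (2 * (C + 1))), max (4 * C * F) (4 * F), by positivity, min_le_left _ _,
    by (clear * - hC hF0; positivity), fun δ hδ hδ0 a ha => ?_⟩
  have hd1 : δ ≤ 1 := hδ0.trans (min_le_left _ _)
  have hd2 : δ ≤ 1 / (2 * (C + 1)) := hδ0.trans (min_le_right _ _)
  have h2 := hm δ hδ hd1 a ha
  rw [h1] at h2
  have h3 : C * δ ≤ 1 / 2 := by
    rw [le_div_iff₀ (by positivity)] at hd2
    linarith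
  set m := mass (Wd δ χ a) with hmd
  have h4 : 1 / 2 ≤ m := by
    have := (abs_le.1 h2).1
    linarith only [h3, this]
  have hmpos : 0 < m := by linarith only [h4]
  have h5 : |m⁻¹ - 1| ≤ 2 * (C * δ) := by
    have e : m⁻¹ - 1 = -(m - 1) * m⁻¹ := by field_simp; ring
    have h6 : m⁻¹ ≤ 2 := by
      rw [inv_le_comm₀ hmpos (by norm_num)]
      linarith only [h4]
    rw [e, abs_mul, abs_neg, abs_of_pos (inv_pos.2 hmpos)]
    have := mul_le_mul h2 h6 (inv_pos.2 hmpos).le (by positivity)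
    linarith only [this]
  have hW : ∀ q, |Wd δ χ a q| ≤ 2 * δ ^ 2 * F := by
    intro q
    rw [Wd_apply hδ cχ, abs_mul (2 * δ ^ 2), abs_mul (FP.ev q),
      abs_of_nonneg (by positivity : (0 : ℝ) ≤ 2 * δ ^ 2)]
    refine mul_le_mul_of_nonneg_left ?_ (by positivity)
    have := mul_le_mul (FP.ev_abs q) (hF (δ * ((q.1 + a.1 : ℤ) : ℝ), δ * ((q.2 + a.2 : ℤ) : ℝ)))
      (norm_nonneg _) zero_le_one
    rw [Real.norm_eq_abs] at this
    linarith only [this]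
  have hdiff : ∀ q, |nW δ χ a q - Wd δ χ a q| ≤ 4 * C * F * δ ^ 3 := by
    intro q
    unfold nW
    rw [Finsupp.smul_apply, smul_eq_mul, ← hmd,
      show m⁻¹ * Wd δ χ a q - Wd δ χ a q = (m⁻¹ - 1) * Wd δ χ a q by ring, abs_mul]
    calc |m⁻¹ - 1| * |Wd δ χ a q| ≤ (2 * (C * δ)) * (2 * δ ^ 2 * F) :=
          mul_le_mul h5 (hW q) (abs_nonneg _) (by (clear * - hC hδ; positivity))
      _ = 4 * C * F * δ ^ 3 := by ring
  refine ⟨?_, fun q => (hdiff q).trans ?_, fun q => ?_⟩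
  · unfold nW
    rw [mass_smul', ← hmd]
    exact inv_mul_cancel₀ hmpos.ne'
  · exact mul_le_mul_of_nonneg_right (le_max_left _ _) (by positivity)
  · have h6 : m⁻¹ ≤ 2 := by
      rw [inv_le_comm₀ hmpos (by norm_num)]
      linarith only [h4]
    unfold nW
    rw [Finsupp.smul_apply, smul_eq_mul, ← hmd, abs_mul, abs_of_pos (inv_pos.2 hmpos)]
    calc m⁻¹ * |Wd δ χ a q| ≤ 2 * (2 * δ ^ 2 * F) :=
          mul_le_mul h6 (hW q) (abs_nonneg _) (by norm_num)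
      _ = 4 * F * δ ^ 2 := by ring
      _ ≤ _ := mul_le_mul_of_nonneg_right (le_max_right _ _) (by positivity)

lemma App.of_close {δ : ℕ → ℝ} {f : ℝ × ℝ → ℝ} {w v : ℕ → (ℤ × ℤ) →₀ ℝ} (hw : App δ f w)
    {R' C' : ℝ} (hR' : 0 < R') (hC' : 0 ≤ C')
    (hs : ∀ n q, v n q ≠ 0 → |δ n * (q.1 : ℝ)| ≤ R' ∧ |δ n * (q.2 : ℝ)| ≤ R')
    (hc : ∀ n q, |v n q - w n q| ≤ C' * δ n ^ 3) : App δ f v := by
  obtain ⟨R, C, hR, hC, h⟩ := hw
  refine ⟨R', C + C', hR', by (clear * - hC hC'; positivity), fun n => ⟨hs n, fun q => ?_⟩⟩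
  have h1 := (h n).2 q
  have h2 := hc n q
  have e : v n q - 2 * δ n ^ 2 * (FP.ev q * f (δ n * q.1, δ n * q.2)) = (v n q - w n q) +
      (w n q - 2 * δ n ^ 2 * (FP.ev q * f (δ n * q.1, δ n * q.2))) := by ring
  rw [e]
  refine (abs_add_le _ _).trans ?_
  rw [add_mul]
  linarith only [h1, h2]

/-- The hypotheses on the mesh and the translations. -/
structure Near (δ : ℕ → ℝ) (a : ℕ → ℤ × ℤ) (x0 : ℝ × ℝ) : Prop where
  pos : ∀ n, 0 < δ n
  par : ∀ n, (2 : ℤ) ∣ (a n).1 + (a n).2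
  near : ∀ n, |δ n * ((a n).1 : ℝ) - x0.1| ≤ 2 * δ n ∧ |δ n * ((a n).2 : ℝ) - x0.2| ≤ 2 * δ n

/-- The functional of mass one. -/
theorem app_nW {χ : ℝ × ℝ → ℝ} (cχ : HasCompactSupport χ) (hχ : Sm χ) (h1 : ∫ x, χ x = 1) :
    ∃ δ0 : ℝ, 0 < δ0 ∧ δ0 ≤ 1 ∧ ∀ (δ : ℕ → ℝ) (a : ℕ → ℤ × ℤ) (x0 : ℝ × ℝ), Near δ a x0 →
      (∀ n, δ n ≤ δ0) → App δ (fun x => χ (x + x0)) (fun n => nW (δ n) χ (a n)) ∧
        ∀ n, mass (nW (δ n) χ (a n)) = 1 := by
  obtain ⟨R0, F, L, hR0, hR, hF, hL0, hL⟩ := smooth_bounds hχ cχ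
  obtain ⟨δ0, C, hδ0, hδ1, hC, h⟩ := exists_nW cχ hχ.continuous hL0 hL h1
  refine ⟨δ0, hδ0, hδ1, fun δ a x0 hN hle => ⟨?_, fun n => (h _ (hN.pos n) (hle n) _ (hN.par n)).1⟩⟩
  have hA := app_Wd hN.pos (fun n => (hle n).trans hδ1) cχ hL0 hL hN.near
  obtain ⟨R', C', hR', _, hs⟩ := id hA
  refine hA.of_close hR' hC (fun n q hq => (hs n).1 q (nW_supp hq)) fun n q => ?_
  exact (h _ (hN.pos n) (hle n) _ (hN.par n)).2.1 q

/-- The functional of mass zero. -/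
theorem app_zW {χ g : ℝ × ℝ → ℝ} (cχ : HasCompactSupport χ) (hχ : Sm χ) (h1 : ∫ x, χ x = 1)
    (cg : HasCompactSupport g) (hg : Sm g) (h0 : ∫ x, g x = 0) :
    ∃ δ0 : ℝ, 0 < δ0 ∧ δ0 ≤ 1 ∧ ∀ (δ : ℕ → ℝ) (a : ℕ → ℤ × ℤ) (x0 : ℝ × ℝ), Near δ a x0 →
      (∀ n, δ n ≤ δ0) → App δ (fun x => g (x + x0)) (fun n => zW (δ n) g χ (a n)) ∧
        ∀ n, mass (zW (δ n) g χ (a n)) = 0 := by
  obtain ⟨R0, F, L, hR0, hR, hF, hL0, hL⟩ := smooth_bounds hχ cχ
  obtain ⟨δ0, C, hδ0, hδ1, hC, h⟩ := exists_nW cχ hχ.continuous hL0 hL h1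
  obtain ⟨R0', F', L', hR0', hR', hF', hL0', hL'⟩ := smooth_bounds hg cg
  obtain ⟨C2, hC2, hm2⟩ := mass_Wd cg hg.continuous hL0' hL'
  refine ⟨δ0, hδ0, hδ1, fun δ a x0 hN hle => ⟨?_, fun n => ?_⟩⟩
  · have hA := app_Wd hN.pos (fun n => (hle n).trans hδ1) cχ hL0 hL hN.near
    have hB := app_Wd hN.pos (fun n => (hle n).trans hδ1) cg hL0' hL' hN.near
    obtain ⟨R1, C1, hR1, _, hs1⟩ := hA
    obtain ⟨R2, C3, hR2, _, hs2⟩ := id hB
    refine hB.of_close (R' := max R1 R2) (C' := C2 * C) (lt_max_of_lt_left hR1) (by (clear * - hC2 hC; positivity))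
      (fun n q hq => ?_) fun n q => ?_
    · rcases zW_supp hq with h3 | h3
      · have := (hs2 n).1 q h3
        exact ⟨this.1.trans (le_max_right _ _), this.2.trans (le_max_right _ _)⟩
      · have := (hs1 n).1 q h3
        exact ⟨this.1.trans (le_max_left _ _), this.2.trans (le_max_left _ _)⟩
    · unfold zW
      rw [Finsupp.sub_apply, Finsupp.smul_apply, smul_eq_mul,
        show Wd (δ n) g (a n) q - mass (Wd (δ n) g (a n)) * nW (δ n) χ (a n) q -
          Wd (δ n) g (a n) q = -(mass (Wd (δ n) g (a n)) * nW (δ n) χ (a n) q) by ring, abs_neg,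
        abs_mul]
      have h3 := hm2 (δ n) (hN.pos n) ((hle n).trans hδ1) (a n) (hN.par n)
      rw [h0, sub_zero] at h3
      have h4 := (h _ (hN.pos n) (hle n) _ (hN.par n)).2.2 q
      have hp := hN.pos n
      calc |mass (Wd (δ n) g (a n))| * |nW (δ n) χ (a n) q| ≤ (C2 * δ n) * (C * δ n ^ 2) :=
            mul_le_mul h3 h4 (abs_nonneg _) (by (clear * - hC2 hp; positivity))
        _ = C2 * C * δ n ^ 3 := by ring
  · unfold zW
    rw [mass_sub', mass_smul', (h _ (hN.pos n) (hle n) _ (hN.par n)).1, mul_one, sub_self]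

end Vale.Agent.P145.FA
end

section

/-!
P145, block X: from the coordinates of the Ashkin-Teller lattice (block Top) to the coordinates of
the six-vertex lattice (blocks FA, FB): the vertex `v` is the even face `(v.1 + v.2, v.1 - v.2)`.
-/

namespace Vale.Agent.P145.X

open Filter Topology Set MeasureTheory
open Vale.Agent.P145.PT Vale.Agent.P145.Top
open Vale.Agent.P145.FA (Hgt Wd wd mass)

theorem av_inj : Function.Injective av := by
  intro v w h
  have h1 : v.1 + v.2 = w.1 + w.2 := congrArg Prod.fst h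
  have h2 : v.1 - v.2 = w.1 - w.2 := congrArg Prod.snd h
  exact Prod.ext (by omega) (by omega)

theorem av_even (v : ℤ × ℤ) : ((av v).1 + (av v).2) % 2 = 0 := by
  unfold av
  show (v.1 + v.2 + (v.1 - v.2)) % 2 = 0
  omega

theorem exists_av {q : ℤ × ℤ} (h : (q.1 + q.2) % 2 = 0) : ∃ v, av v = q := by
  refine ⟨((q.1 + q.2) / 2, (q.1 - q.2) / 2), Prod.ext ?_ ?_⟩
  · show (q.1 + q.2) / 2 + (q.1 - q.2) / 2 = q.1
    (clear * - h; omega)
  · show (q.1 + q.2) / 2 - (q.1 - q.2) / 2 = q.2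
    omega

theorem fc_fine (v : ℤ × ℤ) : FB.fc (2 * v.1, 2 * v.2) = av v := by
  unfold FB.fc av
  refine Prod.ext ?_ ?_
  · show (2 * v.1 + 2 * v.2) / 2 = v.1 + v.2
    (clear * -; omega)
  · show (2 * v.1 - 2 * v.2) / 2 = v.1 - v.2
    omega

theorem measurable_vm : Measurable vm :=
  measurable_pi_lambda _ fun v =>
    ((measurable_of_countable (fun k : ℤ => (k : ℝ))).comp (measurable_pi_apply (av v))).div_const 2

/-- The coordinate change `(x, y) ↦ (x + y, x - y)` as a homeomorphism. -/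
noncomputable def Ro : (ℝ × ℝ) ≃ₜ (ℝ × ℝ) where
  toFun z := (z.1 + z.2, z.1 - z.2)
  invFun z := ((z.1 + z.2) / 2, (z.1 - z.2) / 2)
  left_inv w := by refine Prod.ext ?_ ?_ <;> simp only <;> ring
  right_inv w := by refine Prod.ext ?_ ?_ <;> simp only <;> ring
  continuous_toFun := by fun_prop
  continuous_invFun := by fun_prop

theorem Ro_apply (z : ℝ × ℝ) : Ro z = (z.1 + z.2, z.1 - z.2) := rfl

theorem Ro_symm_apply (z : ℝ × ℝ) : Ro.symm z = ((z.1 + z.2) / 2, (z.1 - z.2) / 2) := rfl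

/-- The test function in the six-vertex coordinates. -/
noncomputable def tl (f : ℝ × ℝ → ℝ) : ℝ × ℝ → ℝ := fun z => f ((z.1 + z.2) / 2, (z.1 - z.2) / 2)

theorem tl_eq (f : ℝ × ℝ → ℝ) : tl f = f ∘ Ro.symm := rfl

theorem tl_Ro (f : ℝ × ℝ → ℝ) (z : ℝ × ℝ) : tl f (Ro z) = f z := by
  rw [tl_eq, Function.comp_apply, Ro.symm_apply_apply]

theorem tl_sm {f : ℝ × ℝ → ℝ} (h : Sm f) : Sm (tl f) :=
  ContDiff.comp h (((contDiff_fst.add contDiff_snd).div_const 2).prodMk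
    ((contDiff_fst.sub contDiff_snd).div_const 2))

theorem tl_cs {f : ℝ × ℝ → ℝ} (h : HasCompactSupport f) : HasCompactSupport (tl f) :=
  h.comp_homeomorph Ro.symm

theorem tsupport_tl (f : ℝ × ℝ → ℝ) : tsupport (tl f) = Ro.symm ⁻¹' tsupport f :=
  tsupport_comp_eq_preimage f Ro.symm

theorem tl_test {D : Set (ℝ × ℝ)} {f : ℝ × ℝ → ℝ} (h : TestOn D f) :
    TestOn (Ro.symm ⁻¹' D) (tl f) :=
  ⟨tl_sm h.1, tl_cs h.2.1, by rw [tsupport_tl]; exact preimage_mono h.2.2⟩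

theorem Ro_symm_preimage_cell (a b a' b' : ℝ) :
    Ro.symm ⁻¹' cell a b a' b' = {z | a < z.1 ∧ z.1 < b ∧ a' < z.2 ∧ z.2 < b'} := by
  ext z
  simp only [cell, mem_preimage, Ro_symm_apply, mem_setOf_eq]
  have e1 : (z.1 + z.2) / 2 + (z.1 - z.2) / 2 = z.1 := by ring
  have e2 : (z.1 + z.2) / 2 - (z.1 - z.2) / 2 = z.2 := by ring
  rw [e1, e2]

theorem Ro_symm_preimage_ccell (a b a' b' : ℝ) :
    Ro.symm ⁻¹' ccell a b a' b' = {z | a ≤ z.1 ∧ z.1 ≤ b ∧ a' ≤ z.2 ∧ z.2 ≤ b'} := by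
  ext z
  simp only [mem_preimage, ccell, Ro_symm_apply, mem_setOf_eq]
  have e1 : (z.1 + z.2) / 2 + (z.1 - z.2) / 2 = z.1 := by ring
  have e2 : (z.1 + z.2) / 2 - (z.1 - z.2) / 2 = z.2 := by ring
  rw [e1, e2]

/-! ### Derivatives -/

/-- The inverse coordinate change as a continuous linear map. -/
noncomputable def Rl : (ℝ × ℝ) →L[ℝ] (ℝ × ℝ) :=
  (((1 / 2 : ℝ) • (ContinuousLinearMap.fst ℝ ℝ ℝ + ContinuousLinearMap.snd ℝ ℝ ℝ)).prod
    ((1 / 2 : ℝ) • (ContinuousLinearMap.fst ℝ ℝ ℝ - ContinuousLinearMap.snd ℝ ℝ ℝ)))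

theorem Rl_apply (z : ℝ × ℝ) : Rl z = ((z.1 + z.2) / 2, (z.1 - z.2) / 2) := by
  simp only [Rl, ContinuousLinearMap.prod_apply, ContinuousLinearMap.smul_apply,
    ContinuousLinearMap.add_apply, ContinuousLinearMap.sub_apply, ContinuousLinearMap.coe_fst',
    ContinuousLinearMap.coe_snd', smul_eq_mul]
  exact Prod.ext (by ring) (by ring)

theorem tl_Rl (f : ℝ × ℝ → ℝ) : tl f = f ∘ Rl := by
  funext z
  rw [Function.comp_apply, Rl_apply]
  rfl

theorem fderiv_tl {f : ℝ × ℝ → ℝ} (h : Sm f) (z v : ℝ × ℝ) :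
    fderiv ℝ (tl f) z v = fderiv ℝ f (Rl z) (Rl v) := by
  rw [tl_Rl, fderiv_comp z (h.diff (Rl z)) Rl.differentiableAt, Rl.fderiv]
  rfl

theorem dx_tl {f : ℝ × ℝ → ℝ} (h : Sm f) : dx (tl f) = tl (fun z => (dx f z + dy f z) / 2) := by
  funext z
  have e : Rl (1, 0) = (1 / 2 : ℝ) • ((1, 0) : ℝ × ℝ) + (1 / 2 : ℝ) • ((0, 1) : ℝ × ℝ) := by
    rw [Rl_apply]
    exact Prod.ext (by simp) (by simp)
  show fderiv ℝ (tl f) z (1, 0) = _
  rw [fderiv_tl h, e, map_add, map_smul, map_smul, tl_Rl]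
  simp only [Function.comp_apply, dx, dy, smul_eq_mul]
  ring

theorem dy_tl {f : ℝ × ℝ → ℝ} (h : Sm f) : dy (tl f) = tl (fun z => (dx f z - dy f z) / 2) := by
  funext z
  have e : Rl (0, 1) = (1 / 2 : ℝ) • ((1, 0) : ℝ × ℝ) - (1 / 2 : ℝ) • ((0, 1) : ℝ × ℝ) := by
    rw [Rl_apply]
    refine Prod.ext (by simp) (by simp only [zero_sub, one_div, Prod.smul_mk, smul_eq_mul, mul_one, mul_zero, Prod.mk_sub_mk, sub_zero]; ring)
  show fderiv ℝ (tl f) z (0, 1) = _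
  rw [fderiv_tl h, e, map_sub, map_smul, map_smul, tl_Rl]
  simp only [Function.comp_apply, dx, dy, smul_eq_mul]
  ring

theorem lap_tl {f : ℝ × ℝ → ℝ} (h : Sm f) : lap (tl f) = fun z => 1 / 2 * tl (lap f) z := by
  have hp : Sm (fun z => (dx f z + dy f z) / 2) := (h.dx.add h.dy).div_const 2
  have hm : Sm (fun z => (dx f z - dy f z) / 2) := (h.dx.sub h.dy).div_const 2
  funext z
  show dx (dx (tl f)) z + dy (dy (tl f)) z = _
  rw [dx_tl h, dy_tl h, dx_tl hp, dy_tl hm]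
  have d1 : ∀ w v, fderiv ℝ (fun z => (dx f z + dy f z) / 2) w v =
      (fderiv ℝ (dx f) w v + fderiv ℝ (dy f) w v) / 2 := by
    intro w v
    have : HasFDerivAt (fun z => (dx f z + dy f z) * (1 / 2)) _ w :=
      ((h.dx.diff w).hasFDerivAt.add (h.dy.diff w).hasFDerivAt).mul_const (1 / 2 : ℝ)
    have e : (fun z => (dx f z + dy f z) / 2) = fun z => (dx f z + dy f z) * (1 / 2) := by
      funext z; ring
    rw [e, this.fderiv]
    simp only [ContinuousLinearMap.smul_apply, ContinuousLinearMap.add_apply, smul_eq_mul]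
    ring
  have d2 : ∀ w v, fderiv ℝ (fun z => (dx f z - dy f z) / 2) w v =
      (fderiv ℝ (dx f) w v - fderiv ℝ (dy f) w v) / 2 := by
    intro w v
    have : HasFDerivAt (fun z => (dx f z - dy f z) * (1 / 2)) _ w :=
      ((h.dx.diff w).hasFDerivAt.sub (h.dy.diff w).hasFDerivAt).mul_const (1 / 2 : ℝ)
    have e : (fun z => (dx f z - dy f z) / 2) = fun z => (dx f z - dy f z) * (1 / 2) := by
      funext z; ring
    rw [e, this.fderiv]
    simp only [ContinuousLinearMap.smul_apply, ContinuousLinearMap.sub_apply, smul_eq_mul]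
    ring
  simp only [tl]
  show (fderiv ℝ (fun z => (dx f z + dy f z) / 2) _ (1, 0) +
      fderiv ℝ (fun z => (dx f z + dy f z) / 2) _ (0, 1)) / 2 +
    (fderiv ℝ (fun z => (dx f z - dy f z) / 2) _ (1, 0) -
      fderiv ℝ (fun z => (dx f z - dy f z) / 2) _ (0, 1)) / 2 = _
  rw [d1, d1, d2, d2]
  show _ = 1 / 2 * (fderiv ℝ (dx f) _ (1, 0) + fderiv ℝ (dy f) _ (0, 1))
  ring

/-! ### Integrals -/

theorem int_tl (f : ℝ × ℝ → ℝ) : ∫ z, tl f z = 2 * ∫ z, f z := by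
  have h1 := FP.int_Th (tl f)
  have e : ∀ w : ℝ × ℝ, tl f (FP.Th w) = f (w.1, -w.2) := by
    intro w
    show f (((w.1 - w.2) + (w.1 + w.2)) / 2, ((w.1 - w.2) - (w.1 + w.2)) / 2) = _
    congr 1
    exact Prod.ext (by ring) (by ring)
  rw [h1]
  congr 1
  simp only [e]
  have hmp : MeasurePreserving (fun w : ℝ × ℝ => (w.1, -w.2)) volume volume :=
    (MeasurePreserving.id _).prod (Measure.measurePreserving_neg volume)
  have hemb : MeasurableEmbedding (fun w : ℝ × ℝ => (w.1, -w.2)) :=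
    ((Homeomorph.refl ℝ).prodCongr (Homeomorph.neg ℝ)).measurableEmbedding
  exact hmp.integral_comp hemb f

theorem int_tl_mul (f g : ℝ × ℝ → ℝ) : ∫ z, tl f z * tl g z = 2 * ∫ z, f z * g z :=
  int_tl (fun z => f z * g z)

/-! ### Lattice sums -/

theorem ev_Wd_tl {δ : ℝ} (hδ : 0 < δ) {f : ℝ × ℝ → ℝ} (hf : HasCompactSupport f) (h : Hgt) :
    FA.ev (Wd δ (tl f) 0) h = 4 * hv δ f (vm h) := by
  have cr := tl_cs hf
  rw [FA.ev_tsum]
  set G : ℤ × ℤ → ℝ := fun q => Wd δ (tl f) 0 q * (h q : ℝ) with hG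
  have hsub : Function.support G ⊆ Set.range av := by
    intro q hq
    have h1 : Wd δ (tl f) 0 q ≠ 0 := left_ne_zero_of_mul hq
    exact exists_av (FA.Wd_supp hδ cr h1).1
  have hGv : ∀ v : ℤ × ℤ, G (av v) = 4 * (δ ^ 2 * (vm h v * f (δ * v.1, δ * v.2))) := by
    intro v
    rw [hG]
    simp only
    rw [FA.Wd_apply hδ cr]
    have e1 : FP.ev (av v) = 1 := by
      unfold FP.ev
      rw [if_pos (av_even v)]
    have e2 : tl f (δ * (((av v).1 + (0 : ℤ × ℤ).1 : ℤ) : ℝ),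
        δ * (((av v).2 + (0 : ℤ × ℤ).2 : ℤ) : ℝ)) = f (δ * v.1, δ * v.2) := by
      unfold tl av
      simp only [Prod.fst_zero, Prod.snd_zero, add_zero]
      congr 1
      refine Prod.ext ?_ ?_ <;> simp only <;> push_cast <;> ring
    rw [e1, e2]
    unfold vm
    ring
  have hfin : (Function.support fun v : ℤ × ℤ => vm h v * f (δ * v.1, δ * v.2)).Finite := by
    have h3 : (Function.support G).Finite := by
      refine (Wd δ (tl f) 0).support.finite_toSet.subset fun q hq => ?_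
      rw [Finset.mem_coe, Finsupp.mem_support_iff]
      exact left_ne_zero_of_mul hq
    refine (h3.preimage av_inj.injOn).subset fun v hv => ?_
    rw [Set.mem_preimage, Function.mem_support, hGv]
    exact mul_ne_zero (by norm_num) (mul_ne_zero (pow_ne_zero 2 hδ.ne') hv)
  have h4 : ∑' v : ℤ × ℤ, vm h v * f (δ * v.1, δ * v.2) =
      ∑ᶠ v : ℤ × ℤ, vm h v * f (δ * v.1, δ * v.2) := tsum_eq_finsum hfin
  unfold Top.hv
  rw [← h4, ← tsum_mul_left, ← tsum_mul_left, ← av_inj.tsum_eq hsub]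
  exact tsum_congr hGv

theorem ev_Wd_lap {δ : ℝ} (hδ : 0 < δ) {ψ : ℝ × ℝ → ℝ} (h1 : Sm ψ) (h2 : HasCompactSupport (lap ψ))
    (h : Hgt) : FA.ev (Wd δ (lap (tl ψ)) 0) h = 2 * hv δ (lap ψ) (vm h) := by
  have e : lap (tl ψ) = tl (fun z => 1 / 2 * lap ψ z) := lap_tl h1
  have cs : HasCompactSupport (fun z => 1 / 2 * lap ψ z) := h2.mul_left
  rw [e, ev_Wd_tl hδ cs]
  unfold Top.hv
  have e2 : (fun v : ℤ × ℤ => vm h v * (1 / 2 * lap ψ (δ * v.1, δ * v.2))) =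
      fun v => 1 / 2 * (vm h v * lap ψ (δ * v.1, δ * v.2)) := by
    funext v; ring
  rw [e2]
  have e3 := smul_finsum (1 / 2 : ℝ) fun v : ℤ × ℤ => vm h v * lap ψ (δ * v.1, δ * v.2)
  simp only [smul_eq_mul] at e3
  rw [← e3]
  ring

/-- The Schwinger-Dyson expression in the two coordinates. -/
theorem sd_tl {δ : ℝ} (hδ : 0 < δ) {ψ f : ℝ × ℝ → ℝ} (h1 : Sm ψ) (h2 : HasCompactSupport (lap ψ))
    (h3 : HasCompactSupport f) (k : ℕ) (h : Hgt) :
    FA.ev (Wd δ (lap (tl ψ)) 0) h * FA.ev (Wd δ (tl f) 0) h ^ (k + 1) =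
      2 * 4 ^ (k + 1) * (hv δ (lap ψ) (vm h) * hv δ f (vm h) ^ (k + 1)) ∧
    FA.ev (Wd δ (tl f) 0) h ^ k = 4 ^ k * hv δ f (vm h) ^ k := by
  rw [ev_Wd_lap hδ h1 h2, ev_Wd_tl hδ h3, mul_pow, mul_pow]
  exact ⟨by ring, rfl⟩

end Vale.Agent.P145.X
end

section

/-!
P145, block F-A: from characteristic functions to moments in the Schwinger-Dyson equations.
-/

namespace Vale.Agent.P145.FA.Use

open MeasureTheory Filter Topology Complex

/-- Squeeze with a free parameter. -/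
lemma tendsto_of_param {x : ℕ → ℂ} {C h0 : ℝ} (h0pos : 0 < h0)
    (h : ∀ η : ℝ, 0 < η → η < h0 → ∃ y : ℕ → ℝ, Tendsto y atTop (𝓝 0) ∧
      ∀ᶠ n in atTop, ‖x n‖ ≤ y n + C * η) : Tendsto x atTop (𝓝 0) := by
  rw [Metric.tendsto_atTop']
  intro ε hε
  have hC : (0 : ℝ) < |C| + 1 := by positivity
  set η : ℝ := min (h0 / 2) (ε / 4 / (|C| + 1)) with hη
  have hη0 : 0 < η := lt_min (by linarith only [h0pos]) (by positivity)
  have hη1 : η < h0 := (min_le_left _ _).trans_lt (by linarith only [h0pos])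
  have hη2 : η ≤ ε / 4 / (|C| + 1) := min_le_right _ _
  obtain ⟨y, hy, hxy⟩ := h η hη0 hη1
  have h1 : ∀ᶠ n in atTop, y n < ε / 2 := hy.eventually (gt_mem_nhds (by linarith only [hε]))
  obtain ⟨N, hN⟩ := eventually_atTop.1 (h1.and hxy)
  refine ⟨N, fun n hn => ?_⟩
  obtain ⟨a1, a2⟩ := hN n hn.le
  have h3 : C * η ≤ ε / 4 := by
    have h4 : C * η ≤ (|C| + 1) * η := mul_le_mul_of_nonneg_right
      ((le_abs_self C).trans (by linarith only [])) hη0.le
    have h5 : (|C| + 1) * η ≤ ε / 4 := by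
      rw [le_div_iff₀ hC] at hη2
      linarith only [hη2]
    linarith only [h4, h5]
  rw [dist_zero_right]
  linarith only [hε, a1, a2, h3]

lemma norm_expI (x : ℝ) : ‖cexp (I * x)‖ = 1 := by
  rw [mul_comm]
  exact Complex.norm_exp_ofReal_mul_I x

lemma expI_sub_one (x : ℝ) : ‖cexp (I * x) - 1‖ ≤ |x| := by
  have := Real.norm_exp_I_mul_ofReal_sub_one_le (x := x)
  rwa [Real.norm_eq_abs] at this

lemma expI_taylor (x : ℝ) : ‖cexp (I * x) - 1 - I * x‖ ≤ 3 * x ^ 2 := by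
  have hn : ‖(I * x : ℂ)‖ = |x| := by simp
  by_cases hx : |x| ≤ 1
  · have h := Complex.norm_exp_sub_one_sub_id_le (x := I * x) (by rw [hn]; exact hx)
    rw [hn, sq_abs] at h
    nlinarith only [h]
  · push Not at hx
    have h1 := norm_sub_le (cexp (I * x) - 1) (I * x)
    rw [hn] at h1
    have h2 := expI_sub_one x
    have h3 : |x| ≤ x ^ 2 := by rw [← sq_abs]; nlinarith only [hx]
    linarith only [hx, h1, h2, h3]

variable {Ω : Type*} [MeasurableSpace Ω]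

/-- Bounded moments. -/
def BM (M : ℕ → Measure Ω) (V : ℕ → Ω → ℝ) : Prop :=
  (∀ n, Measurable (V n)) ∧ ∀ k : ℕ, ∃ C : ℝ, 0 ≤ C ∧ ∀ᶠ n in atTop,
    Integrable (fun ω => |V n ω| ^ k) (M n) ∧ ∫ ω, |V n ω| ^ k ∂(M n) ≤ C

/-- The integrand. -/
noncomputable def aj (κp : ℝ) (j : ℕ) (t u v : ℝ) : ℂ :=
  (I * u + κp * t) * (I * v) ^ j * cexp (I * ((t * v : ℝ) : ℂ)) +
    κp * j * (I * v) ^ (j - 1) * cexp (I * ((t * v : ℝ) : ℂ))

lemma norm_Iv (v : ℝ) (j : ℕ) : ‖(I * v : ℂ) ^ j‖ = |v| ^ j := by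
  rw [norm_pow]; simp

lemma aj_step (κp : ℝ) (j : ℕ) (t η u v : ℝ) (hη : 0 < η) :
    ‖aj κp j (t + η) u v - aj κp j t u v - η * aj κp (j + 1) t u v‖ ≤
      η ^ 2 * (3 * (|u| + |κp * t|) * |v| ^ (j + 2) + 3 * |κp| * (1 + j) * |v| ^ (j + 1)) := by
  have e0 : cexp (I * (((t + η) * v : ℝ) : ℂ)) =
      cexp (I * ((t * v : ℝ) : ℂ)) * cexp (I * ((η * v : ℝ) : ℂ)) := by
    rw [← Complex.exp_add]; congr 1; push_cast; ring
  set A := cexp (I * ((t * v : ℝ) : ℂ)) with hA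
  set B := cexp (I * ((η * v : ℝ) : ℂ)) with hB
  have hAn : ‖A‖ = 1 := norm_expI _
  have hB0 : ‖B - 1‖ ≤ η * |v| := by
    have := expI_sub_one (η * v)
    rwa [abs_mul, abs_of_pos hη] at this
  have hB1 : ‖B - 1 - I * ((η * v : ℝ) : ℂ)‖ ≤ 3 * (η * v) ^ 2 := expI_taylor _
  have key : aj κp j (t + η) u v - aj κp j t u v - η * aj κp (j + 1) t u v =
      (I * u + κp * t) * (I * v) ^ j * A * (B - 1 - I * ((η * v : ℝ) : ℂ)) +
      κp * η * (I * v) ^ j * A * (B - 1) +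
      κp * j * (I * v) ^ (j - 1) * A * (B - 1 - I * ((η * v : ℝ) : ℂ)) := by
    unfold aj
    rw [e0, ← hA]
    rcases j with _ | j
    · simp only [Nat.cast_zero, pow_zero]
      push_cast
      simp only [pow_one, pow_zero]
      ring
    · simp only [Nat.add_sub_cancel]
      push_cast
      ring
  rw [key]
  have n1 : ‖(I * u + κp * t : ℂ)‖ ≤ |u| + |κp * t| := by
    refine (norm_add_le _ _).trans (le_of_eq ?_)
    rw [norm_mul, Complex.norm_I, one_mul, Complex.norm_real, Real.norm_eq_abs,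
      ← Complex.ofReal_mul, Complex.norm_real, Real.norm_eq_abs]
  have T1 : ‖(I * u + κp * t) * (I * v) ^ j * A * (B - 1 - I * ((η * v : ℝ) : ℂ))‖ ≤
      η ^ 2 * (3 * (|u| + |κp * t|) * |v| ^ (j + 2)) := by
    rw [norm_mul, norm_mul, norm_mul, hAn, mul_one, norm_Iv]
    calc ‖(I * u + κp * t : ℂ)‖ * |v| ^ j * ‖B - 1 - I * ((η * v : ℝ) : ℂ)‖
        ≤ (|u| + |κp * t|) * |v| ^ j * (3 * (η * v) ^ 2) :=
          mul_le_mul (mul_le_mul_of_nonneg_right n1 (by (clear * -; positivity))) hB1 (norm_nonneg _)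
            (by (clear * -; positivity))
      _ = η ^ 2 * (3 * (|u| + |κp * t|) * |v| ^ (j + 2)) := by
          rw [pow_add, sq_abs]; ring
  have T2 : ‖(κp : ℂ) * η * (I * v) ^ j * A * (B - 1)‖ ≤ η ^ 2 * (|κp| * |v| ^ (j + 1)) := by
    rw [norm_mul, norm_mul, norm_mul, norm_mul, hAn, mul_one, norm_Iv, Complex.norm_real,
      Complex.norm_real, Real.norm_eq_abs, Real.norm_eq_abs, abs_of_pos hη]
    calc |κp| * η * |v| ^ j * ‖B - 1‖ ≤ |κp| * η * |v| ^ j * (η * |v|) :=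
          mul_le_mul_of_nonneg_left hB0 (by (clear * - hη; positivity))
      _ = η ^ 2 * (|κp| * |v| ^ (j + 1)) := by ring
  have T3 : ‖(κp : ℂ) * j * (I * v) ^ (j - 1) * A * (B - 1 - I * ((η * v : ℝ) : ℂ))‖ ≤
      η ^ 2 * (3 * |κp| * j * |v| ^ (j + 1)) := by
    rcases j with _ | j
    · simp
    · rw [norm_mul, norm_mul, norm_mul, norm_mul, hAn, mul_one, norm_Iv, Complex.norm_real,
        Real.norm_eq_abs, Complex.norm_natCast]
      simp only [Nat.add_sub_cancel]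
      calc |κp| * ((j + 1 : ℕ) : ℝ) * |v| ^ j * ‖B - 1 - I * ((η * v : ℝ) : ℂ)‖
          ≤ |κp| * ((j + 1 : ℕ) : ℝ) * |v| ^ j * (3 * (η * v) ^ 2) :=
            mul_le_mul_of_nonneg_left hB1 (by (clear * -; positivity))
        _ = η ^ 2 * (3 * |κp| * ((j + 1 : ℕ) : ℝ) * |v| ^ (j + 1 + 1)) := by
            rw [show |v| ^ (j + 1 + 1) = |v| ^ j * |v| ^ 2 by ring, sq_abs]; ring
  refine (norm_add_le _ _).trans ((add_le_add (norm_add_le _ _) le_rfl).trans ?_)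
  have hp : 0 ≤ η ^ 2 * (|κp| * |v| ^ (j + 1)) := by (clear * - hη; positivity)
  calc _ ≤ η ^ 2 * (3 * (|u| + |κp * t|) * |v| ^ (j + 2)) + η ^ 2 * (|κp| * |v| ^ (j + 1)) +
        η ^ 2 * (3 * |κp| * j * |v| ^ (j + 1)) := add_le_add (add_le_add T1 T2) T3
    _ ≤ _ := by linarith

lemma norm_aj_le (κp : ℝ) (j : ℕ) (t u v : ℝ) : ‖aj κp j t u v‖ ≤
    (|u| + |κp * t|) * |v| ^ j + |κp| * j * |v| ^ (j - 1) := by
  unfold aj
  refine (norm_add_le _ _).trans (add_le_add ?_ ?_)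
  · rw [norm_mul, norm_mul, norm_expI, mul_one, norm_Iv]
    refine mul_le_mul_of_nonneg_right ?_ (by positivity)
    refine (norm_add_le _ _).trans (le_of_eq ?_)
    rw [norm_mul, Complex.norm_I, one_mul, Complex.norm_real, Real.norm_eq_abs,
      ← Complex.ofReal_mul, Complex.norm_real, Real.norm_eq_abs]
  · rw [norm_mul, norm_mul, norm_mul, norm_expI, mul_one, norm_Iv, Complex.norm_real,
      Real.norm_eq_abs, Complex.norm_natCast]

variable {M : ℕ → Measure Ω} {U V : ℕ → Ω → ℝ}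

lemma BM.prod (hU : BM M U) (hV : BM M V) (a b : ℕ) : ∃ C : ℝ, 0 ≤ C ∧ ∀ᶠ n in atTop,
    Integrable (fun ω => |U n ω| ^ a * |V n ω| ^ b) (M n) ∧
    ∫ ω, |U n ω| ^ a * |V n ω| ^ b ∂(M n) ≤ C := by
  obtain ⟨C1, hC1, h1⟩ := hU.2 (2 * a)
  obtain ⟨C2, hC2, h2⟩ := hV.2 (2 * b)
  refine ⟨C1 + C2, by positivity, ?_⟩
  filter_upwards [h1, h2] with n hn1 hn2
  have key : ∀ ω, |U n ω| ^ a * |V n ω| ^ b ≤ |U n ω| ^ (2 * a) + |V n ω| ^ (2 * b) := by
    intro ω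
    rw [pow_mul', pow_mul']
    nlinarith only []
  have hm : AEStronglyMeasurable (fun ω => |U n ω| ^ a * |V n ω| ^ b) (M n) := by
    have m1 := hU.1 n
    have m2 := hV.1 n
    have m3 : Measurable (fun ω => |U n ω| ^ a * |V n ω| ^ b) := by fun_prop
    exact m3.aestronglyMeasurable
  have hi : Integrable (fun ω => |U n ω| ^ a * |V n ω| ^ b) (M n) := by
    refine (hn1.1.add hn2.1).mono' hm (Eventually.of_forall fun ω => ?_)
    rw [Real.norm_eq_abs, abs_of_nonneg (by (clear * -; positivity))]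
    exact key ω
  refine ⟨hi, ?_⟩
  refine (integral_mono hi (hn1.1.add hn2.1) key).trans ?_
  have e : ∫ ω, (|U n ω| ^ (2 * a) + |V n ω| ^ (2 * b)) ∂(M n) =
      ∫ ω, |U n ω| ^ (2 * a) ∂(M n) + ∫ ω, |V n ω| ^ (2 * b) ∂(M n) := integral_add hn1.1 hn2.1
  exact e.le.trans (add_le_add hn1.2 hn2.2)

lemma meas_aj (hU : ∀ n, Measurable (U n)) (hV : ∀ n, Measurable (V n)) (κp : ℝ) (j : ℕ) (t : ℝ)
    (n : ℕ) : AEStronglyMeasurable (fun ω => aj κp j t (U n ω) (V n ω)) (M n) := by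
  have m1 := hU n
  have m2 := hV n
  have m3 : Measurable (fun ω => aj κp j t (U n ω) (V n ω)) := by
    unfold aj
    fun_prop
  exact m3.aestronglyMeasurable

lemma aj_int (hU : BM M U) (hV : BM M V) (κp : ℝ) (j : ℕ) (t : ℝ) :
    ∀ᶠ n in atTop, Integrable (fun ω => aj κp j t (U n ω) (V n ω)) (M n) := by
  obtain ⟨C1, hC1, h1⟩ := hU.prod hV 1 j
  obtain ⟨C2, hC2, h2⟩ := hV.2 j
  obtain ⟨C3, hC3, h3⟩ := hV.2 (j - 1)
  filter_upwards [h1, h2, h3] with n hn1 hn2 hn3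
  refine ((hn1.1.add (hn2.1.const_mul |κp * t|)).add (hn3.1.const_mul (|κp| * j))).mono'
    (meas_aj hU.1 hV.1 κp j t n) (Eventually.of_forall fun ω => ?_)
  refine (norm_aj_le κp j t _ _).trans (le_of_eq ?_)
  simp only [Pi.add_apply, pow_one]
  ring

lemma aj_tendsto (hU : BM M U) (hV : BM M V) (κp : ℝ)
    (h0 : ∀ t : ℝ, Tendsto (fun n => ∫ ω, aj κp 0 t (U n ω) (V n ω) ∂(M n)) atTop (𝓝 0)) (j : ℕ) :
    ∀ t : ℝ, Tendsto (fun n => ∫ ω, aj κp j t (U n ω) (V n ω) ∂(M n)) atTop (𝓝 0) := by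
  induction j with
  | zero => exact h0
  | succ j ih =>
    intro t
    obtain ⟨C1, hC1, h1⟩ := hU.prod hV 1 (j + 2)
    obtain ⟨C2, hC2, h2⟩ := hV.2 (j + 2)
    obtain ⟨C3, hC3, h3⟩ := hV.2 (j + 1)
    refine tendsto_of_param (C := 3 * C1 + 3 * |κp * t| * C2 + 3 * |κp| * (1 + j) * C3) one_pos
      fun η hη _ => ?_
    refine ⟨fun n => η⁻¹ * (‖∫ ω, aj κp j (t + η) (U n ω) (V n ω) ∂(M n)‖ +
      ‖∫ ω, aj κp j t (U n ω) (V n ω) ∂(M n)‖), ?_, ?_⟩
    · have a1 := (ih (t + η)).norm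
      have a2 := (ih t).norm
      rw [norm_zero] at a1 a2
      have := (a1.add a2).const_mul η⁻¹
      rwa [add_zero, mul_zero] at this
    · filter_upwards [h1, h2, h3, aj_int hU hV κp j (t + η), aj_int hU hV κp j t,
        aj_int hU hV κp (j + 1) t] with n hn1 hn2 hn3 i1 i2 i3
      set R : Ω → ℂ := fun ω => aj κp j (t + η) (U n ω) (V n ω) - aj κp j t (U n ω) (V n ω) -
        η * aj κp (j + 1) t (U n ω) (V n ω) with hR
      have e1 : ∫ ω, R ω ∂(M n) = ∫ ω, aj κp j (t + η) (U n ω) (V n ω) ∂(M n) -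
          ∫ ω, aj κp j t (U n ω) (V n ω) ∂(M n) -
          η * ∫ ω, aj κp (j + 1) t (U n ω) (V n ω) ∂(M n) := by
        have i12 : Integrable (fun ω => aj κp j (t + η) (U n ω) (V n ω) -
          aj κp j t (U n ω) (V n ω)) (M n) := i1.sub i2
        rw [hR, integral_sub i12 (i3.const_mul _), integral_sub i1 i2, integral_const_mul]
      set b : Ω → ℝ := fun ω => 3 * (|U n ω| ^ 1 * |V n ω| ^ (j + 2)) +
        3 * |κp * t| * |V n ω| ^ (j + 2) + 3 * |κp| * (1 + j) * |V n ω| ^ (j + 1) with hb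
      have ib1 : Integrable (fun ω => 3 * (|U n ω| ^ 1 * |V n ω| ^ (j + 2))) (M n) :=
        hn1.1.const_mul _
      have ib2 : Integrable (fun ω => 3 * |κp * t| * |V n ω| ^ (j + 2)) (M n) :=
        hn2.1.const_mul _
      have ib3 : Integrable (fun ω => 3 * |κp| * (1 + j) * |V n ω| ^ (j + 1)) (M n) :=
        hn3.1.const_mul _
      have eb : ∫ ω, b ω ∂(M n) ≤ 3 * C1 + 3 * |κp * t| * C2 + 3 * |κp| * (1 + j) * C3 := by
        have i12 : Integrable (fun ω => 3 * (|U n ω| ^ 1 * |V n ω| ^ (j + 2)) +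
          3 * |κp * t| * |V n ω| ^ (j + 2)) (M n) := ib1.add ib2
        rw [hb, integral_add i12 ib3, integral_add ib1 ib2, integral_const_mul,
          integral_const_mul, integral_const_mul]
        refine add_le_add (add_le_add ?_ ?_) ?_
        · exact mul_le_mul_of_nonneg_left hn1.2 (by norm_num)
        · exact mul_le_mul_of_nonneg_left hn2.2 (by (clear * -; positivity))
        · exact mul_le_mul_of_nonneg_left hn3.2 (by (clear * -; positivity))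
      have e2 : ‖∫ ω, R ω ∂(M n)‖ ≤ η ^ 2 *
          (3 * C1 + 3 * |κp * t| * C2 + 3 * |κp| * (1 + j) * C3) := by
        have h5 : ‖∫ ω, R ω ∂(M n)‖ ≤ ∫ ω, η ^ 2 * b ω ∂(M n) := by
          refine norm_integral_le_of_norm_le (((ib1.add ib2).add ib3).const_mul (η ^ 2))
            (Eventually.of_forall fun ω => ?_)
          refine (aj_step κp j t η _ _ hη).trans (le_of_eq ?_)
          simp only [hb]
          ring
        rw [integral_const_mul] at h5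
        exact h5.trans (mul_le_mul_of_nonneg_left eb (by positivity))
      have e3 : (η : ℂ) * ∫ ω, aj κp (j + 1) t (U n ω) (V n ω) ∂(M n) =
          ∫ ω, aj κp j (t + η) (U n ω) (V n ω) ∂(M n) -
          ∫ ω, aj κp j t (U n ω) (V n ω) ∂(M n) - ∫ ω, R ω ∂(M n) := by
        rw [e1]; ring
      have e4 : η * ‖∫ ω, aj κp (j + 1) t (U n ω) (V n ω) ∂(M n)‖ ≤
          ‖∫ ω, aj κp j (t + η) (U n ω) (V n ω) ∂(M n)‖ +
          ‖∫ ω, aj κp j t (U n ω) (V n ω) ∂(M n)‖ +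
          η ^ 2 * (3 * C1 + 3 * |κp * t| * C2 + 3 * |κp| * (1 + j) * C3) := by
        have h6 := congrArg norm e3
        rw [norm_mul, Complex.norm_real, Real.norm_eq_abs, abs_of_pos hη] at h6
        rw [h6]
        exact (norm_sub_le _ _).trans (add_le_add (norm_sub_le _ _) e2)
      have e5 : ‖∫ ω, aj κp (j + 1) t (U n ω) (V n ω) ∂(M n)‖ =
          η⁻¹ * (η * ‖∫ ω, aj κp (j + 1) t (U n ω) (V n ω) ∂(M n)‖) := by
        rw [← mul_assoc, inv_mul_cancel₀ hη.ne', one_mul]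
      rw [e5]
      refine (mul_le_mul_of_nonneg_left e4 (inv_nonneg.2 hη.le)).trans (le_of_eq ?_)
      (clear * - hη; field_simp)

/-- The base case. -/
lemma a0_tendsto [∀ n, IsFiniteMeasure (M n)] (hU : BM M U) (hV : BM M V) {κ p q : ℝ}
    (h : ∀ s t : ℝ, Tendsto (fun n => ∫ ω, cexp (I * ((t * V n ω : ℝ) : ℂ)) *
      (cexp (I * ((s * U n ω : ℝ) : ℂ)) -
        ((Real.exp (-(κ * (s * t * p)) - κ / 2 * (s ^ 2 * q)) : ℝ) : ℂ)) ∂(M n)) atTop (𝓝 0))
    (t : ℝ) : Tendsto (fun n => ∫ ω, aj (κ * p) 0 t (U n ω) (V n ω) ∂(M n)) atTop (𝓝 0) := by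
  obtain ⟨C1, hC1, h1⟩ := hU.2 2
  obtain ⟨C2, hC2, h2⟩ := hU.2 0
  set D : ℝ := |κ * p * t| + |κ / 2 * q| with hD
  have hD0 : 0 ≤ D := by (clear * -; positivity)
  refine tendsto_of_param (C := 3 * C1 + (D ^ 2 + D) * C2) (h0 := (1 + D)⁻¹) (by (clear * -; positivity))
    fun s hs hs1 => ?_
  have hs2 : s * (1 + D) < 1 := by
    have h5 : s < 1 / (1 + D) := by rwa [one_div]
    rwa [lt_div_iff₀ (by positivity)] at h5
  have hs3 : s ≤ 1 := by nlinarith only [hs2, hD0]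
  set al : ℝ := Real.exp (-(κ * (s * t * p)) - κ / 2 * (s ^ 2 * q)) with hal
  have hal1 : |al - 1 + κ * p * t * s| ≤ (D ^ 2 + D) * s ^ 2 := by
    set x : ℝ := -(κ * (s * t * p)) - κ / 2 * (s ^ 2 * q) with hx
    have hx1 : |x| ≤ D * s := by
      have e : x = -(s * (κ * p * t)) - s ^ 2 * (κ / 2 * q) := by rw [hx]; ring
      rw [e]
      refine (abs_sub _ _).trans ?_
      rw [abs_neg, abs_mul s, abs_mul (s ^ 2), abs_of_pos hs,
        abs_of_pos (by positivity : 0 < s ^ 2), hD]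
      have : s ^ 2 * |κ / 2 * q| ≤ s * |κ / 2 * q| :=
        mul_le_mul_of_nonneg_right (by nlinarith only [hD0, hs, hs2]) (abs_nonneg _)
      linarith
    have hx2 : |x| ≤ 1 := hx1.trans (by nlinarith only [hs, hs2])
    have h3 := Real.abs_exp_sub_one_sub_id_le hx2
    have h4 : al - 1 + κ * p * t * s = (al - 1 - x) + -(s ^ 2 * (κ / 2 * q)) := by rw [hx]; ring
    rw [h4]
    refine (abs_add_le _ _).trans ?_
    rw [abs_neg, abs_mul, abs_of_pos (by positivity : 0 < s ^ 2)]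
    have h5 : x ^ 2 ≤ (D * s) ^ 2 := sq_le_sq' (by linarith only [hx1, neg_abs_le x]) ((le_abs_self x).trans hx1)
    have h6 : |κ / 2 * q| ≤ D := by rw [hD]; linarith only [abs_nonneg (κ * p * t)]
    nlinarith only [h3, h5, h6]
  refine ⟨fun n => s⁻¹ * ‖∫ ω, cexp (I * ((t * V n ω : ℝ) : ℂ)) *
      (cexp (I * ((s * U n ω : ℝ) : ℂ)) - (al : ℂ)) ∂(M n)‖, ?_, ?_⟩
  · have a1 := (h s t).norm
    rw [norm_zero] at a1
    have := a1.const_mul s⁻¹
    rwa [mul_zero] at this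
  · filter_upwards [h1, h2, aj_int hU hV (κ * p) 0 t] with n hn1 hn2 i1
    have mU := hU.1 n
    have mV := hV.1 n
    have i2 : Integrable (fun ω => cexp (I * ((t * V n ω : ℝ) : ℂ)) *
      (cexp (I * ((s * U n ω : ℝ) : ℂ)) - (al : ℂ))) (M n) := by
      refine Integrable.of_bound (C := 1 + |al|) ?_ (Eventually.of_forall fun ω => ?_)
      · have m3 : Measurable (fun ω => cexp (I * ((t * V n ω : ℝ) : ℂ)) *
          (cexp (I * ((s * U n ω : ℝ) : ℂ)) - (al : ℂ))) := by fun_prop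
        exact m3.aestronglyMeasurable
      · rw [norm_mul, norm_expI, one_mul]
        refine (norm_sub_le _ _).trans ?_
        rw [norm_expI, Complex.norm_real, Real.norm_eq_abs]
    set R : Ω → ℂ := fun ω => cexp (I * ((t * V n ω : ℝ) : ℂ)) *
      (cexp (I * ((s * U n ω : ℝ) : ℂ)) - (al : ℂ)) - s * aj (κ * p) 0 t (U n ω) (V n ω) with hR
    have e1 : ∫ ω, R ω ∂(M n) = ∫ ω, cexp (I * ((t * V n ω : ℝ) : ℂ)) *
      (cexp (I * ((s * U n ω : ℝ) : ℂ)) - (al : ℂ)) ∂(M n) -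
        s * ∫ ω, aj (κ * p) 0 t (U n ω) (V n ω) ∂(M n) := by
      rw [hR, integral_sub i2 (i1.const_mul _), integral_const_mul]
    have hRb : ∀ ω, ‖R ω‖ ≤ s ^ 2 * (3 * |U n ω| ^ 2 + (D ^ 2 + D) * |U n ω| ^ 0) := by
      intro ω
      have e : R ω = cexp (I * ((t * V n ω : ℝ) : ℂ)) *
          ((cexp (I * ((s * U n ω : ℝ) : ℂ)) - 1 - I * ((s * U n ω : ℝ) : ℂ)) -
            ((al - 1 + κ * p * t * s : ℝ) : ℂ)) := by
        rw [hR]
        simp only [aj]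
        push_cast
        ring
      rw [e, norm_mul, norm_expI, one_mul]
      refine (norm_sub_le _ _).trans ?_
      rw [Complex.norm_real, Real.norm_eq_abs]
      have h7 := expI_taylor (s * U n ω)
      rw [sq_abs, pow_zero]
      nlinarith only [hal1, h7]
    have e2 : ‖∫ ω, R ω ∂(M n)‖ ≤ s ^ 2 * (3 * C1 + (D ^ 2 + D) * C2) := by
      have ib : Integrable (fun ω => 3 * |U n ω| ^ 2 + (D ^ 2 + D) * |U n ω| ^ 0) (M n) :=
        (hn1.1.const_mul _).add (hn2.1.const_mul _)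
      have h5 : ‖∫ ω, R ω ∂(M n)‖ ≤
          ∫ ω, s ^ 2 * (3 * |U n ω| ^ 2 + (D ^ 2 + D) * |U n ω| ^ 0) ∂(M n) :=
        norm_integral_le_of_norm_le (ib.const_mul _) (Eventually.of_forall hRb)
      rw [integral_const_mul, integral_add (hn1.1.const_mul _) (hn2.1.const_mul _),
        integral_const_mul, integral_const_mul] at h5
      refine h5.trans (mul_le_mul_of_nonneg_left (add_le_add ?_ ?_) (by positivity))
      · exact mul_le_mul_of_nonneg_left hn1.2 (by norm_num)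
      · exact mul_le_mul_of_nonneg_left hn2.2 (by (clear * -; positivity))
    have e3 : (s : ℂ) * ∫ ω, aj (κ * p) 0 t (U n ω) (V n ω) ∂(M n) =
        ∫ ω, cexp (I * ((t * V n ω : ℝ) : ℂ)) *
      (cexp (I * ((s * U n ω : ℝ) : ℂ)) - (al : ℂ)) ∂(M n) - ∫ ω, R ω ∂(M n) := by
      rw [e1]; ring
    have e4 : s * ‖∫ ω, aj (κ * p) 0 t (U n ω) (V n ω) ∂(M n)‖ ≤
        ‖∫ ω, cexp (I * ((t * V n ω : ℝ) : ℂ)) *
      (cexp (I * ((s * U n ω : ℝ) : ℂ)) - (al : ℂ)) ∂(M n)‖ +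
        s ^ 2 * (3 * C1 + (D ^ 2 + D) * C2) := by
      have h6 := congrArg norm e3
      rw [norm_mul, Complex.norm_real, Real.norm_eq_abs, abs_of_pos hs] at h6
      rw [h6]
      exact (norm_sub_le _ _).trans (add_le_add le_rfl e2)
    have e5 : ‖∫ ω, aj (κ * p) 0 t (U n ω) (V n ω) ∂(M n)‖ =
        s⁻¹ * (s * ‖∫ ω, aj (κ * p) 0 t (U n ω) (V n ω) ∂(M n)‖) := by
      rw [← mul_assoc, inv_mul_cancel₀ hs.ne', one_mul]
    rw [e5]
    refine (mul_le_mul_of_nonneg_left e4 (inv_nonneg.2 hs.le)).trans (le_of_eq ?_)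
    (clear * - hs; field_simp)

/-- **Moments.** From the characteristic functions to the Schwinger-Dyson equation for the
moments. -/
theorem moments [∀ n, IsFiniteMeasure (M n)] (hU : BM M U) (hV : BM M V) {κ p q : ℝ}
    (h : ∀ s t : ℝ, Tendsto (fun n => ∫ ω, cexp (I * ((t * V n ω : ℝ) : ℂ)) *
      (cexp (I * ((s * U n ω : ℝ) : ℂ)) -
        ((Real.exp (-(κ * (s * t * p)) - κ / 2 * (s ^ 2 * q)) : ℝ) : ℂ)) ∂(M n)) atTop (𝓝 0))
    (k : ℕ) : Tendsto (fun n => (∫ ω, U n ω * V n ω ^ k ∂(M n)) -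
      κ * p * k * ∫ ω, V n ω ^ (k - 1) ∂(M n)) atTop (𝓝 0) := by
  have h1 := aj_tendsto hU hV (κ * p) (a0_tendsto hU hV h) k 0
  have h2 := h1.norm
  rw [norm_zero] at h2
  refine squeeze_zero_norm' ?_ h2
  obtain ⟨C1, hC1, g1⟩ := hU.prod hV 1 k
  obtain ⟨C2, hC2, g2⟩ := hV.2 (k - 1)
  filter_upwards [g1, g2] with n hn1 hn2
  have mU := hU.1 n
  have mV := hV.1 n
  have i1 : Integrable (fun ω => U n ω * V n ω ^ k) (M n) := by
    refine hn1.1.mono' ?_ (Eventually.of_forall fun ω => ?_)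
    · have m3 : Measurable (fun ω => U n ω * V n ω ^ k) := by fun_prop
      exact m3.aestronglyMeasurable
    · rw [Real.norm_eq_abs, abs_mul, abs_pow, pow_one]
  have i2 : Integrable (fun ω => V n ω ^ (k - 1)) (M n) := by
    refine hn2.1.mono' ?_ (Eventually.of_forall fun ω => ?_)
    · have m3 : Measurable (fun ω => V n ω ^ (k - 1)) := by fun_prop
      exact m3.aestronglyMeasurable
    · rw [Real.norm_eq_abs, abs_pow]
  have e : ∀ ω, aj (κ * p) k 0 (U n ω) (V n ω) =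
      I ^ (k + 1) * ((U n ω * V n ω ^ k - κ * p * k * V n ω ^ (k - 1) : ℝ) : ℂ) := by
    intro ω
    unfold aj
    rcases k with _ | k
    · simp
    · simp only [Nat.add_sub_cancel, zero_mul, Complex.ofReal_zero, mul_zero, Complex.exp_zero,
        mul_one, add_zero, mul_pow]
      push_cast
      have hI : I ^ (k + 1 + 1) = - I ^ k := by rw [pow_add, pow_add]; simp [mul_assoc]
      have hI1 : I * (U n ω : ℂ) * (I ^ (k + 1) * (V n ω : ℂ) ^ (k + 1)) =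
        I ^ (k + 1 + 1) * (U n ω * V n ω ^ (k + 1)) := by ring
      rw [hI1, hI]
      ring
  simp only [e]
  rw [integral_const_mul, norm_mul, norm_pow, Complex.norm_I, one_pow, one_mul,
    integral_complex_ofReal, Complex.norm_real, integral_sub i1 (i2.const_mul _),
    integral_const_mul]

end Vale.Agent.P145.FA.Use
end

section

/-!
P145, block F-A: the product Schwinger-Dyson statement for a pinwheel in real coordinates.
-/

namespace Vale.Agent.P145.FA.Use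

open Finset Filter Topology MeasureTheory
open Vale.Agent.P152
open Vale.Agent.P152.GFF.S (Test gffCov)
open Vale.Agent.P145.PT (Sm TestOn lap)

/-- The central box, the width of the corridors and the radius of a pinwheel. -/
structure PW where
  x1 : ℝ
  x2 : ℝ
  y1 : ℝ
  y2 : ℝ
  e : ℝ
  R : ℝ

/-- The open box. -/
def PW.box (b : PW) : Set (ℝ × ℝ) := {z | b.x1 < z.1 ∧ z.1 < b.x2 ∧ b.y1 < z.2 ∧ z.2 < b.y2}

/-- The four arms. -/
def PW.K1 (b : PW) : Set (ℝ × ℝ) := {z | z.1 ≤ b.x1 - b.e ∧ |z.1| ≤ b.R ∧ |z.2| ≤ b.R}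
def PW.K2 (b : PW) : Set (ℝ × ℝ) := {z | b.y2 + b.e ≤ z.2 ∧ b.x1 ≤ z.1 ∧ |z.1| ≤ b.R ∧ |z.2| ≤ b.R}
def PW.K3 (b : PW) : Set (ℝ × ℝ) := {z | b.x2 + b.e ≤ z.1 ∧ z.2 ≤ b.y2 ∧ |z.1| ≤ b.R ∧ |z.2| ≤ b.R}
def PW.K4 (b : PW) : Set (ℝ × ℝ) := {z | z.2 ≤ b.y1 - b.e ∧ b.x1 ≤ z.1 ∧ z.1 ≤ b.x2 ∧
  |z.1| ≤ b.R ∧ |z.2| ≤ b.R}

/-- Lattice points of a set. -/
def lat (δ : ℝ) (K : Set (ℝ × ℝ)) : Set (ℤ × ℤ) := {q | (δ * (q.1 : ℝ), δ * (q.2 : ℝ)) ∈ K}

lemma zle {δ : ℝ} (hδ : 0 < δ) {x y : ℤ} (h : δ * (x : ℝ) < δ * ((y : ℝ) + 1)) : x ≤ y := by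
  have h1 := lt_of_mul_lt_mul_left h hδ.le
  have h2 : x < y + 1 := by exact_mod_cast h1
  omega

lemma zabs {δ : ℝ} (hδ : 0 < δ) {x : ℤ} {ρ N : ℕ} (h : |δ * (x : ℝ)| ≤ δ * (ρ * N)) :
    |x| ≤ ρ * N := by
  rw [abs_mul, abs_of_pos hδ] at h
  have h1 := le_of_mul_le_mul_left h hδ
  have h2 : ((|x| : ℤ) : ℝ) ≤ ((ρ * N : ℤ) : ℝ) := by push_cast; exact h1
  exact_mod_cast h2

/-- Integer geometry of the pinwheel. -/
theorem geo (b : PW) (hx : b.x1 < b.x2) (hy : b.y1 < b.y2) (he : 0 < b.e) : ∃ ρ : ℕ, ∀ δ : ℝ,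
    0 < δ → δ ≤ 1 → 8 * δ ≤ b.e → ∃ (a : ℤ × ℤ) (N : ℕ) (xl xr yt : ℤ),
    ((2 : ℤ) ∣ a.1 + a.2) ∧ (|δ * (a.1 : ℝ) - 0| ≤ 2 * δ ∧ |δ * (a.2 : ℝ) - b.y1| ≤ 2 * δ) ∧ 1 ≤ N ∧
    (|xl| ≤ ρ * N ∧ |xr| ≤ ρ * N ∧ |yt| ≤ ρ * N) ∧
    (∀ q, q + a ∈ lat δ b.box →
      0 ≤ q.2 ∧ q.2 ≤ yt ∧ xl ≤ q.1 ∧ q.1 ≤ xr ∧ |q.1| ≤ ρ * N ∧ |q.2| ≤ ρ * N) ∧
    (∀ q, q + a ∈ lat δ b.K1 → q.1 ≤ xl - 2 * N ∧ |q.1| ≤ ρ * N ∧ |q.2| ≤ ρ * N) ∧
    (∀ q, q + a ∈ lat δ b.K2 → yt + 2 * N ≤ q.2 ∧ xl ≤ q.1 ∧ |q.1| ≤ ρ * N ∧ |q.2| ≤ ρ * N) ∧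
    (∀ q, q + a ∈ lat δ b.K3 → xr + 2 * N ≤ q.1 ∧ q.2 ≤ yt ∧ |q.1| ≤ ρ * N ∧ |q.2| ≤ ρ * N) ∧
    (∀ q, q + a ∈ lat δ b.K4 →
      q.2 ≤ 0 ∧ q.2 ≤ yt ∧ xl ≤ q.1 ∧ q.1 ≤ xr ∧ |q.1| ≤ ρ * N ∧ |q.2| ≤ ρ * N) := by
  set R' : ℝ := |b.x1| + |b.x2| + |b.y1| + |b.y2| + |b.R| with hR'
  have r1 : |b.x1| ≤ R' := by
    rw [hR']; linarith only [abs_nonneg b.x2, abs_nonneg b.y1, abs_nonneg b.y2, abs_nonneg b.R]
  have r2 : |b.x2| ≤ R' := by
    rw [hR']; linarith [abs_nonneg b.x1, abs_nonneg b.y1, abs_nonneg b.y2, abs_nonneg b.R]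
  have r3 : |b.y1| ≤ R' := by
    rw [hR']; linarith only [abs_nonneg b.x2, abs_nonneg b.x1, abs_nonneg b.y2, abs_nonneg b.R]
  have r4 : |b.y2| ≤ R' := by
    rw [hR']; linarith only [abs_nonneg b.x2, abs_nonneg b.y1, abs_nonneg b.x1, abs_nonneg b.R]
  have r5 : b.R ≤ R' := by
    rw [hR']
    linarith only [abs_nonneg b.x2, abs_nonneg b.y1, abs_nonneg b.y2, abs_nonneg b.x1, le_abs_self b.R]
  rw [abs_le] at r1 r2 r3 r4
  have hR0 : 0 ≤ R' := by rw [hR']; (clear * -; positivity)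
  obtain ⟨ρ, hρ⟩ := exists_nat_ge (16 * (R' + 1) / b.e)
  refine ⟨ρ, fun δ hδ hδ1 hδe => ?_⟩
  set A2 : ℤ := ⌊b.y1 / δ⌋ with hA2
  set s : ℤ := A2 % 2 with hs
  set F1 : ℤ := ⌊b.x1 / δ⌋ with hF1
  set F2 : ℤ := ⌈b.x2 / δ⌉ with hF2
  set F4 : ℤ := ⌈b.y2 / δ⌉ with hF4
  set N : ℕ := ⌊b.e / (4 * δ)⌋₊ with hN
  have hs0 : 0 ≤ s := Int.emod_nonneg _ (by norm_num)
  have hs1 : s ≤ 1 := by
    have := Int.emod_lt_of_pos A2 (by norm_num : (0 : ℤ) < 2)
    omega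
  have hsR0 : (0 : ℝ) ≤ (s : ℝ) := by exact_mod_cast hs0
  have hsR1 : (s : ℝ) ≤ 1 := by exact_mod_cast hs1
  have cancel : ∀ x : ℝ, δ * (x / δ) = x := fun x => by (clear * - hδ; field_simp)
  have a1 : δ * (A2 : ℝ) ≤ b.y1 := by
    have := mul_le_mul_of_nonneg_left (Int.floor_le (b.y1 / δ)) hδ.le
    rwa [cancel] at this
  have a2 : b.y1 < δ * (A2 : ℝ) + δ := by
    have := mul_lt_mul_of_pos_left (Int.lt_floor_add_one (b.y1 / δ)) hδ
    rw [cancel] at this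
    linarith only [this]
  have b1 : δ * (F1 : ℝ) ≤ b.x1 := by
    have := mul_le_mul_of_nonneg_left (Int.floor_le (b.x1 / δ)) hδ.le
    rwa [cancel] at this
  have b2 : b.x1 < δ * (F1 : ℝ) + δ := by
    have := mul_lt_mul_of_pos_left (Int.lt_floor_add_one (b.x1 / δ)) hδ
    rw [cancel] at this
    linarith only [this]
  have c1 : b.x2 ≤ δ * (F2 : ℝ) := by
    have := mul_le_mul_of_nonneg_left (Int.le_ceil (b.x2 / δ)) hδ.le
    rwa [cancel] at this
  have c2 : δ * (F2 : ℝ) < b.x2 + δ := by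
    have := mul_lt_mul_of_pos_left (Int.ceil_lt_add_one (b.x2 / δ)) hδ
    rw [mul_add, cancel] at this
    linarith only [this]
  have d1 : b.y2 ≤ δ * (F4 : ℝ) := by
    have := mul_le_mul_of_nonneg_left (Int.le_ceil (b.y2 / δ)) hδ.le
    rwa [cancel] at this
  have d2 : δ * (F4 : ℝ) < b.y2 + δ := by
    have := mul_lt_mul_of_pos_left (Int.ceil_lt_add_one (b.y2 / δ)) hδ
    rw [mul_add, cancel] at this
    linarith only [this]
  have n1 : δ * (N : ℝ) ≤ b.e / 4 := by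
    have := mul_le_mul_of_nonneg_left (Nat.floor_le (by (clear * - he hδ; positivity) : 0 ≤ b.e / (4 * δ))) hδ.le
    have e : δ * (b.e / (4 * δ)) = b.e / 4 := by field_simp
    rwa [e] at this
  have n2 : b.e / 8 ≤ δ * (N : ℝ) := by
    have := mul_lt_mul_of_pos_left (Nat.lt_floor_add_one (b.e / (4 * δ))) hδ
    have e : δ * (b.e / (4 * δ)) = b.e / 4 := by (clear * - hδ he; field_simp)
    rw [e] at this
    linarith only [hδe, this]
  have n3 : 1 ≤ N := by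
    rw [hN, Nat.one_le_floor_iff, le_div_iff₀ (by (clear * - hδ; positivity))]
    linarith only [hδ, hδe]
  have hρN : 2 * (R' + 1) ≤ δ * ((ρ : ℝ) * N) := by
    rw [div_le_iff₀ he] at hρ
    have h1 : (ρ : ℝ) * (b.e / 8) ≤ ρ * (δ * N) := mul_le_mul_of_nonneg_left n2 (by (clear * -; positivity))
    nlinarith only [hρ, h1]
  have sδ0 : 0 ≤ δ * (s : ℝ) := by (clear * - hδ hs0; positivity)
  have sδ1 : δ * (s : ℝ) ≤ δ := by nlinarith only [hδ, hsR1]
  refine ⟨(s, A2), N, F1 - s, F2 - s, F4 - A2, ?_, ⟨?_, ?_⟩, n3, ⟨?_, ?_, ?_⟩, ?_, ?_, ?_, ?_, ?_⟩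
  · simp only
    omega
  · rw [sub_zero, abs_of_nonneg sδ0]
    linarith only [hδ, sδ1]
  · rw [abs_le]; constructor <;> linarith only [hδ, a1, a2]
  · refine zabs hδ (le_trans ?_ hρN)
    push_cast
    rw [abs_le, mul_sub]
    constructor <;> linarith only [r1, b1, sδ0, hδ1, b2, sδ1]
  · refine zabs hδ (le_trans ?_ hρN)
    push_cast
    rw [abs_le, mul_sub]
    constructor <;> linarith only [r2, hδ1, c1, sδ1, c2, sδ0]
  · refine zabs hδ (le_trans ?_ hρN)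
    push_cast
    rw [abs_le, mul_sub]
    constructor <;> linarith only [hy, r2, a1, d1, r3, r4, hδ1, a2, d2]
  · rintro ⟨q1, q2⟩ hq
    simp only [lat, PW.box, Set.mem_ofPred_eq, Prod.mk_add_mk, Int.cast_add, mul_add] at hq
    obtain ⟨h1, h2, h3, h4⟩ := hq
    refine ⟨zle hδ ?_, zle hδ ?_, zle hδ ?_, zle hδ ?_, zabs hδ (le_trans ?_ hρN),
      zabs hδ (le_trans ?_ hρN)⟩ <;> push_cast <;>
      first | (rw [abs_le]; constructor <;> linarith only [r1, hδ1, sδ1, h1, r2, a1, h3, sδ0, h2, r3, r4, a2, h4]) | linarith only [hδ, a1, h3, b1, h1, c1, h2, d1, h4]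
  · rintro ⟨q1, q2⟩ hq
    simp only [lat, PW.K1, abs_le, Set.mem_ofPred_eq, Prod.mk_add_mk, Int.cast_add, mul_add] at hq
    obtain ⟨h1, ⟨h2, h3⟩, h4, h5⟩ := hq
    refine ⟨zle hδ ?_, zabs hδ (le_trans ?_ hρN), zabs hδ (le_trans ?_ hρN)⟩ <;> push_cast <;>
      first | (rw [abs_le]; constructor <;> linarith only [hx, r2, hδ, hδe, sδ0, h1, r5, sδ1, h2, r3, a1, h4, hδ1, a2, h5]) | linarith only [hδ, hδe, b2, n1, h1]
  · rintro ⟨q1, q2⟩ hq
    simp only [lat, PW.K2, Set.mem_ofPred_eq, Prod.mk_add_mk, Int.cast_add, mul_add, abs_le] at hq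
    obtain ⟨h1, h0, ⟨h2, h3⟩, h4, h5⟩ := hq
    refine ⟨zle hδ ?_, zle hδ ?_, zabs hδ (le_trans ?_ hρN), zabs hδ (le_trans ?_ hρN)⟩ <;> push_cast <;>
      first | (rw [abs_le]; constructor <;> linarith only [hy, r1, r3, r5, hδe, sδ1, h1, h0, h5, hδ, a1, hδ1, a2, sδ0, h3]) | linarith only [hδ, b1, h0, hδe, d2, n1, h1]
  · rintro ⟨q1, q2⟩ hq
    simp only [lat, PW.K3, Set.mem_ofPred_eq, Prod.mk_add_mk, Int.cast_add, mul_add, abs_le] at hq
    obtain ⟨h1, h0, ⟨h2, h3⟩, h4, h5⟩ := hq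
    refine ⟨zle hδ ?_, zle hδ ?_, zabs hδ (le_trans ?_ hρN), zabs hδ (le_trans ?_ hρN)⟩ <;> push_cast <;>
      first | (rw [abs_le]; constructor <;> linarith) | linarith only [hδ, d1, h0, hδe, c2, n1, h1]
  · rintro ⟨q1, q2⟩ hq
    simp only [lat, PW.K4, Set.mem_ofPred_eq, Prod.mk_add_mk, Int.cast_add, mul_add, abs_le] at hq
    obtain ⟨h1, h0, h0', ⟨h2, h3⟩, h4, h5⟩ := hq
    refine ⟨zle hδ ?_, zle hδ ?_, zle hδ ?_, zle hδ ?_, zabs hδ (le_trans ?_ hρN),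
      zabs hδ (le_trans ?_ hρN)⟩ <;> push_cast <;>
      first | (rw [abs_le]; constructor <;> linarith only [hy, r1, r4, r5, hδe, sδ1, h1, h0, h4, a1, r2, sδ0, h0', hδ, a2]) | linarith only [hy, hδ, hδe, d1, h1, b1, h0, c1, h0', a2]

/-! ### Translations -/

lemma pb_back (a : ℤ × ℤ) (h : Hgt) :
    pb (fun q => q + a) (pb (fun q => q - a) h) = h := by
  funext q
  simp [pb]

lemma ev_Wd_back {δ : ℝ} (hδ : 0 < δ) {f : ℝ × ℝ → ℝ} (cf : HasCompactSupport f) {a : ℤ × ℤ}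
    (ha : (2 : ℤ) ∣ a.1 + a.2) (h : Hgt) :
    ev (Wd δ f 0) (pb (fun q => q - a) h) = ev (Wd δ f a) h := by
  rw [← ev_Wd_pb hδ cf ha, pb_back]

lemma ev_nW_back {δ : ℝ} (hδ : 0 < δ) {f : ℝ × ℝ → ℝ} (cf : HasCompactSupport f) {a : ℤ × ℤ}
    (ha : (2 : ℤ) ∣ a.1 + a.2) (h : Hgt) :
    ev (nW δ f 0) (pb (fun q => q - a) h) = ev (nW δ f a) h := by
  unfold nW
  rw [ev_smul, ev_smul, ev_Wd_back hδ cf ha, mass_Wd_shift hδ cf ha]

lemma ev_zW_back {δ : ℝ} (hδ : 0 < δ) {g f : ℝ × ℝ → ℝ} (cg : HasCompactSupport g)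
    (cf : HasCompactSupport f) {a : ℤ × ℤ} (ha : (2 : ℤ) ∣ a.1 + a.2) (h : Hgt) :
    ev (zW δ g f 0) (pb (fun q => q - a) h) = ev (zW δ g f a) h := by
  unfold zW
  rw [ev_sub, ev_sub, ev_smul, ev_smul, ev_Wd_back hδ cg ha, ev_nW_back hδ cf ha,
    mass_Wd_shift hδ cg ha]

lemma lap_add (ψ : ℝ × ℝ → ℝ) (x0 z : ℝ × ℝ) : lap (fun x => ψ (x + x0)) z = lap ψ (z + x0) := by
  have e1 : PT.dx (fun x => ψ (x + x0)) = fun x => PT.dx ψ (x + x0) := by
    funext w; unfold PT.dx; rw [fderiv_comp_add_right]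
  have e2 : PT.dy (fun x => ψ (x + x0)) = fun x => PT.dy ψ (x + x0) := by
    funext w; unfold PT.dy; rw [fderiv_comp_add_right]
  unfold lap
  rw [e1, e2]
  congr 1
  · show fderiv ℝ (fun x => PT.dx ψ (x + x0)) z (1, 0) = fderiv ℝ (PT.dx ψ) (z + x0) (1, 0)
    rw [fderiv_comp_add_right]
  · show fderiv ℝ (fun x => PT.dy ψ (x + x0)) z (0, 1) = fderiv ℝ (PT.dy ψ) (z + x0) (0, 1)
    rw [fderiv_comp_add_right]

lemma sm_add {f : ℝ × ℝ → ℝ} (hf : Sm f) (x0 : ℝ × ℝ) : Sm (fun x => f (x + x0)) :=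
  hf.comp (contDiff_id.add contDiff_const)

lemma cs_addr {f : ℝ × ℝ → ℝ} (hf : HasCompactSupport f) (x0 : ℝ × ℝ) :
    HasCompactSupport (fun x => f (x + x0)) := hf.comp_homeomorph (Homeomorph.addRight x0)

lemma int_addr (f : ℝ × ℝ → ℝ) (x0 : ℝ × ℝ) : ∫ x, f (x + x0) = ∫ x, f x :=
  integral_add_right_eq_self f x0

lemma gffCov_smul (g : ℝ × ℝ → ℝ) (z : ℝ) :
    gffCov (fun x => z * g x) (fun x => z * g x) = z ^ 2 * gffCov g g := by
  unfold P152.GFF.S.gffCov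
  rw [← integral_const_mul]
  refine integral_congr_ae (Eventually.of_forall fun x => ?_)
  simp only
  rw [← integral_const_mul]
  refine integral_congr_ae (Eventually.of_forall fun y => ?_)
  simp only
  ring

lemma not_box {b : PW} {f : ℝ × ℝ → ℝ} (hf : TestOn b.box f) {x : ℝ × ℝ} (h : f x ≠ 0) :
    x ∈ b.box := hf.2.2 (subset_tsupport _ h)

lemma lat_of_ne {b : Set (ℝ × ℝ)} {f : ℝ × ℝ → ℝ} (hf : TestOn b f) {δ : ℝ} (hδ : 0 < δ)
    {a q : ℤ × ℤ} (h : Wd δ f a q ≠ 0) : q + a ∈ lat δ b := by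
  have h1 := (Wd_supp hδ hf.2.1 h).2
  have h2 := hf.2.2 (subset_tsupport _ h1)
  exact h2

/-- The functional `Wd` is local. -/
lemma loc_Wd {K : Set (ℝ × ℝ)} {f : ℝ × ℝ → ℝ} (cf : HasCompactSupport f)
    (hf : ∀ x, f x ≠ 0 → x ∈ K) {δ : ℝ} (hδ : 0 < δ) : Loc (lat δ K) (ev (Wd δ f 0)) := by
  refine ⟨(Wd δ f 0).support, fun q hq => ?_, fun h h' hh => ?_⟩
  · rw [Finsupp.mem_support_iff] at hq
    have h1 := (Wd_supp hδ cf hq).2
    have h2 := hf _ h1
    simp only [Prod.fst_zero, Prod.snd_zero, add_zero] at h2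
    exact h2
  · unfold ev Finsupp.sum
    refine Finset.sum_congr rfl fun q hq => ?_
    simp only
    rw [hh q hq]

/-- **Product Schwinger-Dyson statement in a pinwheel.** -/
theorem fa_box {c : ℝ} {P : Measure (Ori (ℤ × ℤ))} (hPl : Pl c P)
    (hG : GRP P dX RX ∧ GRP P dY RY ∧ GRP P dD RD ∧ GRP P dA RA) (hP : FP.Hyp P) {κ : ℝ}
    (hclt : CLT P κ) {δ : ℕ → ℝ} (hδ : Tendsto δ atTop (𝓝[>] 0)) (b : PW) (hx : b.x1 < b.x2)
    (hy : b.y1 < b.y2) (he : 0 < b.e) {f0 ψ χ ρ1 ρ4 : ℝ × ℝ → ℝ} (hf0 : TestOn b.box f0)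
    (hψ : TestOn b.box ψ) (hχ : TestOn b.box χ) (iχ : ∫ x, χ x = 1) (hψχ : ∀ x, ψ x * χ x = 0)
    (hρ1 : TestOn b.K1 ρ1) (iρ1 : ∫ x, ρ1 x = 1) (hρ4 : TestOn b.K4 ρ4) (iρ4 : ∫ x, ρ4 x = 1)
    {L : ℝ} (hL : 1 ≤ L) (G1 G2 G3 G4 : ℕ → Hgt → ℂ)
    (l1 : ∀ n, Loc (lat (δ n) b.K1) (G1 n)) (l2 : ∀ n, Loc (lat (δ n) b.K2) (G2 n))
    (l3 : ∀ n, Loc (lat (δ n) b.K3) (G3 n)) (l4 : ∀ n, Loc (lat (δ n) b.K4) (G4 n))
    (b2 : ∀ n h, ‖G2 n h‖ ≤ 1) (b3 : ∀ n h, ‖G3 n h‖ ≤ 1)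
    (b1 : ∀ n h, ‖G1 n h‖ ≤ gl (nW (δ n) ρ1 0) L h)
    (b4 : ∀ n h, ‖G4 n h‖ ≤ gl (nW (δ n) ρ4 0) L h) :
    Tendsto (fun n => ∫ h, Yf (Wd (δ n) f0 0) (zW (δ n) (fun x => -lap ψ x) χ 0)
      (Real.exp (-(κ * ∫ x, ψ x * f0 x) - (κ / 2) * ∫ x, ψ x * (-lap ψ x))) h *
        G1 n h * G2 n h * G3 n h * G4 n h ∂(mu0 P)) atTop (𝓝 0) := by
  have := hPl.prob
  obtain ⟨ρ, hgeo⟩ := geo b hx hy he
  have cg : HasCompactSupport (fun x => -lap ψ x) := hψ.lap.cs.neg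
  have hg : Sm (fun x => -lap ψ x) := (PT.Sm.lap hψ.1).neg
  have hg0 : ∫ x, -lap ψ x = 0 := by rw [integral_neg, int_lap hψ.1 hψ.2.1, neg_zero]
  have hgb : TestOn b.box (fun x => -lap ψ x) := hψ.lap.neg
  obtain ⟨d1, hd1, -, happ1⟩ := app_nW hχ.2.1 hχ.1 iχ
  obtain ⟨d2, hd2, -, happ2⟩ := app_zW hχ.2.1 hχ.1 iχ cg hg hg0
  obtain ⟨d3, hd3, -, happ3⟩ := app_nW hρ1.2.1 hρ1.1 iρ1
  obtain ⟨d4, hd4, -, happ4⟩ := app_nW hρ4.2.1 hρ4.1 iρ4
  obtain ⟨R0, F0, L0, hR0, hR0', hF0, hL0, hLf⟩ := smooth_bounds hf0.1 hf0.2.1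
  have hsmall : ∀ᶠ n in atTop, 0 < δ n ∧ δ n ≤ 1 ∧ 8 * δ n ≤ b.e ∧ δ n ≤ d1 ∧ δ n ≤ d2 ∧
      δ n ≤ d3 ∧ δ n ≤ d4 := by
    have h0 : Tendsto δ atTop (𝓝 0) := hδ.mono_right nhdsWithin_le_nhds
    have hpos : ∀ᶠ n in atTop, 0 < δ n := hδ.eventually self_mem_nhdsWithin
    filter_upwards [hpos, h0.eventually (ge_mem_nhds one_pos),
      h0.eventually (ge_mem_nhds (show 0 < b.e / 8 by positivity)), h0.eventually (ge_mem_nhds hd1),
      h0.eventually (ge_mem_nhds hd2), h0.eventually (ge_mem_nhds hd3),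
      h0.eventually (ge_mem_nhds hd4)] with n a1 a2 a3 a4 a5 a6 a7
    exact ⟨a1, a2, by linarith only [a3], a4, a5, a6, a7⟩
  obtain ⟨n0, hn0⟩ := eventually_atTop.1 hsmall
  rw [← tendsto_add_atTop_iff_nat n0]
  set d : ℕ → ℝ := fun n => δ (n + n0) with hd
  have hdt : Tendsto d atTop (𝓝[>] 0) := hδ.comp (tendsto_add_atTop_nat n0)
  have hdn : ∀ n, 0 < d n ∧ d n ≤ 1 ∧ 8 * d n ≤ b.e ∧ d n ≤ d1 ∧ d n ≤ d2 ∧ d n ≤ d3 ∧
      d n ≤ d4 := fun n => hn0 (n + n0) (by omega)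
  choose a N xl xr yt ha hnear hN1 hbox hB hK1 hK2 hK3 hK4 using
    fun n => hgeo (d n) (hdn n).1 (hdn n).2.1 (hdn n).2.2.1
  set x0 : ℝ × ℝ := (0, b.y1) with hx0
  have hNear : Near d a x0 := ⟨fun n => (hdn n).1, ha, fun n => hnear n⟩
  obtain ⟨A1, M1⟩ := happ1 d a x0 hNear (fun n => (hdn n).2.2.2.1)
  obtain ⟨A2, M2⟩ := happ2 d a x0 hNear (fun n => (hdn n).2.2.2.2.1)
  obtain ⟨A3, M3⟩ := happ3 d a x0 hNear (fun n => (hdn n).2.2.2.2.2.1)
  obtain ⟨A4, M4⟩ := happ4 d a x0 hNear (fun n => (hdn n).2.2.2.2.2.2)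
  have A0 := app_Wd (fun n => (hdn n).1) (fun n => (hdn n).2.1) hf0.2.1 hL0 hLf hNear.near
  -- the data of the half plane statement
  have vanish : ∀ {f : ℝ × ℝ → ℝ}, TestOn b.box f → ∀ x : ℝ × ℝ, x.2 ≤ 0 → f (x + x0) = 0 := by
    intro f hf x hxx
    by_contra h0
    have h1 := not_box hf h0
    have h2 := h1.2.2.1
    simp only [hx0, Prod.snd_add] at h2
    linarith only [hxx, h2]
  have hdat : SDdat (fun x => f0 (x + x0)) (fun x => ψ (x + x0)) (fun x => χ (x + x0)) :=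
    ⟨sm_add hf0.1 x0, cs_addr hf0.2.1 x0, vanish hf0, sm_add hψ.1 x0, cs_addr hψ.2.1 x0,
      vanish hψ, sm_add hχ.1 x0, cs_addr hχ.2.1 x0, vanish hχ, by
        have : ∀ x, ψ (x + x0) * χ (x + x0) = 0 := fun x => hψχ _
        simp [this]⟩
  have A2' : App d (fun x => -lap (fun x => ψ (x + x0)) x)
      (fun n => zW (d n) (fun x => -lap ψ x) χ (a n)) := by
    have e : (fun x => -lap (fun x => ψ (x + x0)) x) = fun x => -lap ψ (x + x0) := by
      funext x; rw [lap_add]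
    rw [e]
    exact A2
  have hSD := sdseq hP hclt hdt hdat A0 A2' A1 M2 M1
  have e1 : ∫ x, ψ (x + x0) * f0 (x + x0) = ∫ x, ψ x * f0 x :=
    int_addr (fun x => ψ x * f0 x) x0
  have e2 : ∫ x, ψ (x + x0) * (-lap (fun x => ψ (x + x0)) x) = ∫ x, ψ x * (-lap ψ x) := by
    have : ∀ x, ψ (x + x0) * (-lap (fun x => ψ (x + x0)) x) =
        (fun x => ψ x * (-lap ψ x)) (x + x0) := fun x => by rw [lap_add]
    simp only [this]
    exact int_addr (fun x => ψ x * (-lap ψ x)) x0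
  rw [e1, e2] at hSD
  set α : ℝ := Real.exp (-(κ * ∫ x, ψ x * f0 x) - (κ / 2) * ∫ x, ψ x * (-lap ψ x)) with hα
  obtain ⟨hinv, -, -, -⟩ := legs_all hPl hG
  -- the translated functionals
  set T : ℕ → Hgt → Hgt := fun n => pb (fun q => q - a n) with hT
  have hTm : ∀ n, (mu0 P).map (T n) = mu0 P := by
    intro n
    have h2 : (2 : ℤ) ∣ (-a n).1 + (-a n).2 := by
      have := ha n
      simp only [Prod.fst_neg, Prod.snd_neg]
      omega
    have h1 := hinv (-a n) h2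
    have e : T n = pb (fun q => q + -a n) := by
      rw [hT]
      simp only [sub_eq_add_neg]
    rw [e]
    exact h1
  have hmT : ∀ n, Measurable (T n) := fun n => measurable_pb _
  have hLoc : ∀ {K : Set (ℝ × ℝ)} {A : Set (ℤ × ℤ)} {G : Hgt → ℂ} {n : ℕ},
      Loc (lat (d n) K) G → (∀ q, q + a n ∈ lat (d n) K → q ∈ A) → Loc A (fun h => G (T n h)) := by
    intro K A G n hl hA
    refine hl.comp_pb (fun q => q - a n) fun q hq => hA _ ?_
    rw [sub_add_cancel]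
    exact hq
  have hgl1 : ∀ n h, gl (nW (d n) ρ1 0) L (T n h) = gl (nW (d n) ρ1 (a n)) L h := by
    intro n h
    unfold gl
    rw [hT]
    simp only
    rw [ev_nW_back (hdn n).1 hρ1.2.1 (ha n)]
  have hgl4 : ∀ n h, gl (nW (d n) ρ4 0) L (T n h) = gl (nW (d n) ρ4 (a n)) L h := by
    intro n h
    unfold gl
    rw [hT]
    simp only
    rw [ev_nW_back (hdn n).1 hρ4.2.1 (ha n)]
  obtain ⟨C, hC, hgint⟩ := gl_int
  have hAdm : ∀ {A : Set (ℤ × ℤ)} {G : Hgt → ℂ} {φ : (ℤ × ℤ) →₀ ℝ}, mass φ = 1 → Loc A G →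
      (∀ h, ‖G h‖ ≤ gl φ L h) → Adm P A G ∧ ∫ h, ‖G h‖ ∂(mu0 P) ≤ C * L := by
    intro A G φ hm hl hb
    obtain ⟨i1, i2, -⟩ := hgint P φ hm L hL
    have hi : Integrable G (mu0 P) :=
      i1.mono' hl.measurable.aestronglyMeasurable (Eventually.of_forall hb)
    exact ⟨⟨hl, ⟨1, fun h => (hb h).trans (gl_le_one _ _ _)⟩, hi⟩,
      (integral_mono hi.norm i1 hb).trans i2⟩
  have adm1 : ∀ n, Adm P {q | q.1 ≤ xl n - 2 * N n ∧ |q.1| ≤ ρ * N n ∧ |q.2| ≤ ρ * N n}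
      (fun h => G1 (n + n0) (T n h)) ∧ ∫ h, ‖G1 (n + n0) (T n h)‖ ∂(mu0 P) ≤ C * L := fun n =>
    hAdm (M3 n) (hLoc (l1 (n + n0)) (fun q hq => hK1 n q hq)) fun h => by
      rw [← hgl1]; exact b1 (n + n0) _
  have adm4 : ∀ n, Adm P {q | q.2 ≤ 0 ∧ q.2 ≤ yt n ∧ xl n ≤ q.1 ∧ q.1 ≤ xr n ∧
      |q.1| ≤ ρ * N n ∧ |q.2| ≤ ρ * N n} (fun h => G4 (n + n0) (T n h)) ∧
      ∫ h, ‖G4 (n + n0) (T n h)‖ ∂(mu0 P) ≤ C * L := fun n =>
    hAdm (M4 n) (hLoc (l4 (n + n0)) (fun q hq => hK4 n q hq)) fun h => by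
      rw [← hgl4]; exact b4 (n + n0) _
  -- tightness
  have hTight : Tight P (fun n => nW (d n) χ (a n)) (fun n h => G4 (n + n0) (T n h)) := by
    refine tight_of (ρ := fun n => nW (d n) ρ4 (a n)) (a := κ / 2 *
      gffCov (fun x => χ (x + x0) - ρ4 (x + x0)) (fun x => χ (x + x0) - ρ4 (x + x0))) M1 M4
      (fun z => ?_) hL fun n h => ?_
    · have hAz := (A1.sub A4).smul z
      have hcs : HasCompactSupport (fun x => χ (x + x0) - ρ4 (x + x0)) :=
        cs_sub (cs_addr hχ.2.1 x0) (cs_addr hρ4.2.1 x0)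
      have hTest : Test (fun x => z * (χ (x + x0) - ρ4 (x + x0))) := by
        refine ⟨contDiff_const.mul ((sm_add hχ.1 x0).sub (sm_add hρ4.1 x0)), hcs.mul_left, ?_⟩
        have i1 : Integrable (fun x => χ (x + x0)) :=
          (sm_add hχ.1 x0).continuous.integrable_of_hasCompactSupport (cs_addr hχ.2.1 x0)
        have i2 : Integrable (fun x => ρ4 (x + x0)) :=
          (sm_add hρ4.1 x0).continuous.integrable_of_hasCompactSupport (cs_addr hρ4.2.1 x0)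
        rw [integral_const_mul, integral_sub i1 i2, int_addr χ x0, int_addr ρ4 x0, iχ, iρ4,
          sub_self, mul_zero]
      have h1 := app_char hP hclt hdt hTest hAz
      rw [gffCov_smul (fun x => χ (x + x0) - ρ4 (x + x0)) z] at h1
      have e3 : Complex.exp (-((κ / 2 * (z ^ 2 * gffCov (fun x => χ (x + x0) - ρ4 (x + x0))
          (fun x => χ (x + x0) - ρ4 (x + x0))) : ℝ) : ℂ)) =
          ((Real.exp (-((κ / 2 * gffCov (fun x => χ (x + x0) - ρ4 (x + x0))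
          (fun x => χ (x + x0) - ρ4 (x + x0))) * z ^ 2)) : ℝ) : ℂ) := by
        rw [← Complex.ofReal_neg, ← Complex.ofReal_exp]
        congr 3
        ring
      rw [e3] at h1
      refine h1.congr fun n => ?_
      simp only [ev_smul]
    · rw [← hgl4]; exact b4 (n + n0) _
  have hres := fa_pl hPl hG hSD ρ N xl xr yt hN1 hbox ?_
    (fun n h => G1 (n + n0) (T n h)) (fun n h => G2 (n + n0) (T n h))
    (fun n h => G3 (n + n0) (T n h)) (fun n h => G4 (n + n0) (T n h)) (C * L)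
    (fun n => (adm1 n).1) (fun n => hLoc (l2 (n + n0)) (fun q hq => hK2 n q hq))
    (fun n => hLoc (l3 (n + n0)) (fun q hq => hK3 n q hq)) (fun n => (adm4 n).1)
    (fun n h => (b1 _ _).trans (gl_le_one _ _ _)) (fun n h => b2 _ _) (fun n h => b3 _ _)
    (fun n h => (b4 _ _).trans (gl_le_one _ _ _)) (fun n => (adm1 n).2) (fun n => (adm4 n).2)
    hTight
  · refine hres.congr fun n => ?_
    have hFm : Measurable fun h => Yf (Wd (d n) f0 0) (zW (d n) (fun x => -lap ψ x) χ 0) α h *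
        G1 (n + n0) h * G2 (n + n0) h * G3 (n + n0) h * G4 (n + n0) h :=
      ((((measurable_Yf _ _ _).mul (l1 _).measurable).mul (l2 _).measurable).mul
        (l3 _).measurable).mul (l4 _).measurable
    have h1 := integral_map (μ := mu0 P) (hmT n).aemeasurable
      (f := fun h => Yf (Wd (d n) f0 0) (zW (d n) (fun x => -lap ψ x) χ 0) α h *
        G1 (n + n0) h * G2 (n + n0) h * G3 (n + n0) h * G4 (n + n0) h)
      hFm.aestronglyMeasurable
    rw [hTm n] at h1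
    rw [h1]
    refine integral_congr_ae (Eventually.of_forall fun h => ?_)
    simp only
    have e4 : Yf (Wd (d n) f0 0) (zW (d n) (fun x => -lap ψ x) χ 0) α (T n h) =
        Yf (Wd (d n) f0 (a n)) (zW (d n) (fun x => -lap ψ x) χ (a n)) α h := by
      unfold Yf
      rw [hT]
      simp only
      rw [ev_Wd_back (hdn n).1 hf0.2.1 (ha n), ev_zW_back (hdn n).1 cg hχ.2.1 (ha n)]
    rw [e4]
  · intro n q hq
    refine hB n q ?_
    rcases hq with hq | hq | hq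
    · exact lat_of_ne hf0 (hdn n).1 (Finsupp.mem_support_iff.1 hq)
    · rcases zW_supp (Finsupp.mem_support_iff.1 hq) with h | h
      · exact lat_of_ne hgb (hdn n).1 h
      · exact lat_of_ne hχ (hdn n).1 h
    · exact lat_of_ne hχ (hdn n).1 (nW_supp (Finsupp.mem_support_iff.1 hq))

end Vale.Agent.P145.FA.Use
end

section

/-!
P145, block F-A: the Schwinger-Dyson equations for the moments under a product of four local
functionals (pinwheel).
-/

namespace Vale.Agent.P145.FA.Use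

open Finset Filter Topology MeasureTheory
open Vale.Agent.P152
open Vale.Agent.P152.GFF.S (Test gffCov)
open Vale.Agent.P145.PT (Sm TestOn lap)

/-! ### A bump function away from `ψ` -/

lemma exists_chi {b : PW} (hx : b.x1 < b.x2) (hy : b.y1 < b.y2) {ψ : ℝ × ℝ → ℝ}
    (hψ : TestOn b.box ψ) : ∃ χ : ℝ × ℝ → ℝ, TestOn b.box χ ∧ (∫ x, χ x = 1) ∧
      ∀ x, ψ x * χ x = 0 := by
  have hbo : IsOpen b.box := by
    have h1 : IsOpen {z : ℝ × ℝ | b.x1 < z.1} := isOpen_lt continuous_const continuous_fst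
    have h2 : IsOpen {z : ℝ × ℝ | z.1 < b.x2} := isOpen_lt continuous_fst continuous_const
    have h3 : IsOpen {z : ℝ × ℝ | b.y1 < z.2} := isOpen_lt continuous_const continuous_snd
    have h4 : IsOpen {z : ℝ × ℝ | z.2 < b.y2} := isOpen_lt continuous_snd continuous_const
    exact h1.inter (h2.inter (h3.inter h4))
  set O : Set (ℝ × ℝ) := b.box ∩ (tsupport ψ)ᶜ with hO
  have hOo : IsOpen O := hbo.inter (isClosed_tsupport ψ).isOpen_compl
  have hne : O.Nonempty := by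
    set p : ℝ × ℝ := (b.x1, (b.y1 + b.y2) / 2) with hp
    have hpn : p ∈ (tsupport ψ)ᶜ := by
      intro h
      have := (hψ.2.2 h).1
      simp only [hp] at this
      exact lt_irrefl _ this
    obtain ⟨r, hr, hball⟩ := Metric.isOpen_iff.1 (isClosed_tsupport ψ).isOpen_compl p hpn
    set t : ℝ := min (r / 2) ((b.x2 - b.x1) / 2) with ht
    have ht0 : 0 < t := lt_min (by linarith only [hr]) (by linarith only [hx])
    refine ⟨(b.x1 + t, (b.y1 + b.y2) / 2), ⟨?_, ?_, ?_, ?_⟩, hball ?_⟩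
    · simp only; linarith only [ht0]
    · have := min_le_right (r / 2) ((b.x2 - b.x1) / 2)
      simp only
      linarith only [ht0, this]
    · simp only; linarith only [hy]
    · simp only; linarith only [hy]
    · rw [Metric.mem_ball, hp, Prod.dist_eq, max_lt_iff]
      simp only [dist_self, Real.dist_eq]
      refine ⟨?_, hr⟩
      rw [add_sub_cancel_left, abs_of_pos ht0]
      have := min_le_left (r / 2) ((b.x2 - b.x1) / 2)
      linarith only [ht0, this]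
  obtain ⟨p, hp⟩ := hne
  obtain ⟨r, hr, hball⟩ := Metric.isOpen_iff.1 hOo p hp
  have hs : 0 < r / 2 := by linarith only [hr]
  have hsub : Metric.closedBall p (r / 2) ⊆ O :=
    (Metric.closedBall_subset_ball (by linarith only [hr])).trans hball
  have hT : TestOn O (PT.bump (r / 2) p) := PT.bump_test hs hsub
  refine ⟨PT.bump (r / 2) p, hT.mono Set.inter_subset_left, PT.bump_int hs p, fun x => ?_⟩
  by_cases h : ψ x = 0
  · rw [h, zero_mul]
  · have h1 : x ∈ tsupport ψ := subset_tsupport _ h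
    have h2 : PT.bump (r / 2) p x = 0 := by
      by_contra h3
      exact (hT.2.2 (subset_tsupport _ h3)).2 h1
    rw [h2, mul_zero]

/-! ### Restriction of a functional to a set of faces -/

open Classical in
/-- The part of `ev w` in `A`. -/
noncomputable def evK (w : (ℤ × ℤ) →₀ ℝ) (A : Set (ℤ × ℤ)) (h : Hgt) : ℝ :=
  ∑ q ∈ w.support, if q ∈ A then w q * (h q : ℝ) else 0

open Classical in
lemma loc_evK (w : (ℤ × ℤ) →₀ ℝ) (A : Set (ℤ × ℤ)) : Loc A (evK w A) := by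
  refine ⟨w.support.filter (· ∈ A), fun q hq => (Finset.mem_filter.1 hq).2, fun h h' hh => ?_⟩
  unfold evK
  refine Finset.sum_congr rfl fun q hq => ?_
  split_ifs with hA
  · rw [hh q (Finset.mem_filter.2 ⟨hq, hA⟩)]
  · rfl

open Classical in
lemma evK_sum (w : (ℤ × ℤ) →₀ ℝ) {A1 A2 A3 A4 : Set (ℤ × ℤ)}
    (hsub : ∀ q, w q ≠ 0 → q ∈ A1 ∨ q ∈ A2 ∨ q ∈ A3 ∨ q ∈ A4)
    (h12 : ∀ q ∈ A1, q ∉ A2) (h13 : ∀ q ∈ A1, q ∉ A3) (h14 : ∀ q ∈ A1, q ∉ A4)
    (h23 : ∀ q ∈ A2, q ∉ A3) (h24 : ∀ q ∈ A2, q ∉ A4) (h34 : ∀ q ∈ A3, q ∉ A4) (h : Hgt) :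
    ev w h = evK w A1 h + evK w A2 h + evK w A3 h + evK w A4 h := by
  unfold ev Finsupp.sum evK
  rw [← Finset.sum_add_distrib, ← Finset.sum_add_distrib, ← Finset.sum_add_distrib]
  refine Finset.sum_congr rfl fun q hq => ?_
  rcases hsub q (Finsupp.mem_support_iff.1 hq) with h1 | h1 | h1 | h1
  · rw [if_pos h1, if_neg (h12 q h1), if_neg (h13 q h1), if_neg (h14 q h1)]; ring
  · rw [if_pos h1, if_neg (fun h => h12 q h h1), if_neg (h23 q h1), if_neg (h24 q h1)]; ring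
  · rw [if_pos h1, if_neg (fun h => h13 q h h1), if_neg (fun h => h23 q h h1),
      if_neg (h34 q h1)]; ring
  · rw [if_pos h1, if_neg (fun h => h14 q h h1), if_neg (fun h => h24 q h h1),
      if_neg (fun h => h34 q h h1)]; ring

lemma ev_arms {b : PW} (hx : b.x1 < b.x2) (hy : b.y1 < b.y2) (he : 0 < b.e) {g : ℝ × ℝ → ℝ}
    (cg : HasCompactSupport g) (hg : ∀ x, g x ≠ 0 → x ∈ b.K1 ∨ x ∈ b.K2 ∨ x ∈ b.K3 ∨ x ∈ b.K4)
    {δ : ℝ} (hδ : 0 < δ) (h : Hgt) :
    ev (Wd δ g 0) h = evK (Wd δ g 0) (lat δ b.K1) h + evK (Wd δ g 0) (lat δ b.K2) h +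
      evK (Wd δ g 0) (lat δ b.K3) h + evK (Wd δ g 0) (lat δ b.K4) h := by
  refine evK_sum _ (fun q hq => ?_) ?_ ?_ ?_ ?_ ?_ ?_ h
  · have h1 := (Wd_supp hδ cg hq).2
    have h2 := hg _ h1
    simp only [Prod.fst_zero, Prod.snd_zero, add_zero] at h2
    exact h2
  all_goals
    intro q h1 h2
    simp only [lat, PW.K1, PW.K2, PW.K3, PW.K4, Set.mem_ofPred_eq] at h1 h2
    linarith

lemma lap_smul (ψ : ℝ × ℝ → ℝ) (hψ : Sm ψ) (s : ℝ) (z : ℝ × ℝ) :
    lap (fun x => s * ψ x) z = s * lap ψ z := by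
  have e1 : PT.dx (fun x => s * ψ x) = fun x => s * PT.dx ψ x := by
    funext w
    unfold PT.dx
    rw [fderiv_const_mul (hψ.diff w)]
    rfl
  have e2 : PT.dy (fun x => s * ψ x) = fun x => s * PT.dy ψ x := by
    funext w
    unfold PT.dy
    rw [fderiv_const_mul (hψ.diff w)]
    rfl
  unfold lap
  rw [e1, e2, mul_add]
  congr 1
  · show fderiv ℝ (fun x => s * PT.dx ψ x) z (1, 0) = s * fderiv ℝ (PT.dx ψ) z (1, 0)
    rw [fderiv_const_mul (hψ.dx.diff z)]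
    rfl
  · show fderiv ℝ (fun x => s * PT.dy ψ x) z (0, 1) = s * fderiv ℝ (PT.dy ψ) z (0, 1)
    rw [fderiv_const_mul (hψ.dy.diff z)]
    rfl

/-! ### The data -/

/-- The functional of a test function. -/
noncomputable def Lf (δ : ℝ) (f : ℝ × ℝ → ℝ) (h : Hgt) : ℝ := ev (Wd δ f 0) h

/-- Hypotheses on the four factors and on the moments. -/
structure Dat (P : Measure (Ori (ℤ × ℤ))) (δ : ℕ → ℝ) (b : PW) (D : Set (ℝ × ℝ))
    (X1 X2 X3 X4 X : ℕ → Hgt → ℝ) : Prop where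
  hx : b.x1 < b.x2
  hy : b.y1 < b.y2
  he : 0 < b.e
  hbD : b.box ⊆ D
  l1 : ∀ n, Loc (lat (δ n) b.K1) (X1 n)
  l2 : ∀ n, Loc (lat (δ n) b.K2) (X2 n)
  l3 : ∀ n, Loc (lat (δ n) b.K3) (X3 n)
  l4 : ∀ n, Loc (lat (δ n) b.K4) (X4 n)
  n1 : ∀ n h, 0 ≤ X1 n h ∧ X1 n h ≤ 1
  n2 : ∀ n h, 0 ≤ X2 n h ∧ X2 n h ≤ 1
  n3 : ∀ n h, 0 ≤ X3 n h ∧ X3 n h ≤ 1
  n4 : ∀ n h, 0 ≤ X4 n h ∧ X4 n h ≤ 1
  hX : ∀ n h, X n h = X1 n h * X2 n h * X3 n h * X4 n h
  int : ∀ᶠ n in atTop, Integrable (X n) (mu0 P)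
  pos : ∃ c0 : ℝ, 0 < c0 ∧ ∀ᶠ n in atTop, c0 ≤ ∫ h, X n h ∂(mu0 P)
  mom : ∀ f, TestOn D f → ∀ k : ℕ, ∃ C : ℝ, 0 ≤ C ∧ ∀ᶠ n in atTop,
    Integrable (fun h => |Lf (δ n) f h| ^ k * X n h) (mu0 P) ∧
    ∫ h, |Lf (δ n) f h| ^ k * X n h ∂(mu0 P) ≤ C * ∫ h, X n h ∂(mu0 P)
  r1 : ∃ ρ : ℝ × ℝ → ℝ, TestOn b.K1 ρ ∧ TestOn D ρ ∧ ∫ x, ρ x = 1
  r4 : ∃ ρ : ℝ × ℝ → ℝ, TestOn b.K4 ρ ∧ TestOn D ρ ∧ ∫ x, ρ x = 1

variable {P : Measure (Ori (ℤ × ℤ))} {δ : ℕ → ℝ} {b : PW} {D : Set (ℝ × ℝ)}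
  {X1 X2 X3 X4 X : ℕ → Hgt → ℝ}

lemma Dat.X_nonneg (d : Dat P δ b D X1 X2 X3 X4 X) (n : ℕ) (h : Hgt) : 0 ≤ X n h := by
  rw [d.hX]
  exact mul_nonneg (mul_nonneg (mul_nonneg (d.n1 n h).1 (d.n2 n h).1) (d.n3 n h).1) (d.n4 n h).1

lemma Dat.X_meas (d : Dat P δ b D X1 X2 X3 X4 X) (n : ℕ) : Measurable (X n) := by
  have e : X n = fun h => X1 n h * X2 n h * X3 n h * X4 n h := funext fun h => d.hX n h
  rw [e]
  exact (((d.l1 n).measurable.mul (d.l2 n).measurable).mul (d.l3 n).measurable).mul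
    (d.l4 n).measurable

lemma measurable_Lf (δ : ℝ) (f : ℝ × ℝ → ℝ) : Measurable (Lf δ f) := measurable_ev _

/-- Comparison of the integrands. -/
lemma pt_bound {a E E' : ℂ} {α p : ℝ} (ha : ‖a‖ = 1) (hE : ‖E‖ = 1) (hp0 : 0 ≤ p) (hp1 : p ≤ 1) :
    ‖a * (E - α) - p * (a * (E' - α))‖ ≤ ‖E - E'‖ + (1 + |α|) * (1 - p) := by
  have e : a * (E - α) - p * (a * (E' - α)) = a * (p * (E - E') + (1 - p : ℝ) * (E - α)) := by
    push_cast
    ring
  rw [e, norm_mul, ha, one_mul]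
  refine (norm_add_le _ _).trans (add_le_add ?_ ?_)
  · rw [norm_mul, Complex.norm_real, Real.norm_eq_abs, abs_of_nonneg hp0]
    have := norm_nonneg (E - E')
    nlinarith only [hp1, this]
  · rw [norm_mul, Complex.norm_real, Real.norm_eq_abs, abs_of_nonneg (by linarith), mul_comm]
    refine mul_le_mul_of_nonneg_right ?_ (by linarith)
    refine (norm_sub_le _ _).trans ?_
    rw [hE, Complex.norm_real, Real.norm_eq_abs]

lemma expI_sub (x y : ℝ) :
    ‖Complex.exp (Complex.I * (x : ℂ)) - Complex.exp (Complex.I * (y : ℂ))‖ ≤ |x - y| := by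
  have e : Complex.exp (Complex.I * (x : ℂ)) - Complex.exp (Complex.I * (y : ℂ)) =
      Complex.exp (Complex.I * (y : ℂ)) * (Complex.exp (Complex.I * ((x - y : ℝ) : ℂ)) - 1) := by
    rw [mul_sub, ← Complex.exp_add, mul_one]
    congr 2
    push_cast; ring
  rw [e, norm_mul, norm_expI, one_mul]
  exact expI_sub_one _

/-- Removal of the localisers, for one mesh. -/
lemma est {Ω : Type*} [MeasurableSpace Ω] {μ : Measure Ω} {Y U V Φ pp r1 r4 rχ : Ω → ℝ}
    {s t m α η Cχ C1 C4 I0 : ℝ} (mU : Measurable U) (mV : Measurable V) (mΦ : Measurable Φ)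
    (mpp : Measurable pp) (hX0 : ∀ h, 0 ≤ Y h) (hXi : Integrable Y μ)
    (hpp01 : ∀ h, 0 ≤ pp h ∧ pp h ≤ 1) (hη : 0 ≤ η) (hΦ : ∀ h, |Φ h| ≤ 2 * |rχ h|)
    (hpp : ∀ h, 1 - pp h ≤ 4 * η * |r1 h| ^ 2 + 4 * η * |r4 h| ^ 2)
    (wχ : Integrable (fun h => |rχ h| ^ 1 * Y h) μ ∧ ∫ h, |rχ h| ^ 1 * Y h ∂μ ≤ Cχ * I0)
    (w1 : Integrable (fun h => |r1 h| ^ 2 * Y h) μ ∧ ∫ h, |r1 h| ^ 2 * Y h ∂μ ≤ C1 * I0)
    (w4 : Integrable (fun h => |r4 h| ^ 2 * Y h) μ ∧ ∫ h, |r4 h| ^ 2 * Y h ∂μ ≤ C4 * I0) :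
    ‖∫ h, (Y h : ℂ) * (Complex.exp (Complex.I * ((t * V h : ℝ) : ℂ)) *
      (Complex.exp (Complex.I * ((s * U h : ℝ) : ℂ)) - (α : ℂ))) ∂μ‖ ≤
    ‖∫ h, (Y h : ℂ) * (((pp h : ℝ) : ℂ) * (Complex.exp (Complex.I * ((t * V h : ℝ) : ℂ)) *
        (Complex.exp (Complex.I * ((s * U h - s * m * Φ h : ℝ) : ℂ)) - (α : ℂ)))) ∂μ‖ +
      (|s| * |m| * (2 * Cχ) + (1 + |α|) * (4 * (C1 + C4)) * η) * I0 := by
  set F : Ω → ℂ := fun h => (Y h : ℂ) * (Complex.exp (Complex.I * ((t * V h : ℝ) : ℂ)) *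
    (Complex.exp (Complex.I * ((s * U h : ℝ) : ℂ)) - (α : ℂ))) with hF
  set F' : Ω → ℂ := fun h => (Y h : ℂ) * (((pp h : ℝ) : ℂ) *
    (Complex.exp (Complex.I * ((t * V h : ℝ) : ℂ)) *
      (Complex.exp (Complex.I * ((s * U h - s * m * Φ h : ℝ) : ℂ)) - (α : ℂ)))) with hF'
  have hXC : Integrable (fun h => (Y h : ℂ)) μ := hXi.ofReal
  have hFi : Integrable F μ := by
    refine hXC.mul_bdd (c := 1 + |α|) ?_ (Eventually.of_forall fun h => ?_)
    · have : Measurable fun h => Complex.exp (Complex.I * ((t * V h : ℝ) : ℂ)) *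
        (Complex.exp (Complex.I * ((s * U h : ℝ) : ℂ)) - (α : ℂ)) := by fun_prop
      exact this.aestronglyMeasurable
    · rw [norm_mul, norm_expI, one_mul]
      refine (norm_sub_le _ _).trans ?_
      rw [norm_expI, Complex.norm_real, Real.norm_eq_abs]
  have hFi' : Integrable F' μ := by
    refine hXC.mul_bdd (c := 1 + |α|) ?_ (Eventually.of_forall fun h => ?_)
    · have : Measurable fun h => ((pp h : ℝ) : ℂ) *
        (Complex.exp (Complex.I * ((t * V h : ℝ) : ℂ)) *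
        (Complex.exp (Complex.I * ((s * U h - s * m * Φ h : ℝ) : ℂ)) - (α : ℂ))) := by
        fun_prop
      exact this.aestronglyMeasurable
    · rw [norm_mul, norm_mul, norm_expI, one_mul, Complex.norm_real, Real.norm_eq_abs,
        abs_of_nonneg (hpp01 h).1]
      have h1 : ‖Complex.exp (Complex.I * ((s * U h - s * m * Φ h : ℝ) : ℂ)) - (α : ℂ)‖ ≤
          1 + |α| := by
        refine (norm_sub_le _ _).trans ?_
        rw [norm_expI, Complex.norm_real, Real.norm_eq_abs]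
      exact (mul_le_mul (hpp01 h).2 h1 (norm_nonneg _) zero_le_one).trans (le_of_eq (one_mul _))
  set B : Ω → ℝ := fun h => |s| * |m| * (2 * (|rχ h| ^ 1 * Y h)) +
    (1 + |α|) * (4 * η) * (|r1 h| ^ 2 * Y h) + (1 + |α|) * (4 * η) * (|r4 h| ^ 2 * Y h) with hB
  have hBd : ∀ h, ‖F h - F' h‖ ≤ B h := by
    intro h
    have e1 : F h - F' h = (Y h : ℂ) * (Complex.exp (Complex.I * ((t * V h : ℝ) : ℂ)) *
        (Complex.exp (Complex.I * ((s * U h : ℝ) : ℂ)) - (α : ℂ)) - ((pp h : ℝ) : ℂ) *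
        (Complex.exp (Complex.I * ((t * V h : ℝ) : ℂ)) *
      (Complex.exp (Complex.I * ((s * U h - s * m * Φ h : ℝ) : ℂ)) - (α : ℂ)))) := by
      simp only [hF, hF']
      ring
    rw [e1, norm_mul, Complex.norm_real, Real.norm_eq_abs, abs_of_nonneg (hX0 h)]
    have h1 := pt_bound (a := Complex.exp (Complex.I * ((t * V h : ℝ) : ℂ)))
      (E := Complex.exp (Complex.I * ((s * U h : ℝ) : ℂ)))
      (E' := Complex.exp (Complex.I * ((s * U h - s * m * Φ h : ℝ) : ℂ))) (α := α)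
      (p := pp h) (norm_expI _) (norm_expI _) (hpp01 h).1 (hpp01 h).2
    have h2 := expI_sub (s * U h) (s * U h - s * m * Φ h)
    have h3 : |s * U h - (s * U h - s * m * Φ h)| ≤ |s| * |m| * (2 * |rχ h|) := by
      rw [show s * U h - (s * U h - s * m * Φ h) = s * m * Φ h by ring, abs_mul, abs_mul]
      exact mul_le_mul_of_nonneg_left (hΦ h) (by (clear * -; positivity))
    have h5 := h1.trans (add_le_add (h2.trans h3)
      (mul_le_mul_of_nonneg_left (hpp h) (by (clear * -; positivity) : 0 ≤ 1 + |α|)))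
    refine (mul_le_mul_of_nonneg_left h5 (hX0 h)).trans (le_of_eq ?_)
    simp only [hB]
    ring
  have iB1 : Integrable (fun h => |s| * |m| * (2 * (|rχ h| ^ 1 * Y h))) μ :=
    (wχ.1.const_mul 2).const_mul _
  have iB2 : Integrable (fun h => (1 + |α|) * (4 * η) * (|r1 h| ^ 2 * Y h)) μ :=
    w1.1.const_mul _
  have iB3 : Integrable (fun h => (1 + |α|) * (4 * η) * (|r4 h| ^ 2 * Y h)) μ :=
    w4.1.const_mul _
  have iB12 : Integrable (fun h => |s| * |m| * (2 * (|rχ h| ^ 1 * Y h)) +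
      (1 + |α|) * (4 * η) * (|r1 h| ^ 2 * Y h)) μ := iB1.add iB2
  have hBint : ∫ h, B h ∂μ ≤ (|s| * |m| * (2 * Cχ) +
      (1 + |α|) * (4 * (C1 + C4)) * η) * I0 := by
    rw [hB, integral_add iB12 iB3, integral_add iB1 iB2, integral_const_mul, integral_const_mul,
      integral_const_mul, integral_const_mul]
    have a1 : |s| * |m| * (2 * ∫ h, |rχ h| ^ 1 * Y h ∂μ) ≤ |s| * |m| * (2 * (Cχ * I0)) :=
      mul_le_mul_of_nonneg_left (mul_le_mul_of_nonneg_left wχ.2 (by norm_num)) (by (clear * -; positivity))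
    have a2 : (1 + |α|) * (4 * η) * ∫ h, |r1 h| ^ 2 * Y h ∂μ ≤
        (1 + |α|) * (4 * η) * (C1 * I0) := mul_le_mul_of_nonneg_left w1.2 (by (clear * - hη; positivity))
    have a3 : (1 + |α|) * (4 * η) * ∫ h, |r4 h| ^ 2 * Y h ∂μ ≤
        (1 + |α|) * (4 * η) * (C4 * I0) := mul_le_mul_of_nonneg_left w4.2 (by (clear * - hη; positivity))
    refine (add_le_add (add_le_add a1 a2) a3).trans (le_of_eq ?_)
    ring
  have e1 : ∫ h, F h ∂μ - ∫ h, F' h ∂μ = ∫ h, (F h - F' h) ∂μ := by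
    rw [integral_sub hFi hFi']
  have hdiff : ‖∫ h, F h ∂μ - ∫ h, F' h ∂μ‖ ≤ (|s| * |m| * (2 * Cχ) +
      (1 + |α|) * (4 * (C1 + C4)) * η) * I0 := by
    rw [e1]
    exact (norm_integral_le_of_norm_le (iB12.add iB3) (Eventually.of_forall hBd)).trans hBint
  have e2 : ∫ h, F h ∂μ = ∫ h, F' h ∂μ + (∫ h, F h ∂μ - ∫ h, F' h ∂μ) := by ring
  rw [e2]
  exact (norm_add_le _ _).trans (add_le_add le_rfl hdiff)

/-- Normalised functionals. -/
lemma nW_bound {f : ℝ × ℝ → ℝ} {A δ : ℝ} (hf1 : ∫ x, f x = 1)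
    (h1 : |mass (Wd δ f 0) - ∫ x, f x| ≤ A * δ) (h2 : A * δ ≤ 1 / 2) (h : Hgt) :
    |ev (nW δ f 0) h| ≤ 2 * |Lf δ f h| := by
  rw [hf1] at h1
  have h3 : 1 / 2 ≤ mass (Wd δ f 0) := by
    have := (abs_le.1 h1).1
    linarith
  have h4 : 0 < mass (Wd δ f 0) := by linarith only [h3]
  unfold nW
  rw [ev_smul, abs_mul, abs_of_pos (inv_pos.2 h4)]
  refine mul_le_mul_of_nonneg_right ?_ (abs_nonneg _)
  rw [inv_le_comm₀ h4 (by norm_num)]
  linarith only [h3]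

lemma pp_bound {φ1 φ4 : (ℤ × ℤ) →₀ ℝ} {L η : ℝ} (hL2 : (L ^ 2)⁻¹ = η) (hη : 0 ≤ η) {h : Hgt}
    {r1 r4 : ℝ} (v1 : |ev φ1 h| ≤ 2 * |r1|) (v4 : |ev φ4 h| ≤ 2 * |r4|) :
    1 - gl φ1 L h * gl φ4 L h ≤ 4 * η * |r1| ^ 2 + 4 * η * |r4| ^ 2 := by
  have a1 := one_sub_gl φ1 L h
  have a2 := one_sub_gl φ4 L h
  have a3 := gl_le_one φ1 L h
  have a4 := gl_le_one φ4 L h
  have key : ∀ {φ : (ℤ × ℤ) →₀ ℝ} {r : ℝ}, |ev φ h| ≤ 2 * |r| →
      (ev φ h) ^ 2 / L ^ 2 ≤ 4 * η * |r| ^ 2 := by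
    intro φ r v
    rw [div_eq_mul_inv, hL2, ← sq_abs]
    have h1 := pow_le_pow_left₀ (abs_nonneg _) v 2
    have h2 := mul_le_mul_of_nonneg_right h1 hη
    refine h2.trans (le_of_eq ?_)
    ring
  have a7 := key v1
  have a8 := key v4
  have a9 : 1 - gl φ1 L h * gl φ4 L h ≤ (1 - gl φ1 L h) + (1 - gl φ4 L h) := by
    have : 0 ≤ (1 - gl φ1 L h) * (1 - gl φ4 L h) :=
      mul_nonneg (by linarith only [a3]) (by linarith only [a4])
    linarith only [this]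
  linarith

/-- The exponential form of the Schwinger-Dyson equation. -/
theorem char_lim {c : ℝ} (hPl : Pl c P)
    (hG : GRP P dX RX ∧ GRP P dY RY ∧ GRP P dD RD ∧ GRP P dA RA) (hP : FP.Hyp P) {κ : ℝ}
    (hclt : CLT P κ) (hδp : ∀ n, 0 < δ n) (hδ : Tendsto δ atTop (𝓝[>] 0))
    (d : Dat P δ b D X1 X2 X3 X4 X) {ψ f0 g : ℝ × ℝ → ℝ} (hψ : TestOn b.box ψ) (hf0 : TestOn b.box f0) (hg : TestOn D g)
    (hgK : ∀ x, g x ≠ 0 → x ∈ b.K1 ∨ x ∈ b.K2 ∨ x ∈ b.K3 ∨ x ∈ b.K4) (s t : ℝ) :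
    Tendsto (fun n => (∫ h, (X n h : ℂ) * (Complex.exp (Complex.I *
      ((t * Lf (δ n) (fun x => f0 x + g x) h : ℝ) : ℂ)) *
      (Complex.exp (Complex.I * ((s * Lf (δ n) (fun x => -lap ψ x) h : ℝ) : ℂ)) -
        ((Real.exp (-(κ * (s * t * ∫ x, ψ x * f0 x)) -
          κ / 2 * (s ^ 2 * ∫ x, ψ x * (-lap ψ x))) : ℝ) : ℂ))) ∂(mu0 P)) /
      ((∫ h, X n h ∂(mu0 P) : ℝ) : ℂ)) atTop (𝓝 0) := by
  obtain ⟨χ, hχ, iχ, hψχ⟩ := exists_chi d.hx d.hy hψ
  obtain ⟨ρ1, hρ1, hρ1D, iρ1⟩ := d.r1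
  obtain ⟨ρ4, hρ4, hρ4D, iρ4⟩ := d.r4
  have hV : TestOn D (fun x => -lap ψ x) := (hψ.lap.neg).mono d.hbD
  obtain ⟨C1, hC1, m1⟩ := d.mom ρ1 hρ1D 2
  obtain ⟨C4, hC4, m4⟩ := d.mom ρ4 hρ4D 2
  obtain ⟨Cχ, hCχ, mχ⟩ := d.mom χ (hχ.mono d.hbD) 1
  obtain ⟨c0, hc0, hpos⟩ := d.pos
  -- masses
  have hmass : ∀ {f : ℝ × ℝ → ℝ}, Sm f → HasCompactSupport f → ∃ C : ℝ, 0 ≤ C ∧ ∀ δ : ℝ, 0 < δ →
      δ ≤ 1 → |mass (Wd δ f 0) - ∫ x, f x| ≤ C * δ := by
    intro f hf cf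
    obtain ⟨R0, F, L, hR0, hR, hF, hL0, hL⟩ := smooth_bounds hf cf
    obtain ⟨C, hC, h⟩ := mass_Wd cf hf.continuous hL0 hL
    exact ⟨C, hC, fun δ h1 h2 => h δ h1 h2 0 (by simp only [Prod.fst_zero, Prod.snd_zero, add_zero, dvd_zero])⟩
  obtain ⟨A1, hA1, ma1⟩ := hmass hρ1.1 hρ1.2.1
  obtain ⟨A4, hA4, ma4⟩ := hmass hρ4.1 hρ4.2.1
  obtain ⟨Aχ, hAχ, maχ⟩ := hmass hχ.1 hχ.2.1
  obtain ⟨AV, hAV, maV⟩ := hmass hV.1 hV.2.1
  have hV0 : ∫ x, -lap ψ x = 0 := by rw [integral_neg, int_lap hψ.1 hψ.2.1, neg_zero]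
  set p : ℝ := ∫ x, ψ x * f0 x with hp
  set q : ℝ := ∫ x, ψ x * (-lap ψ x) with hq
  set α : ℝ := Real.exp (-(κ * (s * t * p)) - κ / 2 * (s ^ 2 * q)) with hα
  have h0 : Tendsto δ atTop (𝓝 0) := hδ.mono_right nhdsWithin_le_nhds
  set ψ' : ℝ × ℝ → ℝ := fun x => s * ψ x with hψ'd
  set f0' : ℝ × ℝ → ℝ := fun x => t * f0 x with hf0'd
  set g' : ℝ × ℝ → ℝ := fun x => t * g x with hg'd
  have hψ' : TestOn b.box ψ' := hψ.smul s
  have hf0' : TestOn b.box f0' := hf0.smul t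
  have cg' : HasCompactSupport g' := hg.2.1.mul_left
  have hg'K : ∀ x, g' x ≠ 0 → x ∈ b.K1 ∨ x ∈ b.K2 ∨ x ∈ b.K3 ∨ x ∈ b.K4 := by
    intro x hx
    refine hgK x fun h => hx ?_
    simp only [hg'd, h, mul_zero]
  have eα : Real.exp (-(κ * ∫ x, ψ' x * f0' x) - (κ / 2) * ∫ x, ψ' x * (-lap ψ' x)) = α := by
    rw [hα]
    have e1 : ∫ x, ψ' x * f0' x = s * t * p := by
      rw [hp, ← integral_const_mul]
      refine integral_congr_ae (Eventually.of_forall fun x => ?_)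
      simp only [hψ'd, hf0'd]
      ring
    have e2 : ∫ x, ψ' x * (-lap ψ' x) = s ^ 2 * q := by
      rw [hq, ← integral_const_mul]
      refine integral_congr_ae (Eventually.of_forall fun x => ?_)
      simp only [hψ'd]
      rw [lap_smul ψ hψ.1]
      ring
    rw [e1, e2]
  have hψχ' : ∀ x, ψ' x * χ x = 0 := fun x => by
    simp only [hψ'd]; rw [mul_assoc, hψχ, mul_zero]
  refine tendsto_of_param (C := (1 + |α|) * (4 * (C1 + C4))) (h0 := 1) one_pos fun η hη hη1 => ?_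
  set L : ℝ := (√η)⁻¹ with hL
  have hsη : 0 < √η := Real.sqrt_pos.2 hη
  have hL1 : 1 ≤ L := by
    rw [hL]
    refine (one_le_inv₀ hsη).2 ?_
    exact Real.sqrt_le_one.2 hη1.le
  have hL2 : (L ^ 2)⁻¹ = η := by
    rw [hL, inv_pow, inv_inv, Real.sq_sqrt hη.le]
  set G1 : ℕ → Hgt → ℂ := fun n h => ((X1 n h * gl (nW (δ n) ρ1 0) L h : ℝ) : ℂ) *
    Complex.exp (Complex.I * ((evK (Wd (δ n) g' 0) (lat (δ n) b.K1) h : ℝ) : ℂ)) with hG1
  set G2 : ℕ → Hgt → ℂ := fun n h => ((X2 n h : ℝ) : ℂ) *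
    Complex.exp (Complex.I * ((evK (Wd (δ n) g' 0) (lat (δ n) b.K2) h : ℝ) : ℂ)) with hG2
  set G3 : ℕ → Hgt → ℂ := fun n h => ((X3 n h : ℝ) : ℂ) *
    Complex.exp (Complex.I * ((evK (Wd (δ n) g' 0) (lat (δ n) b.K3) h : ℝ) : ℂ)) with hG3
  set G4 : ℕ → Hgt → ℂ := fun n h => ((X4 n h * gl (nW (δ n) ρ4 0) L h : ℝ) : ℂ) *
    Complex.exp (Complex.I * ((evK (Wd (δ n) g' 0) (lat (δ n) b.K4) h : ℝ) : ℂ)) with hG4
  have locgl : ∀ {K : Set (ℝ × ℝ)} {ρ : ℝ × ℝ → ℝ} (n : ℕ), TestOn K ρ →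
      Loc (lat (δ n) K) (gl (nW (δ n) ρ 0) L) := by
    intro K ρ n hρ
    have hl : Loc (lat (δ n) K) (ev (Wd (δ n) ρ 0)) :=
      loc_Wd hρ.2.1 (fun x hx => hρ.2.2 (subset_tsupport _ hx)) (hδp n)
    have e : gl (nW (δ n) ρ 0) L = fun h => (fun r : ℝ => Real.exp (-(((mass (Wd (δ n) ρ 0))⁻¹ * r)
        ^ 2 / L ^ 2))) (ev (Wd (δ n) ρ 0) h) := by
      funext h
      unfold gl nW
      rw [ev_smul]
    rw [e]
    exact hl.comp (fun r : ℝ => Real.exp (-(((mass (Wd (δ n) ρ 0))⁻¹ * r) ^ 2 / L ^ 2)))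
  have l1 : ∀ n, Loc (lat (δ n) b.K1) (G1 n) := fun n =>
    ((d.l1 n).comp₂ (locgl n hρ1) (fun x y => ((x * y : ℝ) : ℂ))).comp₂ (loc_evK _ _)
      (fun x y => x * Complex.exp (Complex.I * ((y : ℝ) : ℂ)))
  have l2 : ∀ n, Loc (lat (δ n) b.K2) (G2 n) := fun n =>
    (d.l2 n).comp₂ (loc_evK _ _) (fun x y => (x : ℂ) * Complex.exp (Complex.I * ((y : ℝ) : ℂ)))
  have l3 : ∀ n, Loc (lat (δ n) b.K3) (G3 n) := fun n =>
    (d.l3 n).comp₂ (loc_evK _ _) (fun x y => (x : ℂ) * Complex.exp (Complex.I * ((y : ℝ) : ℂ)))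
  have l4 : ∀ n, Loc (lat (δ n) b.K4) (G4 n) := fun n =>
    ((d.l4 n).comp₂ (locgl n hρ4) (fun x y => ((x * y : ℝ) : ℂ))).comp₂ (loc_evK _ _)
      (fun x y => x * Complex.exp (Complex.I * ((y : ℝ) : ℂ)))
  have b2 : ∀ n h, ‖G2 n h‖ ≤ 1 := fun n h => by
    rw [hG2]
    simp only
    rw [norm_mul, norm_expI, mul_one, Complex.norm_real, Real.norm_eq_abs,
      abs_of_nonneg (d.n2 n h).1]
    exact (d.n2 n h).2
  have b3 : ∀ n h, ‖G3 n h‖ ≤ 1 := fun n h => by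
    rw [hG3]
    simp only
    rw [norm_mul, norm_expI, mul_one, Complex.norm_real, Real.norm_eq_abs,
      abs_of_nonneg (d.n3 n h).1]
    exact (d.n3 n h).2
  have b1 : ∀ n h, ‖G1 n h‖ ≤ gl (nW (δ n) ρ1 0) L h := fun n h => by
    rw [hG1]
    simp only
    have h1 := gl_pos (nW (δ n) ρ1 0) L h
    have h2 := d.n1 n h
    rw [norm_mul, norm_expI, mul_one, Complex.norm_real, Real.norm_eq_abs,
      abs_of_nonneg (mul_nonneg h2.1 h1.le)]
    nlinarith only [h1, h2]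
  have b4 : ∀ n h, ‖G4 n h‖ ≤ gl (nW (δ n) ρ4 0) L h := fun n h => by
    rw [hG4]
    simp only
    have h1 := gl_pos (nW (δ n) ρ4 0) L h
    have h2 := d.n4 n h
    rw [norm_mul, norm_expI, mul_one, Complex.norm_real, Real.norm_eq_abs,
      abs_of_nonneg (mul_nonneg h2.1 h1.le)]
    nlinarith only [h1, h2]
  have hfa := fa_box hPl hG hP hclt hδ b d.hx d.hy d.he hf0' hψ' hχ iχ hψχ' hρ1 iρ1 hρ4 iρ4 hL1
    G1 G2 G3 G4 l1 l2 l3 l4 b2 b3 b1 b4
  rw [eα] at hfa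
  -- the functionals
  set V : ℕ → Hgt → ℝ := fun n h => Lf (δ n) (fun x => f0 x + g x) h with hVd
  set U : ℕ → Hgt → ℝ := fun n h => Lf (δ n) (fun x => -lap ψ x) h with hUd
  set m : ℕ → ℝ := fun n => mass (Wd (δ n) (fun x => -lap ψ x) 0) with hm
  set Φ : ℕ → Hgt → ℝ := fun n h => ev (nW (δ n) χ 0) h with hΦ
  set pp : ℕ → Hgt → ℝ := fun n h => gl (nW (δ n) ρ1 0) L h * gl (nW (δ n) ρ4 0) L h with hpp
  have hprod : ∀ n h, Yf (Wd (δ n) f0' 0) (zW (δ n) (fun x => -lap ψ' x) χ 0) α h *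
      G1 n h * G2 n h * G3 n h * G4 n h =
      (X n h : ℂ) * (((pp n h : ℝ) : ℂ) * (Complex.exp (Complex.I * ((t * V n h : ℝ) : ℂ)) *
        (Complex.exp (Complex.I * ((s * U n h - s * m n * Φ n h : ℝ) : ℂ)) - (α : ℂ)))) := by
    intro n h
    have e1 : ev (Wd (δ n) f0' 0) h + ev (Wd (δ n) g' 0) h = t * V n h := by
      rw [hVd]
      simp only [Lf]
      rw [Wd_add (hδp n) hf0.2.1 hg.2.1, ev_add, Wd_smul (hδp n) hf0.2.1,
        Wd_smul (hδp n) hg.2.1, ev_smul, ev_smul]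
      ring
    have e2 := ev_arms d.hx d.hy d.he cg' hg'K (hδp n) h
    have e3 : ev (zW (δ n) (fun x => -lap ψ' x) χ 0) h = s * U n h - s * m n * Φ n h := by
      have e4 : (fun x => -lap ψ' x) = fun x => s * (-lap ψ x) := by
        funext x
        rw [hψ'd, lap_smul ψ hψ.1]
        ring
      rw [e4]
      unfold zW
      rw [Wd_smul (hδp n) hV.2.1, ev_sub, ev_smul, ev_smul, mass_smul']
      rfl
    rw [e2] at e1
    have e5 : Complex.exp (Complex.I * ((t * V n h : ℝ) : ℂ)) =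
        Complex.exp (Complex.I * ((ev (Wd (δ n) f0' 0) h : ℝ) : ℂ)) *
        Complex.exp (Complex.I * ((evK (Wd (δ n) g' 0) (lat (δ n) b.K1) h : ℝ) : ℂ)) *
        Complex.exp (Complex.I * ((evK (Wd (δ n) g' 0) (lat (δ n) b.K2) h : ℝ) : ℂ)) *
        Complex.exp (Complex.I * ((evK (Wd (δ n) g' 0) (lat (δ n) b.K3) h : ℝ) : ℂ)) *
        Complex.exp (Complex.I * ((evK (Wd (δ n) g' 0) (lat (δ n) b.K4) h : ℝ) : ℂ)) := by
      rw [← Complex.exp_add, ← Complex.exp_add, ← Complex.exp_add, ← Complex.exp_add, ← e1]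
      congr 1
      push_cast
      ring
    rw [e5, d.hX n h]
    simp only [hG1, hG2, hG3, hG4, hpp, Yf]
    rw [e3]
    push_cast
    ring
  simp only [hprod] at hfa
  set An : ℕ → ℂ := fun n => ∫ h, (X n h : ℂ) * (((pp n h : ℝ) : ℂ) *
    (Complex.exp (Complex.I * ((t * V n h : ℝ) : ℂ)) *
        (Complex.exp (Complex.I * ((s * U n h - s * m n * Φ n h : ℝ) : ℂ)) - (α : ℂ))))
    ∂(mu0 P) with hAn
  have hmn : Tendsto m atTop (𝓝 0) := by
    have h1 : Tendsto (fun n => AV * δ n) atTop (𝓝 0) := by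
      have := h0.const_mul AV
      rwa [mul_zero] at this
    refine squeeze_zero_norm' ?_ h1
    filter_upwards [h0.eventually (ge_mem_nhds one_pos)] with n hn
    have := maV (δ n) (hδp n) hn
    rw [hV0, sub_zero] at this
    exact this
  refine ⟨fun n => ‖An n‖ / c0 + |s| * |m n| * (2 * Cχ), ?_, ?_⟩
  · have a1 := (hfa.norm).div_const c0
    have a2 := (hmn.norm.const_mul |s|).mul_const (2 * Cχ)
    rw [norm_zero, zero_div] at a1
    rw [norm_zero, mul_zero, zero_mul] at a2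
    have := a1.add a2
    rw [add_zero] at this
    exact this
  · have hms : ∀ {A : ℝ}, 0 ≤ A → ∀ᶠ n in atTop, A * δ n ≤ 1 / 2 := by
      intro A hA
      have h1 : Tendsto (fun n => A * δ n) atTop (𝓝 0) := by
        have := h0.const_mul A
        rwa [mul_zero] at this
      exact h1.eventually (ge_mem_nhds (by norm_num))
    filter_upwards [h0.eventually (ge_mem_nhds one_pos), hms hA1, hms hA4, hms hAχ, m1, m4, mχ,
      d.int, hpos] with n hn1 q1 q4 qχ w1 w4 wχ hXi hIc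
    have hIpos : 0 < ∫ h, X n h ∂(mu0 P) := lt_of_lt_of_le hc0 hIc
    set In : ℝ := ∫ h, X n h ∂(mu0 P) with hIn
    have v1 := nW_bound iρ1 (ma1 (δ n) (hδp n) hn1) q1
    have v4 := nW_bound iρ4 (ma4 (δ n) (hδp n) hn1) q4
    have vχ := nW_bound iχ (maχ (δ n) (hδp n) hn1) qχ
    have hfin := est (μ := mu0 P) (Y := X n) (U := U n) (V := V n) (Φ := Φ n) (pp := pp n)
      (r1 := Lf (δ n) ρ1) (r4 := Lf (δ n) ρ4) (rχ := Lf (δ n) χ) (s := s) (t := t) (m := m n)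
      (α := α) (η := η) (Cχ := Cχ) (C1 := C1) (C4 := C4) (I0 := In)
      (measurable_Lf _ _) (measurable_Lf _ _) (measurable_ev _)
      ((measurable_gl _ _).mul (measurable_gl _ _)) (d.X_nonneg n) hXi
      (fun h => ⟨mul_nonneg (gl_pos _ _ _).le (gl_pos _ _ _).le,
        mul_le_one₀ (gl_le_one _ _ _) (gl_pos _ _ _).le (gl_le_one _ _ _)⟩) hη.le vχ
      (fun h => pp_bound hL2 hη.le (v1 h) (v4 h)) wχ w1 w4
    rw [norm_div, Complex.norm_real, Real.norm_eq_abs, abs_of_pos hIpos, div_le_iff₀ hIpos]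
    refine hfin.trans ?_
    have h9 : ‖An n‖ ≤ ‖An n‖ / c0 * In := by
      rw [div_mul_eq_mul_div, le_div_iff₀ hc0]
      exact mul_le_mul_of_nonneg_left hIc (norm_nonneg _)
    rw [show (‖An n‖ / c0 + |s| * |m n| * (2 * Cχ) + (1 + |α|) * (4 * (C1 + C4)) * η) * In =
      ‖An n‖ / c0 * In + (|s| * |m n| * (2 * Cχ) + (1 + |α|) * (4 * (C1 + C4)) * η) * In by ring]
    exact add_le_add h9 le_rfl

/-- The normalised measure. -/
noncomputable def MX (P : Measure (Ori (ℤ × ℤ))) (X : Hgt → ℝ) : Measure Hgt :=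
  (mu0 P).withDensity fun h => ENNReal.ofReal (X h / ∫ h, X h ∂(mu0 P))

lemma MX_int {E : Type*} [NormedAddCommGroup E] [NormedSpace ℝ E] {X : Hgt → ℝ}
    (hXm : Measurable X) (hX0 : ∀ h, 0 ≤ X h) (F : Hgt → E) :
    ∫ h, F h ∂(MX P X) = (∫ h, X h ∂(mu0 P))⁻¹ • ∫ h, X h • F h ∂(mu0 P) := by
  have hI : 0 ≤ ∫ h, X h ∂(mu0 P) := integral_nonneg hX0
  have hm : Measurable fun h => ENNReal.ofReal (X h / ∫ h, X h ∂(mu0 P)) :=
    ENNReal.measurable_ofReal.comp (hXm.div_const _)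
  unfold MX
  rw [integral_withDensity_eq_integral_toReal_smul hm
    (Eventually.of_forall fun h => ENNReal.ofReal_lt_top), ← integral_smul]
  refine integral_congr_ae (Eventually.of_forall fun h => ?_)
  simp only
  rw [ENNReal.toReal_ofReal (div_nonneg (hX0 h) hI), smul_smul, div_eq_inv_mul]

lemma MX_integrable {X : Hgt → ℝ} (hXm : Measurable X) (hX0 : ∀ h, 0 ≤ X h) {F : Hgt → ℝ}
    (hF : Integrable (fun h => F h * X h) (mu0 P)) : Integrable F (MX P X) := by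
  have hI : 0 ≤ ∫ h, X h ∂(mu0 P) := integral_nonneg hX0
  have hm : Measurable fun h => ENNReal.ofReal (X h / ∫ h, X h ∂(mu0 P)) :=
    ENNReal.measurable_ofReal.comp (hXm.div_const _)
  unfold MX
  rw [integrable_withDensity_iff_integrable_smul' hm
    (Eventually.of_forall fun h => ENNReal.ofReal_lt_top)]
  refine (hF.const_mul (∫ h, X h ∂(mu0 P))⁻¹).congr (Eventually.of_forall fun h => ?_)
  simp only [smul_eq_mul]
  rw [ENNReal.toReal_ofReal (div_nonneg (hX0 h) hI), div_eq_inv_mul]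
  ring

lemma MX_finite {X : Hgt → ℝ} : IsFiniteMeasure (MX P X) := by
  unfold MX
  by_cases hXi : Integrable X (mu0 P)
  · exact isFiniteMeasure_withDensity_ofReal (hXi.div_const _).2
  · rw [integral_undef hXi]
    simp only [div_zero, ENNReal.ofReal_zero]
    rw [show (fun _ : Hgt => (0 : ENNReal)) = 0 from rfl, withDensity_zero]
    infer_instance

lemma Dat.bm (d : Dat P δ b D X1 X2 X3 X4 X) {f : ℝ × ℝ → ℝ} (hf : TestOn D f) :
    BM (fun n => MX P (X n)) (fun n => Lf (δ n) f) := by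
  refine ⟨fun n => measurable_Lf _ _, fun k => ?_⟩
  obtain ⟨C, hC, hm⟩ := d.mom f hf k
  obtain ⟨c0, hc0, hpos⟩ := d.pos
  refine ⟨C, hC, ?_⟩
  filter_upwards [hm, hpos] with n h1 h2
  have hI : 0 < ∫ h, X n h ∂(mu0 P) := lt_of_lt_of_le hc0 h2
  refine ⟨MX_integrable (d.X_meas n) (d.X_nonneg n) h1.1, ?_⟩
  rw [MX_int (d.X_meas n) (d.X_nonneg n), smul_eq_mul, inv_mul_le_iff₀ hI]
  refine le_trans (le_of_eq ?_) (h1.2.trans (le_of_eq (mul_comm _ _)))
  refine integral_congr_ae (Eventually.of_forall fun h => ?_)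
  simp only [smul_eq_mul]
  ring

/-- **Schwinger-Dyson equations for the moments** under the product `X = X1 X2 X3 X4` of local
functionals in the arms of a pinwheel. -/
theorem use {c : ℝ} (hPl : Pl c P)
    (hG : GRP P dX RX ∧ GRP P dY RY ∧ GRP P dD RD ∧ GRP P dA RA) (hP : FP.Hyp P) {κ : ℝ}
    (hclt : CLT P κ) (hδp : ∀ n, 0 < δ n) (hδ : Tendsto δ atTop (𝓝[>] 0))
    (d : Dat P δ b D X1 X2 X3 X4 X) {ψ f0 g : ℝ × ℝ → ℝ} (hψ : TestOn b.box ψ)
    (hf0 : TestOn b.box f0) (hg : TestOn D g)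
    (hgK : ∀ x, g x ≠ 0 → x ∈ b.K1 ∨ x ∈ b.K2 ∨ x ∈ b.K3 ∨ x ∈ b.K4) (k : ℕ) :
    Tendsto (fun n => (∫ h, Lf (δ n) (lap ψ) h * Lf (δ n) (fun x => f0 x + g x) h ^ (k + 1) *
        X n h ∂(mu0 P)) / (∫ h, X n h ∂(mu0 P)) +
      κ * (k + 1) * (∫ x, ψ x * f0 x) *
        ((∫ h, Lf (δ n) (fun x => f0 x + g x) h ^ k * X n h ∂(mu0 P)) /
          ∫ h, X n h ∂(mu0 P))) atTop (𝓝 0) := by
  have hf : TestOn D (fun x => f0 x + g x) := (hf0.mono d.hbD).add hg
  have hV : TestOn D (fun x => -lap ψ x) := (hψ.lap.neg).mono d.hbD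
  have hfin : ∀ n, IsFiniteMeasure (MX P (X n)) := fun n => MX_finite
  have h1 := moments (M := fun n => MX P (X n)) (U := fun n => Lf (δ n) (fun x => -lap ψ x))
    (V := fun n => Lf (δ n) (fun x => f0 x + g x)) (κ := κ) (p := ∫ x, ψ x * f0 x)
    (q := ∫ x, ψ x * (-lap ψ x)) (d.bm hV) (d.bm hf) (fun s t => ?_) (k + 1)
  · have h2 := h1.neg
    rw [neg_zero] at h2
    refine h2.congr fun n => ?_
    have e1 : ∀ h, Lf (δ n) (fun x => -lap ψ x) h = - Lf (δ n) (lap ψ) h := by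
      intro h
      have e2 : (fun x => -lap ψ x) = fun x => (-1) * lap ψ x := by funext x; ring
      unfold Lf
      rw [e2, Wd_smul (hδp n) hψ.lap.cs, ev_smul]
      ring
    rw [MX_int (d.X_meas n) (d.X_nonneg n), MX_int (d.X_meas n) (d.X_nonneg n), smul_eq_mul,
      smul_eq_mul, Nat.add_sub_cancel]
    have e3 : ∫ h, X n h • (Lf (δ n) (fun x => -lap ψ x) h *
        Lf (δ n) (fun x => f0 x + g x) h ^ (k + 1)) ∂(mu0 P) =
        - ∫ h, Lf (δ n) (lap ψ) h * Lf (δ n) (fun x => f0 x + g x) h ^ (k + 1) *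
        X n h ∂(mu0 P) := by
      rw [← integral_neg]
      refine integral_congr_ae (Eventually.of_forall fun h => ?_)
      simp only [smul_eq_mul]
      rw [e1]
      ring
    have e4 : ∫ h, X n h • Lf (δ n) (fun x => f0 x + g x) h ^ k ∂(mu0 P) =
        ∫ h, Lf (δ n) (fun x => f0 x + g x) h ^ k * X n h ∂(mu0 P) := by
      refine integral_congr_ae (Eventually.of_forall fun h => ?_)
      simp only [smul_eq_mul]
      ring
    rw [e3, e4]
    push_cast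
    ring
  · have h3 := char_lim hPl hG hP hclt hδp hδ d hψ hf0 hg hgK s t
    refine h3.congr fun n => ?_
    rw [MX_int (d.X_meas n) (d.X_nonneg n)]
    rw [← Complex.coe_smul, smul_eq_mul, div_eq_inv_mul]
    push_cast
    simp only [Complex.real_smul]

end Vale.Agent.P145.FA.Use
end

section

/-!
P145, block F-A: the Schwinger-Dyson equations for the moments, hypotheses for large `n` only and
even moments only.
-/

namespace Vale.Agent.P145.FA.Use

open Finset Filter Topology MeasureTheory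
open Vale.Agent.P152
open Vale.Agent.P145.PT (Sm TestOn lap)

/-- Hypotheses on the four factors and on the even moments, for large `n`. -/
structure DatE (P : Measure (Ori (ℤ × ℤ))) (δ : ℕ → ℝ) (b : PW) (D : Set (ℝ × ℝ))
    (X1 X2 X3 X4 X : ℕ → Hgt → ℝ) : Prop where
  hx : b.x1 < b.x2
  hy : b.y1 < b.y2
  he : 0 < b.e
  hbD : b.box ⊆ D
  l1 : ∀ᶠ n in atTop, Loc (lat (δ n) b.K1) (X1 n)
  l2 : ∀ᶠ n in atTop, Loc (lat (δ n) b.K2) (X2 n)
  l3 : ∀ᶠ n in atTop, Loc (lat (δ n) b.K3) (X3 n)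
  l4 : ∀ᶠ n in atTop, Loc (lat (δ n) b.K4) (X4 n)
  n1 : ∀ᶠ n in atTop, ∀ h, 0 ≤ X1 n h ∧ X1 n h ≤ 1
  n2 : ∀ᶠ n in atTop, ∀ h, 0 ≤ X2 n h ∧ X2 n h ≤ 1
  n3 : ∀ᶠ n in atTop, ∀ h, 0 ≤ X3 n h ∧ X3 n h ≤ 1
  n4 : ∀ᶠ n in atTop, ∀ h, 0 ≤ X4 n h ∧ X4 n h ≤ 1
  hX : ∀ᶠ n in atTop, ∀ h, X n h = X1 n h * X2 n h * X3 n h * X4 n h
  int : ∀ᶠ n in atTop, Integrable (X n) (mu0 P)
  pos : ∃ c0 : ℝ, 0 < c0 ∧ ∀ᶠ n in atTop, c0 ≤ ∫ h, X n h ∂(mu0 P)
  mom : ∀ f, TestOn D f → ∀ k : ℕ, ∃ C : ℝ, ∀ᶠ n in atTop,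
    Integrable (fun h => Lf (δ n) f h ^ (2 * k) * X n h) (mu0 P) ∧
    ∫ h, Lf (δ n) f h ^ (2 * k) * X n h ∂(mu0 P) ≤ C * ∫ h, X n h ∂(mu0 P)
  r1 : ∃ ρ : ℝ × ℝ → ℝ, TestOn (b.K1 ∩ D) ρ ∧ ∫ x, ρ x = 1
  r4 : ∃ ρ : ℝ × ℝ → ℝ, TestOn (b.K4 ∩ D) ρ ∧ ∫ x, ρ x = 1

variable {P : Measure (Ori (ℤ × ℤ))} {δ : ℕ → ℝ} {b : PW} {D : Set (ℝ × ℝ)}
  {X1 X2 X3 X4 X : ℕ → Hgt → ℝ}

lemma psi_g {ψ g : ℝ × ℝ → ℝ} (he : 0 < b.e) (hψ : TestOn b.box ψ)
    (hgK : ∀ x, g x ≠ 0 → x ∈ b.K1 ∨ x ∈ b.K2 ∨ x ∈ b.K3 ∨ x ∈ b.K4) (x : ℝ × ℝ) :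
    ψ x * g x = 0 := by
  by_cases h1 : ψ x = 0
  · rw [h1, zero_mul]
  by_cases h2 : g x = 0
  · rw [h2, mul_zero]
  exfalso
  obtain ⟨a1, a2, a3, a4⟩ := not_box hψ h1
  rcases hgK x h2 with h | h | h | h
  · have := h.1; linarith only [he, a1, this]
  · have := h.1; linarith
  · have := h.1; linarith only [he, a2, this]
  · have := h.1; linarith

theorem useE {c : ℝ} (hPl : Pl c P)
    (hG : GRP P dX RX ∧ GRP P dY RY ∧ GRP P dD RD ∧ GRP P dA RA) (hP : FP.Hyp P) {κ : ℝ}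
    (hclt : CLT P κ) (hδp : ∀ n, 0 < δ n) (hδ : Tendsto δ atTop (𝓝[>] 0))
    (d : DatE P δ b D X1 X2 X3 X4 X) {ψ f0 g : ℝ × ℝ → ℝ} (hψ : TestOn b.box ψ)
    (hf0 : TestOn b.box f0) (hg : TestOn D g)
    (hgK : ∀ x, g x ≠ 0 → x ∈ b.K1 ∨ x ∈ b.K2 ∨ x ∈ b.K3 ∨ x ∈ b.K4) (k : ℕ) :
    Tendsto (fun n => (∫ h, Lf (δ n) (lap ψ) h * Lf (δ n) (fun x => f0 x + g x) h ^ (k + 1) *
        X n h ∂(mu0 P) +
      κ * (k + 1) * (∫ x, ψ x * (f0 x + g x)) *
        ∫ h, Lf (δ n) (fun x => f0 x + g x) h ^ k * X n h ∂(mu0 P)) /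
          ∫ h, X n h ∂(mu0 P)) atTop (𝓝 0) := by
  classical
  obtain ⟨N, hN⟩ := eventually_atTop.1 (d.l1.and (d.l2.and (d.l3.and (d.l4.and (d.n1.and
    (d.n2.and (d.n3.and (d.n4.and d.hX))))))))
  set Y1 : ℕ → Hgt → ℝ := fun n => if N ≤ n then X1 n else fun _ => 0 with hY1
  set Y2 : ℕ → Hgt → ℝ := fun n => if N ≤ n then X2 n else fun _ => 0 with hY2
  set Y3 : ℕ → Hgt → ℝ := fun n => if N ≤ n then X3 n else fun _ => 0 with hY3
  set Y4 : ℕ → Hgt → ℝ := fun n => if N ≤ n then X4 n else fun _ => 0 with hY4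
  set Y : ℕ → Hgt → ℝ := fun n => if N ≤ n then X n else fun _ => 0 with hY
  have hc : ∀ A : Set (ℤ × ℤ), Loc A (fun _ : Hgt => (0 : ℝ)) := fun A =>
    ⟨∅, fun q hq => absurd hq (Finset.notMem_empty q), fun _ _ _ => rfl⟩
  have hYX : ∀ᶠ n in atTop, Y n = X n := by
    filter_upwards [eventually_ge_atTop N] with n hn
    simp only [hY, if_pos hn]
  have dd : Dat P δ b D Y1 Y2 Y3 Y4 Y := by
    refine ⟨d.hx, d.hy, d.he, d.hbD, ?_, ?_, ?_, ?_, ?_, ?_, ?_, ?_, ?_, ?_, ?_, ?_, ?_, ?_⟩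
    · intro n
      by_cases hn : N ≤ n
      · simp only [hY1, if_pos hn]; exact (hN n hn).1
      · simp only [hY1, if_neg hn]; exact hc _
    · intro n
      by_cases hn : N ≤ n
      · simp only [hY2, if_pos hn]; exact (hN n hn).2.1
      · simp only [hY2, if_neg hn]; exact hc _
    · intro n
      by_cases hn : N ≤ n
      · simp only [hY3, if_pos hn]; exact (hN n hn).2.2.1
      · simp only [hY3, if_neg hn]; exact hc _
    · intro n
      by_cases hn : N ≤ n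
      · simp only [hY4, if_pos hn]; exact (hN n hn).2.2.2.1
      · simp only [hY4, if_neg hn]; exact hc _
    · intro n h
      by_cases hn : N ≤ n
      · simp only [hY1, if_pos hn]; exact (hN n hn).2.2.2.2.1 h
      · simp only [hY1, if_neg hn]; norm_num
    · intro n h
      by_cases hn : N ≤ n
      · simp only [hY2, if_pos hn]; exact (hN n hn).2.2.2.2.2.1 h
      · simp only [hY2, if_neg hn]; norm_num
    · intro n h
      by_cases hn : N ≤ n
      · simp only [hY3, if_pos hn]; exact (hN n hn).2.2.2.2.2.2.1 h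
      · simp only [hY3, if_neg hn]; norm_num
    · intro n h
      by_cases hn : N ≤ n
      · simp only [hY4, if_pos hn]; exact (hN n hn).2.2.2.2.2.2.2.1 h
      · simp only [hY4, if_neg hn]; norm_num
    · intro n h
      by_cases hn : N ≤ n
      · simp only [hY, hY1, hY2, hY3, hY4, if_pos hn]; exact (hN n hn).2.2.2.2.2.2.2.2 h
      · simp only [hY, hY1, hY2, hY3, hY4, if_neg hn]; norm_num
    · filter_upwards [d.int, hYX] with n h1 h2
      rw [h2]; exact h1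
    · obtain ⟨c0, hc0, h⟩ := d.pos
      refine ⟨c0, hc0, ?_⟩
      filter_upwards [h, hYX] with n h1 h2
      rw [h2]; exact h1
    · intro f hf k
      obtain ⟨C, hC⟩ := d.mom f hf k
      obtain ⟨c0, hc0, hpos⟩ := d.pos
      refine ⟨1 + |C|, by (clear * -; positivity), ?_⟩
      filter_upwards [hC, hpos, hYX, d.int, eventually_ge_atTop N] with n h1 h2 h3 h4 h5
      rw [h3]
      have hI : 0 < ∫ h, X n h ∂(mu0 P) := lt_of_lt_of_le hc0 h2
      have hX0 : ∀ h, 0 ≤ X n h := by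
        intro h
        obtain ⟨-, -, -, -, e1, e2, e3, e4, e5⟩ := hN n h5
        rw [e5 h]
        exact mul_nonneg (mul_nonneg (mul_nonneg (e1 h).1 (e2 h).1) (e3 h).1) (e4 h).1
      have key : ∀ h, |Lf (δ n) f h| ^ k * X n h ≤ X n h + Lf (δ n) f h ^ (2 * k) * X n h := by
        intro h
        have e1 : Lf (δ n) f h ^ (2 * k) = (|Lf (δ n) f h| ^ k) ^ 2 := by
          rw [← pow_mul, mul_comm k 2, pow_mul |Lf (δ n) f h|, sq_abs, ← pow_mul]
        rw [e1]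
        have e2 : |Lf (δ n) f h| ^ k ≤ 1 + (|Lf (δ n) f h| ^ k) ^ 2 := by
          nlinarith only []
        nlinarith only [e2, hX0 h]
      have hi2 : Integrable (fun h => X n h + Lf (δ n) f h ^ (2 * k) * X n h) (mu0 P) :=
        h4.add h1.1
      have hi : Integrable (fun h => |Lf (δ n) f h| ^ k * X n h) (mu0 P) := by
        refine hi2.mono' ?_ (Eventually.of_forall fun h => ?_)
        · have m1 : Measurable (fun h => |Lf (δ n) f h| ^ k) := by
            have := measurable_Lf (δ n) f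
            fun_prop
          exact m1.aestronglyMeasurable.mul h4.1
        · rw [Real.norm_eq_abs, abs_of_nonneg (mul_nonneg (by (clear * -; positivity)) (hX0 h))]
          exact key h
      refine ⟨hi, (integral_mono hi hi2 key).trans ?_⟩
      rw [integral_add h4 h1.1, add_mul, one_mul]
      refine add_le_add le_rfl (h1.2.trans ?_)
      exact mul_le_mul_of_nonneg_right (le_abs_self C) hI.le
    · obtain ⟨ρ, h1, h2⟩ := d.r1
      exact ⟨ρ, h1.mono Set.inter_subset_left, h1.mono Set.inter_subset_right, h2⟩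
    · obtain ⟨ρ, h1, h2⟩ := d.r4
      exact ⟨ρ, h1.mono Set.inter_subset_left, h1.mono Set.inter_subset_right, h2⟩
  have h1 := use hPl hG hP hclt hδp hδ dd hψ hf0 hg hgK k
  refine h1.congr' ?_
  filter_upwards [hYX] with n hn
  rw [hn]
  have e1 : ∫ x, ψ x * (f0 x + g x) = ∫ x, ψ x * f0 x := by
    refine integral_congr_ae (Eventually.of_forall fun x => ?_)
    simp only
    rw [mul_add, psi_g d.he hψ hgK, add_zero]
  rw [e1, add_div]
  ring

end Vale.Agent.P145.FA.Use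
end

section

/-!
P145, block F-X: the indicator of a family of circuits in the four regions of a pinwheel is, after
averaging over the marks, a product of four local functionals of the heights.
-/

namespace Vale.Agent.P145.X

open Filter Topology Set MeasureTheory
open Vale.Agent.P152 (Ori)
open Vale.Agent.P145.FA (Hgt)
open Vale.Agent.P145.FB (Pt Mk e1 e2 o1 o2 MU bl mkm om)
open Vale.Agent.P145.FA.Use (PW lat)

/-- The four regions with the radius `R`. -/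
def sdK (x₁ x₂ y₁ y₂ e R : ℝ) (i : Fin 4) : Set (ℝ × ℝ) :=
  {z | z ∈ Kq x₁ x₂ y₁ y₂ e i ∧ |z.1| ≤ R ∧ |z.2| ≤ R}

/-- The edges all faces of which are in the region. -/
def sdE (δ : ℝ) (K : Set (ℝ × ℝ)) : Set Pt :=
  {w | ∀ q, (q = e1 w ∨ q = e2 w ∨ q = o1 w ∨ q = o2 w) → (δ * (q.1 : ℝ), δ * (q.2 : ℝ)) ∈ K}

theorem sdK_disj {x₁ x₂ y₁ y₂ e R : ℝ} (hx : x₁ < x₂) (hy : y₁ < y₂) (he : 0 < e) {i j : Fin 4}
    (hij : i ≠ j) (z : ℝ × ℝ) (hi : z ∈ sdK x₁ x₂ y₁ y₂ e R i) : z ∉ sdK x₁ x₂ y₁ y₂ e R j := by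
  intro hj
  have h1 := hi.1
  have h2 := hj.1
  simp only [Kq, Set.mem_setOf_eq] at h1 h2
  rcases h1 with ⟨a, b⟩ | ⟨a, b, c⟩ | ⟨a, b, c⟩ | ⟨a, b, c, d⟩ <;>
    rcases h2 with ⟨a', b'⟩ | ⟨a', b', c'⟩ | ⟨a', b', c'⟩ | ⟨a', b', c', d'⟩ <;>
    first
      | (exact hij (a.trans a'.symm))
      | linarith

theorem sdE_disj {δ x₁ x₂ y₁ y₂ e R : ℝ} (hx : x₁ < x₂) (hy : y₁ < y₂) (he : 0 < e) {i j : Fin 4}
    (hij : i ≠ j) : Disjoint (sdE δ (sdK x₁ x₂ y₁ y₂ e R i)) (sdE δ (sdK x₁ x₂ y₁ y₂ e R j)) := by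
  rw [Set.disjoint_left]
  intro w hw hw'
  exact sdK_disj hx hy he hij _ (hw (e1 w) (Or.inl rfl)) (hw' (e1 w) (Or.inl rfl))

/-- The events of the circuits of `T`. -/
def AllZ (T : Finset ((ℤ × ℤ) × ℤ)) (B : Set Pt) : Prop := ∀ s ∈ T, Zr s.1 s.2 B

theorem locS_allZ (hL : S_loc) {A : Set Pt} (T : Finset ((ℤ × ℤ) × ℤ))
    (hT : ∀ s ∈ T, 1 ≤ s.2 ∧ tE (bx s.1 (2 * s.2)) ⊆ A) : LocS A (ind (AllZ T)) := by
  classical
  have h1 : ∀ s ∈ T, ∃ Λ : Finset Pt, (∀ w ∈ Λ, w ∈ A) ∧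
      ∀ B B' : Set Pt, (∀ w ∈ Λ, w ∈ B ↔ w ∈ B') → (Zr s.1 s.2 B ↔ Zr s.1 s.2 B') := by
    intro s hs
    obtain ⟨Λ, h2, h3⟩ := (hL s.1 s.2 (hT s hs).1).2.loc
    refine ⟨Λ, fun w hw => (hT s hs).2 (h2 w hw).1, fun B B' hB => ?_⟩
    have h4 := h3 B B' hB
    unfold ind at h4
    by_cases p : Zr s.1 s.2 B <;> by_cases p' : Zr s.1 s.2 B' <;> simp_all
  choose! Λ h2 h3 using h1
  refine ⟨T.biUnion Λ, fun w hw => ?_, fun B B' hB => ?_⟩
  · obtain ⟨s, hs, hw⟩ := Finset.mem_biUnion.1 hw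
    exact h2 s hs w hw
  · have h4 : AllZ T B ↔ AllZ T B' := by
      refine forall₂_congr fun s hs => h3 s hs B B' fun w hw => hB w ?_
      exact Finset.mem_biUnion.2 ⟨s, hs, hw⟩
    unfold ind
    simp only [h4]

theorem sd_ind_nonneg (Q : Set Pt → Prop) (B : Set Pt) : 0 ≤ ind Q B := by
  unfold ind; split_ifs <;> norm_num

theorem sd_ind_le_one (Q : Set Pt → Prop) (B : Set Pt) : ind Q B ≤ 1 := by
  unfold ind; split_ifs <;> norm_num

theorem LocS.mono' {A A' : Set Pt} {g : Set Pt → ℝ} (h : LocS A g) (hA : A ⊆ A') : LocS A' g := by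
  obtain ⟨Λ, h1, h2⟩ := h
  exact ⟨Λ, fun w hw => hA (h1 w hw), h2⟩

theorem LocS.mul' {A A' : Set Pt} {g g' : Set Pt → ℝ} (h : LocS A g) (h' : LocS A' g') :
    LocS (A ∪ A') (fun B => g B * g' B) := by
  classical
  obtain ⟨Λ, h1, h2⟩ := h
  obtain ⟨Λ', h1', h2'⟩ := h'
  refine ⟨Λ ∪ Λ', fun w hw => ?_, fun B B' hB => ?_⟩
  · rcases Finset.mem_union.1 hw with hw | hw
    · exact Or.inl (h1 w hw)
    · exact Or.inr (h1' w hw)
  · simp only
    rw [h2 B B' fun w hw => hB w (Finset.mem_union_left _ hw),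
      h2' B B' fun w hw => hB w (Finset.mem_union_right _ hw)]

theorem loc_mono {R : Type} {A A' : Set (ℤ × ℤ)} {F : Hgt → R} (h : FA.Loc A F) (hA : A ⊆ A') :
    FA.Loc A' F := by
  obtain ⟨Λ, h1, h2⟩ := h
  exact ⟨Λ, fun w hw => hA (h1 w hw), h2⟩

/-- **Product decomposition.** -/
theorem exists_prod {t : ℝ} {P : Measure (Ori (ℤ × ℤ))} (hA : S_avg t P) (hL : S_loc)
    {x₁ x₂ y₁ y₂ e δ R : ℝ} (hx : x₁ < x₂) (hy : y₁ < y₂) (he : 0 < e)
    (T : Finset ((ℤ × ℤ) × ℤ)) (hne : T.Nonempty)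
    (hT : ∀ s ∈ T, 1 ≤ s.2 ∧ (∃ i, Fin6 δ (tE (bx s.1 (2 * s.2))) (Kq x₁ x₂ y₁ y₂ e i)) ∧
      Fin6 δ (tE (bx s.1 (2 * s.2))) {z | |z.1| ≤ R ∧ |z.2| ≤ R}) :
    ∃ X1 X2 X3 X4 : Hgt → ℝ,
      (FA.Loc (lat δ (PW.K1 ⟨x₁, x₂, y₁, y₂, e, R⟩)) X1 ∧
        FA.Loc (lat δ (PW.K2 ⟨x₁, x₂, y₁, y₂, e, R⟩)) X2 ∧
        FA.Loc (lat δ (PW.K3 ⟨x₁, x₂, y₁, y₂, e, R⟩)) X3 ∧
        FA.Loc (lat δ (PW.K4 ⟨x₁, x₂, y₁, y₂, e, R⟩)) X4) ∧
      ((∀ h, 0 ≤ X1 h ∧ X1 h ≤ 1) ∧ (∀ h, 0 ≤ X2 h ∧ X2 h ≤ 1) ∧ (∀ h, 0 ≤ X3 h ∧ X3 h ≤ 1) ∧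
        ∀ h, 0 ≤ X4 h ∧ X4 h ≤ 1) ∧
      ∀ F : Hgt → ℂ, FA.Loc univ F →
        ∫ h, ((X1 h * X2 h * X3 h * X4 h : ℝ) : ℂ) * F h ∂(FA.mu0 P) =
          ∫ x, ((ind (AllZ T) (bl x) : ℝ) : ℂ) * F x.1 ∂(MU t P) := by
  classical
  have hi : ∀ s ∈ T, ∃ i, Fin6 δ (tE (bx s.1 (2 * s.2))) (Kq x₁ x₂ y₁ y₂ e i) :=
    fun s hs => (hT s hs).2.1
  choose! i hi using hi
  let Tj : Fin 4 → Finset ((ℤ × ℤ) × ℤ) := fun j => T.filter fun s => i s = j
  let Aj : Fin 4 → Set Pt := fun j => sdE δ (sdK x₁ x₂ y₁ y₂ e R j)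
  have hloc : ∀ j, LocS (Aj j) (ind (AllZ (Tj j))) := by
    intro j
    refine locS_allZ hL _ fun s hs => ?_
    obtain ⟨hs1, hs2⟩ := Finset.mem_filter.1 hs
    refine ⟨(hT s hs1).1, fun w hw q hq => ⟨?_, ?_⟩⟩
    · have := hi s hs1 w hw q hq
      rwa [hs2] at this
    · exact (hT s hs1).2.2 w hw q hq
  have hdis : ∀ {a b : Fin 4}, a ≠ b → Disjoint (Aj a) (Aj b) := fun h => sdE_disj hx hy he h
  have hprod : ∀ B, ind (AllZ T) B = ind (AllZ (Tj 0)) B * (ind (AllZ (Tj 1)) B *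
      (ind (AllZ (Tj 2)) B * ind (AllZ (Tj 3)) B)) := by
    intro B
    have key : AllZ T B ↔ (AllZ (Tj 0) B ∧ AllZ (Tj 1) B ∧ AllZ (Tj 2) B ∧ AllZ (Tj 3) B) := by
      constructor
      · intro h
        exact ⟨fun s hs => h s (Finset.mem_filter.1 hs).1, fun s hs => h s (Finset.mem_filter.1 hs).1,
          fun s hs => h s (Finset.mem_filter.1 hs).1, fun s hs => h s (Finset.mem_filter.1 hs).1⟩
      · rintro ⟨h0, h1, h2, h3⟩ s hs
        have hj : ∀ j, i s = j → s ∈ Tj j := fun j hj => Finset.mem_filter.2 ⟨hs, hj⟩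
        have hcase : i s = 0 ∨ i s = 1 ∨ i s = 2 ∨ i s = 3 := by
          generalize i s = k
          fin_cases k <;> simp
        rcases hcase with h | h | h | h
        · exact h0 s (hj _ h)
        · exact h1 s (hj _ h)
        · exact h2 s (hj _ h)
        · exact h3 s (hj _ h)
    unfold ind
    by_cases h0 : AllZ (Tj 0) B <;> by_cases h1 : AllZ (Tj 1) B <;>
      by_cases h2 : AllZ (Tj 2) B <;> by_cases h3 : AllZ (Tj 3) B <;>
      simp [key, h0, h1, h2, h3]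
  have l23 := (hloc 2).mul' (hloc 3)
  have l123 := (hloc 1).mul' l23
  have havg : ∀ h, avg t (ind (AllZ T)) h = avg t (ind (AllZ (Tj 0))) h *
      avg t (ind (AllZ (Tj 1))) h * avg t (ind (AllZ (Tj 2))) h * avg t (ind (AllZ (Tj 3))) h := by
    intro h
    have e0 : (ind (AllZ T)) = fun B => ind (AllZ (Tj 0)) B * (ind (AllZ (Tj 1)) B *
      (ind (AllZ (Tj 2)) B * ind (AllZ (Tj 3)) B)) := funext hprod
    have d0 : Disjoint (Aj 0) (Aj 1 ∪ (Aj 2 ∪ Aj 3)) :=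
      (hdis (by decide)).union_right ((hdis (by decide)).union_right (hdis (by decide)))
    have d1 : Disjoint (Aj 1) (Aj 2 ∪ Aj 3) :=
      (hdis (by decide)).union_right (hdis (by decide))
    rw [e0, hA.mul _ _ _ _ (hloc 0) l123 d0 h, hA.mul _ _ _ _ (hloc 1) l23 d1 h,
      hA.mul _ _ _ _ (hloc 2) (hloc 3) (hdis (by decide)) h]
    ring
  have hav01 : ∀ j h, 0 ≤ avg t (ind (AllZ (Tj j))) h ∧ avg t (ind (AllZ (Tj j))) h ≤ 1 :=
    fun j h => ⟨hA.nonneg _ (sd_ind_nonneg _) h,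
      hA.le_one _ ((hloc j).mono' (subset_univ _)) (sd_ind_le_one _) h⟩
  have hFl : ∀ j (K : Set (ℝ × ℝ)), (∀ z, z ∈ sdK x₁ x₂ y₁ y₂ e R j → z ∈ K) →
      FA.Loc (lat δ K) (avg t (ind (AllZ (Tj j)))) := by
    intro j K hK
    refine loc_mono (hA.loc _ _ (hloc j)) ?_
    rintro q ⟨w, hw, hq⟩
    exact hK _ (hw q hq)
  refine ⟨avg t (ind (AllZ (Tj 0))), avg t (ind (AllZ (Tj 1))), avg t (ind (AllZ (Tj 2))),
    avg t (ind (AllZ (Tj 3))), ⟨hFl 0 _ ?_, hFl 1 _ ?_, hFl 2 _ ?_, hFl 3 _ ?_⟩,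
    ⟨hav01 0, hav01 1, hav01 2, hav01 3⟩, fun F hF => ?_⟩
  · rintro z ⟨h1, h2, h3⟩
    simp only [Kq, Set.mem_setOf_eq] at h1
    rcases h1 with ⟨-, b⟩ | ⟨a, -⟩ | ⟨a, -⟩ | ⟨a, -⟩
    · exact ⟨b, h2, h3⟩
    all_goals exact absurd a (by decide)
  · rintro z ⟨h1, h2, h3⟩
    simp only [Kq, Set.mem_setOf_eq] at h1
    rcases h1 with ⟨a, -⟩ | ⟨-, b, c⟩ | ⟨a, -⟩ | ⟨a, -⟩
    · exact absurd a (by decide)
    · exact ⟨b, c, h2, h3⟩
    all_goals exact absurd a (by decide)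
  · rintro z ⟨h1, h2, h3⟩
    simp only [Kq, Set.mem_setOf_eq] at h1
    rcases h1 with ⟨a, -⟩ | ⟨a, -⟩ | ⟨-, b, c⟩ | ⟨a, -⟩
    · exact absurd a (by decide)
    · exact absurd a (by decide)
    · exact ⟨b, c, h2, h3⟩
    · exact absurd a (by decide)
  · rintro z ⟨h1, h2, h3⟩
    simp only [Kq, Set.mem_setOf_eq] at h1
    rcases h1 with ⟨a, -⟩ | ⟨a, -⟩ | ⟨a, -⟩ | ⟨-, b, c, d⟩
    · exact absurd a (by decide)
    · exact absurd a (by decide)
    · exact absurd a (by decide)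
    · exact ⟨b, c, d, h2, h3⟩
  · have hT' : LocS univ (ind (AllZ T)) :=
      locS_allZ hL T fun s hs => ⟨(hT s hs).1, subset_univ _⟩
    have h0 : ind (AllZ T) ∅ = 0 := by
      obtain ⟨s, hs⟩ := hne
      have h1 := (hL s.1 s.2 (hT s hs).1).2.pin
      unfold ind at h1 ⊢
      have h2 : ¬ Zr s.1 s.2 ∅ := by
        intro h3
        rw [if_pos h3] at h1
        norm_num at h1
      rw [if_neg fun h3 => h2 (h3 s hs)]
    rw [← hA.int _ F hT' h0 hF]
    refine integral_congr_ae (Eventually.of_forall fun h => ?_)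
    simp only
    rw [havg h]

end Vale.Agent.P145.X
end

section

/-!
P145, block F-B: moments of neutral combinations of the smoothed heights of the vertices of the
square lattice: transport of a test function to an outer function (scale invariant bound), and
arbitrary pairs of test functions.
-/

namespace Vale.Agent.P145.FB.Mom

open Finset Filter Topology MeasureTheory
open Vale.Agent.P152 (Edge Ori Ice sgb pth pth_isHeight pth_integrable sqp)
open Vale.Agent.P152.GFF.S (hcell hbox hint hint_cells cell_zero ar idx_mem ar_abs ar_measurable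
  bound_of_compact conv_hv deriv_conv interval_full smooth_param hv_loc)
open Vale.Agent.P145.FP
open Vale.Agent.P145.FB.AC (b b_smooth b_cont b_nonneg b_compact b_int b_supp)

/-! ### Derivatives in the second variable -/

theorem moment_dy {P : Measure (Ori (ℤ × ℤ))} [IsProbabilityMeasure P] {C γ : ℝ} (hC : 0 ≤ C)
    (hγ : 0 < γ) (hE : EGD P C γ) (hice : ∀ᵐ ω ∂P, ∀ x y, Ice ω x y) (hS : SymM P)
    {Φ F : ℝ × ℝ → ℝ}
    (hΦ : ContDiff ℝ ((⊤ : ℕ∞) : WithTop ℕ∞) Φ) (hs : HasCompactSupport Φ) (hFc : Continuous F)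
    (hF : ∀ t y, HasDerivAt (fun y => Φ (t, y)) (F (t, y)) y) (k : ℕ) {ε : ℝ} (hε : 0 < ε) :
    ∀ᶠ δ : ℝ in 𝓝[>] 0, Integrable (fun ω => hint (pth ω) δ F ^ (2 * k)) P ∧
      ∫ ω, hint (pth ω) δ F ^ (2 * k) ∂P ≤ DD C k * ((∫ x, Φ x ^ 2) + ε) ^ k := by
  have h := moment hC hγ hE hice (Ψ := fun x => Φ x.swap) (F := fun x => F x.swap)
    (hΦ.comp (contDiff_snd.prodMk contDiff_fst))
    (hs.comp_homeomorph (Homeomorph.prodComm ℝ ℝ)) (hFc.comp continuous_swap)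
    (fun t y => hF y t) k hε
  have e2 : ∫ x : ℝ × ℝ, Φ x.swap ^ 2 = ∫ x : ℝ × ℝ, Φ x ^ 2 := by
    rw [Measure.volume_eq_prod]
    exact integral_prod_swap (fun x => Φ x ^ 2)
  rw [e2] at h
  filter_upwards [h, self_mem_nhdsWithin] with δ h1 hδ
  have key : (fun ω => hint (pth (ryA ω)) δ (fun x => F x.swap) ^ (2 * k)) =ᵐ[P]
      fun ω => hint (pth ω) δ F ^ (2 * k) := by
    filter_upwards [hice] with ω hω
    congr 1
    unfold hint P152.GFF.S.hd
    rw [Measure.volume_eq_prod]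
    rw [← integral_prod_swap (fun x : ℝ × ℝ => (pth ω (⌊x.1 / δ⌋, ⌊x.2 / δ⌋) : ℝ) * F x)]
    refine integral_congr_ae (Eventually.of_forall fun x => ?_)
    show (pth (ryA ω) (⌊x.1 / δ⌋, ⌊x.2 / δ⌋) : ℝ) * F x.swap =
      (pth ω (⌊x.2 / δ⌋, ⌊x.1 / δ⌋) : ℝ) * F x.swap
    rw [pth_ry hω]
  have hm : AEStronglyMeasurable (fun ω => hint (pth ω) δ (fun x => F x.swap) ^ (2 * k))
      (P.map ryA) := by
    rw [map_ry hS]
    exact h1.1.aestronglyMeasurable
  have hI : Integrable (fun ω => hint (pth ω) δ (fun x => F x.swap) ^ (2 * k)) (P.map ryA) := by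
    rw [map_ry hS]
    exact h1.1
  refine ⟨?_, ?_⟩
  · refine Integrable.congr ?_ key
    exact hI.comp_measurable ryA_meas
  · rw [← integral_congr_ae key]
    have h3 := integral_map ryA_meas.aemeasurable hm
    rw [map_ry hS] at h3
    rw [← h3]
    exact h1.2

/-! ### Primitives -/

lemma marg_smooth {F : ℝ × ℝ → ℝ} (hF : ContDiff ℝ ((⊤ : ℕ∞) : WithTop ℕ∞) F) {B : ℝ}
    (hB : ∀ t y, B < |y| → F (t, y) = 0) :
    ContDiff ℝ ((⊤ : ℕ∞) : WithTop ℕ∞) (fun t : ℝ => ∫ y, F (t, y)) := by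
  have h := (smooth_param hF hB (locallyIntegrable_const (1:ℝ))).comp
    (contDiff_id.prodMk contDiff_const : ContDiff ℝ ((⊤ : ℕ∞) : WithTop ℕ∞)
      (fun t : ℝ => (t, (0:ℝ))))
  have e : ((fun q : ℝ × ℝ => (convolution (fun _ : ℝ => (1:ℝ)) (fun y => F (q.1, y))
      (ContinuousLinearMap.mul ℝ ℝ) volume) q.2) ∘ (fun t : ℝ => (t, (0:ℝ)))) =
      fun t : ℝ => ∫ y, F (t, y) := by
    funext t
    show (convolution (fun _ : ℝ => (1:ℝ)) (fun y => F (t, y))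
      (ContinuousLinearMap.mul ℝ ℝ) volume) 0 = _
    rw [convolution_def]
    simp only [ContinuousLinearMap.mul_apply', one_mul]
    rw [integral_sub_left_eq_self (fun y => F (t, y)) volume 0]
  rw [← e]; exact h

lemma prim_smooth {F : ℝ × ℝ → ℝ} (hF : ContDiff ℝ ((⊤ : ℕ∞) : WithTop ℕ∞) F) {B : ℝ}
    (hB : ∀ t y, B < |y| → F (t, y) = 0) :
    ContDiff ℝ ((⊤ : ℕ∞) : WithTop ℕ∞) (fun q : ℝ × ℝ => ∫ u in (-B)..q.2, F (q.1, u)) := by
  have h := smooth_param hF hB hv_loc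
  have e : (fun q : ℝ × ℝ => (convolution P152.GFF.S.hv (fun y => F (q.1, y))
      (ContinuousLinearMap.mul ℝ ℝ) volume) q.2) = fun q => ∫ u in (-B)..q.2, F (q.1, u) := by
    funext q
    exact conv_hv (hF.continuous.comp (continuous_const.prodMk continuous_id)) (hB q.1) q.2
  rw [e] at h
  exact h

lemma supp_line {g : ℝ → ℝ} {B : ℝ} (hB : ∀ y, B < |y| → g y = 0) : HasCompactSupport g := by
  refine HasCompactSupport.intro (isCompact_Icc (a := -B) (b := B)) ?_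
  intro x hx
  apply hB
  by_contra h
  exact hx (abs_le.mp (not_lt.mp h))

lemma prim_Iic {g : ℝ → ℝ} (hg : Continuous g) {B : ℝ} (hB : ∀ y, B < |y| → g y = 0) (t : ℝ) :
    ∫ u in (-B)..t, g u = ∫ u in Set.Iic t, g u := by
  have hint : Integrable g volume := hg.integrable_of_hasCompactSupport (supp_line hB)
  have h3 := intervalIntegral.integral_Iic_sub_Iic (a := -B) (b := t) (f := g) (μ := volume)
    hint.integrableOn hint.integrableOn
  have h4 : ∫ x in Set.Iic (-B), g x = 0 := by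
    have e : Set.Iic (-B) =ᵐ[volume] Set.Iio (-B) := Iio_ae_eq_Iic.symm
    rw [setIntegral_congr_set e]
    apply setIntegral_eq_zero_of_forall_eq_zero
    intro x hx
    apply hB
    have hx' : x < -B := hx
    by_cases hB0 : 0 ≤ B
    · rw [abs_of_neg (by linarith only [hx', hB0])]; linarith only [hx']
    · exact lt_of_lt_of_le (not_le.mp hB0) (abs_nonneg x)
  rw [← h3, h4, sub_zero]

lemma prim_nonneg {g : ℝ → ℝ} (hg : Continuous g) {B : ℝ} (hB : ∀ y, B < |y| → g y = 0)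
    (h0 : ∀ y, 0 ≤ g y) (t : ℝ) : 0 ≤ ∫ u in (-B)..t, g u := by
  rw [prim_Iic hg hB]
  exact setIntegral_nonneg measurableSet_Iic fun u _ => h0 u

lemma prim_le {g : ℝ → ℝ} (hg : Continuous g) {B : ℝ} (hB : ∀ y, B < |y| → g y = 0)
    (h0 : ∀ y, 0 ≤ g y) (t : ℝ) : ∫ u in (-B)..t, g u ≤ ∫ u, g u := by
  rw [prim_Iic hg hB]
  exact setIntegral_le_integral (hg.integrable_of_hasCompactSupport (supp_line hB))
    (Eventually.of_forall h0)

lemma prim_left {g : ℝ → ℝ} (hg : Continuous g) {B : ℝ} (hB : ∀ y, B < |y| → g y = 0) {a t : ℝ}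
    (ha : ∀ y, y < a → g y = 0) (ht : t < a) : ∫ u in (-B)..t, g u = 0 := by
  rw [prim_Iic hg hB]
  exact setIntegral_eq_zero_of_forall_eq_zero fun u hu => ha u (lt_of_le_of_lt hu ht)

lemma prim_right {g : ℝ → ℝ} (hg : Continuous g) {B : ℝ} (hB : ∀ y, B < |y| → g y = 0) {a t : ℝ}
    (ha : ∀ y, a < y → g y = 0) (ht : a < t) : ∫ u in (-B)..t, g u = ∫ u, g u := by
  rw [prim_Iic hg hB]
  refine setIntegral_eq_integral_of_forall_compl_eq_zero fun u hu => ha u ?_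
  rw [Set.mem_Iic, not_le] at hu
  exact ht.trans hu

/-- Cauchy-Schwarz on an interval. -/
lemma cs_line {g : ℝ → ℝ} (hg : Continuous g) {z R : ℝ} (hR : 0 < R)
    (hs : ∀ s, g s ≠ 0 → |s - z| ≤ R) : (∫ s, g s) ^ 2 ≤ 2 * R * ∫ s, g s ^ 2 := by
  set I := Set.Icc (z - R) (z + R) with hI
  have hz : ∀ s, s ∉ I → g s = 0 := by
    intro s hs'
    by_contra h
    have := abs_le.1 (hs s h)
    exact hs' ⟨by linarith, by linarith⟩
  have hc : HasCompactSupport g := HasCompactSupport.intro isCompact_Icc hz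
  have hc2 : HasCompactSupport fun s => g s ^ 2 :=
    HasCompactSupport.intro isCompact_Icc fun s hs' => by rw [hz s hs']; ring
  have i1 : Integrable g := hg.integrable_of_hasCompactSupport hc
  have i2 : Integrable fun s => g s ^ 2 := (hg.pow 2).integrable_of_hasCompactSupport hc2
  have e1 : ∫ s in I, g s = ∫ s, g s := setIntegral_eq_integral_of_forall_compl_eq_zero hz
  have e2 : ∫ s in I, g s ^ 2 = ∫ s, g s ^ 2 :=
    setIntegral_eq_integral_of_forall_compl_eq_zero fun s hs' => by rw [hz s hs']; ring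
  set m := ∫ s, g s with hm
  have hvol : (volume : Measure ℝ).real I = 2 * R := by
    rw [hI, Real.volume_real_Icc_of_le (by linarith)]; ring
  have hfin : (volume : Measure ℝ) I ≠ ⊤ := by rw [hI]; exact isCompact_Icc.measure_lt_top.ne
  have h0 : 0 ≤ ∫ s in I, (g s - m / (2 * R)) ^ 2 :=
    setIntegral_nonneg measurableSet_Icc fun s _ => sq_nonneg _
  have e3 : ∫ s in I, (g s - m / (2 * R)) ^ 2 =
      (∫ s in I, g s ^ 2) - 2 * (m / (2 * R)) * (∫ s in I, g s) + (m / (2 * R)) ^ 2 * (2 * R) := by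
    have e4 : ∀ s, (g s - m / (2 * R)) ^ 2 =
        (g s ^ 2 - 2 * (m / (2 * R)) * g s) + (m / (2 * R)) ^ 2 := fun s => by ring
    simp only [e4]
    rw [integral_add, integral_sub, integral_const_mul, setIntegral_const, hvol, smul_eq_mul]
    · ring
    · exact i2.integrableOn
    · exact (i1.const_mul _).integrableOn
    · exact (i2.integrableOn).sub (i1.const_mul _).integrableOn
    · exact integrableOn_const hfin
  rw [e3, e1, e2] at h0
  have h1 : (∫ s, g s ^ 2) - 2 * (m / (2 * R)) * m + (m / (2 * R)) ^ 2 * (2 * R) =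
      (∫ s, g s ^ 2) - m ^ 2 / (2 * R) := by
    field_simp
    ring
  rw [h1] at h0
  have h2 : m ^ 2 / (2 * R) ≤ ∫ s, g s ^ 2 := by linarith only [h0]
  rw [div_le_iff₀ (by positivity)] at h2
  linarith only [h2]

/-! ### Transport to an outer function -/

theorem outer {f : ℝ × ℝ → ℝ} (hf : Sm f) (h0 : ∀ x, 0 ≤ f x) {z : ℝ × ℝ} {R T : ℝ} (hR : 0 < R)
    (hRT : R ≤ T) (hs : ∀ x, f x ≠ 0 → |x.1 - z.1| ≤ R ∧ |x.2 - z.2| ≤ R) :
    ∃ G Ψ : ℝ × ℝ → ℝ, Sm G ∧ Sm Ψ ∧ (∀ x, 0 ≤ G x) ∧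
      (∀ x, G x ≠ 0 → z.1 + T ≤ x.1 ∧ x.1 ≤ z.1 + 2 * T ∧ |x.2 - z.2| ≤ R) ∧
      ∫ x, G x = ∫ x, f x ∧
      (∀ t y, HasDerivAt (fun t => Ψ (t, y)) (f (t, y) - G (t, y)) t) ∧
      ∫ x, Ψ x ^ 2 ≤ 6 * T ^ 2 * ∫ x, f x ^ 2 := by
  have hT : 0 < T := lt_of_lt_of_le hR hRT
  have hfc : Continuous f := hf.1.continuous
  -- the bump on the line
  obtain ⟨β, hβ⟩ : ∃ β : ℝ → ℝ, ∀ t, β t = T⁻¹ * b ((t - (z.1 + 3 / 2 * T)) / T) :=
    ⟨_, fun _ => rfl⟩
  have hβs : ContDiff ℝ ((⊤ : ℕ∞) : WithTop ℕ∞) β := by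
    have : β = fun t => T⁻¹ * b ((t - (z.1 + 3 / 2 * T)) / T) := funext hβ
    rw [this]
    exact contDiff_const.mul (b_smooth.comp ((contDiff_id.sub contDiff_const).div_const T))
  have hβ0 : ∀ t, 0 ≤ β t := fun t => by rw [hβ]; exact mul_nonneg (by positivity) (b_nonneg _)
  have hβsup : ∀ t, β t ≠ 0 → z.1 + T ≤ t ∧ t ≤ z.1 + 2 * T := by
    intro t ht
    rw [hβ] at ht
    have h1 := b_supp (right_ne_zero_of_mul ht)
    rw [abs_div, abs_of_pos hT, div_lt_iff₀ hT, abs_lt] at h1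
    constructor <;> linarith only [h1]
  have hβ1 : ∫ t, β t = 1 := by
    simp only [hβ]
    rw [integral_const_mul]
    have h1 : ∫ t, b ((t - (z.1 + 3 / 2 * T)) / T) = ∫ t, b (t / T) :=
      integral_sub_right_eq_self (fun t => b (t / T)) (z.1 + 3 / 2 * T)
    rw [h1, Measure.integral_comp_div b T, b_int, abs_of_pos hT, smul_eq_mul, mul_one]
    exact inv_mul_cancel₀ hT.ne'
  -- bounds for the supports
  set B : ℝ := |z.1| + |z.2| + R + 2 * T with hB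
  have hB0 : 0 < B := by (clear * - hR hT; positivity)
  have hfB1 : ∀ t y, B < |t| → f (t, y) = 0 := by
    intro t y ht
    by_contra h
    have h1 := (hs _ h).1
    have h2 := abs_sub_abs_le_abs_sub t z.1
    have h3 := abs_nonneg z.2
    simp only at h1
    linarith only [hR, hRT, ht, h1, h2, h3]
  have hfB2 : ∀ t y, B < |y| → f (t, y) = 0 := by
    intro t y ht
    by_contra h
    have h1 := (hs _ h).2
    have h2 := abs_sub_abs_le_abs_sub y z.2
    have h3 := abs_nonneg z.1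
    simp only at h1
    linarith only [hR, hRT, ht, h1, h2, h3]
  have hβB : ∀ t, B < |t| → β t = 0 := by
    intro t ht
    by_contra h
    obtain ⟨h1, h2⟩ := hβsup t h
    have h3 := neg_abs_le z.1
    have h4 := le_abs_self z.1
    have h5 := abs_nonneg z.2
    rcases abs_cases t with ⟨h6, _⟩ | ⟨h6, _⟩ <;> linarith only [hR, hRT, ht, h1, h3, h5, h6, h2, h4]
  -- the marginal
  obtain ⟨r, hr⟩ : ∃ r : ℝ → ℝ, ∀ y, r y = ∫ s, f (s, y) := ⟨_, fun _ => rfl⟩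
  have hswap : ContDiff ℝ ((⊤ : ℕ∞) : WithTop ℕ∞) (fun x : ℝ × ℝ => f x.swap) :=
    hf.1.comp (contDiff_snd.prodMk contDiff_fst)
  have hrs : ContDiff ℝ ((⊤ : ℕ∞) : WithTop ℕ∞) r := by
    have h1 := marg_smooth hswap (B := B) (fun t y hy => hfB1 y t hy)
    have : r = fun t => ∫ y, f (y, t) := funext hr
    rw [this]
    exact h1
  have hr0 : ∀ y, 0 ≤ r y := fun y => by rw [hr]; exact integral_nonneg fun s => h0 _
  have hrsup : ∀ y, r y ≠ 0 → |y - z.2| ≤ R := by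
    intro y hy
    by_contra h
    apply hy
    rw [hr]
    have : (fun s => f (s, y)) = fun _ => 0 := by
      funext s
      by_contra h1
      exact h (hs _ h1).2
    rw [this]; simp
  have hrB : ∀ y, B < |y| → r y = 0 := by
    intro y hy
    rw [hr]
    have : (fun s => f (s, y)) = fun _ => 0 := by funext s; exact hfB2 s y hy
    rw [this]; simp
  -- the outer function
  obtain ⟨G, hG⟩ : ∃ G : ℝ × ℝ → ℝ, ∀ x, G x = β x.1 * r x.2 := ⟨_, fun _ => rfl⟩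
  have hGf : G = fun x => β x.1 * r x.2 := funext hG
  have hGs : ContDiff ℝ ((⊤ : ℕ∞) : WithTop ℕ∞) G := by
    rw [hGf]
    exact (hβs.comp contDiff_fst).mul (hrs.comp contDiff_snd)
  have hGsup : ∀ x, G x ≠ 0 → z.1 + T ≤ x.1 ∧ x.1 ≤ z.1 + 2 * T ∧ |x.2 - z.2| ≤ R := by
    intro x hx
    rw [hG] at hx
    obtain ⟨h1, h2⟩ := hβsup _ (left_ne_zero_of_mul hx)
    exact ⟨h1, h2, hrsup _ (right_ne_zero_of_mul hx)⟩
  have hGc : HasCompactSupport G := by
    refine HasCompactSupport.intro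
      ((isCompact_Icc (a := z.1 + T) (b := z.1 + 2 * T)).prod
        (isCompact_Icc (a := z.2 - R) (b := z.2 + R))) ?_
    intro x hx
    by_contra h
    obtain ⟨h1, h2, h3⟩ := hGsup x h
    rw [abs_le] at h3
    exact hx ⟨⟨h1, h2⟩, ⟨by linarith only [h3], by linarith only [h3]⟩⟩
  have hfi : Integrable f := hfc.integrable_of_hasCompactSupport hf.2
  have hGint : ∫ x, G x = ∫ x, f x := by
    simp only [hG]
    rw [Measure.volume_eq_prod, integral_prod_mul β r, hβ1, one_mul]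
    have h1 := integral_prod_symm (μ := (volume : Measure ℝ)) (ν := (volume : Measure ℝ)) f hfi
    rw [h1]
    exact integral_congr_ae (Eventually.of_forall fun y => hr y)
  -- the potential
  obtain ⟨D, hD⟩ : ∃ D : ℝ × ℝ → ℝ, ∀ x, D x = f x.swap - G x.swap := ⟨_, fun _ => rfl⟩
  have hDf : D = fun x => f x.swap - G x.swap := funext hD
  have hDs : ContDiff ℝ ((⊤ : ℕ∞) : WithTop ℕ∞) D := by
    rw [hDf]
    exact hswap.sub (hGs.comp (contDiff_snd.prodMk contDiff_fst))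
  have hDB : ∀ y s, B < |s| → D (y, s) = 0 := by
    intro y s h
    rw [hD]
    show f (s, y) - G (s, y) = 0
    rw [hfB1 s y h, hG]
    show 0 - β s * r y = 0
    rw [hβB s h]
    ring
  have hDc : ∀ y, Continuous fun s => D (y, s) := fun y =>
    hDs.continuous.comp (continuous_const.prodMk continuous_id)
  obtain ⟨Ψ, hΨ⟩ : ∃ Ψ : ℝ × ℝ → ℝ, ∀ x, Ψ x = ∫ u in (-B)..x.1, D (x.2, u) := ⟨_, fun _ => rfl⟩
  have hΨf : Ψ = fun x => ∫ u in (-B)..x.1, D (x.2, u) := funext hΨ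
  have hΨs : ContDiff ℝ ((⊤ : ℕ∞) : WithTop ℕ∞) Ψ := by
    rw [hΨf]
    exact (prim_smooth hDs hDB).comp (contDiff_snd.prodMk contDiff_fst)
  -- formula for the potential
  have hfc1 : ∀ y, Continuous fun s => f (s, y) := fun y =>
    hfc.comp (continuous_id.prodMk continuous_const)
  have hform : ∀ t y, Ψ (t, y) = (∫ u in (-B)..t, f (u, y)) - (∫ u in (-B)..t, β u) * r y := by
    intro t y
    rw [hΨ]
    show ∫ u in (-B)..t, D (y, u) = _
    have e : ∀ u, D (y, u) = f (u, y) - β u * r y := by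
      intro u
      rw [hD]
      show f (u, y) - G (u, y) = _
      rw [hG]
    simp only [e]
    have i1 : IntervalIntegrable (fun u => f (u, y)) volume (-B) t :=
      (hfc1 y).intervalIntegrable _ _
    have i2 : IntervalIntegrable (fun u => β u * r y) volume (-B) t :=
      Continuous.intervalIntegrable (hβs.continuous.mul continuous_const) _ _
    rw [intervalIntegral.integral_sub i1 i2, intervalIntegral.integral_mul_const]
  have hβc := hβs.continuous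
  have hbd : ∀ t y, |Ψ (t, y)| ≤ r y := by
    intro t y
    have a1 := prim_nonneg (hfc1 y) (B := B) (fun s hs' => hfB1 s y hs') (fun s => h0 _) t
    have a2 := prim_le (hfc1 y) (B := B) (fun s hs' => hfB1 s y hs') (fun s => h0 _) t
    have a3 := prim_nonneg hβc hβB hβ0 t
    have a4 := prim_le hβc hβB hβ0 t
    rw [hβ1] at a4
    rw [← hr] at a2
    have h1 := hr0 y
    rw [hform, abs_le]
    constructor <;> nlinarith only [a1, a4, a2, a3]
  have hleft : ∀ t y, t < z.1 - R → Ψ (t, y) = 0 := by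
    intro t y ht
    rw [hform, prim_left (hfc1 y) (B := B) (a := z.1 - R) (fun s hs' => hfB1 s y hs') ?_ ht,
      prim_left hβc hβB (a := z.1 - R) ?_ ht]
    · ring
    · intro s hs'
      by_contra h
      have := (hβsup s h).1
      linarith only [hR, hRT, hs', this]
    · intro s hs'
      by_contra h
      have := abs_le.1 (hs _ h).1
      simp only at this
      linarith only [hs', this]
  have hright : ∀ t y, z.1 + 2 * T < t → Ψ (t, y) = 0 := by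
    intro t y ht
    rw [hform, prim_right (hfc1 y) (B := B) (a := z.1 + 2 * T) (fun s hs' => hfB1 s y hs') ?_ ht,
      prim_right hβc hβB (a := z.1 + 2 * T) ?_ ht]
    · rw [hβ1, ← hr]
      ring
    · intro s hs'
      by_contra h
      have := (hβsup s h).2
      linarith only [hs', this]
    · intro s hs'
      by_contra h
      have := abs_le.1 (hs _ h).1
      simp only at this
      linarith [this.2]
  have hΨsup : ∀ x, Ψ x ≠ 0 → x ∈ Set.Icc (z.1 - R) (z.1 + 2 * T) ×ˢ Set.Icc (z.2 - R) (z.2 + R) := by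
    rintro ⟨t, y⟩ hx
    have h1 : ¬ t < z.1 - R := fun h => hx (hleft t y h)
    have h2 : ¬ z.1 + 2 * T < t := fun h => hx (hright t y h)
    have h3 : r y ≠ 0 := by
      intro h
      have := hbd t y
      rw [h] at this
      exact hx (abs_nonpos_iff.1 this)
    have h4 := abs_le.1 (hrsup y h3)
    exact ⟨⟨not_lt.1 h1, not_lt.1 h2⟩, ⟨by linarith only [h4], by linarith only [h4]⟩⟩
  have hΨc : HasCompactSupport Ψ := by
    refine HasCompactSupport.intro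
      ((isCompact_Icc (a := z.1 - R) (b := z.1 + 2 * T)).prod
        (isCompact_Icc (a := z.2 - R) (b := z.2 + R))) ?_
    intro x hx
    by_contra h
    exact hx (hΨsup x h)
  refine ⟨G, Ψ, ⟨hGs, hGc⟩, ⟨hΨs, hΨc⟩, fun x => by rw [hG]; exact mul_nonneg (hβ0 _) (hr0 _),
    hGsup, hGint, ?_, ?_⟩
  · intro t y
    have e : (fun t => Ψ (t, y)) = fun t => ∫ u in (-B)..t, D (y, u) := by
      funext t; exact hΨ _
    have e2 : f (t, y) - G (t, y) = D (y, t) := by rw [hD]; rfl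
    rw [e, e2]
    exact deriv_conv (hDc y) B t
  · -- the bound
    set I := Set.Icc (z.1 - R) (z.1 + 2 * T) with hI
    have hvol : (volume : Measure ℝ).real I = 2 * T + R := by
      rw [hI, Real.volume_real_Icc_of_le (by linarith only [hR, hRT])]; ring
    have hrc : HasCompactSupport r := supp_line hrB
    have hr2c : HasCompactSupport fun y => r y ^ 2 :=
      supp_line (B := B) fun y hy => by rw [hrB y hy]; ring
    have ir2 : Integrable fun y => r y ^ 2 :=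
      (hrs.continuous.pow 2).integrable_of_hasCompactSupport hr2c
    have iI : Integrable (I.indicator fun _ : ℝ => (1 : ℝ)) :=
      (integrable_indicator_iff measurableSet_Icc).2
        (integrableOn_const isCompact_Icc.measure_lt_top.ne)
    have i1 : Integrable (fun x : ℝ × ℝ => I.indicator (fun _ => (1 : ℝ)) x.1 * r x.2 ^ 2) := by
      rw [Measure.volume_eq_prod]
      exact iI.mul_prod ir2
    have iΨ : Integrable fun x => Ψ x ^ 2 := by
      refine (hΨs.continuous.pow 2).integrable_of_hasCompactSupport ?_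
      refine HasCompactSupport.intro hΨc.isCompact fun x hx => ?_
      show Ψ x ^ 2 = 0
      rw [image_eq_zero_of_notMem_tsupport hx]; ring
    have hf2c : HasCompactSupport fun x => f x ^ 2 := by
      refine HasCompactSupport.intro hf.2.isCompact fun x hx => ?_
      show f x ^ 2 = 0
      rw [image_eq_zero_of_notMem_tsupport hx]; ring
    have if2 : Integrable fun x => f x ^ 2 := (hfc.pow 2).integrable_of_hasCompactSupport hf2c
    have h1 : ∫ x, Ψ x ^ 2 ≤ ∫ x : ℝ × ℝ, I.indicator (fun _ => (1 : ℝ)) x.1 * r x.2 ^ 2 := by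
      refine integral_mono iΨ i1 ?_
      rintro ⟨t, y⟩
      simp only
      by_cases ht : t ∈ I
      · rw [Set.indicator_of_mem ht, one_mul, ← sq_abs (Ψ (t, y))]
        exact pow_le_pow_left₀ (abs_nonneg _) (hbd t y) 2
      · rw [Set.indicator_of_notMem ht, zero_mul]
        have : Ψ (t, y) = 0 := by
          by_contra h
          exact ht (hΨsup _ h).1
        rw [this]
        simp
    have h2 : ∫ x : ℝ × ℝ, I.indicator (fun _ => (1 : ℝ)) x.1 * r x.2 ^ 2 =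
        (2 * T + R) * ∫ y, r y ^ 2 := by
      rw [Measure.volume_eq_prod,
        integral_prod_mul (fun t => I.indicator (fun _ => (1 : ℝ)) t) (fun y => r y ^ 2)]
      congr 1
      rw [integral_indicator measurableSet_Icc, setIntegral_const, hvol, smul_eq_mul, mul_one]
    have h3 : ∫ y, r y ^ 2 ≤ 2 * R * ∫ x, f x ^ 2 := by
      have e1 := integral_prod_symm (μ := (volume : Measure ℝ)) (ν := (volume : Measure ℝ))
        (fun x => f x ^ 2) if2
      rw [← Measure.volume_eq_prod] at e1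
      rw [e1, ← integral_const_mul]
      refine integral_mono ir2 ?_ ?_
      · have := Integrable.integral_prod_right (μ := (volume : Measure ℝ))
          (ν := (volume : Measure ℝ)) (f := fun x => f x ^ 2) if2
        exact this.const_mul _
      · intro y
        simp only
        rw [hr]
        exact cs_line (hfc1 y) (z := z.1) hR (fun s hs' => (hs _ hs').1)
    have h4 : 0 ≤ ∫ x, f x ^ 2 := integral_nonneg fun x => sq_nonneg _
    calc ∫ x, Ψ x ^ 2 ≤ (2 * T + R) * ∫ y, r y ^ 2 := h1.trans (le_of_eq h2)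
      _ ≤ (2 * T + R) * (2 * R * ∫ x, f x ^ 2) := mul_le_mul_of_nonneg_left h3 (by positivity)
      _ = ((2 * T + R) * (2 * R)) * ∫ x, f x ^ 2 := by ring
      _ ≤ (6 * T ^ 2) * ∫ x, f x ^ 2 := by
          refine mul_le_mul_of_nonneg_right ?_ h4
          nlinarith only [hR, hRT]

/-! ### Change of coordinates -/

/-- The constant in the bounds. -/
noncomputable def DE (C : ℝ) (k : ℕ) : ℝ := 2 ^ (2 * k) * (DD C k + 1)

lemma DD_nonneg (C : ℝ) (k : ℕ) : 0 ≤ DD C k := by unfold DD; positivity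

lemma DE_nonneg (C : ℝ) (k : ℕ) : 0 ≤ DE C k := by
  unfold DE
  have := DD_nonneg C k
  positivity

/-- The test function on the square lattice of a test function on the rotated lattice. -/
noncomputable def unrot (G : ℝ × ℝ → ℝ) (w : ℝ × ℝ) : ℝ := 4 * G (w.1 - w.2, w.1 + w.2)

lemma rot_unrot (G : ℝ × ℝ → ℝ) : rot (unrot G) = G := by
  funext x
  unfold rot unrot
  simp only
  have e1 : (x.1 + x.2) / 2 - (x.2 - x.1) / 2 = x.1 := by ring
  have e2 : (x.1 + x.2) / 2 + (x.2 - x.1) / 2 = x.2 := by ring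
  rw [e1, e2]
  ring

lemma unrot_sm {G : ℝ × ℝ → ℝ} (h : Sm G) : Sm (unrot G) := by
  refine ⟨?_, ?_⟩
  · unfold unrot
    exact contDiff_const.mul (h.1.comp
      ((contDiff_fst.sub contDiff_snd).prodMk (contDiff_fst.add contDiff_snd)))
  · have h1 : HasCompactSupport (G ∘ Th) := h.2.comp_homeomorph Th
    have e : unrot G = fun x => (4 : ℝ) * (G ∘ Th) x := by
      funext x; rfl
    rw [e]
    exact h1.mul_left

lemma rot_sm {φ : ℝ × ℝ → ℝ} (h : Sm φ) : Sm (rot φ) := ⟨rot_smooth h.1, rot_compact h.2⟩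

lemma int_rot (φ : ℝ × ℝ → ℝ) : ∫ x, rot φ x = 1 / 2 * ∫ x, φ x := by
  rw [int_Th (rot φ)]
  simp only [rot_Th]
  rw [integral_const_mul]
  ring

lemma int_rot_sq (φ : ℝ × ℝ → ℝ) : ∫ x, rot φ x ^ 2 = 1 / 8 * ∫ x, φ x ^ 2 := by
  rw [int_Th (fun x => rot φ x ^ 2)]
  simp only [rot_Th]
  have e : ∀ w, (1 / 4 * φ w) ^ 2 = 1 / 16 * φ w ^ 2 := fun w => by ring
  simp only [e]
  rw [integral_const_mul]
  ring

lemma int_unrot (G : ℝ × ℝ → ℝ) : ∫ x, unrot G x = 2 * ∫ x, G x := by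
  have h := int_rot (unrot G)
  rw [rot_unrot] at h
  linarith only [h]

/-! ### The final statements -/

section

variable {P : Measure (Ori (ℤ × ℤ))} [IsProbabilityMeasure P]

/-- **Transport to an outer function**, on the square lattice: scale invariant bound for all
moments. -/
theorem m2 (hP : Hyp P) {C γ : ℝ} (hC : 0 ≤ C) (hγ : 0 < γ) (hE : EGD P C γ) {φ : ℝ × ℝ → ℝ}
    (hφ : Sm φ) (h0 : ∀ x, 0 ≤ φ x) (hpos : 0 < ∫ x, φ x) {z : ℝ × ℝ} {R T : ℝ} (hR : 0 < R)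
    (hRT : R ≤ T) (hs : ∀ x, φ x ≠ 0 → |x.1 - z.1| ≤ R ∧ |x.2 - z.2| ≤ R) :
    ∃ g : ℝ × ℝ → ℝ, Sm g ∧ (∀ x, 0 ≤ g x) ∧
      (∀ x, g x ≠ 0 → (T ≤ |x.1 - z.1| ∨ T ≤ |x.2 - z.2|) ∧
        |x.1 - z.1| ≤ 3 * T ∧ |x.2 - z.2| ≤ 3 * T) ∧
      ∫ x, g x = ∫ x, φ x ∧ ∀ (k : ℕ) (ε : ℝ), 0 < ε → ∀ᶠ δ in 𝓝[>] (0 : ℝ),
        Integrable (fun ω => (fld (FP.Hc ω) δ φ - sm δ φ / sm δ g * fld (FP.Hc ω) δ g) ^ (2 * k)) P ∧
        ∫ ω, (fld (FP.Hc ω) δ φ - sm δ φ / sm δ g * fld (FP.Hc ω) δ g) ^ (2 * k) ∂P ≤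
          DE C k * (3 * T ^ 2 * (∫ x, φ x ^ 2) + ε) ^ k := by
  have hT : 0 < T := lt_of_lt_of_le hR hRT
  have hrs : ∀ x, rot φ x ≠ 0 → |x.1 - (z.1 - z.2)| ≤ 2 * R ∧ |x.2 - (z.1 + z.2)| ≤ 2 * R := by
    intro x hx
    unfold rot at hx
    obtain ⟨h1, h2⟩ := hs _ (right_ne_zero_of_mul hx)
    simp only at h1 h2
    rw [abs_le] at h1 h2 ⊢
    rw [abs_le]
    refine ⟨⟨?_, ?_⟩, ⟨?_, ?_⟩⟩ <;> linarith only [h1, h2]
  obtain ⟨G, Ψ, hG, hΨ, hG0, hGs, hGi, hd, hb⟩ := outer (rot_sm hφ)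
    (fun x => by unfold rot; exact mul_nonneg (by norm_num) (h0 _))
    (z := (z.1 - z.2, z.1 + z.2)) (R := 2 * R) (T := 2 * T) (by (clear * - hR; positivity)) (by linarith only [hRT]) hrs
  have hgi : ∫ x, unrot G x = ∫ x, φ x := by
    rw [int_unrot, hGi, int_rot]; ring
  refine ⟨unrot G, unrot_sm hG, fun x => mul_nonneg (by norm_num) (hG0 _), ?_, hgi, ?_⟩
  · intro x hx
    unfold unrot at hx
    obtain ⟨h1, h2, h3⟩ := hGs _ (right_ne_zero_of_mul hx)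
    simp only at h1 h2 h3
    rw [abs_le] at h3
    refine ⟨?_, ?_, ?_⟩
    · by_contra hcon
      push Not at hcon
      obtain ⟨h4, h5⟩ := hcon
      rw [abs_lt] at h4 h5
      linarith only [h1, h4, h5]
    · rw [abs_le]
      constructor <;> linarith [h3.1, h3.2]
    · rw [abs_le]
      constructor <;> linarith [h3.1, h3.2]
  · intro k ε hε
    set W : ℝ := (∫ x, Ψ x ^ 2) + ε with hW
    have hW0 : 0 < W := by
      have : 0 ≤ ∫ x, Ψ x ^ 2 := integral_nonneg fun x => sq_nonneg _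
      linarith only [hε, this]
    have hWle : W ≤ 3 * T ^ 2 * (∫ x, φ x ^ 2) + ε := by
      rw [int_rot_sq] at hb
      have e : 6 * (2 * T) ^ 2 * (1 / 8 * ∫ x, φ x ^ 2) = 3 * T ^ 2 * ∫ x, φ x ^ 2 := by ring
      rw [e] at hb
      linarith only [hb]
    have hm := moment hC hγ hE hP.ice (Ψ := Ψ) (F := fun x => rot φ x - rot (unrot G) x) hΨ.1 hΨ.2
      ((rot_sm hφ).1.continuous.sub (rot_sm (unrot_sm hG)).1.continuous)
      (fun t y => by
        have := hd t y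
        rw [rot_unrot]
        exact this) k hε
    have hp := pair_moment hP hφ (unrot_sm hG) hgi.symm (by rw [hgi]; exact hpos.ne') hm
      (pow_pos hW0 k)
    filter_upwards [hp] with δ h1
    refine ⟨h1.1, h1.2.trans ?_⟩
    have e : 2 ^ (2 * k) * (DD C k * W ^ k + W ^ k) = DE C k * W ^ k := by unfold DE; ring
    rw [e]
    exact mul_le_mul_of_nonneg_left (pow_le_pow_left₀ hW0.le hWle k) (DE_nonneg C k)

lemma moment_sum {X Y : Ori (ℤ × ℤ) → ℝ} {k : ℕ} {A B : ℝ} (mX : AEStronglyMeasurable X P)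
    (mY : AEStronglyMeasurable Y P)
    (hX : Integrable (fun ω => X ω ^ (2 * k)) P ∧ ∫ ω, X ω ^ (2 * k) ∂P ≤ A)
    (hY : Integrable (fun ω => Y ω ^ (2 * k)) P ∧ ∫ ω, Y ω ^ (2 * k) ∂P ≤ B) :
    Integrable (fun ω => (X ω + Y ω) ^ (2 * k)) P ∧
      ∫ ω, (X ω + Y ω) ^ (2 * k) ∂P ≤ 2 ^ (2 * k) * (A + B) := by
  have hn : ∀ ω, 0 ≤ (X ω + Y ω) ^ (2 * k) := fun ω => (even_two_mul k).pow_nonneg _
  have hi : Integrable (fun ω => 2 ^ (2 * k) * (X ω ^ (2 * k) + Y ω ^ (2 * k))) P :=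
    (hX.1.add hY.1).const_mul _
  have hI : Integrable (fun ω => (X ω + Y ω) ^ (2 * k)) P := by
    refine hi.mono' ((mX.add mY).pow _) (Eventually.of_forall fun ω => ?_)
    rw [Real.norm_eq_abs, abs_of_nonneg (hn ω)]
    exact pow_add_two _ _ _
  refine ⟨hI, (integral_mono hI hi fun ω => pow_add_two _ _ _).trans ?_⟩
  rw [integral_const_mul, integral_add hX.1 hY.1]
  exact mul_le_mul_of_nonneg_left (add_le_add hX.2 hY.2) (by positivity)

/-- Moments of the heights tested against `∂_t Ψ + ∂_y Φ`. -/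
theorem moment_div {C γ : ℝ} (hC : 0 ≤ C) (hγ : 0 < γ) (hE : EGD P C γ)
    (hice : ∀ᵐ ω ∂P, ∀ x y, Ice ω x y) (hS : SymM P) {Ψ Φ F₁ F₂ : ℝ × ℝ → ℝ}
    (hΨ : Sm Ψ) (hΦ : Sm Φ) (hF₁ : Continuous F₁) (cF₁ : HasCompactSupport F₁)
    (hF₂ : Continuous F₂) (cF₂ : HasCompactSupport F₂)
    (hd₁ : ∀ t y, HasDerivAt (fun t => Ψ (t, y)) (F₁ (t, y)) t)
    (hd₂ : ∀ t y, HasDerivAt (fun y => Φ (t, y)) (F₂ (t, y)) y) (k : ℕ) {ε : ℝ} (hε : 0 < ε) :
    ∀ᶠ δ : ℝ in 𝓝[>] 0, Integrable (fun ω => hint (pth ω) δ (fun x => F₁ x + F₂ x) ^ (2 * k)) P ∧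
      ∫ ω, hint (pth ω) δ (fun x => F₁ x + F₂ x) ^ (2 * k) ∂P ≤
        2 ^ (2 * k) * (DD C k * ((∫ x, Ψ x ^ 2) + ε) ^ k + DD C k * ((∫ x, Φ x ^ 2) + ε) ^ k) := by
  filter_upwards [moment hC hγ hE hice hΨ.1 hΨ.2 hF₁ hd₁ k hε,
    moment_dy hC hγ hE hice hS hΦ.1 hΦ.2 hF₂ hd₂ k hε, self_mem_nhdsWithin] with δ h1 h2 hδ
  have e : ∀ ω, hint (pth ω) δ (fun x => F₁ x + F₂ x) =
      hint (pth ω) δ F₁ + hint (pth ω) δ F₂ := fun ω =>
    P152.GFF.S.hint_add (pth ω) hδ hF₁ cF₁ hF₂ cF₂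
  simp only [e]
  exact moment_sum (hint_integrable hF₁ cF₁ hδ).aestronglyMeasurable
    (hint_integrable hF₂ cF₂ hδ).aestronglyMeasurable h1 h2

/-- **All moments of an arbitrary neutral pair are bounded.** -/
theorem gen_moment (hP : Hyp P) {C γ : ℝ} (hC : 0 ≤ C) (hγ : 0 < γ) (hE : EGD P C γ)
    (hS : SymM P) {φ g : ℝ × ℝ → ℝ} (hφ : Sm φ) (hg : Sm g) (hI : ∫ x, φ x = ∫ x, g x)
    (h0 : ∫ x, g x ≠ 0) (k : ℕ) : ∃ B : ℝ, ∀ᶠ δ in 𝓝[>] (0 : ℝ),
      Integrable (fun ω => (fld (FP.Hc ω) δ φ - sm δ φ / sm δ g * fld (FP.Hc ω) δ g) ^ (2 * k)) P ∧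
        ∫ ω, (fld (FP.Hc ω) δ φ - sm δ φ / sm δ g * fld (FP.Hc ω) δ g) ^ (2 * k) ∂P ≤ B := by
  have hrφ := rot_sm hφ
  have hrg := rot_sm hg
  have hF : P152.GFF.S.Test (fun x => rot φ x - rot g x) := by
    refine ⟨hrφ.1.sub hrg.1, hrφ.2.sub hrg.2, ?_⟩
    rw [integral_sub (hrφ.1.continuous.integrable_of_hasCompactSupport hrφ.2)
      (hrg.1.continuous.integrable_of_hasCompactSupport hrg.2), int_rot, int_rot, hI, sub_self]
  obtain ⟨r, χ, ρ, hr, hrc, hρ, hρc, hχ, hχc, _, _, hρd, hΦ⟩ := P152.GFF.S.test_decomp hF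
  obtain ⟨Φ, hΦs, hΦc, hΦd⟩ := hΦ 1 one_pos
  have hχ' : ContDiff ℝ ((⊤ : ℕ∞) : WithTop ℕ∞) (fun y : ℝ => (1 : ℝ)⁻¹ * χ (y / 1)) :=
    contDiff_const.mul (hχ.comp (contDiff_id.div_const 1))
  have hprod : ∀ {u : ℝ → ℝ}, HasCompactSupport u →
      HasCompactSupport (fun x : ℝ × ℝ => u x.1 * ((1 : ℝ)⁻¹ * χ (x.2 / 1))) := by
    intro u hu
    refine HasCompactSupport.intro (hu.isCompact.prod hχc.isCompact) fun x hx => ?_
    by_cases h1 : x.1 ∈ tsupport u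
    · have h2 : x.2 ∉ tsupport χ := fun h => hx ⟨h1, h⟩
      rw [div_one, image_eq_zero_of_notMem_tsupport h2]
      ring
    · rw [image_eq_zero_of_notMem_tsupport h1]
      ring
  set F₁ : ℝ × ℝ → ℝ := fun x => r x.1 * ((1 : ℝ)⁻¹ * χ (x.2 / 1)) with hF₁
  set F₂ : ℝ × ℝ → ℝ := fun x => (rot φ x - rot g x) - r x.1 * ((1 : ℝ)⁻¹ * χ (x.2 / 1)) with hF₂
  have cF₁ : HasCompactSupport F₁ := hprod hrc
  have sF₁ : Continuous F₁ := ((hr.comp contDiff_fst).mul (hχ'.comp contDiff_snd)).continuous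
  have h := moment_div hC hγ hE hP.ice hS (Ψ := fun x => ρ x.1 * ((1 : ℝ)⁻¹ * χ (x.2 / 1)))
    (Φ := Φ) (F₁ := F₁) (F₂ := F₂)
    ⟨(hρ.comp contDiff_fst).mul (hχ'.comp contDiff_snd), hprod hρc⟩ ⟨hΦs, hΦc⟩ sF₁ cF₁
    (hF.1.continuous.sub sF₁) (hF.2.1.sub cF₁)
    (fun t y => (hρd t).mul_const ((1 : ℝ)⁻¹ * χ (y / 1))) hΦd k one_pos
  have e : (fun x => F₁ x + F₂ x) = fun x => rot φ x - rot g x := by
    funext x
    rw [hF₁, hF₂]
    ring
  rw [e] at h
  exact ⟨_, pair_moment hP hφ hg hI h0 h one_pos⟩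

end

end Vale.Agent.P145.FB.Mom
end

section

/-!
P145, block F-B: quantitative bound for all moments of the neutral combination of an arbitrary test
function and a fixed one.
-/

namespace Vale.Agent.P145.FB.Mom

open Finset Filter Topology MeasureTheory
open Vale.Agent.P152 (Edge Ori Ice sgb pth pth_isHeight pth_integrable sqp)
open Vale.Agent.P152.GFF.S (hcell hbox hint hint_cells cell_zero ar idx_mem ar_abs ar_measurable
  bound_of_compact conv_hv deriv_conv interval_full smooth_param hv_loc)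
open Vale.Agent.P145.FP
open Vale.Agent.P145.FB.AC (b b_smooth b_cont b_nonneg b_compact b_int b_supp)

/-! ### Decomposition -/

lemma prim_abs {g : ℝ → ℝ} (hg : Continuous g) {B : ℝ} (hB : ∀ y, B < |y| → g y = 0) (t : ℝ) :
    |∫ u in (-B)..t, g u| ≤ ∫ u, |g u| := by
  have hi : Integrable g := hg.integrable_of_hasCompactSupport (supp_line hB)
  rw [prim_Iic hg hB]
  refine (abs_integral_le_integral_abs).trans ?_
  exact setIntegral_le_integral hi.abs (Eventually.of_forall fun u => abs_nonneg _)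

theorem decomp_quant {R : ℝ} (hR : 0 < R) : ∃ K : ℝ, 0 ≤ K ∧ ∀ f : ℝ × ℝ → ℝ, Sm f →
    (∀ x, f x ≠ 0 → |x.1| ≤ R ∧ |x.2| ≤ R) → ∃ Ψ Φ F₁ F₂ : ℝ × ℝ → ℝ, Sm Ψ ∧ Sm Φ ∧
      Sm F₁ ∧ Sm F₂ ∧
      (∀ t y, HasDerivAt (fun t => Ψ (t, y)) (F₁ (t, y)) t) ∧
      (∀ t y, HasDerivAt (fun y => Φ (t, y)) (F₂ (t, y)) y) ∧
      (∀ x, f x = (∫ x, f x) * (b x.1 * b x.2) + F₁ x + F₂ x) ∧
      ∫ x, Ψ x ^ 2 ≤ K * ∫ x, f x ^ 2 ∧ ∫ x, Φ x ^ 2 ≤ K * ∫ x, f x ^ 2 ∧
      (∫ x, f x) ^ 2 ≤ 4 * R ^ 2 * ∫ x, f x ^ 2 := by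
  set B : ℝ := R + 1 with hB
  have hB0 : 0 < B := by positivity
  have ib2 : Integrable fun t => b t ^ 2 := by
    refine (b_cont.pow 2).integrable_of_hasCompactSupport ?_
    refine HasCompactSupport.intro b_compact.isCompact fun x hx => ?_
    show b x ^ 2 = 0
    rw [image_eq_zero_of_notMem_tsupport hx]; ring
  set β := ∫ t, b t ^ 2 with hβ
  have hβ0 : 0 ≤ β := integral_nonneg fun t => sq_nonneg _
  have hbB : ∀ t, B < |t| → b t = 0 := by
    intro t ht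
    by_contra h
    have := b_supp h
    linarith only [hR, ht, this]
  refine ⟨16 * R * B + 32 * B * R ^ 2 * β, by (clear * - hR; positivity), fun f hf hs => ?_⟩
  have hfc : Continuous f := hf.1.continuous
  have hfB1 : ∀ t y, R < |t| → f (t, y) = 0 := by
    intro t y ht
    by_contra h
    exact absurd (hs _ h).1 (not_le.2 ht)
  have hfB2 : ∀ t y, R < |y| → f (t, y) = 0 := by
    intro t y ht
    by_contra h
    exact absurd (hs _ h).2 (not_le.2 ht)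
  have hfc1 : ∀ y, Continuous fun s => f (s, y) := fun y =>
    hfc.comp (continuous_id.prodMk continuous_const)
  have hswap : ContDiff ℝ ((⊤ : ℕ∞) : WithTop ℕ∞) (fun x : ℝ × ℝ => f x.swap) :=
    hf.1.comp (contDiff_snd.prodMk contDiff_fst)
  have hf2c : HasCompactSupport fun x => f x ^ 2 := by
    refine HasCompactSupport.intro hf.2.isCompact fun x hx => ?_
    show f x ^ 2 = 0
    rw [image_eq_zero_of_notMem_tsupport hx]; ring
  have if1 : Integrable f := hfc.integrable_of_hasCompactSupport hf.2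
  have if2 : Integrable fun x => f x ^ 2 := (hfc.pow 2).integrable_of_hasCompactSupport hf2c
  set S := ∫ x, f x ^ 2 with hSd
  have hS0 : 0 ≤ S := integral_nonneg fun x => sq_nonneg _
  set m := ∫ x, f x with hm
  -- the marginals
  obtain ⟨r, hr⟩ : ∃ r : ℝ → ℝ, ∀ y, r y = ∫ s, f (s, y) := ⟨_, fun _ => rfl⟩
  obtain ⟨q, hq⟩ : ∃ q : ℝ → ℝ, ∀ y, q y = ∫ s, f (s, y) ^ 2 := ⟨_, fun _ => rfl⟩
  have hrs : ContDiff ℝ ((⊤ : ℕ∞) : WithTop ℕ∞) r := by
    have h1 := marg_smooth hswap (B := R) (fun t y hy => hfB1 y t hy)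
    have : r = fun t => ∫ y, f (y, t) := funext hr
    rw [this]
    exact h1
  have hrc := hrs.continuous
  have hrR : ∀ y, R < |y| → r y = 0 := by
    intro y hy
    rw [hr]
    have : (fun s => f (s, y)) = fun _ => 0 := by funext s; exact hfB2 s y hy
    rw [this]; simp
  have iq : Integrable q := by
    have := Integrable.integral_prod_right (μ := (volume : Measure ℝ))
      (ν := (volume : Measure ℝ)) (f := fun x => f x ^ 2) if2
    exact this.congr (Eventually.of_forall fun y => (hq y).symm)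
  have hqS : ∫ y, q y = S := by
    have e1 := integral_prod_symm (μ := (volume : Measure ℝ)) (ν := (volume : Measure ℝ))
      (fun x => f x ^ 2) if2
    rw [← Measure.volume_eq_prod] at e1
    rw [hSd, e1]
    exact integral_congr_ae (Eventually.of_forall fun y => hq y)
  have hq0 : ∀ y, 0 ≤ q y := fun y => by rw [hq]; exact integral_nonneg fun s => sq_nonneg _
  have hrm : ∫ y, r y = m := by
    have h1 := integral_prod_symm (μ := (volume : Measure ℝ)) (ν := (volume : Measure ℝ)) f if1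
    rw [← Measure.volume_eq_prod] at h1
    rw [hm, h1]
    exact integral_congr_ae (Eventually.of_forall fun y => hr y)
  have habs : ∀ y, (∫ s, |f (s, y)|) ^ 2 ≤ 2 * R * q y := by
    intro y
    have h1 := cs_line (g := fun s => |f (s, y)|) (hfc1 y).abs (z := 0) hR (fun s hs' => by
      rw [sub_zero]
      exact (hs _ (abs_ne_zero.1 hs')).1)
    simp only [sq_abs] at h1
    rw [hq]
    exact h1
  have hr2 : ∀ y, r y ^ 2 ≤ 2 * R * q y := by
    intro y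
    refine le_trans ?_ (habs y)
    rw [hr, ← sq_abs]
    exact pow_le_pow_left₀ (abs_nonneg _) abs_integral_le_integral_abs 2
  have ir : Integrable r := hrc.integrable_of_hasCompactSupport (supp_line hrR)
  have ir2 : Integrable fun y => r y ^ 2 :=
    (hrc.pow 2).integrable_of_hasCompactSupport
      (supp_line (B := R) fun y hy => by
        show r y ^ 2 = 0
        rw [hrR y hy]; ring)
  have hA : (∫ y, |r y|) ^ 2 ≤ 4 * R ^ 2 * S := by
    have h1 := cs_line (g := fun y => |r y|) hrc.abs (z := 0) hR (fun s hs' => by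
      rw [sub_zero]
      by_contra h
      exact hs' (by rw [hrR s (not_le.1 h), abs_zero]))
    simp only [sq_abs] at h1
    have h2 : ∫ y, r y ^ 2 ≤ 2 * R * S := by
      rw [← hqS, ← integral_const_mul]
      exact integral_mono ir2 (iq.const_mul _) hr2
    calc (∫ y, |r y|) ^ 2 ≤ 2 * R * ∫ y, r y ^ 2 := h1
      _ ≤ 2 * R * (2 * R * S) := mul_le_mul_of_nonneg_left h2 (by (clear * - hR; positivity))
      _ = _ := by ring
  have hmA : |m| ≤ ∫ y, |r y| := by rw [← hrm]; exact abs_integral_le_integral_abs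
  have hA0 : 0 ≤ ∫ y, |r y| := integral_nonneg fun y => abs_nonneg _
  have hm2 : m ^ 2 ≤ 4 * R ^ 2 * S := by
    rw [← sq_abs]
    exact (pow_le_pow_left₀ (abs_nonneg _) hmA 2).trans hA
  -- the first potential
  obtain ⟨F₁, hF₁⟩ : ∃ F₁ : ℝ × ℝ → ℝ, ∀ x, F₁ x = f x - r x.2 * b x.1 := ⟨_, fun _ => rfl⟩
  have hF₁f : F₁ = fun x => f x - r x.2 * b x.1 := funext hF₁
  have hF₁s : ContDiff ℝ ((⊤ : ℕ∞) : WithTop ℕ∞) F₁ := by
    rw [hF₁f]
    exact hf.1.sub ((hrs.comp contDiff_snd).mul (b_smooth.comp contDiff_fst))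
  have hF₁0 : ∀ x : ℝ × ℝ, B < |x.1| ∨ R < |x.2| → F₁ x = 0 := by
    rintro ⟨t, y⟩ (h | h)
    · rw [hF₁, hfB1 t y (by simp only at h; linarith only [h])]
      show 0 - r y * b t = 0
      rw [hbB t h]; ring
    · rw [hF₁, hfB2 t y h]
      show 0 - r y * b t = 0
      rw [hrR y h]; ring
  have hcomp : ∀ {u : ℝ × ℝ → ℝ}, (∀ x : ℝ × ℝ, B < |x.1| ∨ B < |x.2| → u x = 0) →
      HasCompactSupport u := by
    intro u hu
    refine HasCompactSupport.intro
      ((isCompact_Icc (a := -B) (b := B)).prod (isCompact_Icc (a := -B) (b := B))) ?_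
    intro x hx
    by_contra h
    have h1 : |x.1| ≤ B := by
      by_contra h2
      exact h (hu x (Or.inl (not_le.1 h2)))
    have h2 : |x.2| ≤ B := by
      by_contra h3
      exact h (hu x (Or.inr (not_le.1 h3)))
    exact hx ⟨abs_le.1 h1, abs_le.1 h2⟩
  have hRB : R < B := by rw [hB]; linarith only []
  have hF₁c : HasCompactSupport F₁ := hcomp fun x hx => hF₁0 x (by
    rcases hx with h | h
    · exact Or.inl h
    · exact Or.inr (by linarith only [h]))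
  have hF₁c1 : ∀ y, Continuous fun s => F₁ (s, y) := fun y =>
    hF₁s.continuous.comp (continuous_id.prodMk continuous_const)
  have hF₁B : ∀ y s, B < |s| → F₁ (s, y) = 0 := fun y s h => hF₁0 (s, y) (Or.inl h)
  have hF₁i : ∀ y, ∫ s, F₁ (s, y) = 0 := by
    intro y
    have i1 : Integrable fun s => f (s, y) :=
      (hfc1 y).integrable_of_hasCompactSupport (supp_line (B := R) fun s h => hfB1 s y h)
    have i2 : Integrable b := b_cont.integrable_of_hasCompactSupport b_compact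
    have e : ∀ s, F₁ (s, y) = f (s, y) - r y * b s := fun s => hF₁ _
    simp only [e]
    rw [integral_sub i1 (i2.const_mul _), integral_const_mul, b_int, ← hr]
    ring
  obtain ⟨Ψ, hΨ⟩ : ∃ Ψ : ℝ × ℝ → ℝ, ∀ x, Ψ x = ∫ u in (-B)..x.1, F₁ (u, x.2) := ⟨_, fun _ => rfl⟩
  have hΨf : Ψ = fun x => ∫ u in (-B)..x.1, F₁ (u, x.2) := funext hΨ
  have hΨs : ContDiff ℝ ((⊤ : ℕ∞) : WithTop ℕ∞) Ψ := by
    rw [hΨf]
    exact (prim_smooth (F := fun x => F₁ x.swap) (B := B)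
      (hF₁s.comp (contDiff_snd.prodMk contDiff_fst)) (fun t y hy => hF₁B t y hy)).comp
      (contDiff_snd.prodMk contDiff_fst)
  have hΨ0 : ∀ t y, B < |t| → Ψ (t, y) = 0 := by
    intro t y ht
    rw [hΨ]
    exact interval_full (hF₁c1 y) (hF₁B y) (hF₁i y) ht
  have hΨb : ∀ t y, Ψ (t, y) ^ 2 ≤ 8 * R * q y := by
    intro t y
    have h1 : |Ψ (t, y)| ≤ ∫ s, |F₁ (s, y)| := by
      rw [hΨ]
      exact prim_abs (hF₁c1 y) (hF₁B y) t
    have i1 : Integrable fun s => |f (s, y)| :=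
      ((hfc1 y).integrable_of_hasCompactSupport (supp_line (B := R) fun s h => hfB1 s y h)).abs
    have i2 : Integrable b := b_cont.integrable_of_hasCompactSupport b_compact
    have h2 : ∫ s, |F₁ (s, y)| ≤ ∫ s, (|f (s, y)| + |r y| * b s) := by
      refine integral_mono ((hF₁c1 y).integrable_of_hasCompactSupport
        (supp_line (hF₁B y))).abs (i1.add (i2.const_mul _)) fun s => ?_
      simp only
      rw [hF₁]
      refine (abs_sub _ _).trans ?_
      rw [abs_mul, abs_of_nonneg (b_nonneg _)]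
    rw [integral_add i1 (i2.const_mul _), integral_const_mul, b_int, mul_one] at h2
    have h3 : |r y| ≤ ∫ s, |f (s, y)| := by
      rw [hr]; exact abs_integral_le_integral_abs
    have h4 : |Ψ (t, y)| ≤ 2 * ∫ s, |f (s, y)| := by linarith
    have h5 := pow_le_pow_left₀ (abs_nonneg _) h4 2
    rw [sq_abs, mul_pow] at h5
    have h6 := habs y
    linarith
  have hΨc : HasCompactSupport Ψ := hcomp fun x hx => by
    obtain ⟨t, y⟩ := x
    rcases hx with h | h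
    · exact hΨ0 t y h
    · have h1 := hΨb t y
      have h2 : q y = 0 := by
        rw [hq]
        have : (fun s => f (s, y) ^ 2) = fun _ => 0 := by
          funext s
          rw [hfB2 s y (by simp only at h; linarith only [h])]; ring
        rw [this]; simp
      rw [h2, mul_zero] at h1
      have h3 : Ψ (t, y) ^ 2 = 0 := le_antisymm h1 (sq_nonneg _)
      exact pow_eq_zero_iff (two_ne_zero) |>.1 h3
  -- the second potential
  obtain ⟨v, hv⟩ : ∃ v : ℝ → ℝ, ∀ y, v y = r y - m * b y := ⟨_, fun _ => rfl⟩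
  have hvf : v = fun y => r y - m * b y := funext hv
  have hvs : ContDiff ℝ ((⊤ : ℕ∞) : WithTop ℕ∞) v := by
    rw [hvf]
    exact hrs.sub (contDiff_const.mul b_smooth)
  have hvB : ∀ y, B < |y| → v y = 0 := by
    intro y hy
    rw [hv, hrR y (by linarith only [hy]), hbB y hy]; ring
  have ib : Integrable b := b_cont.integrable_of_hasCompactSupport b_compact
  have hvi : ∫ y, v y = 0 := by
    simp only [hv]
    rw [integral_sub ir (ib.const_mul _), integral_const_mul, b_int, hrm]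
    ring
  obtain ⟨p, hp⟩ : ∃ p : ℝ → ℝ, ∀ y, p y = ∫ u in (-B)..y, v u := ⟨_, fun _ => rfl⟩
  have hpf : p = fun y => ∫ u in (-B)..y, v u := funext hp
  have hpd : ∀ y, HasDerivAt p (v y) y := fun y => by
    rw [hpf]; exact deriv_conv hvs.continuous B y
  have hps : ContDiff ℝ ((⊤ : ℕ∞) : WithTop ℕ∞) p := by
    rw [contDiff_infty_iff_deriv]
    refine ⟨fun y => (hpd y).differentiableAt, ?_⟩
    have e : deriv p = v := funext fun y => (hpd y).deriv
    rw [e]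
    exact hvs
  have hp0 : ∀ y, B < |y| → p y = 0 := fun y hy => by
    rw [hp]; exact interval_full hvs.continuous hvB hvi hy
  have hpb : ∀ y, p y ^ 2 ≤ 16 * R ^ 2 * S := by
    intro y
    have h1 : |p y| ≤ ∫ s, |v s| := by
      rw [hp]; exact prim_abs hvs.continuous hvB y
    have h2 : ∫ s, |v s| ≤ ∫ s, (|r s| + |m| * b s) := by
      refine integral_mono (hvs.continuous.integrable_of_hasCompactSupport
        (supp_line hvB)).abs (ir.abs.add (ib.const_mul _)) fun s => ?_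
      simp only
      rw [hv]
      refine (abs_sub _ _).trans ?_
      rw [abs_mul, abs_of_nonneg (b_nonneg _)]
    rw [integral_add ir.abs (ib.const_mul _), integral_const_mul, b_int, mul_one] at h2
    have h4 : |p y| ≤ 2 * ∫ s, |r s| := by linarith only [hmA, h1, h2]
    have h5 := pow_le_pow_left₀ (abs_nonneg _) h4 2
    rw [sq_abs, mul_pow] at h5
    linarith
  refine ⟨Ψ, fun x => b x.1 * p x.2, F₁, fun x => b x.1 * v x.2, ⟨hΨs, hΨc⟩,
    ⟨(b_smooth.comp contDiff_fst).mul (hps.comp contDiff_snd), ?_⟩, ⟨hF₁s, hF₁c⟩,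
    ⟨(b_smooth.comp contDiff_fst).mul (hvs.comp contDiff_snd), ?_⟩, ?_, ?_, ?_, ?_, ?_, hm2⟩
  · refine hcomp fun x hx => ?_
    rcases hx with h | h
    · show b x.1 * p x.2 = 0
      rw [hbB _ h, zero_mul]
    · show b x.1 * p x.2 = 0
      rw [hp0 _ h, mul_zero]
  · refine hcomp fun x hx => ?_
    rcases hx with h | h
    · show b x.1 * v x.2 = 0
      rw [hbB _ h, zero_mul]
    · show b x.1 * v x.2 = 0
      rw [hvB _ h, mul_zero]
  · intro t y
    have e : (fun t => Ψ (t, y)) = fun t => ∫ u in (-B)..t, F₁ (u, y) := by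
      funext t; exact hΨ _
    rw [e]
    exact deriv_conv (hF₁c1 y) B t
  · intro t y
    exact (hpd y).const_mul (b t)
  · intro x
    show f x = m * (b x.1 * b x.2) + F₁ x + b x.1 * v x.2
    rw [hF₁, hv]
    ring
  · set I := Set.Icc (-B) B with hI
    have hvol : (volume : Measure ℝ).real I = 2 * B := by
      rw [hI, Real.volume_real_Icc_of_le (by linarith only [hR])]; ring
    have iI : Integrable (I.indicator fun _ : ℝ => (1 : ℝ)) :=
      (integrable_indicator_iff measurableSet_Icc).2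
        (integrableOn_const isCompact_Icc.measure_lt_top.ne)
    have i1 : Integrable (fun x : ℝ × ℝ => I.indicator (fun _ => (1 : ℝ)) x.1 * (8 * R * q x.2)) := by
      rw [Measure.volume_eq_prod]
      exact iI.mul_prod (iq.const_mul _)
    have iΨ : Integrable fun x => Ψ x ^ 2 := by
      refine (hΨs.continuous.pow 2).integrable_of_hasCompactSupport ?_
      refine HasCompactSupport.intro hΨc.isCompact fun x hx => ?_
      show Ψ x ^ 2 = 0
      rw [image_eq_zero_of_notMem_tsupport hx]; ring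
    have h1 : ∫ x, Ψ x ^ 2 ≤ ∫ x : ℝ × ℝ, I.indicator (fun _ => (1 : ℝ)) x.1 * (8 * R * q x.2) := by
      refine integral_mono iΨ i1 ?_
      rintro ⟨t, y⟩
      simp only
      by_cases ht : t ∈ I
      · rw [Set.indicator_of_mem ht, one_mul]
        exact hΨb t y
      · rw [Set.indicator_of_notMem ht, zero_mul, hΨ0 t y (by
          by_contra h
          exact ht (abs_le.1 (not_lt.1 h)))]
        simp
    have h2 : ∫ x : ℝ × ℝ, I.indicator (fun _ => (1 : ℝ)) x.1 * (8 * R * q x.2) =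
        (2 * B) * (8 * R * S) := by
      rw [Measure.volume_eq_prod,
        integral_prod_mul (fun t => I.indicator (fun _ => (1 : ℝ)) t) (fun y => 8 * R * q y),
        integral_const_mul, hqS]
      congr 1
      rw [integral_indicator measurableSet_Icc, setIntegral_const, hvol, smul_eq_mul, mul_one]
    have h3 : 0 ≤ 32 * B * R ^ 2 * β * S := by (clear * - hR; positivity)
    calc ∫ x, Ψ x ^ 2 ≤ (2 * B) * (8 * R * S) := h1.trans (le_of_eq h2)
      _ ≤ _ := by linarith only [h3]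
  · have e : ∀ x : ℝ × ℝ, (b x.1 * p x.2) ^ 2 = b x.1 ^ 2 * p x.2 ^ 2 := fun x => by ring
    simp only [e]
    rw [Measure.volume_eq_prod, integral_prod_mul (fun t => b t ^ 2) (fun y => p y ^ 2)]
    set I := Set.Icc (-B) B with hI
    have hvol : (volume : Measure ℝ).real I = 2 * B := by
      rw [hI, Real.volume_real_Icc_of_le (by linarith only [hR])]; ring
    have iI : Integrable (I.indicator fun _ : ℝ => (16 * R ^ 2 * S : ℝ)) :=
      (integrable_indicator_iff measurableSet_Icc).2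
        (integrableOn_const isCompact_Icc.measure_lt_top.ne)
    have ip2 : Integrable fun y => p y ^ 2 :=
      (hps.continuous.pow 2).integrable_of_hasCompactSupport
        (supp_line (B := B) fun y hy => by
          show p y ^ 2 = 0
          rw [hp0 y hy]; ring)
    have h1 : ∫ y, p y ^ 2 ≤ 2 * B * (16 * R ^ 2 * S) := by
      have h2 : ∫ y, p y ^ 2 ≤ ∫ y, I.indicator (fun _ : ℝ => (16 * R ^ 2 * S : ℝ)) y := by
        refine integral_mono ip2 iI fun y => ?_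
        simp only
        by_cases hy : y ∈ I
        · rw [Set.indicator_of_mem hy]
          exact hpb y
        · rw [Set.indicator_of_notMem hy, hp0 y (by
            by_contra h
            exact hy (abs_le.1 (not_lt.1 h)))]
          simp
      refine h2.trans (le_of_eq ?_)
      rw [integral_indicator measurableSet_Icc, setIntegral_const, hvol, smul_eq_mul]
    have h3 : 0 ≤ 16 * R * B * S := by (clear * - hR; positivity)
    calc β * ∫ y, p y ^ 2 ≤ β * (2 * B * (16 * R ^ 2 * S)) := mul_le_mul_of_nonneg_left h1 hβ0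
      _ ≤ _ := by nlinarith only [h3]

/-! ### Pairs with different masses -/

section

variable {P : Measure (Ori (ℤ × ℤ))} [IsProbabilityMeasure P]

omit [IsProbabilityMeasure P] in
lemma Neg.const_mul {X : ℝ → Ori (ℤ × ℤ) → ℝ} (hX : Neg P X) (c : ℝ) :
    Neg P (fun δ ω => c * X δ ω) where
  meas := by
    filter_upwards [hX.meas] with δ h1 using h1.const_mul c
  bdd := by
    obtain ⟨K, hK0, hK⟩ := hX.bdd
    refine ⟨|c| * K, by (clear * - hK0; positivity), ?_⟩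
    filter_upwards [hK] with δ h1
    filter_upwards [h1] with ω h2
    rw [abs_mul]
    exact mul_le_mul_of_nonneg_left h2 (abs_nonneg _)
  lim := by
    have h := hX.lim.const_mul |c|
    rw [mul_zero] at h
    refine h.congr fun δ => ?_
    rw [← integral_const_mul]
    refine integral_congr_ae (Eventually.of_forall fun ω => ?_)
    simp only
    rw [abs_mul]

/-- The normalisation is harmless. -/
theorem neg_norm' (hP : Hyp P) {φ g : ℝ × ℝ → ℝ} (hφ : Sm φ) (hg : Sm g) (h0 : ∫ x, g x ≠ 0) :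
    Neg P (fun δ ω => ((∫ x, φ x) / (∫ x, g x) - sm δ φ / sm δ g) * fld (FP.Hc ω) δ g) := by
  obtain ⟨K1, hK1, h1⟩ := sm_rate hφ
  obtain ⟨K2, hK2, h2⟩ := sm_rate hg
  obtain ⟨R, F, L, hR0, hF0, hL0, hR, hF, hL, hi, hc, hs⟩ := rot_const hg
  set m : ℝ := |∫ x, g x| with hm
  have hm0 : 0 < m := abs_pos.2 h0
  set c : ℝ := (∫ x, φ x) / (∫ x, g x) with hcd
  set K3 : ℝ := |c| * K2 + K1 with hK3
  have hK30 : 0 ≤ K3 := by (clear * - hK2 hK1; positivity)
  -- the ratio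
  have hr : ∀ᶠ δ in 𝓝[>] (0 : ℝ), |c - sm δ φ / sm δ g| ≤ 2 * K3 / m * δ := by
    have hlim := (sm_tendsto hg).abs
    have hev := hlim.eventually_const_lt (show m / 2 < |∫ x, g x| by rw [← hm]; linarith only [hm0])
    filter_upwards [hev, self_mem_nhdsWithin,
      mem_nhdsWithin_of_mem_nhds (Iic_mem_nhds one_pos)] with δ h3 hδ hδ1
    have hδ0 : 0 < δ := hδ
    have h4 : sm δ g ≠ 0 := by
      intro h
      rw [h, abs_zero] at h3
      linarith only [hm0, h3]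
    have e : c - sm δ φ / sm δ g = (c * sm δ g - sm δ φ) / sm δ g := by
      (clear * - h4; field_simp)
    rw [e, abs_div, div_le_iff₀ (abs_pos.2 h4)]
    have h5 : |c * sm δ g - sm δ φ| ≤ K3 * δ := by
      have e3 : c * ∫ x, g x = ∫ x, φ x := by rw [hcd]; (clear * - h0; field_simp)
      have e2 : c * sm δ g - sm δ φ = c * (sm δ g - ∫ x, g x) - (sm δ φ - ∫ x, φ x) := by
        rw [mul_sub, e3]; ring
      rw [e2]
      refine (abs_sub _ _).trans ?_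
      rw [abs_mul, hK3]
      have a1 := mul_le_mul_of_nonneg_left (h2 δ hδ0 hδ1) (abs_nonneg c)
      have a2 := h1 δ hδ0 hδ1
      linarith only [a1, a2]
    refine h5.trans ?_
    have h6 : 2 * K3 / m * δ * (m / 2) ≤ 2 * K3 / m * δ * |sm δ g| :=
      mul_le_mul_of_nonneg_left h3.le (by (clear * - hK2 hK1 h0 hδ0; positivity))
    refine le_trans (le_of_eq ?_) h6
    (clear * - hm0 hδ0; field_simp)
  set κ : ℝ := 2 * K3 / m * (2 * F) with hκ
  have hκ0 : 0 ≤ κ := by (clear * - hK2 hK1 h0 hF0; positivity)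
  obtain ⟨u, hu, hu2⟩ := small_lim hP hR0 κ
  have hform : ∀ δ : ℝ, 0 < δ → ∀ ω, (c - sm δ φ / sm δ g) * fld (FP.Hc ω) δ g =
      ∑ q ∈ hbox (FP.NN R δ + 1), FP.ev q * ((pth ω q : ℝ) *
        ((c - sm δ φ / sm δ g) * (2 * δ ^ 2 * rot g (δ * q.1, δ * q.2)))) := by
    intro δ hδ ω
    have hN := NN_ge R δ
    rw [fld_eq (h := pth ω) (H := FP.Hc ω) (fun v => rfl) hR hδ (N := FP.NN R δ + 1)
      (by push_cast; linarith only [hN])]
    unfold xs
    rw [Finset.mul_sum, Finset.mul_sum]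
    exact Finset.sum_congr rfl fun q _ => by ring
  have hsmall : ∀ δ : ℝ, 0 < δ → |c - sm δ φ / sm δ g| ≤ 2 * K3 / m * δ → ∀ q : ℤ × ℤ,
      |(c - sm δ φ / sm δ g) * (2 * δ ^ 2 * rot g (δ * q.1, δ * q.2))| ≤ κ * δ ^ 3 := by
    intro δ hδ h3 q
    rw [abs_mul, abs_mul, abs_of_nonneg (by positivity : (0 : ℝ) ≤ 2 * δ ^ 2)]
    calc |c - sm δ φ / sm δ g| * (2 * δ ^ 2 * |rot g (δ * q.1, δ * q.2)|)
        ≤ (2 * K3 / m * δ) * (2 * δ ^ 2 * F) := by
          refine mul_le_mul h3 (mul_le_mul_of_nonneg_left (hF _) (by positivity)) (by (clear * - hδ; positivity))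
            (by (clear * - hK2 hK1 h0 hδ; positivity))
      _ = κ * δ ^ 3 := by rw [hκ]; ring
  refine ⟨?_, ⟨(2 * R + 7) ^ 3 * κ, by (clear * - hR0 hK2 hK1 h0 hF0; positivity), ?_⟩, ?_⟩
  · filter_upwards [self_mem_nhdsWithin] with δ hδ
    have hδ0 : 0 < δ := hδ
    exact ((fld_integrable hg.2 hδ0).const_mul _).aestronglyMeasurable
  · filter_upwards [hr, self_mem_nhdsWithin,
      mem_nhdsWithin_of_mem_nhds (Iic_mem_nhds one_pos)] with δ h3 hδ hδ1
    refine Eventually.of_forall fun ω => ?_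
    rw [hform δ hδ ω]
    exact small_bdd hR0 hδ hδ1
      (K := fun q => (c - sm δ φ / sm δ g) * (2 * δ ^ 2 * rot g (δ * q.1, δ * q.2)))
      (hsmall δ hδ h3) ω
  · refine tendsto_of_tendsto_of_tendsto_of_le_of_le' tendsto_const_nhds hu
      (Eventually.of_forall fun δ => integral_nonneg fun ω => abs_nonneg _) ?_
    filter_upwards [hr, self_mem_nhdsWithin,
      mem_nhdsWithin_of_mem_nhds (Iic_mem_nhds one_pos)] with δ h3 hδ hδ1
    simp only [hform δ hδ]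
    exact hu2 δ hδ hδ1
      (fun q => (c - sm δ φ / sm δ g) * (2 * δ ^ 2 * rot g (δ * q.1, δ * q.2)))
      (hsmall δ hδ h3)

/-- Moments of the neutral combination of two test functions. -/
theorem pair_moment' (hP : Hyp P) {φ g : ℝ × ℝ → ℝ} (hφ : Sm φ) (hg : Sm g)
    (h0 : ∫ x, g x ≠ 0) {k : ℕ} {B : ℝ}
    (hB : ∀ᶠ δ in 𝓝[>] (0 : ℝ),
      Integrable (fun ω => hint (pth ω) δ (fun x => rot φ x -
        ((∫ x, φ x) / (∫ x, g x)) * rot g x) ^ (2 * k)) P ∧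
        ∫ ω, hint (pth ω) δ (fun x => rot φ x -
          ((∫ x, φ x) / (∫ x, g x)) * rot g x) ^ (2 * k) ∂P ≤ B) {η : ℝ}
    (hη : 0 < η) : ∀ᶠ δ in 𝓝[>] (0 : ℝ),
      Integrable (fun ω => (fld (FP.Hc ω) δ φ - sm δ φ / sm δ g * fld (FP.Hc ω) δ g) ^ (2 * k)) P ∧
        ∫ ω, (fld (FP.Hc ω) δ φ - sm δ φ / sm δ g * fld (FP.Hc ω) δ g) ^ (2 * k) ∂P ≤
          2 ^ (2 * k) * (B + η) := by
  obtain ⟨R, F, L, hR0, hF0, hL0, hR, hF, hL, hi, hc, hs⟩ := rot_const hφ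
  obtain ⟨R', F', L', hR0', hF0', hL0', hR', hF', hL', hi', hc', hs'⟩ := rot_const hg
  set c : ℝ := (∫ x, φ x) / (∫ x, g x) with hcd
  have hN : Neg P (fun δ ω => (fld (FP.Hc ω) δ φ - hint (pth ω) δ (rot φ)) +
      ((-c) * (fld (FP.Hc ω) δ g - hint (pth ω) δ (rot g)) +
        (c - sm δ φ / sm δ g) * fld (FP.Hc ω) δ g)) :=
    (neg_fld hP hφ).add (((neg_fld hP hg).const_mul (-c)).add (neg_norm' hP hφ hg h0))
  have hsc : Continuous fun x => c * rot g x := continuous_const.mul hc'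
  have hss : HasCompactSupport fun x => c * rot g x := hs'.mul_left
  have hmul : ∀ (δ : ℝ) (ω : Ori (ℤ × ℤ)), hint (pth ω) δ (fun x => c * rot g x) =
      c * hint (pth ω) δ (rot g) := by
    intro δ ω
    unfold hint
    rw [← integral_const_mul]
    refine integral_congr_ae (Eventually.of_forall fun x => ?_)
    simp only
    ring
  have hsub : ∀ δ : ℝ, 0 < δ → ∀ ω, hint (pth ω) δ (fun x => rot φ x - c * rot g x) =
      hint (pth ω) δ (rot φ) - c * hint (pth ω) δ (rot g) := by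
    intro δ hδ ω
    have h1 := P152.GFF.S.hint_add (pth ω) hδ (F := fun x => rot φ x - c * rot g x)
      (G := fun x => c * rot g x) (hc.sub hsc) (hs.sub hss) hsc hss
    simp only [sub_add_cancel] at h1
    rw [hmul] at h1
    linarith only [h1]
  have h := moment_add hN (Y := fun δ ω => hint (pth ω) δ (fun x => rot φ x - c * rot g x))
    (by
      filter_upwards [self_mem_nhdsWithin] with δ hδ
      exact (hint_integrable (hc.sub hsc) (hs.sub hss) hδ).aestronglyMeasurable) hB hη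
  filter_upwards [h, self_mem_nhdsWithin] with δ h1 hδ
  have e : ∀ ω, hint (pth ω) δ (fun x => rot φ x - c * rot g x) +
      ((fld (FP.Hc ω) δ φ - hint (pth ω) δ (rot φ)) +
      ((-c) * (fld (FP.Hc ω) δ g - hint (pth ω) δ (rot g)) +
        (c - sm δ φ / sm δ g) * fld (FP.Hc ω) δ g)) =
      fld (FP.Hc ω) δ φ - sm δ φ / sm δ g * fld (FP.Hc ω) δ g := by
    intro ω
    rw [hsub δ hδ ω]
    ring
  simpa only [e] using h1

lemma sq_int_le {A₁ A₂ : ℝ × ℝ → ℝ} (h₁ : Sm A₁) (h₂ : Sm A₂) (c : ℝ) :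
    ∫ x, (A₁ x - c * A₂ x) ^ 2 ≤ 2 * (∫ x, A₁ x ^ 2) + 2 * c ^ 2 * ∫ x, A₂ x ^ 2 := by
  have hi : ∀ {A : ℝ × ℝ → ℝ}, Sm A → Integrable fun x => A x ^ 2 := by
    intro A hA
    refine (hA.1.continuous.pow 2).integrable_of_hasCompactSupport ?_
    refine HasCompactSupport.intro hA.2.isCompact fun x hx => ?_
    show A x ^ 2 = 0
    rw [image_eq_zero_of_notMem_tsupport hx]; ring
  have h3 : Sm fun x => A₁ x - c * A₂ x := ⟨h₁.1.sub (contDiff_const.mul h₂.1), h₁.2.sub h₂.2.mul_left⟩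
  rw [← integral_const_mul, ← integral_const_mul, ← integral_add ((hi h₁).const_mul _)
    ((hi h₂).const_mul _)]
  refine integral_mono (hi h3) (((hi h₁).const_mul _).add ((hi h₂).const_mul _)) fun x => ?_
  simp only
  nlinarith only [sq_nonneg (A₁ x + c * A₂ x)]

/-- **All moments of the neutral combination of a test function and a fixed one.** -/
theorem gen_quant (hP : Hyp P) {C γ : ℝ} (hC : 0 ≤ C) (hγ : 0 < γ) (hE : EGD P C γ)
    (hS : SymM P) {i : ℝ × ℝ → ℝ} (hi : Sm i) (hi0 : ∫ x, i x ≠ 0) {R : ℝ} (hR : 0 < R) (k : ℕ) :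
    ∃ K : ℝ, 0 ≤ K ∧ ∀ φ : ℝ × ℝ → ℝ, Sm φ → (∀ x, φ x ≠ 0 → |x.1| ≤ R ∧ |x.2| ≤ R) →
      ∀ ε : ℝ, 0 < ε → ∀ᶠ δ in 𝓝[>] (0 : ℝ),
      Integrable (fun ω => (fld (FP.Hc ω) δ φ - sm δ φ / sm δ i * fld (FP.Hc ω) δ i) ^ (2 * k)) P ∧
        ∫ ω, (fld (FP.Hc ω) δ φ - sm δ φ / sm δ i * fld (FP.Hc ω) δ i) ^ (2 * k) ∂P ≤
          K * ((∫ x, φ x ^ 2) + ε) ^ k := by
  obtain ⟨R₁, F, L, hR10, hF0, hL0, hR1, hF, hL, _, _, _⟩ := rot_const hi
  set R' : ℝ := max (2 * R) R₁ with hR'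
  have hR'0 : 0 < R' := lt_max_of_lt_right hR10
  obtain ⟨K, hK, hdec⟩ := decomp_quant hR'0
  obtain ⟨Ψi, Φi, G₁, G₂, hΨi, hΦi, hG₁, hG₂, di₁, di₂, ei, bi₁, bi₂, _⟩ := hdec (rot i) (rot_sm hi)
    (fun x hx => ⟨(hR1 x hx).1.trans (le_max_right _ _), (hR1 x hx).2.trans (le_max_right _ _)⟩)
  set mi : ℝ := ∫ x, rot i x with hmi
  have hmi0 : mi ≠ 0 := by
    rw [hmi, int_rot]
    exact mul_ne_zero (by norm_num) hi0
  set Si : ℝ := ∫ x, rot i x ^ 2 with hSi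
  have hSi0 : 0 ≤ Si := integral_nonneg fun x => sq_nonneg _
  set K1 : ℝ := 2 * K * (1 + 4 * R' ^ 2 / mi ^ 2 * Si) with hK1
  have hK10 : 0 ≤ K1 := by (clear * - hK hR hmi0; positivity)
  set K2 : ℝ := K1 / 8 + 1 with hK2
  have hK20 : 0 ≤ K2 := by (clear * - hK hR hmi0; positivity)
  have hDD := DD_nonneg C k
  refine ⟨2 ^ (2 * k) * (2 ^ (2 * k) * (DD C k + DD C k) + 1) * K2 ^ k, by (clear * - hDD hK hR hmi0; positivity),
    fun φ hφ hs ε hε => ?_⟩
  have hrs : ∀ x, rot φ x ≠ 0 → |x.1| ≤ R' ∧ |x.2| ≤ R' := by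
    intro x hx
    unfold rot at hx
    obtain ⟨h1, h2⟩ := hs _ (right_ne_zero_of_mul hx)
    simp only at h1 h2
    have h3 := le_max_left (2 * R) R₁
    rw [← hR'] at h3
    rw [abs_le] at h1 h2 ⊢
    rw [abs_le]
    refine ⟨⟨?_, ?_⟩, ⟨?_, ?_⟩⟩ <;> linarith only [h1, h2, h3]
  obtain ⟨Ψ, Φ, F₁, F₂, hΨ, hΦ, hF₁, hF₂, d₁, d₂, ef, b₁, b₂, hm⟩ := hdec (rot φ) (rot_sm hφ) hrs
  set m : ℝ := ∫ x, rot φ x with hmd
  set c : ℝ := (∫ x, φ x) / (∫ x, i x) with hc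
  have hcm : c = m / mi := by
    rw [hc, hmd, hmi, int_rot, int_rot]
    rw [mul_div_mul_left _ _ (by norm_num : (1 / 2 : ℝ) ≠ 0)]
  set S : ℝ := ∫ x, rot φ x ^ 2 with hSd
  have hS0 : 0 ≤ S := integral_nonneg fun x => sq_nonneg _
  have hc2 : c ^ 2 ≤ 4 * R' ^ 2 / mi ^ 2 * S := by
    rw [hcm, div_pow, div_le_iff₀ (by (clear * - hmi0; positivity))]
    refine hm.trans (le_of_eq ?_)
    (clear * - hmi0 hR'0; field_simp)
  have hbd : ∀ {A₁ A₂ : ℝ × ℝ → ℝ}, Sm A₁ → Sm A₂ → ∫ x, A₁ x ^ 2 ≤ K * S →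
      ∫ x, A₂ x ^ 2 ≤ K * Si → ∫ x, (A₁ x - c * A₂ x) ^ 2 ≤ K1 * S := by
    intro A₁ A₂ h₁ h₂ h3 h4
    refine (sq_int_le h₁ h₂ c).trans ?_
    have h5 : c ^ 2 * ∫ x, A₂ x ^ 2 ≤ (4 * R' ^ 2 / mi ^ 2 * S) * (K * Si) :=
      mul_le_mul hc2 h4 (integral_nonneg fun x => sq_nonneg _) (by (clear * - hR hmi0; positivity))
    rw [hK1]
    linarith
  have hmom := moment_div hC hγ hE hP.ice hS (Ψ := fun x => Ψ x - c * Ψi x)
    (Φ := fun x => Φ x - c * Φi x) (F₁ := fun x => F₁ x - c * G₁ x)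
    (F₂ := fun x => F₂ x - c * G₂ x)
    ⟨hΨ.1.sub (contDiff_const.mul hΨi.1), hΨ.2.sub hΨi.2.mul_left⟩
    ⟨hΦ.1.sub (contDiff_const.mul hΦi.1), hΦ.2.sub hΦi.2.mul_left⟩
    (hF₁.1.continuous.sub (continuous_const.mul hG₁.1.continuous)) (hF₁.2.sub hG₁.2.mul_left)
    (hF₂.1.continuous.sub (continuous_const.mul hG₂.1.continuous)) (hF₂.2.sub hG₂.2.mul_left)
    (fun t y => (d₁ t y).sub ((di₁ t y).const_mul c))
    (fun t y => (d₂ t y).sub ((di₂ t y).const_mul c)) k hε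
  have e : (fun x => (F₁ x - c * G₁ x) + (F₂ x - c * G₂ x)) =
      fun x => rot φ x - ((∫ x, φ x) / (∫ x, i x)) * rot i x := by
    funext x
    rw [ef x, ei x, ← hc, hcm]
    have : m / mi * mi = m := div_mul_cancel₀ _ hmi0
    linear_combination (b x.1 * b x.2) * this
  rw [e] at hmom
  set W : ℝ := K1 * S + ε with hW
  have hW0 : 0 < W := by (clear * - hK hR hmi0 hε; positivity)
  have hmom' : ∀ᶠ δ in 𝓝[>] (0 : ℝ),
      Integrable (fun ω => hint (pth ω) δ (fun x => rot φ x -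
        ((∫ x, φ x) / (∫ x, i x)) * rot i x) ^ (2 * k)) P ∧
        ∫ ω, hint (pth ω) δ (fun x => rot φ x -
          ((∫ x, φ x) / (∫ x, i x)) * rot i x) ^ (2 * k) ∂P ≤
          2 ^ (2 * k) * (DD C k * W ^ k + DD C k * W ^ k) := by
    filter_upwards [hmom] with δ h1
    refine ⟨h1.1, h1.2.trans ?_⟩
    have h2 : ((∫ x, (Ψ x - c * Ψi x) ^ 2) + ε) ^ k ≤ W ^ k :=
      pow_le_pow_left₀ (add_nonneg (integral_nonneg fun x => sq_nonneg _) hε.le)
        (add_le_add (hbd hΨ hΨi b₁ bi₁) le_rfl) k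
    have h3 : ((∫ x, (Φ x - c * Φi x) ^ 2) + ε) ^ k ≤ W ^ k :=
      pow_le_pow_left₀ (add_nonneg (integral_nonneg fun x => sq_nonneg _) hε.le)
        (add_le_add (hbd hΦ hΦi b₂ bi₂) le_rfl) k
    (clear * - h2 hDD h3; gcongr)
  filter_upwards [pair_moment' hP hφ hi hi0 hmom' (pow_pos hW0 k)] with δ h1
  refine ⟨h1.1, h1.2.trans ?_⟩
  have h4 : W ≤ K2 * ((∫ x, φ x ^ 2) + ε) := by
    have h5 : S = 1 / 8 * ∫ x, φ x ^ 2 := int_rot_sq φ
    have h6 : 0 ≤ ∫ x, φ x ^ 2 := integral_nonneg fun x => sq_nonneg _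
    rw [hW, h5, hK2]
    nlinarith only [hS0, h5, hK10, hε]
  have h5 : W ^ k ≤ K2 ^ k * ((∫ x, φ x ^ 2) + ε) ^ k := by
    rw [← mul_pow]
    exact pow_le_pow_left₀ hW0.le h4 k
  have e2 : 2 ^ (2 * k) * (2 ^ (2 * k) * (DD C k * W ^ k + DD C k * W ^ k) + W ^ k) =
      2 ^ (2 * k) * (2 ^ (2 * k) * (DD C k + DD C k) + 1) * W ^ k := by ring
  rw [e2, mul_assoc (2 ^ (2 * k) * (2 ^ (2 * k) * (DD C k + DD C k) + 1))]
  exact mul_le_mul_of_nonneg_left h5 (by (clear * - hDD; positivity))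

end

end Vale.Agent.P145.FB.Mom
end

section

/-!
P145: convergence of the height functions of boxes with free arrows to the heights of the plane.
-/

set_option autoImplicit false

namespace Vale.Agent.P145.FK

open Finset Filter Topology MeasureTheory
open Vale.Agent.P152 Vale.Agent.P152.GFF.B3
open Vale.Agent.P145.FA (BoxLim rg_evn ofW)

lemma lh_W6_nonneg {c : ℝ} (hc : 0 < c) (hc2 : c ≤ 2) {V E : Type} [Fintype V] (N : Vale.Agent.P152.GFF.B3.Net V E)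
    (k : E → ZMod 2) : 0 ≤ N.W6 (wc c) k := by
  refine Finset.prod_nonneg (fun v _ => ?_)
  rw [w6_val]
  have h1 : 0 ≤ wc c Pairing.str := by
    show 0 ≤ 1 - c / 2
    linarith only [hc2]
  have h2 : 0 ≤ wc c Pairing.t1 := by
    show 0 ≤ c / 2
    linarith
  have h3 : 0 ≤ wc c Pairing.t2 := by
    show 0 ≤ c / 2
    linarith
  split_ifs <;> positivity

lemma lh_ar_pos {c : ℝ} (hc : 0 < c) (hc2 : c ≤ 2) (M R : ℕ) :
    0 < (boxNet M R).ar (wc c) (fun _ => 1) := by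
  unfold Vale.Agent.P152.GFF.B3.Net.ar
  have h2 : (boxNet M R).W6 (wc c) (fun _ => 0) = 1 := by
    unfold Vale.Agent.P152.GFF.B3.Net.W6
    refine Finset.prod_eq_one fun v _ => ?_
    rw [w6_val, if_pos ⟨rfl, rfl⟩, if_neg (by simp only [zero_add, zero_ne_one, and_self, not_false_eq_true]), if_pos ⟨rfl, rfl⟩]
    show 1 - c / 2 + 0 + c / 2 = 1
    ring
  have h1 := Finset.single_le_sum (f := fun k : BE M R → ZMod 2 => 1 * (boxNet M R).W6 (wc c) k)
      (fun k _ => by rw [one_mul]; exact lh_W6_nonneg hc hc2 _ k)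
      (Finset.mem_univ (fun _ => (0 : ZMod 2)))
  rw [h2] at h1
  linarith only [h1]

lemma lh_ar {c : ℝ} (hb : BoxLim c) (m r : ℕ) (hm : 1 ≤ m) (hr : 1 ≤ r)
    (φ : (BE m r → ZMod 2) → ℝ) (ε : ℝ) (hε : 0 < ε) : ∃ q0 : ℕ, ∀ q : ℕ, q0 ≤ q →
      ∀ (M R : ℕ) (hM : q + m + q = M) (hR : q + r + q = R),
      |(boxNet M R).ar (wc c) (fun k => φ (fun e => k (bxg q q (by omega) (by omega) e))) /
        (boxNet M R).ar (wc c) (fun _ => 1) - mu (wc c) m r φ| ≤ ε := by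
  obtain ⟨q0, hq0⟩ := hb m r hm hr
    (fun x => φ x * (boxNet m r).W6 (wc c) x) (rg_evn m r hm hr (wc c) φ) ε hε
  refine ⟨q0, fun q hq M R hM hR => ?_⟩
  subst hM hR
  have h1 := hq0 q hq
  rw [← m_loc _ _ _ _ _ _ _ _ _ (m_emb.2.2.1 m r (q + m + q) (q + r + q) q q (by omega)
    (by omega)) φ] at h1
  exact h1

/-! ### Windows -/

lemma lh_lc_inj (m r : ℕ) (x0 y0 : ℤ) : Function.Injective (lc m r x0 y0) := by
  rintro (⟨i, j⟩ | ⟨i, j⟩) (⟨i', j'⟩ | ⟨i', j'⟩) h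
  · have h1 : (x0 + (i : ℤ) - 1, y0 + (j : ℤ)) = (x0 + (i' : ℤ) - 1, y0 + (j' : ℤ)) :=
      Sum.inl.inj h
    have h2 := congrArg Prod.fst h1
    have h3 := congrArg Prod.snd h1
    dsimp only at h2 h3
    congr 1
    exact Prod.ext (Fin.ext (by show i.val = i'.val; (clear * - h2; omega))) (Fin.ext (by show j.val = j'.val; omega))
  · exact absurd h (by simp only [lc, reduceCtorEq, not_false_eq_true])
  · exact absurd h (by simp only [lc, reduceCtorEq, not_false_eq_true])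
  · have h1 : (x0 + (i : ℤ), y0 + (j : ℤ) - 1) = (x0 + (i' : ℤ), y0 + (j' : ℤ) - 1) :=
      Sum.inr.inj h
    have h2 := congrArg Prod.fst h1
    have h3 := congrArg Prod.snd h1
    dsimp only at h2 h3
    congr 1
    exact Prod.ext (Fin.ext (by show i.val = i'.val; omega)) (Fin.ext (by show j.val = j'.val; omega))

lemma lh_ofW (m r : ℕ) (x0 y0 : ℤ) (x : BE m r → ZMod 2) (e : BE m r) :
    ofW m r x0 y0 x (lc m r x0 y0 e) = bz.symm (x e) := by
  have h : ∃ e', lc m r x0 y0 e' = lc m r x0 y0 e := ⟨e, rfl⟩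
  unfold ofW
  rw [dif_pos h, lh_lc_inj m r x0 y0 h.choose_spec]

lemma lh_anti {g g' : ℤ → ℤ} {n : ℤ} (m : ℤ) (hn : -m ≤ n) (hn' : n ≤ m)
    (h : ∀ i, -m < i → i ≤ m → g i = g' i) : anti g n = anti g' n := by
  have hm : 0 ≤ m := by omega
  unfold anti
  congr 1
  · refine Finset.sum_congr rfl fun i hi => ?_
    rw [Finset.mem_Ioc] at hi
    exact h i (by omega) (by omega)
  · refine Finset.sum_congr rfl fun i hi => ?_
    rw [Finset.mem_Ioc] at hi
    exact h i (by omega) (by omega)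

lemma lh_pth {m : ℕ} {ω ω' : Ori (ℤ × ℤ)}
    (h : ∀ e, ω (lc (2 * m) (2 * m) (1 - m) (1 - m) e) =
      ω' (lc (2 * m) (2 * m) (1 - m) (1 - m) e)) {q : ℤ × ℤ}
    (h1 : -(m : ℤ) ≤ q.1) (h2 : q.1 ≤ m) (h3 : -(m : ℤ) ≤ q.2) (h4 : q.2 ≤ m) :
    pth ω q = pth ω' q := by
  unfold pth
  congr 1
  · refine lh_anti (m : ℤ) h3 h4 fun j hj hj' => ?_
    have h5 := h (Sum.inl (⟨m, by omega⟩, ⟨(j - 1 + m).toNat, by omega⟩))
    have e1 : lc (2 * m) (2 * m) (1 - m) (1 - m)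
        (Sum.inl (⟨m, by omega⟩, ⟨(j - 1 + m).toNat, by omega⟩)) = Sum.inl (0, j) := by
      show Sum.inl ((1 - m : ℤ) + ((m : ℕ) : ℤ) - 1, (1 - m : ℤ) + ((j - 1 + m).toNat : ℤ)) = _
      congr 1
      exact Prod.ext (by dsimp only; omega) (by dsimp only; omega)
    rw [e1] at h5
    rw [h5]
  · refine lh_anti (m : ℤ) h1 h2 fun i hi hi' => ?_
    have h5 := h (Sum.inr (⟨(i - 1 + m).toNat, by omega⟩, ⟨(q.2 + m).toNat, by omega⟩))
    have e1 : lc (2 * m) (2 * m) (1 - m) (1 - m)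
        (Sum.inr (⟨(i - 1 + m).toNat, by omega⟩, ⟨(q.2 + m).toNat, by omega⟩)) =
        Sum.inr (i, q.2) := by
      show Sum.inr ((1 - m : ℤ) + ((i - 1 + m).toNat : ℤ),
        (1 - m : ℤ) + ((q.2 + m).toNat : ℤ) - 1) = _
      congr 1
      exact Prod.ext (by dsimp only; omega) (by dsimp only; (clear * - h3; omega))
    rw [e1] at h5
    rw [h5]

lemma lh_lc_bxg (m n q : ℕ) (hn : q + m = n) (hx : q + 2 * m ≤ 2 * n) (e : BE (2 * m) (2 * m)) :
    lc (2 * n) (2 * n) (1 - n) (1 - n) (bxg q q hx hx e) =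
      lc (2 * m) (2 * m) (1 - m) (1 - m) e := by
  subst hn
  rcases e with ⟨i, j⟩ | ⟨i, j⟩
  · show Sum.inl ((1 - ((q + m : ℕ) : ℤ)) + ((q + i.val : ℕ) : ℤ) - 1,
      (1 - ((q + m : ℕ) : ℤ)) + ((q + j.val : ℕ) : ℤ)) =
      Sum.inl ((1 - m : ℤ) + (i.val : ℤ) - 1, (1 - m : ℤ) + (j.val : ℤ))
    congr 1
    exact Prod.ext (by push_cast; ring) (by push_cast; ring)
  · show Sum.inr ((1 - ((q + m : ℕ) : ℤ)) + ((q + i.val : ℕ) : ℤ),
      (1 - ((q + m : ℕ) : ℤ)) + ((q + j.val : ℕ) : ℤ) - 1) =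
      Sum.inr ((1 - m : ℤ) + (i.val : ℤ), (1 - m : ℤ) + (j.val : ℤ) - 1)
    congr 1
    exact Prod.ext (by push_cast; ring) (by push_cast; ring)

/-- Convergence of the local functions of the heights. -/
theorem lim_hgt {c : ℝ} (hb : BoxLim c) {P : Measure (Ori (ℤ × ℤ))} (hP : IsP c P) {m : ℕ}
    (g : ((ℤ × ℤ) → ℤ) → ℝ)
    (hg : ∀ h h' : (ℤ × ℤ) → ℤ, (∀ q ∈ Finset.Icc (-(m : ℤ)) m ×ˢ Finset.Icc (-(m : ℤ)) m,
      h q = h' q) → g h = g h') (j : ℤ) :
    Tendsto (fun n : ℕ => (∑ k : BE (2 * n) (2 * n) → ZMod 2,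
      g (fun q => pth (ofW (2 * n) (2 * n) (1 - n) (1 - n) k) q + 2 * j) *
        (boxNet (2 * n) (2 * n)).W6 (wc c) k) / (boxNet (2 * n) (2 * n)).ar (wc c) (fun _ => 1))
      atTop (𝓝 (∫ w, g (fun q => pth w q + 2 * j) ∂P)) := by
  set m' : ℕ := m + 1 with hm'
  set φ : (BE (2 * m') (2 * m') → ZMod 2) → ℝ := fun x =>
    g (fun q => pth (ofW (2 * m') (2 * m') (1 - m') (1 - m') x) q + 2 * j) with hφ
  have hI : ∫ w, g (fun q => pth w q + 2 * j) ∂P = mu (wc c) (2 * m') (2 * m') φ := by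
    rw [← hP.2.2 (2 * m') (2 * m') (by omega) (by omega) φ (1 - m') (1 - m')]
    refine integral_congr_ae (Eventually.of_forall fun w => ?_)
    refine hg _ _ fun q hq => ?_
    rw [Finset.mem_product, Finset.mem_Icc, Finset.mem_Icc] at hq
    have : pth w q = pth (ofW (2 * m') (2 * m') (1 - m') (1 - m')
        (rd (2 * m') (2 * m') (1 - m') (1 - m') w)) q := by
      refine lh_pth (m := m') (fun e => ?_) (by omega) (by omega) (by omega) (by omega)
      rw [lh_ofW, rd_eq, Equiv.symm_apply_apply]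
    rw [this]
  rw [hI, Metric.tendsto_atTop]
  intro ε hε
  obtain ⟨q0, hq0⟩ := lh_ar hb (2 * m') (2 * m') (by omega) (by omega) φ (ε / 2) (by linarith only [hε])
  refine ⟨q0 + m', fun n hn => ?_⟩
  obtain ⟨q, hq⟩ : ∃ q, q + m' = n := ⟨n - m', by omega⟩
  have h1 := hq0 q (by omega) (2 * n) (2 * n) (by omega) (by omega)
  have h2 : (boxNet (2 * n) (2 * n)).ar (wc c)
      (fun k => φ (fun e => k (bxg q q (by omega) (by omega) e))) =
      ∑ k : BE (2 * n) (2 * n) → ZMod 2,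
      g (fun q => pth (ofW (2 * n) (2 * n) (1 - n) (1 - n) k) q + 2 * j) *
        (boxNet (2 * n) (2 * n)).W6 (wc c) k := by
    have h3 : ∀ k : BE (2 * n) (2 * n) → ZMod 2,
        φ (fun e => k (bxg q q (by omega) (by omega) e)) =
        g (fun q => pth (ofW (2 * n) (2 * n) (1 - n) (1 - n) k) q + 2 * j) := by
      intro k
      refine hg _ _ fun p hp => ?_
      rw [Finset.mem_product, Finset.mem_Icc, Finset.mem_Icc] at hp
      have : pth (ofW (2 * m') (2 * m') (1 - m') (1 - m')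
          (fun e => k (bxg q q (by (clear * - hq; omega)) (by omega) e))) p =
          pth (ofW (2 * n) (2 * n) (1 - n) (1 - n) k) p := by
        refine lh_pth (m := m') (fun e => ?_) (by omega) (by (clear * - hq hp; omega)) (by omega) (by omega)
        rw [lh_ofW, ← lh_lc_bxg m' n q hq (by omega) e, lh_ofW]
      rw [this]
    unfold Vale.Agent.P152.GFF.B3.Net.ar
    simp only [h3]
  rw [h2] at h1
  rw [Real.dist_eq]
  linarith only [hε, h1]

end Vale.Agent.P145.FK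
end

section

/-!
P145, block F-C: summation over the edge variables of the box = averaging over independent marks.
-/

namespace Vale.Agent.P145.FK

open Finset MeasureTheory
open scoped Classical

/-- The weight of a mark. -/
noncomputable def bw (t : ℝ) (b : Bool) : ℝ := if b then t else 1 - t

lemma edge_sum {t : ℝ} (ht : t ≠ 0) (a b k l : ℤ) (c : Bool) :
    ∑ x ∈ Finset.univ.filter (fun x : Bool =>
      (!(decide (a = 0) && decide (b = 0) && (!(decide (k = l)) || x))) = c),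
        bw t x * (if a = b ∧ k = l then t⁻¹ else 1) =
    if c = false ∧ ¬ (a = 0 ∧ b = 0) then 0
      else (if a = 0 ∧ b = 0 then (if c = true then (if k = l then t⁻¹ - 1 else 0) else 1)
        else (if a = b ∧ k = l then t⁻¹ else 1)) := by
  rw [Finset.sum_filter, Fintype.sum_bool]
  by_cases ha : a = 0
  · by_cases hb : b = 0
    · subst ha; subst hb
      by_cases hk : k = l <;> cases c <;> simp [bw, hk, ht] <;> (clear * - ht; field_simp)
    · have hb' : (0 : ℤ) ≠ b := Ne.symm hb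
      subst ha
      by_cases hk : k = l <;> cases c <;> simp [bw, hk, hb, hb']
  · by_cases hk : k = l <;> by_cases hab : a = b <;> cases c <;> simp [bw, hk, ha, hab] <;>
      first
        | (subst hab; simp only [ha, ↓reduceIte]; ring)
        | (subst hab; simp [ha])
        | ring

namespace Net

variable {V F E : Type*}

/-- The edge variable (not blocked) as a function of the signed heights and the marks. -/
noncomputable def wof (N : Net V F E) (y : V ⊕ F → ℤ) (ξ : E → Bool) (e : E) : Bool :=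
  !(decide (y (.inl (N.u e)) = 0) && decide (y (.inl (N.v e)) = 0) &&
    (!(decide (y (.inr (N.f e)) = y (.inr (N.g e)))) || ξ e))

/-- Summation over the edge variables. -/
theorem sum_phi [Fintype V] [Fintype F] [Fintype E] (N : Net V F E) {t : ℝ} (ht : t ≠ 0)
    {y : V ⊕ F → ℤ} (hy : N.HS Set.univ y) (Γ : (E → Bool) → ℝ) :
    ∑ w : E → Bool, N.Φ t Set.univ (toCf y w) * Γ w =
      N.hw t⁻¹ Set.univ y * ∑ ξ : E → Bool, (∏ e, bw t (ξ e)) * Γ (N.wof y ξ) := by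
  set z : E → Prop := fun e => y (.inl (N.u e)) = 0 ∧ y (.inl (N.v e)) = 0 with hz
  set q : E → Prop := fun e => y (.inr (N.f e)) = y (.inr (N.g e)) with hq
  set he : E → ℝ := fun e => if y (.inl (N.u e)) = y (.inl (N.v e)) ∧ q e then t⁻¹ else 1 with hhe
  set φ : E → Bool → ℝ := fun e b => if b = false ∧ ¬ z e then 0
      else (if z e then (if b = true then (if q e then t⁻¹ - 1 else 0) else 1)
        else (if y (.inl (N.u e)) = y (.inl (N.v e)) ∧ q e then t⁻¹ else 1)) with hφ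
  have hE : ∀ e, N.inE Set.univ e := fun e => ⟨Set.mem_univ _, Set.mem_univ _⟩
  have e1 : ∀ w : E → Bool, N.Φ t Set.univ (toCf y w) = ∏ e, φ e (w e) := by
    intro w
    unfold Φ
    by_cases hC : toCf y w ∈ FC.Cfg N.toInc (N.UU Set.univ) Set.univ
    · rw [if_pos hC]
      unfold FC.wt
      refine Finset.prod_congr rfl fun e _ => ?_
      have he' : N.toInc.a e ∈ (Set.univ : Set F) ∧ N.toInc.b e ∈ (Set.univ : Set F) := hE e
      rw [if_pos he', hφ]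
      simp only
      rw [if_neg]
      · rfl
      · rintro ⟨hw, hn⟩
        exact hn (hC.2.2.2.2.2 e (Set.mem_univ _) (Set.mem_univ _) hw)
    · rw [if_neg hC]
      have hn : ¬ ∀ e, w e = false → z e := by
        intro h'
        exact hC ⟨hy.1, hy.2.1, hy.2.2.1, hy.2.2.2, fun e he => absurd (hE e) he,
          fun e _ _ h2 => h' e h2⟩
      push Not at hn
      obtain ⟨e, hw, hz'⟩ := hn
      symm
      refine Finset.prod_eq_zero (Finset.mem_univ e) ?_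
      rw [hφ]
      simp only
      rw [if_pos ⟨hw, hz'⟩]
  have e2 := sum_fiber (fun (e : E) (b : Bool) =>
      !(decide (y (.inl (N.u e)) = 0) && decide (y (.inl (N.v e)) = 0) &&
        (!(decide (y (.inr (N.f e)) = y (.inr (N.g e)))) || b)))
    (fun _ => Finset.univ) (fun _ _ => Finset.mem_univ _) (fun e b => bw t b * he e)
    Γ
  have e3 : ∀ (e : E) (b : Bool), ∑ x ∈ Finset.univ.filter (fun x : Bool =>
      (!(decide (y (.inl (N.u e)) = 0) && decide (y (.inl (N.v e)) = 0) &&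
        (!(decide (y (.inr (N.f e)) = y (.inr (N.g e)))) || x))) = b), bw t x * he e = φ e b := by
    intro e b
    exact edge_sum ht _ _ _ _ b
  rw [Finset.sum_congr rfl fun w _ => by rw [e1 w]]
  have e4 : N.hw t⁻¹ Set.univ y = ∏ e, he e := by
    unfold hw
    refine Finset.prod_congr rfl fun e _ => ?_
    rw [if_pos (hE e)]
  rw [Fintype.piFinset_univ] at e2
  have e5 : ∑ w : E → Bool, (∏ e, φ e (w e)) * Γ w = ∑ x : E → Bool,
      (∏ e, bw t (x e) * he e) * Γ (N.wof y x) := by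
    refine Eq.trans ?_ e2.symm
    refine Finset.sum_congr (Finset.ext fun _ => by simp) fun w _ => ?_
    congr 1
    refine Finset.prod_congr rfl fun e _ => ?_
    rw [e3]
  rw [e5, e4, Finset.mul_sum]
  refine Finset.sum_congr rfl fun x _ => ?_
  rw [Finset.prod_mul_distrib]
  ring

end Net

open Vale.Agent.P145.FB (Mk Pt mkm bern)

/-- Integrals of functions of finitely many marks. -/
theorem int_mkm {E : Type*} [Fintype E] {ι : E → Pt} (hι : Function.Injective ι) {t : ℝ}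
    (h0 : 0 ≤ t) (h1 : t ≤ 1) (G : (E → Bool) → ℝ) :
    ∫ ξ, G (fun e => ξ (ι e)) ∂(mkm t) = ∑ η : E → Bool, (∏ e, bw t (η e)) * G η := by
  set X : Mk → (E → Bool) := fun ξ e => ξ (ι e) with hX
  have hXm : Measurable X := measurable_pi_lambda _ fun e => measurable_pi_apply _
  have e1 : ∫ ξ, G (fun e => ξ (ι e)) ∂(mkm t) = ∫ η, G η ∂((mkm t).map X) := by
    rw [integral_map hXm.aemeasurable (measurable_of_finite _).aestronglyMeasurable]
  have : IsProbabilityMeasure ((mkm t).map X) :=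
    Measure.isProbabilityMeasure_map hXm.aemeasurable
  rw [e1, integral_fintype Integrable.of_finite]
  refine Finset.sum_congr rfl fun η _ => ?_
  rw [smul_eq_mul]
  congr 1
  rw [Measure.real, Measure.map_apply hXm (measurableSet_singleton _)]
  set T : Finset Pt := Finset.univ.image ι with hT
  set o : Mk := fun p => if h : ∃ e, ι e = p then η h.choose else true with ho
  have ho' : ∀ e, o (ι e) = η e := by
    intro e
    have h : ∃ e', ι e' = ι e := ⟨e, rfl⟩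
    simp only [ho]
    rw [dif_pos h]
    exact congrArg η (hι h.choose_spec)
  have e2 : X ⁻¹' {η} = Set.pi (T : Set Pt) fun p => {o p} := by
    ext ξ
    simp only [Set.mem_preimage, Set.mem_singleton_iff, Set.mem_pi, hT, Finset.coe_image,
      Finset.coe_univ, Set.image_univ, Set.mem_range, forall_exists_index, forall_apply_eq_imp_iff]
    constructor
    · intro h e
      rw [ho', ← h]
    · intro h
      funext e
      rw [← ho' e]
      exact h e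
  rw [e2, mkm, Measure.infinitePi_pi _ (fun p _ => measurableSet_singleton _),
    ENNReal.toReal_prod, hT, Finset.prod_image (fun a _ b _ h => hι h)]
  refine Finset.prod_congr rfl fun e _ => ?_
  have e3 := FB.bern_real t {o (ι e)}
  rw [Measure.real] at e3
  rw [e3, FB.cl_eq h0 h1, ho']
  cases η e <;> simp [bw]

end Vale.Agent.P145.FK
end

section

/-!
P145, block F-C: the heights of the plane on a box of faces of `ℤ²` and the incidence structure
`FK.boxN`.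
-/

namespace Vale.Agent.P145.FK

open Finset MeasureTheory Vale.Agent.P145.FP Vale.Agent.P145.Dom
open Vale.Agent.P145.FA (Hgt mu0 Pl)
open Vale.Agent.P145.FB (Mk Pt mkm bern om e1 e2 o1 o2 Swap)
open scoped Classical

/-- The faces of the six-vertex lattice at the sites of the box `R`. -/
noncomputable def Fc (R : Finset (ℤ × ℤ)) : Finset (ℤ × ℤ) :=
  (verts R).image (fun v => fc (.inl v)) ∪ R.image (fun f => fc (.inr f))

lemma fcB_inj : Function.Injective fc := fun a b h => by rw [← cf_fc a, h, cf_fc]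

lemma mem_Fc_inl {R : Finset (ℤ × ℤ)} {v : ℤ × ℤ} : fc (.inl v) ∈ Fc R ↔ v ∈ verts R := by
  unfold Fc
  rw [Finset.mem_union, Finset.mem_image, Finset.mem_image]
  constructor
  · rintro (⟨v', h1, h2⟩ | ⟨f, h1, h2⟩)
    · have := fcB_inj h2
      rw [Sum.inl.injEq] at this
      rw [← this]; exact h1
    · have := fcB_inj h2
      exact absurd this (by simp)
  · intro h
    exact Or.inl ⟨v, h, rfl⟩

lemma mem_Fc_inr {R : Finset (ℤ × ℤ)} {f : ℤ × ℤ} : fc (.inr f) ∈ Fc R ↔ f ∈ R := by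
  unfold Fc
  rw [Finset.mem_union, Finset.mem_image, Finset.mem_image]
  constructor
  · rintro (⟨v', h1, h2⟩ | ⟨f', h1, h2⟩)
    · have := fcB_inj h2
      exact absurd this (by simp)
    · have := fcB_inj h2
      rw [Sum.inr.injEq] at this
      rw [← this]; exact h1
  · intro h
    exact Or.inr ⟨f, h, rfl⟩

/-- Heights of the plane from the heights on the box. -/
noncomputable def un {R : Finset (ℤ × ℤ)} (y : VB R ⊕ FB R → ℤ) : Hgt := fun q => xt y (cf q)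

lemma un_fc {R : Finset (ℤ × ℤ)} (y : VB R ⊕ FB R → ℤ) (s : Site) : un y (fc s) = xt y s := by
  unfold un; rw [cf_fc]

/-- The site of the plane. -/
def st {R : Finset (ℤ × ℤ)} (i : VB R ⊕ FB R) : Site := Sum.map Subtype.val Subtype.val i

lemma xt_st {R : Finset (ℤ × ℤ)} (y : VB R ⊕ FB R → ℤ) (i : VB R ⊕ FB R) : xt y (st i) = y i := by
  rcases i with v | f
  · exact xt_inl y v
  · exact xt_inr y f

lemma un_st {R : Finset (ℤ × ℤ)} (y : VB R ⊕ FB R → ℤ) (i : VB R ⊕ FB R) :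
    un y (fc (st i)) = y i := by rw [un_fc, xt_st]

/-- A face of the plane is in the box or the extension vanishes. -/
lemma mem_Fc_iff {R : Finset (ℤ × ℤ)} {q : ℤ × ℤ} : q ∈ Fc R ↔ ∃ i : VB R ⊕ FB R, fc (st i) = q := by
  constructor
  · intro h
    rw [← fc_cf q] at h
    rcases hq : cf q with v | f
    · rw [hq, mem_Fc_inl] at h
      exact ⟨.inl ⟨v, h⟩, by rw [← fc_cf q, hq]; rfl⟩
    · rw [hq, mem_Fc_inr] at h
      exact ⟨.inr ⟨f, h⟩, by rw [← fc_cf q, hq]; rfl⟩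
  · rintro ⟨v | f, rfl⟩
    · exact mem_Fc_inl.2 v.2
    · exact mem_Fc_inr.2 f.2

lemma un_out {R : Finset (ℤ × ℤ)} (y : VB R ⊕ FB R → ℤ) {q : ℤ × ℤ} (hq : q ∉ Fc R) :
    un y q = 0 := by
  unfold un
  rcases h : cf q with v | f
  · have : v ∉ verts R := fun h' => hq (by rw [← fc_cf q, h]; exact mem_Fc_inl.2 h')
    simp only [xt, Sum.elim_inl, dif_neg this]
  · have : f ∉ R := fun h' => hq (by rw [← fc_cf q, h]; exact mem_Fc_inr.2 h')
    simp only [xt, Sum.elim_inr, dif_neg this]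

/-- The six-vertex vertex of an edge. -/
def ewp {R : Finset (ℤ × ℤ)} : EB R → Pt :=
  Sum.elim (fun e => (e.1.1 - e.1.2 + 1, e.1.1 + e.1.2 + 1)) (fun e => (e.1.1 - e.1.2, e.1.1 + e.1.2 + 1))

lemma ewp_sites {R : Finset (ℤ × ℤ)} (e : EB R) :
    e1 (ewp e) = fc (.inl ((boxN R).v e).1) ∧ e2 (ewp e) = fc (.inl ((boxN R).u e).1) ∧
    o1 (ewp e) = fc (.inr ((boxN R).f e).1) ∧ o2 (ewp e) = fc (.inr ((boxN R).g e).1) := by
  rcases e with ⟨⟨a, b⟩, he⟩ | ⟨⟨a, b⟩, he⟩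
  · have hev : Even ((a - b + 1) + (a + b + 1)) := ⟨a + 1, by ring⟩
    have hw : ewp (R := R) (.inl ⟨(a, b), he⟩) = (a - b + 1, a + b + 1) := rfl
    rw [hw]
    unfold e1 e2 o1 o2
    rw [if_pos hev, if_pos hev, if_pos hev, if_pos hev]
    refine ⟨?_, ?_, ?_, ?_⟩ <;> refine Prod.ext ?_ ?_ <;> simp only [boxN, Sum.elim_inl, fc] <;> omega
  · have hev : ¬ Even ((a - b) + (a + b + 1)) := by
      rw [Int.not_even_iff_odd]; exact ⟨a, by ring⟩
    have hw : ewp (R := R) (.inr ⟨(a, b), he⟩) = (a - b, a + b + 1) := rfl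
    rw [hw]
    unfold e1 e2 o1 o2
    rw [if_neg hev, if_neg hev, if_neg hev, if_neg hev]
    refine ⟨?_, ?_, ?_, ?_⟩ <;> refine Prod.ext ?_ ?_ <;> simp only [boxN, Sum.elim_inr, fc] <;> omega

lemma ewp_inj {R : Finset (ℤ × ℤ)} : Function.Injective (ewp (R := R)) := by
  rintro (⟨⟨a, b⟩, he⟩ | ⟨⟨a, b⟩, he⟩) (⟨⟨a', b'⟩, he'⟩ | ⟨⟨a', b'⟩, he'⟩) h <;>
    simp only [ewp, Sum.elim_inl, Sum.elim_inr, Prod.mk.injEq] at h
  · congr 3
    · omega
    · omega
  · omega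
  · omega
  · congr 3
    · omega
    · omega

lemma mem_VB_iff {R : Finset (ℤ × ℤ)} {w : Pt} : w ∈ FC.VB (Fc R) ↔ ∃ e : EB R, ewp e = w := by
  obtain ⟨x, y⟩ := w
  simp only [FC.VB, Finset.mem_filter]
  constructor
  · rintro ⟨h1, h2, h3, h4⟩
    by_cases hp : (x + y) % 2 = 0
    · have f1 : ((x - 1, y) : ℤ × ℤ) = fc (.inr ((x + y) / 2 - 1, (y - x) / 2)) := by
        simp only [fc]; ext <;> simp <;> omega
      have f2 : ((x, y - 1) : ℤ × ℤ) = fc (.inr ((x + y) / 2 - 1, (y - x) / 2 - 1)) := by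
        simp only [fc]; ext <;> simp <;> omega
      rw [f1, mem_Fc_inr] at h2
      rw [f2, mem_Fc_inr] at h3
      refine ⟨.inl ⟨((x + y) / 2 - 1, (y - x) / 2), Finset.mem_filter.2 ⟨h2, h3⟩⟩, ?_⟩
      simp only [ewp, Sum.elim_inl]
      ext <;> simp only <;> omega
    · have f1 : ((x, y) : ℤ × ℤ) = fc (.inr ((x + y - 1) / 2, (y - x - 1) / 2)) := by
        simp only [fc]; ext <;> simp <;> omega
      have f2 : ((x - 1, y - 1) : ℤ × ℤ) = fc (.inr ((x + y - 1) / 2 - 1, (y - x - 1) / 2)) := by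
        simp only [fc]; ext <;> simp only <;> omega
      rw [f1, mem_Fc_inr] at h1
      rw [f2, mem_Fc_inr] at h4
      refine ⟨.inr ⟨((x + y - 1) / 2, (y - x - 1) / 2), Finset.mem_filter.2 ⟨h1, h4⟩⟩, ?_⟩
      simp only [ewp, Sum.elim_inr]
      ext <;> simp only <;> omega
  · rintro ⟨e, he⟩
    obtain ⟨s1, s2, s3, s4⟩ := ewp_sites e
    rw [he] at s1 s2 s3 s4
    have m1 : e1 (x, y) ∈ Fc R := by rw [s1]; exact mem_Fc_inl.2 ((boxN R).v e).2
    have m2 : e2 (x, y) ∈ Fc R := by rw [s2]; exact mem_Fc_inl.2 ((boxN R).u e).2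
    have m3 : o1 (x, y) ∈ Fc R := by rw [s3]; exact mem_Fc_inr.2 ((boxN R).f e).2
    have m4 : o2 (x, y) ∈ Fc R := by rw [s4]; exact mem_Fc_inr.2 ((boxN R).g e).2
    by_cases hp : Even (x + y)
    · simp only [e1, e2, o1, o2, if_pos hp] at m1 m2 m3 m4
      exact ⟨m1, m3, m4, m2⟩
    · simp only [e1, e2, o1, o2, if_neg hp] at m1 m2 m3 m4
      exact ⟨m3, m1, m2, m4⟩

/-- Height functions on the box. -/
theorem Hon_iff {R : Finset (ℤ × ℤ)} (y : VB R ⊕ FB R → ℤ) :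
    FC.Hon (Fc R) (un y) ↔ (boxN R).HS Set.univ y := by
  constructor
  · rintro ⟨h1, h2, h3⟩
    refine ⟨fun v hv => absurd (fun f _ => Set.mem_univ f) hv, fun f hf => absurd (Set.mem_univ f) hf,
      fun v => ?_, fun v f hvf _ => ?_⟩
    · have e := h1 _ (mem_Fc_inl.2 v.2)
      rw [un_fc, xt_inl] at e
      simp only [fc] at e
      obtain ⟨k, hk⟩ := e
      exact ⟨k + v.1.1, by omega⟩
    · obtain ⟨a, b, ha, hb, hv⟩ := hvf
      have mv := mem_Fc_inl.2 v.2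
      have mf := mem_Fc_inr.2 f.2
      have ev := un_fc y (.inl v.1)
      have ef := un_fc y (.inr f.1)
      rw [xt_inl] at ev
      rw [xt_inr] at ef
      rw [← ev, ← ef]
      have hv1 : v.1.1 = f.1.1 + a := by rw [hv]
      have hv2 : v.1.2 = f.1.2 + b := by rw [hv]
      simp only [fc] at mv mf ⊢
      rcases ha with rfl | rfl <;> rcases hb with rfl | rfl
      · have e := h2 (f.1.1 - f.1.2) (f.1.1 + f.1.2 + 1) mf (by
          have : ((f.1.1 - f.1.2, f.1.1 + f.1.2 + 1 - 1) : ℤ × ℤ) = (v.1.1 - v.1.2, v.1.1 + v.1.2) := by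
            ext <;> simp <;> omega
          rw [this]; exact mv)
        have e' : ((f.1.1 - f.1.2, f.1.1 + f.1.2 + 1 - 1) : ℤ × ℤ) =
            (v.1.1 - v.1.2, v.1.1 + v.1.2) := by ext <;> simp only [add_sub_cancel_right] <;> omega
        rw [e', abs_sub_comm] at e
        exact e
      · have e' : ((f.1.1 - f.1.2 - 1, f.1.1 + f.1.2 + 1) : ℤ × ℤ) =
            (v.1.1 - v.1.2, v.1.1 + v.1.2) := by ext <;> simp only <;> omega
        have e := h3 (f.1.1 - f.1.2) (f.1.1 + f.1.2 + 1) mf (by rw [e']; exact mv)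
        rw [e'] at e
        exact e
      · have e' : ((v.1.1 - v.1.2 - 1, v.1.1 + v.1.2) : ℤ × ℤ) =
            (f.1.1 - f.1.2, f.1.1 + f.1.2 + 1) := by ext <;> simp only <;> omega
        have e := h3 (v.1.1 - v.1.2) (v.1.1 + v.1.2) mv (by rw [e']; exact mf)
        rw [e', abs_sub_comm] at e
        exact e
      · have e' : ((v.1.1 - v.1.2, v.1.1 + v.1.2 - 1) : ℤ × ℤ) =
            (f.1.1 - f.1.2, f.1.1 + f.1.2 + 1) := by ext <;> simp <;> omega
        have e := h2 (v.1.1 - v.1.2) (v.1.1 + v.1.2) mv (by rw [e']; exact mf)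
        rw [e'] at e
        exact e
  · rintro ⟨-, -, h3, h4⟩
    -- adjacent faces
    have key : ∀ (v f : ℤ × ℤ) (_ : fc (.inl v) ∈ Fc R) (_ : fc (.inr f) ∈ Fc R), Cor v f →
        |un y (fc (.inl v)) - un y (fc (.inr f))| = 1 := by
      intro v f hv hf hc
      rw [mem_Fc_inl] at hv
      rw [mem_Fc_inr] at hf
      have := h4 ⟨v, hv⟩ ⟨f, hf⟩ hc (Set.mem_univ _)
      rw [un_fc, un_fc]
      rwa [← xt_inl y, ← xt_inr y] at this
    refine ⟨?_, ?_, ?_⟩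
    · intro q hq
      rcases h : cf q with v | f
      · have hq' : q = fc (.inl v) := by rw [← h, fc_cf]
        rw [hq'] at hq ⊢
        rw [mem_Fc_inl] at hq
        obtain ⟨k, hk⟩ := h3 ⟨v, hq⟩
        rw [un_fc]
        have e := xt_inl y ⟨v, hq⟩
        simp only at e
        rw [e, hk]
        simp only [fc]
        exact ⟨k - v.1, by ring⟩
      · have hq' : q = fc (.inr f) := by rw [← h, fc_cf]
        rw [hq'] at hq ⊢
        rw [mem_Fc_inr] at hq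
        have hv : f ∈ verts R := mem_verts.2 ⟨f, hq, cor00 f⟩
        obtain ⟨k, hk⟩ := h3 ⟨f, hv⟩
        have e := h4 ⟨f, hv⟩ ⟨f, hq⟩ (cor00 f) (Set.mem_univ _)
        rw [hk] at e
        rw [un_fc]
        have e' := xt_inr y ⟨f, hq⟩
        simp only at e'
        rw [e']
        simp only [fc]
        rcases (abs_eq (by norm_num)).1 e with e | e
        · exact ⟨k - f.1 - 1, by omega⟩
        · exact ⟨k - f.1, by omega⟩
    · intro x z h1 h2
      by_cases hp : (x + z) % 2 = 0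
      · have e1 : ((x, z) : ℤ × ℤ) = fc (.inl ((x + z) / 2, (z - x) / 2)) := by
          simp only [fc]; ext <;> simp <;> omega
        have e2 : ((x, z - 1) : ℤ × ℤ) = fc (.inr ((x + z) / 2 - 1, (z - x) / 2 - 1)) := by
          simp only [fc]; ext <;> simp only <;> omega
        rw [e1] at h1 ⊢
        rw [e2] at h2 ⊢
        exact key _ _ h1 h2 ⟨1, 1, Or.inr rfl, Or.inr rfl, by ext <;> simp⟩
      · have e1 : ((x, z) : ℤ × ℤ) = fc (.inr ((x + z - 1) / 2, (z - x - 1) / 2)) := by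
          simp only [fc]; ext <;> simp <;> omega
        have e2 : ((x, z - 1) : ℤ × ℤ) = fc (.inl ((x + z - 1) / 2, (z - x - 1) / 2)) := by
          simp only [fc]; ext <;> simp only <;> omega
        rw [e1] at h1 ⊢
        rw [e2] at h2 ⊢
        rw [abs_sub_comm]
        exact key _ _ h2 h1 ⟨0, 0, Or.inl rfl, Or.inl rfl, by ext <;> simp only [add_zero]⟩
    · intro x z h1 h2
      by_cases hp : (x + z) % 2 = 0
      · have e1 : ((x, z) : ℤ × ℤ) = fc (.inl ((x + z) / 2, (z - x) / 2)) := by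
          simp only [fc]; ext <;> simp <;> omega
        have e2 : ((x - 1, z) : ℤ × ℤ) = fc (.inr ((x + z) / 2 - 1, (z - x) / 2)) := by
          simp only [fc]; ext <;> simp only <;> omega
        rw [e1] at h1 ⊢
        rw [e2] at h2 ⊢
        rw [abs_sub_comm]
        exact key _ _ h1 h2 ⟨1, 0, Or.inr rfl, Or.inl rfl, by ext <;> simp⟩
      · have e1 : ((x, z) : ℤ × ℤ) = fc (.inr ((x + z - 1) / 2, (z - x - 1) / 2)) := by
          simp only [fc]; ext <;> simp <;> omega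
        have e2 : ((x - 1, z) : ℤ × ℤ) = fc (.inl ((x + z - 1) / 2, (z - x - 1) / 2 + 1)) := by
          simp only [fc]; ext <;> simp only <;> omega
        rw [e1] at h1 ⊢
        rw [e2] at h2 ⊢
        exact key _ _ h2 h1 ⟨0, 1, Or.inl rfl, Or.inr rfl, by ext <;> simp⟩

/-- The weights agree. -/
theorem WB_eq {R : Finset (ℤ × ℤ)} (c : ℝ) (y : VB R ⊕ FB R → ℤ) :
    FC.WB c (Fc R) (un y) = (boxN R).hw c Set.univ y := by
  have e0 : FC.VB (Fc R) = Finset.univ.image (ewp (R := R)) := by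
    ext w
    rw [mem_VB_iff, Finset.mem_image]
    simp only [Sum.exists, Subtype.exists, Prod.exists, mem_univ, true_and]
  unfold FC.WB Net.hw
  rw [e0, Finset.prod_image (fun a _ b _ h => ewp_inj h)]
  refine Finset.prod_congr rfl fun e _ => ?_
  have hE : (boxN R).inE Set.univ e := ⟨Set.mem_univ _, Set.mem_univ _⟩
  rw [if_pos hE]
  obtain ⟨s1, s2, s3, s4⟩ := ewp_sites e
  have t1 : un y (e1 (ewp e)) = y (.inl ((boxN R).v e)) := by rw [s1, un_fc, xt_inl]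
  have t2 : un y (e2 (ewp e)) = y (.inl ((boxN R).u e)) := by rw [s2, un_fc, xt_inl]
  have t3 : un y (o1 (ewp e)) = y (.inr ((boxN R).f e)) := by rw [s3, un_fc, xt_inr]
  have t4 : un y (o2 (ewp e)) = y (.inr ((boxN R).g e)) := by rw [s4, un_fc, xt_inr]
  rw [← t1, ← t2, ← t3, ← t4]
  unfold FC.fw
  refine if_congr ?_ rfl rfl
  by_cases hp : Even ((ewp e).1 + (ewp e).2)
  · simp only [e1, e2, o1, o2, if_pos hp]
    exact ⟨fun h => ⟨h.1.symm, h.2⟩, fun h => ⟨h.1.symm, h.2⟩⟩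
  · simp only [e1, e2, o1, o2, if_neg hp]
    exact ⟨fun h => ⟨h.2.symm, h.1⟩, fun h => ⟨h.2, h.1.symm⟩⟩

/-- The inner boundary of the box is outside of `F`. -/
theorem Fr_out {R F : Finset (ℤ × ℤ)} (hB : Nb R F) (i : VB R ⊕ FB R)
    (h : FC.Fr (Fc R) (fc (st i))) : ¬ (boxN R).inD (inB R F) i := by
  obtain ⟨r, hr, h1, h2⟩ := h
  intro hD
  apply hr
  rcases i with v | f
  · obtain ⟨f0, hf0, hc0⟩ := mem_verts.1 v.2
    have hf0F : f0 ∈ F := hD ⟨f0, hf0⟩ hc0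
    have hall : ∀ f', Cor v.1 f' → f' ∈ R := fun f' hf' => hB f0 hf0F v.1 hc0 f' hf'
    simp only [fc, st, Sum.map_inl] at h1 h2
    rw [abs_le] at h1 h2
    obtain ⟨x, z⟩ := r
    simp only at h1 h2
    by_cases hp : (x + z) % 2 = 0
    · have e1 : ((x, z) : ℤ × ℤ) = fc (.inl ((x + z) / 2, (z - x) / 2)) := by
        simp only [fc]; ext <;> simp <;> omega
      rw [e1, mem_Fc_inl, mem_verts]
      by_cases ha : (x + z) / 2 ≤ v.1.1
      · by_cases hb : (z - x) / 2 ≤ v.1.2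
        · refine ⟨(v.1.1 - 1, v.1.2 - 1), hall _ ⟨1, 1, Or.inr rfl, Or.inr rfl, by ext <;> simp⟩, ?_⟩
          exact ⟨(x + z) / 2 - (v.1.1 - 1), (z - x) / 2 - (v.1.2 - 1), by omega, by omega,
            by ext <;> simp⟩
        · refine ⟨(v.1.1 - 1, v.1.2), hall _ ⟨1, 0, Or.inr rfl, Or.inl rfl, by ext <;> simp⟩, ?_⟩
          exact ⟨(x + z) / 2 - (v.1.1 - 1), (z - x) / 2 - v.1.2, by omega, by omega,
            by ext <;> simp⟩
      · by_cases hb : (z - x) / 2 ≤ v.1.2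
        · refine ⟨(v.1.1, v.1.2 - 1), hall _ ⟨0, 1, Or.inl rfl, Or.inr rfl, by ext <;> simp⟩, ?_⟩
          exact ⟨(x + z) / 2 - v.1.1, (z - x) / 2 - (v.1.2 - 1), by omega, by omega,
            by ext <;> simp⟩
        · refine ⟨(v.1.1, v.1.2), hall _ ⟨0, 0, Or.inl rfl, Or.inl rfl, by ext <;> simp⟩, ?_⟩
          exact ⟨(x + z) / 2 - v.1.1, (z - x) / 2 - v.1.2, by (clear * - h1 h2 hp ha hb; omega), by omega,
            by ext <;> simp only [add_sub_cancel]⟩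
    · have e1 : ((x, z) : ℤ × ℤ) = fc (.inr ((x + z - 1) / 2, (z - x - 1) / 2)) := by
        simp only [fc]; ext <;> simp <;> omega
      rw [e1, mem_Fc_inr]
      refine hall _ ⟨v.1.1 - (x + z - 1) / 2, v.1.2 - (z - x - 1) / 2, by omega, by omega, ?_⟩
      ext <;> simp only [add_sub_cancel]
  · have hfF : f.1 ∈ F := hD
    simp only [st, Sum.map_inr, fc] at h1 h2
    rw [abs_le] at h1 h2
    obtain ⟨x, z⟩ := r
    simp only at h1 h2
    by_cases hp : (x + z) % 2 = 0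
    · have e1 : ((x, z) : ℤ × ℤ) = fc (.inl ((x + z) / 2, (z - x) / 2)) := by
        simp only [fc]; ext <;> simp <;> omega
      rw [e1, mem_Fc_inl, mem_verts]
      refine ⟨f.1, hB.mem hfF, (x + z) / 2 - f.1.1, (z - x) / 2 - f.1.2, by omega, by (clear * - h1 h2 hp; omega), ?_⟩
      ext <;> simp
    · have e1 : ((x, z) : ℤ × ℤ) = fc (.inr ((x + z - 1) / 2, (z - x - 1) / 2)) := by
        simp only [fc]; ext <;> simp only <;> omega
      rw [e1, mem_Fc_inr]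
      set g : ℤ × ℤ := ((x + z - 1) / 2, (z - x - 1) / 2) with hg
      have g1 : g.1 = (x + z - 1) / 2 := rfl
      have g2 : g.2 = (z - x - 1) / 2 := rfl
      -- a common corner
      refine hB f.1 hfF (max f.1.1 g.1, max f.1.2 g.2) ?_ g ?_
      · exact ⟨max f.1.1 g.1 - f.1.1, max f.1.2 g.2 - f.1.2, by omega, by omega, by ext <;> simp only [add_sub_cancel]⟩
      · exact ⟨max f.1.1 g.1 - g.1, max f.1.2 g.2 - g.2, by (clear * - h1 h2 g1; omega), by omega, by ext <;> simp only [add_sub_cancel]⟩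

end Vale.Agent.P145.FK
end

section

/-!
P145, block F-C: the sandwich for the law of the heights and marks of the plane.
-/

namespace Vale.Agent.P145.FK

open Finset MeasureTheory Vale.Agent.P145.FP Vale.Agent.P145.Dom
open Vale.Agent.P145.FA (Hgt mu0 Pl)
open Vale.Agent.P145.FB (Mk Pt mkm bern om e1 e2 o1 o2 Swap)
open Vale.Agent.P152 (Ori)
open scoped Classical

lemma int_ind {m : ℤ} (hm : 0 ≤ m) {s : ℤ → Prop} (h0 : s 0)
    (h : ∀ x, -m ≤ x → x + 1 ≤ m → (s x ↔ s (x + 1))) : ∀ x, -m ≤ x → x ≤ m → s x := by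
  have h1 : ∀ n : ℕ, (n : ℤ) ≤ m → s n := by
    intro n
    induction n with
    | zero => intro _; exact h0
    | succ n ih =>
      intro hn
      push_cast at hn ⊢
      exact (h n (by omega) hn).1 (ih (by omega))
  have h2 : ∀ n : ℕ, (n : ℤ) ≤ m → s (-(n : ℤ)) := by
    intro n
    induction n with
    | zero => intro _; simpa using h0
    | succ n ih =>
      intro hn
      push_cast at hn ⊢
      refine (h (-((n : ℤ) + 1)) (by omega) (by omega)).2 ?_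
      have : -((n : ℤ) + 1) + 1 = -(n : ℤ) := by ring
      rw [this]
      exact ih (by omega)
  intro x hx1 hx2
  rcases Int.eq_nat_or_neg x with ⟨n, rfl | rfl⟩
  · exact h1 n hx2
  · exact h2 n (by omega)

/-- The centred square. -/
noncomputable def Rm (m : ℤ) : Finset (ℤ × ℤ) := Finset.Icc (-m) m ×ˢ Finset.Icc (-m) m

lemma mem_Rm {m : ℤ} {f : ℤ × ℤ} : f ∈ Rm m ↔ (-m ≤ f.1 ∧ f.1 ≤ m) ∧ -m ≤ f.2 ∧ f.2 ≤ m := by
  unfold Rm
  rw [Finset.mem_product, Finset.mem_Icc, Finset.mem_Icc]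

lemma Rm_loc (m : ℤ) : (boxN (Rm m)).Loc := boxN_loc_rect _ _ _ _

lemma zero_mem_Rm {m : ℤ} (hm : 0 ≤ m) : (0, 0) ∈ Rm m := by
  rw [mem_Rm]
  simp only
  omega

/-- The faces of the six-vertex lattice in the square are connected. -/
theorem con_Fc {m : ℤ} (hm : 0 ≤ m) : FC.Con (Fc (Rm m)) := by
  have z0 : fc (.inl (0, 0)) = 0 := by simp [fc]
  refine ⟨?_, ?_⟩
  · rw [← z0, mem_Fc_inl, mem_verts]
    exact ⟨(0, 0), zero_mem_Rm hm, cor00 _⟩
  · intro p hp0 hpv hph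
    -- adjacent sites
    have key : ∀ v f : ℤ × ℤ, f ∈ Rm m → Cor v f → (p (fc (.inl v)) ↔ p (fc (.inr f))) := by
      intro v f hf hc
      have mv : fc (.inl v) ∈ Fc (Rm m) := mem_Fc_inl.2 (mem_verts.2 ⟨f, hf, hc⟩)
      have mf : fc (.inr f) ∈ Fc (Rm m) := mem_Fc_inr.2 hf
      obtain ⟨a, b, ha, hb, rfl⟩ := hc
      obtain ⟨x, z⟩ := f
      simp only [fc] at mv mf ⊢
      rcases ha with rfl | rfl <;> rcases hb with rfl | rfl
      · have e : ((x - z, x + z + 1 - 1) : ℤ × ℤ) = (x + 0 - (z + 0), x + 0 + (z + 0)) := by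
          ext <;> simp
        have := hpv (x - z) (x + z + 1) mf (by rw [e]; exact mv)
        rw [e] at this
        exact this.symm
      · have e : ((x - z - 1, x + z + 1) : ℤ × ℤ) = (x + 0 - (z + 1), x + 0 + (z + 1)) := by
          ext <;> simp only [add_zero] <;> ring
        have := hph (x - z) (x + z + 1) mf (by rw [e]; exact mv)
        rw [e] at this
        exact this
      · have e : ((x + 1 - (z + 0) - 1, x + 1 + (z + 0)) : ℤ × ℤ) = (x - z, x + z + 1) := by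
          ext <;> simp only [add_zero] <;> ring
        have := hph (x + 1 - (z + 0)) (x + 1 + (z + 0)) mv (by rw [e]; exact mf)
        rw [e] at this
        exact this.symm
      · have e : ((x + 1 - (z + 1), x + 1 + (z + 1) - 1) : ℤ × ℤ) = (x - z, x + z + 1) := by
          ext <;> simp <;> ring
        have := hpv (x + 1 - (z + 1)) (x + 1 + (z + 1)) mv (by rw [e]; exact mf)
        rw [e] at this
        exact this
    have hface : ∀ f ∈ Rm m, p (fc (.inr f)) := by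
      rintro ⟨x, z⟩ hf
      rw [mem_Rm] at hf
      simp only at hf
      have r0 : ∀ x, -m ≤ x → x ≤ m → p (fc (.inr (x, 0))) := by
        refine int_ind hm ?_ ?_
        · rw [← key (0, 0) (0, 0) (zero_mem_Rm hm) (cor00 _), z0]
          exact hp0
        · intro x hx1 hx2
          have m1 : ((x, 0) : ℤ × ℤ) ∈ Rm m := by rw [mem_Rm]; simp only; omega
          have m2 : ((x + 1, 0) : ℤ × ℤ) ∈ Rm m := by rw [mem_Rm]; simp only; omega
          have k1 := key (x + 1, 0) (x, 0) m1 ⟨1, 0, Or.inr rfl, Or.inl rfl, by simp⟩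
          have k2 := key (x + 1, 0) (x + 1, 0) m2 (cor00 _)
          exact k1.symm.trans k2
      refine int_ind (s := fun z => p (fc (.inr (x, z)))) hm (r0 x hf.1.1 hf.1.2) ?_ z hf.2.1 hf.2.2
      intro z hz1 hz2
      have m1 : ((x, z) : ℤ × ℤ) ∈ Rm m := by rw [mem_Rm]; simp only; omega
      have m2 : ((x, z + 1) : ℤ × ℤ) ∈ Rm m := by rw [mem_Rm]; simp only; omega
      have k1 := key (x, z + 1) (x, z) m1 ⟨0, 1, Or.inl rfl, Or.inr rfl, by simp⟩
      have k2 := key (x, z + 1) (x, z + 1) m2 (cor00 _)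
      exact k1.symm.trans k2
    intro q hq
    obtain ⟨v | f, rfl⟩ := mem_Fc_iff.1 hq
    · obtain ⟨f, hf, hc⟩ := mem_verts.1 v.2
      exact (key v.1 f hf hc).2 (hface f hf)
    · exact hface f.1 f.2

/-- Frozen boundary values. -/
noncomputable def bd {R : Finset (ℤ × ℤ)} (η₀ : Hgt) (y : VB R ⊕ FB R → ℤ) : ℝ :=
  if ∀ i : VB R ⊕ FB R, FC.Fr (Fc R) (fc (st i)) → y i = η₀ (fc (st i)) then 1 else 0

lemma bd_nonneg {R : Finset (ℤ × ℤ)} (η₀ : Hgt) (y : VB R ⊕ FB R → ℤ) : 0 ≤ bd η₀ y := by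
  unfold bd; split_ifs <;> norm_num

lemma bd_congr {R F : Finset (ℤ × ℤ)} (hB : Nb R F) (η₀ : Hgt) {y y' : VB R ⊕ FB R → ℤ}
    (h : ∀ i, ¬ (boxN R).inD (inB R F) i → y i = y' i) : bd η₀ y = bd η₀ y' := by
  unfold bd
  refine if_congr ?_ rfl rfl
  refine forall_congr' fun i => ?_
  constructor
  · intro h1 h2
    rw [← h i (Fr_out hB i h2)]
    exact h1 h2
  · intro h1 h2
    rw [h i (Fr_out hB i h2)]
    exact h1 h2

/-- Restriction of plane heights to the box. -/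
def rs {R : Finset (ℤ × ℤ)} (h : Hgt) : VB R ⊕ FB R → ℤ := fun i => h (fc (st i))

lemma un_rs {R : Finset (ℤ × ℤ)} {h : Hgt} (h0 : ∀ q, q ∉ Fc R → h q = 0) :
    un (rs (R := R) h) = h := by
  funext q
  by_cases hq : q ∈ Fc R
  · obtain ⟨i, rfl⟩ := mem_Fc_iff.1 hq
    rw [un_st]
    rfl
  · rw [un_out _ hq, h0 q hq]

lemma un_injective {R : Finset (ℤ × ℤ)} : Function.Injective (un (R := R)) := by
  intro y y' h
  funext i
  rw [← un_st y i, ← un_st y' i, h]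

/-- The sum over the heights with frozen boundary values. -/
theorem cls_sum {R : Finset (ℤ × ℤ)} (η₀ : Hgt) {K : ℕ}
    (hK : ∀ x ∈ FC.cls (Fc R) η₀, ∀ q : Fc R, |x q| ≤ 2 * (K : ℤ)) (c : ℝ) (G : Hgt → ℝ) :
    ∑ᶠ x ∈ FC.cls (Fc R) η₀, FC.WB c (Fc R) (FC.ext0 x) * G (FC.ext0 x) =
      ∑ y ∈ Net.TTs (V := VB R) K (Set.univ : Set (FB R)),
        (if (boxN R).HS Set.univ y then (boxN R).hw c Set.univ y else 0) * (bd η₀ y * G (un y)) := by
  have hun : ∀ y : VB R ⊕ FB R → ℤ, FC.ext0 (FC.res0 (Fc R) (un y)) = un y := by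
    intro y
    funext q
    by_cases hq : q ∈ Fc R
    · exact FC.ext0_res0 _ hq
    · rw [un_out y hq]
      exact dif_neg hq
  have hinj : Function.Injective (fun y : VB R ⊕ FB R → ℤ => FC.res0 (Fc R) (un y)) := by
    intro y y' h
    apply un_injective
    rw [← hun y, ← hun y']
    exact congrArg FC.ext0 h
  have hmem : ∀ y : VB R ⊕ FB R → ℤ, FC.res0 (Fc R) (un y) ∈ FC.cls (Fc R) η₀ ↔
      (boxN R).HS Set.univ y ∧ ∀ i : VB R ⊕ FB R, FC.Fr (Fc R) (fc (st i)) →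
        y i = η₀ (fc (st i)) := by
    intro y
    unfold FC.cls
    rw [Set.mem_ofPred_eq, hun, Hon_iff]
    refine and_congr_right fun _ => ?_
    constructor
    · intro h i hi
      rw [← un_st y i]
      exact h _ (mem_Fc_iff.2 ⟨i, rfl⟩) hi
    · intro h q hq hF
      obtain ⟨i, rfl⟩ := mem_Fc_iff.1 hq
      rw [un_st]
      exact h i hF
  rw [finsum_mem_def, finsum_eq_sum_of_support_subset
    (s := (Net.TTs (V := VB R) K (Set.univ : Set (FB R))).image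
      (fun y => FC.res0 (Fc R) (un y)))]
  · rw [Finset.sum_image (fun p _ q _ h => hinj h)]
    refine Finset.sum_congr rfl fun y _ => ?_
    by_cases h : FC.res0 (Fc R) (un y) ∈ FC.cls (Fc R) η₀
    · rw [Set.indicator_of_mem h, hun, WB_eq]
      obtain ⟨h1, h2⟩ := (hmem y).1 h
      rw [if_pos h1, bd, if_pos h2, one_mul]
    · rw [Set.indicator_of_notMem h]
      by_cases h1 : (boxN R).HS Set.univ y
      · have h2 : ¬ ∀ i : VB R ⊕ FB R, FC.Fr (Fc R) (fc (st i)) → y i = η₀ (fc (st i)) :=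
          fun h2 => h ((hmem y).2 ⟨h1, h2⟩)
        rw [bd, if_neg h2, zero_mul, mul_zero]
      · rw [if_neg h1, zero_mul]
  · intro x hx
    have hxC : x ∈ FC.cls (Fc R) η₀ := by
      by_contra h
      exact hx (Set.indicator_of_notMem h _)
    rw [Finset.coe_image, Set.mem_image]
    set y : VB R ⊕ FB R → ℤ := rs (FC.ext0 x) with hy
    have huy : un y = FC.ext0 x := un_rs fun q hq => dif_neg hq
    have hxy : FC.res0 (Fc R) (un y) = x := by
      rw [huy]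
      funext q
      exact dif_pos q.2
    refine ⟨y, ?_, hxy⟩
    have hHS : (boxN R).HS Set.univ y := by
      rw [← Hon_iff, huy]
      exact hxC.1
    have hb : ∀ i, |y i| ≤ 2 * (K : ℤ) := by
      intro i
      have hq : fc (st i) ∈ Fc R := mem_Fc_iff.2 ⟨i, rfl⟩
      have e : y i = x ⟨fc (st i), hq⟩ := dif_pos hq
      rw [e]
      exact hK x hxC _
    rw [Finset.mem_coe, Net.mem_TTs]
    intro i
    rcases i with v | f
    · exact Net.mem_TT_inl (hHS.2.2.1 v) (hb _)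
    · refine Net.mem_TT_inr (Set.mem_univ f) ?_ (by have := hb (.inr f); (clear * - this; omega))
      have hv : f.1 ∈ verts R := mem_verts.2 ⟨f.1, f.2, cor00 f.1⟩
      obtain ⟨k, hk⟩ := hHS.2.2.1 ⟨f.1, hv⟩
      have e := hHS.2.2.2 ⟨f.1, hv⟩ f (cor00 f.1) (Set.mem_univ _)
      rw [hk] at e
      rcases (abs_eq (by norm_num)).1 e with e | e
      · exact ⟨k - 1, by omega⟩
      · exact ⟨k, by omega⟩

/-- The edges which are blocked at level `0`. -/
def bl (x : Hgt × Mk) : Set Pt := {w | x.1 (e1 w) = 0 ∧ x.1 (e2 w) = 0 ∧ x.2 w = true}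

/-- Average over the marks. -/
noncomputable def avg (t : ℝ) (g : Set Pt → ℝ) (h : Hgt) : ℝ := ∫ ξ, g (bl (h, om h ξ)) ∂(mkm t)

/-- The set of blocked edges from the edge variables of the box. -/
def bS {R : Finset (ℤ × ℤ)} (w : EB R → Bool) : Set Pt := {p | ∃ e, ewp e = p ∧ w e = false}

lemma ewp_mem_bS {R : Finset (ℤ × ℤ)} {w : EB R → Bool} {e : EB R} :
    ewp e ∈ bS w ↔ w e = false := by
  constructor
  · rintro ⟨e', h1, h2⟩
    rw [← ewp_inj h1]; exact h2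
  · intro h
    exact ⟨e, rfl, h⟩

lemma bl_wof {R : Finset (ℤ × ℤ)} (y : VB R ⊕ FB R → ℤ) (ξ : Mk) (e : EB R) :
    ewp e ∈ bl (un y, om (un y) ξ) ↔ ewp e ∈ bS ((boxN R).wof y (fun e => ξ (ewp e))) := by
  rw [ewp_mem_bS]
  obtain ⟨s1, s2, s3, s4⟩ := ewp_sites e
  have t1 : un y (e1 (ewp e)) = y (.inl ((boxN R).v e)) := by rw [s1, un_fc, xt_inl]
  have t2 : un y (e2 (ewp e)) = y (.inl ((boxN R).u e)) := by rw [s2, un_fc, xt_inl]
  have t3 : un y (o1 (ewp e)) = y (.inr ((boxN R).f e)) := by rw [s3, un_fc, xt_inr]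
  have t4 : un y (o2 (ewp e)) = y (.inr ((boxN R).g e)) := by rw [s4, un_fc, xt_inr]
  unfold bl Net.wof om
  simp only [Set.mem_ofPred_eq]
  rw [t1, t2, t3, t4]
  by_cases h1 : y (.inl ((boxN R).u e)) = 0 <;> by_cases h2 : y (.inl ((boxN R).v e)) = 0 <;>
    by_cases h3 : y (.inr ((boxN R).f e)) = y (.inr ((boxN R).g e)) <;>
    simp [h1, h2, h3]

/-- The weights with averages over the marks. -/
theorem avg_key {R : Finset (ℤ × ℤ)} {t : ℝ} (ht0 : 0 < t) (ht1 : t ≤ 1) {g : Set Pt → ℝ}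
    {W : Finset Pt} (hW : ∀ S S' : Set Pt, (∀ w ∈ W, w ∈ S ↔ w ∈ S') → g S = g S')
    (hWR : W ⊆ FC.VB (Fc R)) (y : VB R ⊕ FB R → ℤ) :
    (if (boxN R).HS Set.univ y then (boxN R).hw t⁻¹ Set.univ y else 0) * avg t g (un y) =
      ∑ w : EB R → Bool, (boxN R).Φ t Set.univ (Net.toCf y w) * g (bS w) := by
  by_cases h : (boxN R).HS Set.univ y
  · have e0 := Net.sum_phi (boxN R) ht0.ne' h (fun w => g (bS w))
    rw [if_pos h]
    refine Eq.trans ?_ (Eq.trans e0.symm (Finset.sum_congr (Finset.ext fun _ => by simp)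
      fun _ _ => rfl))
    congr 1
    rw [← int_mkm ewp_inj ht0.le ht1 (fun η => g (bS ((boxN R).wof y η)))]
    unfold avg
    congr 1
    funext ξ
    refine hW _ _ fun w hw => ?_
    obtain ⟨e, rfl⟩ := mem_VB_iff.1 (hWR hw)
    exact bl_wof y ξ e
  · rw [if_neg h, zero_mul]
    symm
    refine Finset.sum_eq_zero fun w _ => ?_
    unfold Net.Φ
    rw [if_neg, zero_mul]
    intro hC
    exact h ⟨hC.1, hC.2.1, hC.2.2.1, hC.2.2.2.1⟩

/-- One step between odd faces through an edge outside of `S`. -/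
def stp (S : Set Pt) (p q : Pt) : Prop := ∃ w, w ∉ S ∧ ((o1 w = p ∧ o2 w = q) ∨ (o2 w = p ∧ o1 w = q))

/-- The odd faces of the six-vertex lattice at the faces of `F`. -/
def oF (F : Finset (ℤ × ℤ)) : Set Pt := {p | ∃ f ∈ F, fc (.inr f) = p}

lemma mem_oF {F : Finset (ℤ × ℤ)} {f : ℤ × ℤ} : fc (.inr f) ∈ oF F ↔ f ∈ F := by
  constructor
  · rintro ⟨f', h1, h2⟩
    have := fcB_inj h2
    rw [Sum.inr.injEq] at this
    rw [← this]; exact h1
  · intro h; exact ⟨f, h, rfl⟩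

/-- What is required of a function of the set of the blocked edges. -/
structure Adm (F₁ F₂ : Finset (ℤ × ℤ)) (g : Set Pt → ℝ) : Prop where
  nn : ∀ S, 0 ≤ g S
  mono : Monotone g
  loc : ∃ W : Finset Pt, ∀ S S' : Set Pt, (∀ w ∈ W, w ∈ S ↔ w ∈ S') → g S = g S'
  off : ∀ S S' : Set Pt, (∀ w, ¬ (o1 w ∈ oF F₁ ∧ o2 w ∈ oF F₁) → (w ∈ S ↔ w ∈ S')) → g S = g S'
  sep : ∀ S, g S ≠ 0 → ∀ f ∈ F₁, ∀ p, Relation.ReflTransGen (stp S) (fc (.inr f)) p → p ∈ oF F₂

lemma stp_symm {S : Set Pt} {p q : Pt} (h : stp S p q) : stp S q p := by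
  obtain ⟨w, h1, h2 | h2⟩ := h
  · exact ⟨w, h1, Or.inr ⟨h2.2, h2.1⟩⟩
  · exact ⟨w, h1, Or.inl ⟨h2.2, h2.1⟩⟩

lemma rch_path {R : Finset (ℤ × ℤ)} {w : EB R → Bool} {f0 f : FB R}
    (h : Relation.ReflTransGen ((boxN R).stepW w) f0 f) :
    Relation.ReflTransGen (stp (bS w)) (fc (.inr f.1)) (fc (.inr f0.1)) := by
  induction h with
  | refl => exact Relation.ReflTransGen.refl
  | @tail a b _ hab ih =>
    refine Relation.ReflTransGen.head ?_ ih
    obtain ⟨e, he, h1⟩ := hab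
    obtain ⟨s1, s2, s3, s4⟩ := ewp_sites e
    refine ⟨ewp e, ?_, ?_⟩
    · rw [ewp_mem_bS, he]
      simp
    · rw [s3, s4]
      rcases h1 with ⟨rfl, rfl⟩ | ⟨rfl, rfl⟩
      · exact Or.inr ⟨rfl, rfl⟩
      · exact Or.inl ⟨rfl, rfl⟩

/-- The sandwich on the square, for arbitrary frozen boundary values. -/
theorem square_sandwich {m : ℤ} {F₁ F₂ : Finset (ℤ × ℤ)} (hB : Nb (Rm m) F₂) (hF : F₁ ⊆ F₂)
    {t : ℝ} (ht0 : 0 < t) (ht1 : t ≤ 1) {K : ℕ} (hK : KF F₂ ≤ K) {g : Set Pt → ℝ}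
    (hg : Adm F₁ F₂ g) {A : (Site → ℤ) → ℝ} (hA : PosH A) (hAI : Dep F₁ A) (η₀ : Hgt) :
    SS (B := Rm m) K t (fun w => g (bS w)) (fun y => bd η₀ y * A (xt y)) ≤
      ze t⁻¹ F₂ A * SS (B := Rm m) K t (fun w => g (bS w)) (bd η₀) ∧
    ze t⁻¹ F₁ A * SS (B := Rm m) K t (fun w => g (bS w)) (bd η₀) ≤
      SS (B := Rm m) K t (fun w => g (bS w)) (fun y => bd η₀ y * A (xt y)) := by
  refine box_sandwich (Rm_loc m) hB hF ht0 ht1 hK (bd_nonneg η₀) (fun y y' h => bd_congr hB η₀ h)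
    (fun w => hg.nn _) ?_ ?_ ?_ hA hAI
  · intro w w' h
    refine hg.mono ?_
    rintro p ⟨e, he, hw⟩
    refine ⟨e, he, ?_⟩
    have := h e
    rw [hw] at this
    exact le_bot_iff.1 this
  · intro w w' h
    refine hg.off _ _ fun p hp => ?_
    constructor
    · rintro ⟨e, rfl, hw⟩
      refine ⟨e, rfl, ?_⟩
      rw [← h e, hw]
      rintro ⟨i1, i2⟩
      obtain ⟨s1, s2, s3, s4⟩ := ewp_sites e
      apply hp
      rw [s3, s4, mem_oF, mem_oF]
      exact ⟨i1, i2⟩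
    · rintro ⟨e, rfl, hw⟩
      refine ⟨e, rfl, ?_⟩
      rw [h e, hw]
      rintro ⟨i1, i2⟩
      obtain ⟨s1, s2, s3, s4⟩ := ewp_sites e
      apply hp
      rw [s3, s4, mem_oF, mem_oF]
      exact ⟨i1, i2⟩
  · intro w hw
    rw [Set.disjoint_left]
    rintro f ⟨f0, hf0, hpath⟩ hf
    apply hf0
    exact mem_oF.1 (hg.sep _ hw f.1 hf _ (rch_path hpath))

/-- The sums with frozen boundary values of the observables. -/
theorem cls_eval {m : ℤ} {t : ℝ} (ht0 : 0 < t) (ht1 : t ≤ 1) {g : Set Pt → ℝ}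
    {W : Finset Pt} (hW : ∀ S S' : Set Pt, (∀ w ∈ W, w ∈ S ↔ w ∈ S') → g S = g S')
    (hWR : W ⊆ FC.VB (Fc (Rm m))) (η₀ : Hgt) {K : ℕ}
    (hK : ∀ x ∈ FC.cls (Fc (Rm m)) η₀, ∀ q : Fc (Rm m), |x q| ≤ 2 * (K : ℤ))
    (A : (Site → ℤ) → ℝ) (a b : ℝ) :
    ∑ᶠ x ∈ FC.cls (Fc (Rm m)) η₀, FC.WB t⁻¹ (Fc (Rm m)) (FC.ext0 x) *
        (avg t g (FC.ext0 x) * (a + b * A (fun s => FC.ext0 x (fc s)))) =
      a * SS (B := Rm m) K t (fun w => g (bS w)) (bd η₀) +
      b * SS (B := Rm m) K t (fun w => g (bS w)) (fun y => bd η₀ y * A (xt y)) := by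
  rw [cls_sum η₀ hK t⁻¹ (fun h => avg t g h * (a + b * A (fun s => h (fc s))))]
  unfold SS
  rw [Finset.mul_sum, Finset.mul_sum, ← Finset.sum_add_distrib]
  refine Finset.sum_congr rfl fun y _ => ?_
  rw [← avg_key ht0 ht1 hW hWR y]
  have e1 : (fun s => un y (fc s)) = xt y := funext fun s => un_fc y s
  rw [e1]
  ring

lemma exists_square (F : Finset (ℤ × ℤ)) (W : Finset Pt) : ∃ m : ℤ, 0 ≤ m ∧ Nb (Rm m) F ∧
    W ⊆ FC.VB (Fc (Rm m)) := by
  set m1 : ℕ := F.sup (fun f => f.1.natAbs + f.2.natAbs) with hm1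
  have hF : ∀ f ∈ F, f.1.natAbs + f.2.natAbs ≤ m1 := fun f hf =>
    Finset.le_sup (f := fun f : ℤ × ℤ => f.1.natAbs + f.2.natAbs) hf
  set m2 : ℕ := W.sup (fun f => f.1.natAbs + f.2.natAbs) with hm2
  have hW : ∀ f ∈ W, f.1.natAbs + f.2.natAbs ≤ m2 := fun f hf =>
    Finset.le_sup (f := fun f : ℤ × ℤ => f.1.natAbs + f.2.natAbs) hf
  refine ⟨(m1 : ℤ) + m2 + 4, by (clear * -; positivity), ?_, ?_⟩
  · rintro f hf v ⟨a, b, ha, hb, rfl⟩ f' ⟨a', b', ha', hb', hv⟩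
    rw [mem_Rm]
    simp only [Prod.mk.injEq] at hv
    have := hF f hf
    omega
  · rintro ⟨x, y⟩ hw
    have hxy := hW _ hw
    simp only at hxy
    rw [mem_VB_iff]
    by_cases hp : (x + y) % 2 = 0
    · refine ⟨.inl ⟨((x + y) / 2 - 1, (y - x) / 2), Finset.mem_filter.2 ⟨?_, ?_⟩⟩, ?_⟩
      · rw [mem_Rm]; simp only; omega
      · rw [mem_Rm]; simp only; omega
      · simp only [ewp, Sum.elim_inl]
        ext <;> simp <;> omega
    · refine ⟨.inr ⟨((x + y - 1) / 2, (y - x - 1) / 2), Finset.mem_filter.2 ⟨?_, ?_⟩⟩, ?_⟩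
      · rw [mem_Rm]; simp only; omega
      · rw [mem_Rm]; simp only; omega
      · simp only [ewp, Sum.elim_inr]
        ext <;> simp <;> omega

/-- **The sandwich in the plane.** -/
theorem plane_sandwich {c : ℝ} (hc : 1 ≤ c) {P : Measure (Ori (ℤ × ℤ))} (hP : Pl c P)
    (hS : Swap c P) {F₁ F₂ : Finset (ℤ × ℤ)} (hF : F₁ ⊆ F₂) {g : Set Pt → ℝ} (hg : Adm F₁ F₂ g)
    {A : (Site → ℤ) → ℝ} (hA : PosH A) (hAI : Dep F₁ A)
    (hi0 : Integrable (fun h => avg c⁻¹ g h) (mu0 P))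
    (hi1 : Integrable (fun h => avg c⁻¹ g h * A (fun s => h (fc s))) (mu0 P)) :
    ∫ h, avg c⁻¹ g h * A (fun s => h (fc s)) ∂(mu0 P) ≤
        ze c F₂ A * ∫ h, avg c⁻¹ g h ∂(mu0 P) ∧
      ze c F₁ A * ∫ h, avg c⁻¹ g h ∂(mu0 P) ≤
        ∫ h, avg c⁻¹ g h * A (fun s => h (fc s)) ∂(mu0 P) := by
  have hc0 : 0 < c := by linarith only [hc]
  have ht0 : 0 < c⁻¹ := inv_pos.mpr hc0
  have ht1 : c⁻¹ ≤ 1 := inv_le_one_of_one_le₀ hc
  obtain ⟨W, hW⟩ := hg.loc
  obtain ⟨m, hm, hNb, hWR⟩ := exists_square F₂ W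
  -- locality
  have hloc : ∀ h h' : Hgt, (∀ q ∈ Fc (Rm m), h q = h' q) → avg c⁻¹ g h = avg c⁻¹ g h' ∧
      A (fun s => h (fc s)) = A (fun s => h' (fc s)) := by
    intro h h' hh
    constructor
    · unfold avg
      congr 1
      funext ξ
      refine hW _ _ fun w hw => ?_
      obtain ⟨e, rfl⟩ := mem_VB_iff.1 (hWR hw)
      obtain ⟨s1, s2, s3, s4⟩ := ewp_sites e
      have u1 : h (e1 (ewp e)) = h' (e1 (ewp e)) := by
        rw [s1]; exact hh _ (mem_Fc_inl.2 ((boxN (Rm m)).v e).2)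
      have u2 : h (e2 (ewp e)) = h' (e2 (ewp e)) := by
        rw [s2]; exact hh _ (mem_Fc_inl.2 ((boxN (Rm m)).u e).2)
      have u3 : h (o1 (ewp e)) = h' (o1 (ewp e)) := by
        rw [s3]; exact hh _ (mem_Fc_inr.2 ((boxN (Rm m)).f e).2)
      have u4 : h (o2 (ewp e)) = h' (o2 (ewp e)) := by
        rw [s4]; exact hh _ (mem_Fc_inr.2 ((boxN (Rm m)).g e).2)
      unfold bl om
      simp only [Set.mem_ofPred_eq]
      rw [u1, u2, u3, u4]
    · refine hAI _ _ fun v hv => ?_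
      refine hh _ (mem_Fc_inl.2 (mem_verts.2 ⟨v, ?_, cor00 v⟩))
      exact hNb.mem (hF (hv v (cor00 v)))
  -- nonnegativity of a linear combination
  have main : ∀ a b : ℝ, (∀ (η₀ : Hgt) (K : ℕ), KF F₂ ≤ K →
      0 ≤ a * SS (B := Rm m) K c⁻¹ (fun w => g (bS w)) (bd η₀) +
        b * SS (B := Rm m) K c⁻¹ (fun w => g (bS w)) (fun y => bd η₀ y * A (xt y))) →
      0 ≤ a * (∫ h, avg c⁻¹ g h ∂(mu0 P)) +
        b * ∫ h, avg c⁻¹ g h * A (fun s => h (fc s)) ∂(mu0 P) := by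
    intro a b hab
    have e0 : ∀ h : Hgt, avg c⁻¹ g h * (a + b * A (fun s => h (fc s))) =
        a * avg c⁻¹ g h + b * (avg c⁻¹ g h * A (fun s => h (fc s))) := fun h => by ring
    have hi : Integrable (fun h => avg c⁻¹ g h * (a + b * A (fun s => h (fc s)))) (mu0 P) := by
      simp only [e0]
      exact (hi0.const_mul a).add (hi1.const_mul b)
    have h1 := FC.integral_nonneg_of_cls hc0 hP hS (con_Fc hm)
      (F := fun h => avg c⁻¹ g h * (a + b * A (fun s => h (fc s))))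
      (fun h h' hh => by rw [(hloc h h' hh).1, (hloc h h' hh).2]) hi
      (by
        intro η₀ _
        obtain ⟨K0, hK0⟩ : ∃ K0 : ℕ, ∀ x ∈ FC.cls (Fc (Rm m)) η₀, ∀ q : Fc (Rm m),
            |x q| ≤ 2 * (K0 : ℤ) := by
          have hfin := FC.cls_finite (con_Fc hm) η₀
          refine ⟨∑ x ∈ hfin.toFinset, ∑ q, (x q).natAbs, fun x hx q => ?_⟩
          have h2 : (x q).natAbs ≤ ∑ q, (x q).natAbs :=
            Finset.single_le_sum (f := fun q => (x q).natAbs) (fun _ _ => Nat.zero_le _)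
              (Finset.mem_univ q)
          have h3 : ∑ q, (x q).natAbs ≤ ∑ x ∈ hfin.toFinset, ∑ q, (x q).natAbs :=
            Finset.single_le_sum (f := fun x : Fc (Rm m) → ℤ => ∑ q, (x q).natAbs)
              (fun _ _ => Nat.zero_le _) (hfin.mem_toFinset.2 hx)
          have h4 := h2.trans h3
          rw [Int.abs_eq_natAbs]
          have h5 : (((x q).natAbs : ℕ) : ℤ) ≤ ((∑ x ∈ hfin.toFinset, ∑ q, (x q).natAbs : ℕ) : ℤ) := by
            exact_mod_cast h4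
          linarith only [h5]
        have hK : ∀ x ∈ FC.cls (Fc (Rm m)) η₀, ∀ q : Fc (Rm m),
            |x q| ≤ 2 * ((max K0 (KF F₂) : ℕ) : ℤ) := by
          intro x hx q
          have h2 := hK0 x hx q
          have h3 : (K0 : ℤ) ≤ ((max K0 (KF F₂) : ℕ) : ℤ) := by exact_mod_cast le_max_left _ _
          linarith only [h2, h3]
        have h4 := cls_eval (m := m) ht0 ht1 hW hWR η₀ hK A a b
        rw [inv_inv] at h4
        rw [h4]
        exact hab η₀ _ (le_max_right _ _))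
    simp only [e0] at h1
    rw [integral_add (hi0.const_mul a) (hi1.const_mul b), integral_const_mul,
      integral_const_mul] at h1
    exact h1
  constructor
  · have h1 := main (ze c F₂ A) (-1) (fun η₀ K hK => by
      have h2 := (square_sandwich hNb hF ht0 ht1 hK hg hA hAI η₀).1
      rw [inv_inv] at h2
      linarith)
    linarith only [h1]
  · have h1 := main (-ze c F₁ A) 1 (fun η₀ K hK => by
      have h2 := (square_sandwich hNb hF ht0 ht1 hK hg hA hAI η₀).2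
      rw [inv_inv] at h2
      linarith only [h2])
    linarith only [h1]

end Vale.Agent.P145.FK
end

section

/-!
P145, block F-C: the height functions on a square of faces with bounded value at the origin in terms
of the ice configurations of the box with free arrows.
-/

namespace Vale.Agent.P145.FC

open Finset Filter Topology MeasureTheory
open Vale.Agent.P152 (Edge Ori Ice sgb pth pth_step_h cyl vw w6 w6_val wc Pairing anti anti_zero
  anti_step sgb_eq)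
open Vale.Agent.P152.GFF.B3 (BE boxNet rd Net)
open Vale.Agent.P145.FA (Hgt ofW)

theorem anti_congr {g g' : ℤ → ℤ} {n : ℤ} (h : ∀ i, (0 < i ∧ i ≤ n) ∨ (n < i ∧ i ≤ 0) → g i = g' i) :
    anti g n = anti g' n := by
  unfold anti
  congr 1
  · exact Finset.sum_congr rfl fun i hi => h i (Or.inl (Finset.mem_Ioc.1 hi))
  · exact Finset.sum_congr rfl fun i hi => h i (Or.inr (Finset.mem_Ioc.1 hi))

theorem pth_congr {N : ℕ} {ω ω' : Ori (ℤ × ℤ)} (h : ∀ e ∈ EB (SqF N), ω e = ω' e) {q : ℤ × ℤ}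
    (hq : q ∈ SqF N) : pth ω q = pth ω' q := by
  obtain ⟨x, y⟩ := q
  rw [mem_SqF] at hq
  simp only at hq
  unfold pth
  congr 1
  · refine anti_congr fun i hi => ?_
    simp only at hi
    rw [h _ (mem_EB_inl.2 ⟨by rw [mem_SqF]; simp only; omega, by rw [mem_SqF]; simp only; omega⟩)]
  · refine anti_congr fun i hi => ?_
    simp only at hi
    rw [h _ (mem_EB_inr.2 ⟨by rw [mem_SqF]; simp only; omega, by rw [mem_SqF]; simp only; omega⟩)]

theorem toNat_dec {z : ℤ} (hz : |z| = 1) : ((decide (z = 1)).toNat : ℤ) * 2 = z + 1 := by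
  rcases (abs_eq (by norm_num)).1 hz with h | h <;> subst h <;> decide

theorem ice_ow {N : ℕ} {η : Hgt} (hη : Hon (SqF N) η) {v : ℤ × ℤ} (hv : v ∈ VB (SqF N)) :
    Ice (ow η) v.1 v.2 := by
  obtain ⟨x, y⟩ := v
  simp only [VB, Finset.mem_filter] at hv
  obtain ⟨h1, h2, h3, h4⟩ := hv
  have a1 := toNat_dec (hη.2.1 x y h1 h3)
  have a2 := toNat_dec (hη.2.1 (x - 1) y h2 h4)
  have a3 := toNat_dec (hη.2.2 x y h1 h2)
  have a4 := toNat_dec (hη.2.2 x (y - 1) h3 h4)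
  show (decide (η (x - 1, y) - η (x - 1, y - 1) = 1)).toNat +
    (decide (η (x - 1, y - 1) - η (x, y - 1) = 1)).toNat =
    (decide (η (x, y) - η (x, y - 1) = 1)).toNat + (decide (η (x - 1, y) - η (x, y) = 1)).toNat
  omega

theorem sgb_dec {z : ℤ} (hz : |z| = 1) : sgb (decide (z = 1)) = z := by
  rcases (abs_eq (by norm_num)).1 hz with h | h <;> subst h <;> decide

theorem hgt_eq {N : ℕ} {η : Hgt} (hη : Hon (SqF N) η) {q : ℤ × ℤ} (hq : q ∈ SqF N) :
    η q = pth (ow η) q + η 0 := by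
  refine (con_SqF N).2 (fun q => η q = pth (ow η) q + η 0) ?_ ?_ ?_ q hq
  · show η 0 = pth (ow η) 0 + η 0
    rw [P152.pth_zero, zero_add]
  · intro x y h1 h2
    have a1 := pth_local (fun v hv => ice_ow hη hv) h1 h2
    have a2 : sgb (ow η (Sum.inl (x, y))) = η (x, y) - η (x, y - 1) := sgb_dec (hη.2.1 x y h1 h2)
    constructor <;> intro h <;> omega
  · intro x y h1 h2
    have a1 := pth_step_h (ow η) x y
    have a2 : sgb (ow η (Sum.inr (x, y))) = η (x - 1, y) - η (x, y) := sgb_dec (hη.2.2 x y h1 h2)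
    constructor <;> intro h <;> omega

theorem ofW_un {N n : ℕ} (hn : n = 2 * N) (k : BE n n → ZMod 2) {e : Edge (ℤ × ℤ)}
    (he : e ∈ EB (SqF N)) : ofW n n (1 - (N : ℤ)) (1 - (N : ℤ)) k e = un N n k e := by
  have h1 := (FA.window_rep n n (1 - (N : ℤ)) (1 - (N : ℤ)) (fun _ => True)
    (fun ω => if ω e = true then 1 else 0) {e} (fun ω ω' h => by
      simp only [h e (Finset.mem_singleton_self e)]) (fun e' he' => ⟨?_, fun _ _ => trivial⟩)).1
    (un N n k)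
  · rw [rd_un] at h1
    cases h2 : un N n k e <;> cases h3 : ofW n n (1 - (N : ℤ)) (1 - (N : ℤ)) k e <;>
      rw [h2, h3] at h1 <;> simp at h1
  · rw [Finset.mem_singleton] at he'
    subst he'
    rcases e' with ⟨x, y⟩ | ⟨x, y⟩
    · rw [mem_EB_inl, mem_SqF, mem_SqF] at he
      simp only at he
      refine ⟨Sum.inl (⟨(x + N).toNat, by omega⟩, ⟨(y + N - 1).toNat, by omega⟩), ?_⟩
      show Sum.inl (1 - (N : ℤ) + ((x + N).toNat : ℕ) - 1, 1 - (N : ℤ) + ((y + N - 1).toNat : ℕ)) =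
        Sum.inl (x, y)
      congr 2 <;> omega
    · rw [mem_EB_inr, mem_SqF, mem_SqF] at he
      simp only at he
      refine ⟨Sum.inr (⟨(x + N - 1).toNat, by omega⟩, ⟨(y + N).toNat, by omega⟩), ?_⟩
      show Sum.inr (1 - (N : ℤ) + ((x + N - 1).toNat : ℕ), 1 - (N : ℤ) + ((y + N).toNat : ℕ) - 1) =
        Sum.inr (x, y)
      congr 2 <;> omega

/-- The heights on the square with bounded value at the origin. -/
def HL (N L : ℕ) : Set (SqF N → ℤ) := {x | Hon (SqF N) (ext0 x) ∧ |ext0 x 0| ≤ 2 * (L : ℤ)}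

theorem Hon.add {B : Finset (ℤ × ℤ)} {η : Hgt} (h : Hon B η) (j : ℤ) :
    Hon B (fun q => η q + 2 * j) := by
  refine ⟨fun q hq => ?_, fun x y h1 h2 => ?_, fun x y h1 h2 => ?_⟩
  · have := h.1 q hq
    show (2 : ℤ) ∣ η q + 2 * j - (q.1 + q.2)
    omega
  · have := h.2.1 x y h1 h2
    show |η (x, y) + 2 * j - (η (x, y - 1) + 2 * j)| = 1
    rwa [add_sub_add_right_eq_sub]
  · have := h.2.2 x y h1 h2
    show |η (x - 1, y) + 2 * j - (η (x, y) + 2 * j)| = 1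
    rwa [add_sub_add_right_eq_sub]

theorem bijOn_HL {N n : ℕ} (L : ℕ) (hn : n = 2 * N) {c : ℝ} (hc : 0 < c) :
    Set.BijOn (fun x : SqF N → ℤ =>
        ((ext0 x 0) / 2, rd n n (1 - (N : ℤ)) (1 - (N : ℤ)) (ow (ext0 x)))) (HL N L)
      {p | p.1 ∈ Finset.Icc (-(L : ℤ)) L ∧ (boxNet n n).W6 (wc c) p.2 ≠ 0} := by
  refine ⟨?_, ?_, ?_⟩
  · rintro x ⟨hx, hx0⟩
    refine ⟨?_, ?_⟩
    · rw [Finset.mem_Icc]
      rw [abs_le] at hx0
      simp only
      omega
    · show (boxNet n n).W6 (wc c) _ ≠ 0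
      rw [W6_rd hn, Finset.prod_congr rfl fun v hv => vwt_ow hx hv]
      exact (WB_pos hc _ _).ne'
  · rintro x ⟨hx, _⟩ x' ⟨hx', _⟩ h
    simp only [Prod.mk.injEq] at h
    obtain ⟨h0, h⟩ := h
    have p0 := hx.1 0 (con_SqF N).1
    have p0' := hx'.1 0 (con_SqF N).1
    simp only [Prod.fst_zero, Prod.snd_zero, add_zero, sub_zero] at p0 p0'
    have h00 : ext0 x 0 = ext0 x' 0 := by omega
    have h1 : ∀ e ∈ EB (SqF N), ow (ext0 x) e = ow (ext0 x') e := by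
      intro e he
      have := congrArg (fun k => un N n k e) h
      rwa [un_rd hn _ he, un_rd hn _ he] at this
    have h2 : ∀ q ∈ SqF N, ext0 x q = ext0 x' q := fun q hq => by
      rw [hgt_eq hx hq, hgt_eq hx' hq, pth_congr h1 hq, h00]
    funext q
    have := h2 q q.2
    rwa [ext0_of_mem x q.2, ext0_of_mem x' q.2] at this
  · rintro ⟨j, k⟩ ⟨hj, hk⟩
    obtain ⟨x, ⟨hx, hx0⟩, hxk⟩ := (bijOn_HZ hn hc).2.2 hk
    simp only at hxk
    rw [Finset.mem_Icc] at hj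
    have hE : ∀ q ∈ SqF N, ext0 (res0 (SqF N) (fun q => ext0 x q + 2 * j)) q = ext0 x q + 2 * j :=
      fun q hq => ext0_res0 _ hq
    refine ⟨res0 (SqF N) (fun q => ext0 x q + 2 * j),
      ⟨(hx.add j).congr fun q hq => (hE q hq).symm, ?_⟩, ?_⟩
    · rw [hE 0 (con_SqF N).1, hx0, abs_le]
      (clear * - hj; omega)
    · refine Prod.ext ?_ ?_
      · show ext0 (res0 (SqF N) (fun q => ext0 x q + 2 * j)) 0 / 2 = j
        rw [hE 0 (con_SqF N).1, hx0]
        omega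
      · show rd n n (1 - (N : ℤ)) (1 - (N : ℤ)) (ow (ext0 (res0 (SqF N) (fun q => ext0 x q + 2 * j)))) = k
        rw [← hxk]
        have h1 : ∀ e ∈ EB (SqF N), ow (ext0 (res0 (SqF N) (fun q => ext0 x q + 2 * j))) e =
            ow (ext0 x) e := by
          rintro (⟨a, b⟩ | ⟨a, b⟩) he
          · rw [mem_EB_inl] at he
            show decide (_ - _ = 1) = decide (_ - _ = 1)
            rw [hE _ he.1, hE _ he.2, add_sub_add_right_eq_sub]
          · rw [mem_EB_inr] at he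
            show decide (_ - _ = 1) = decide (_ - _ = 1)
            rw [hE _ he.1, hE _ he.2, add_sub_add_right_eq_sub]
        funext e
        rcases e with ⟨i, j⟩ | ⟨i, j⟩
        · show (if _ = true then (0 : ZMod 2) else 1) = (if _ = true then (0 : ZMod 2) else 1)
          rw [h1 _ (mem_EB_inl.2 ⟨?_, ?_⟩)]
          · rw [mem_SqF]; have := i.2; have := j.2; simp only; omega
          · rw [mem_SqF]; have := i.2; have := j.2; simp only; omega
        · show (if _ = true then (0 : ZMod 2) else 1) = (if _ = true then (0 : ZMod 2) else 1)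
          rw [h1 _ (mem_EB_inr.2 ⟨?_, ?_⟩)]
          · rw [mem_SqF]; have := i.2; have := j.2; simp only; (clear L c hc k hj hk x hxk hx hx0 hE h1; omega)
          · rw [mem_SqF]; have := i.2; have := j.2; simp only; omega

/-- The height sum with bounded value at the origin. -/
theorem HL_sum {N n : ℕ} (L : ℕ) (hn : n = 2 * N) {c : ℝ} (hc : 0 < c) {g : Hgt → ℝ}
    (hg : ∀ h h' : Hgt, (∀ q ∈ SqF N, h q = h' q) → g h = g h') :
    ∑ᶠ x ∈ HL N L, WB c (SqF N) (ext0 x) * g (ext0 x) =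
      ∑ j ∈ Finset.Icc (-(L : ℤ)) L, ∑ k : BE n n → ZMod 2,
        g (fun q => pth (ofW n n (1 - (N : ℤ)) (1 - (N : ℤ)) k) q + 2 * j) *
          (boxNet n n).W6 (wc c) k := by
  rw [finsum_mem_eq_of_bijOn _ (bijOn_HL L hn hc)
    (g := fun p : ℤ × (BE n n → ZMod 2) =>
      g (fun q => pth (ofW n n (1 - (N : ℤ)) (1 - (N : ℤ)) p.2) q + 2 * p.1) *
          (boxNet n n).W6 (wc c) p.2)]
  · rw [← Finset.sum_product' (s := Finset.Icc (-(L : ℤ)) L) (t := Finset.univ)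
      (f := fun j k => g (fun q => pth (ofW n n (1 - (N : ℤ)) (1 - (N : ℤ)) k) q + 2 * j) *
          (boxNet n n).W6 (wc c) k)]
    rw [← finsum_mem_coe_finset]
    have e : {p : ℤ × (BE n n → ZMod 2) | p.1 ∈ Finset.Icc (-(L : ℤ)) L ∧
        (boxNet n n).W6 (wc c) p.2 ≠ 0} ⊆
        ((Finset.Icc (-(L : ℤ)) L ×ˢ (Finset.univ : Finset (BE n n → ZMod 2)) :
          Finset (ℤ × (BE n n → ZMod 2))) : Set (ℤ × (BE n n → ZMod 2))) := by
      rintro p ⟨h1, _⟩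
      rw [Finset.mem_coe, Finset.mem_product]
      exact ⟨h1, Finset.mem_univ _⟩
    refine finsum_mem_inter_support_eq _ _ _ ?_
    ext p
    simp only [Set.mem_inter_iff, Function.mem_support]
    constructor
    · rintro ⟨h1, h2⟩
      exact ⟨e h1, h2⟩
    · rintro ⟨h1, h2⟩
      rw [Finset.mem_coe, Finset.mem_product] at h1
      exact ⟨⟨h1.1, right_ne_zero_of_mul h2⟩, h2⟩
  · rintro x ⟨hx, _⟩
    have p0 := hx.1 0 (con_SqF N).1
    simp only [Prod.fst_zero, Prod.snd_zero, add_zero, sub_zero] at p0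
    show _ = g (fun q => pth (ofW n n (1 - (N : ℤ)) (1 - (N : ℤ))
      (rd n n (1 - (N : ℤ)) (1 - (N : ℤ)) (ow (ext0 x)))) q + 2 * ((ext0 x 0) / 2)) *
      (boxNet n n).W6 (wc c) (rd n n (1 - (N : ℤ)) (1 - (N : ℤ)) (ow (ext0 x)))
    rw [W6_rd hn, Finset.prod_congr rfl fun v hv => vwt_ow hx hv, mul_comm]
    congr 1
    refine hg _ _ fun q hq => ?_
    have h1 : pth (ofW n n (1 - (N : ℤ)) (1 - (N : ℤ))
        (rd n n (1 - (N : ℤ)) (1 - (N : ℤ)) (ow (ext0 x)))) q = pth (ow (ext0 x)) q :=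
      pth_congr (fun e he => by rw [ofW_un hn _ he, un_rd hn _ he]) hq
    rw [h1, hgt_eq hx hq]
    omega

theorem abs_anti_le {g : ℤ → ℤ} (hg : ∀ i, |g i| ≤ 1) (n : ℤ) : |anti g n| ≤ |n| := by
  unfold anti
  rcases le_total 0 n with h | h
  · rw [Finset.Ioc_eq_empty (show ¬ n < 0 by omega), Finset.sum_empty, sub_zero]
    refine (Finset.abs_sum_le_sum_abs _ _).trans ?_
    refine (Finset.sum_le_sum fun i _ => hg i).trans ?_
    rw [Finset.sum_const, Int.card_Ioc, nsmul_eq_mul, mul_one, sub_zero, Int.toNat_of_nonneg h,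
      abs_of_nonneg h]
  · rw [Finset.Ioc_eq_empty (show ¬ 0 < n by omega), Finset.sum_empty, zero_sub, abs_neg]
    refine (Finset.abs_sum_le_sum_abs _ _).trans ?_
    refine (Finset.sum_le_sum fun i _ => hg i).trans ?_
    rw [Finset.sum_const, Int.card_Ioc, nsmul_eq_mul, mul_one, zero_sub,
      Int.toNat_of_nonneg (by omega), abs_of_nonpos h]

theorem abs_pth_le (ω : Ori (ℤ × ℤ)) (q : ℤ × ℤ) : |pth ω q| ≤ |q.1| + |q.2| := by
  unfold pth
  have h1 := abs_anti_le (g := fun j => sgb (ω (Sum.inl (0, j)))) (fun i => (abs_sgb _).le) q.2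
  have h2 := abs_anti_le (g := fun i => sgb (ω (Sum.inr (i, q.2)))) (fun i => (abs_sgb _).le) q.1
  refine (abs_sub _ _).trans ?_
  linarith only [h1, h2]

theorem Hon_bound {N : ℕ} {η : Hgt} (hη : Hon (SqF N) η) {q : ℤ × ℤ} (hq : q ∈ SqF N) :
    |η q| ≤ |η 0| + 2 * N := by
  rw [hgt_eq hη hq]
  have h1 := abs_pth_le (ow η) q
  rw [mem_SqF] at hq
  have h2 : |q.1| ≤ N := abs_le.2 ⟨by omega, by omega⟩
  have h3 : |q.2| ≤ N := abs_le.2 ⟨by omega, by omega⟩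
  have h4 := abs_add_le (pth (ow η) q) (η 0)
  linarith only [h1, h2, h3, h4]

end Vale.Agent.P145.FC
end

section

/-!
P145, block F-B: anti-concentration from characteristic functions.
-/

namespace Vale.Agent.P145.FB.AC

open MeasureTheory Filter Topology

/-- The Gaussian as a superposition of characters. -/
lemma gauss_rep {K : ℝ} (hK : 0 < K) (x : ℝ) :
    ((Real.exp (-(x ^ 2 / (2 * K ^ 2))) : ℝ) : ℂ) =
      ((K / Real.sqrt (2 * Real.pi) : ℝ) : ℂ) * ∫ t : ℝ, Complex.exp (Complex.I * (x : ℂ) * t) *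
        Complex.exp (-((K ^ 2 / 2 : ℝ) : ℂ) * (t : ℂ) ^ 2) := by
  have hb : 0 < (((K ^ 2 / 2 : ℝ) : ℂ)).re := by
    rw [Complex.ofReal_re]
    positivity
  rw [fourierIntegral_gaussian hb]
  have hpi : (0 : ℝ) ≤ Real.pi / (K ^ 2 / 2) := by positivity
  have e1 : ((Real.pi : ℂ) / ((K ^ 2 / 2 : ℝ) : ℂ)) ^ (1 / 2 : ℂ) =
      ((Real.sqrt (Real.pi / (K ^ 2 / 2)) : ℝ) : ℂ) := by
    rw [Real.sqrt_eq_rpow, Complex.ofReal_cpow hpi]
    push_cast
    rfl
  rw [e1]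
  have e2 : Real.sqrt (Real.pi / (K ^ 2 / 2)) = Real.sqrt (2 * Real.pi) / K := by
    rw [show Real.pi / (K ^ 2 / 2) = (2 * Real.pi) / K ^ 2 by field_simp, Real.sqrt_div' _ (by positivity),
      Real.sqrt_sq hK.le]
  rw [e2]
  have e3 : Complex.exp (-(x : ℂ) ^ 2 / (4 * ((K ^ 2 / 2 : ℝ) : ℂ))) =
      ((Real.exp (-(x ^ 2 / (2 * K ^ 2))) : ℝ) : ℂ) := by
    rw [Complex.ofReal_exp]
    congr 1
    push_cast
    have hK' : (K : ℂ) ≠ 0 := by exact_mod_cast hK.ne'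
    field_simp
    ring
  rw [e3, ← mul_assoc, ← Complex.ofReal_mul]
  have hs : Real.sqrt (2 * Real.pi) ≠ 0 := by positivity
  have e4 : K / Real.sqrt (2 * Real.pi) * (Real.sqrt (2 * Real.pi) / K) = 1 := by
    field_simp
  rw [e4, Complex.ofReal_one, one_mul]

variable {Ω : Type*} [MeasurableSpace Ω] {P : Measure Ω} [IsProbabilityMeasure P]

lemma norm_char (a : ℝ) : ‖Complex.exp (Complex.I * (a : ℂ))‖ = 1 := by
  rw [Complex.norm_exp]
  simp

lemma exp_real (K t : ℝ) : Complex.exp (-((K ^ 2 / 2 : ℝ) : ℂ) * (t : ℂ) ^ 2) =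
    ((Real.exp (-(K ^ 2 / 2) * t ^ 2) : ℝ) : ℂ) := by
  rw [Complex.ofReal_exp]
  push_cast
  rfl

/-- The expectation of a Gaussian of `X` in terms of its characteristic function. -/
lemma exp_gauss {K : ℝ} (hK : 0 < K) {X : Ω → ℝ} (hX : AEMeasurable X P) :
    ((∫ ω, Real.exp (-(X ω ^ 2 / (2 * K ^ 2))) ∂P : ℝ) : ℂ) =
      ((K / Real.sqrt (2 * Real.pi) : ℝ) : ℂ) *
        ∫ t : ℝ, ((Real.exp (-(K ^ 2 / 2) * t ^ 2) : ℝ) : ℂ) *
          ∫ ω, Complex.exp (Complex.I * ((t * X ω : ℝ) : ℂ)) ∂P := by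
  rw [← integral_complex_ofReal]
  have e1 : ∀ ω, ((Real.exp (-(X ω ^ 2 / (2 * K ^ 2))) : ℝ) : ℂ) =
      ((K / Real.sqrt (2 * Real.pi) : ℝ) : ℂ) * ∫ t : ℝ,
        ((Real.exp (-(K ^ 2 / 2) * t ^ 2) : ℝ) : ℂ) *
          Complex.exp (Complex.I * ((t * X ω : ℝ) : ℂ)) := by
    intro ω
    rw [gauss_rep hK (X ω)]
    congr 1
    refine integral_congr_ae (Eventually.of_forall fun t => ?_)
    simp only
    rw [exp_real, mul_comm]
    congr 2
    push_cast
    ring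
  simp_rw [e1]
  rw [integral_const_mul]
  congr 1
  have hg : Integrable (fun t : ℝ => Real.exp (-(K ^ 2 / 2) * t ^ 2)) :=
    integrable_exp_neg_mul_sq (by positivity)
  have hg' : Integrable (fun p : Ω × ℝ => Real.exp (-(K ^ 2 / 2) * p.2 ^ 2)) (P.prod volume) := by
    have := (integrable_const (1 : ℝ) (μ := P)).mul_prod hg
    simpa only [neg_mul, one_mul] using this
  have hint : Integrable (fun p : Ω × ℝ => ((Real.exp (-(K ^ 2 / 2) * p.2 ^ 2) : ℝ) : ℂ) *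
      Complex.exp (Complex.I * ((p.2 * X p.1 : ℝ) : ℂ))) (P.prod volume) := by
    refine hg'.mono' ?_ (Eventually.of_forall fun p => ?_)
    · refine AEStronglyMeasurable.mul ?_ ?_
      · exact (Complex.continuous_ofReal.measurable.comp
          (Real.measurable_exp.comp ((measurable_snd.pow_const 2).const_mul _))).aestronglyMeasurable
      · have h1 : AEMeasurable (fun p : Ω × ℝ => p.2 * X p.1) (P.prod volume) :=
          measurable_snd.aemeasurable.mul (hX.comp_quasiMeasurePreserving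
            Measure.quasiMeasurePreserving_fst)
        have h2 : AEMeasurable (fun p : Ω × ℝ =>
            Complex.exp (Complex.I * ((p.2 * X p.1 : ℝ) : ℂ))) (P.prod volume) :=
          Complex.measurable_exp.comp_aemeasurable
            ((Complex.continuous_ofReal.measurable.comp_aemeasurable h1).const_mul _)
        exact h2.aestronglyMeasurable
    · rw [norm_mul, norm_char, mul_one, Complex.norm_real, Real.norm_eq_abs, abs_of_pos (Real.exp_pos _)]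
  rw [integral_integral_swap hint]
  refine integral_congr_ae (Eventually.of_forall fun t => ?_)
  simp only
  rw [integral_const_mul]

/-- **Anti-concentration in the limit.** If the characteristic functions of `X δ` converge to that
of a Gaussian of variance `v`, then `P(|X δ| ≤ K) ≤ 2 K / √v + η` for small `δ`. -/
theorem anti {X : ℝ → Ω → ℝ} (hX : ∀ δ, AEMeasurable (X δ) P) {v : ℝ} (hv : 0 < v)
    (hlim : ∀ t : ℝ, Tendsto (fun δ => ∫ ω, Complex.exp (Complex.I * ((t * X δ ω : ℝ) : ℂ)) ∂P)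
      (𝓝[>] 0) (𝓝 (Complex.exp (-((v / 2 * t ^ 2 : ℝ) : ℂ))))) {K : ℝ} (hK : 0 < K) {η : ℝ}
    (hη : 0 < η) :
    ∀ᶠ δ : ℝ in 𝓝[>] 0, P.real {ω | |X δ ω| ≤ K} ≤ 2 * K / Real.sqrt v + η := by
  have hg : Integrable (fun t : ℝ => Real.exp (-(K ^ 2 / 2) * t ^ 2)) :=
    integrable_exp_neg_mul_sq (by positivity)
  have h1 : Tendsto (fun δ => ∫ t : ℝ, ((Real.exp (-(K ^ 2 / 2) * t ^ 2) : ℝ) : ℂ) *
          ∫ ω, Complex.exp (Complex.I * ((t * X δ ω : ℝ) : ℂ)) ∂P) (𝓝[>] 0)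
      (𝓝 (∫ t : ℝ, ((Real.exp (-(K ^ 2 / 2) * t ^ 2) : ℝ) : ℂ) *
        Complex.exp (-((v / 2 * t ^ 2 : ℝ) : ℂ)))) := by
    refine tendsto_integral_filter_of_dominated_convergence
      (fun t : ℝ => Real.exp (-(K ^ 2 / 2) * t ^ 2)) (Eventually.of_forall fun δ => ?_)
      (Eventually.of_forall fun δ => Eventually.of_forall fun t => ?_) hg
      (Eventually.of_forall fun t => (hlim t).const_mul _)
    · refine AEStronglyMeasurable.mul ?_ ?_
      · exact (Complex.continuous_ofReal.measurable.comp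
          (Real.measurable_exp.comp ((measurable_id.pow_const 2).const_mul _))).aestronglyMeasurable
      · have h1 : AEMeasurable (fun p : ℝ × Ω => p.1 * X δ p.2) (volume.prod P) :=
          measurable_fst.aemeasurable.mul ((hX δ).comp_quasiMeasurePreserving
            Measure.quasiMeasurePreserving_snd)
        have h2 : AEMeasurable (fun p : ℝ × Ω =>
            Complex.exp (Complex.I * ((p.1 * X δ p.2 : ℝ) : ℂ))) (volume.prod P) :=
          Complex.measurable_exp.comp_aemeasurable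
            ((Complex.continuous_ofReal.measurable.comp_aemeasurable h1).const_mul _)
        exact h2.aestronglyMeasurable.integral_prod_right'
    · rw [norm_mul, Complex.norm_real, Real.norm_eq_abs, abs_of_pos (Real.exp_pos _)]
      refine mul_le_of_le_one_right (Real.exp_pos _).le ?_
      refine (norm_integral_le_integral_norm _).trans ?_
      simp_rw [norm_char]
      simp
  have h2 : (∫ t : ℝ, ((Real.exp (-(K ^ 2 / 2) * t ^ 2) : ℝ) : ℂ) *
        Complex.exp (-((v / 2 * t ^ 2 : ℝ) : ℂ))) =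
      ((Real.sqrt (Real.pi / ((K ^ 2 + v) / 2)) : ℝ) : ℂ) := by
    rw [← integral_gaussian, ← integral_complex_ofReal]
    refine integral_congr_ae (Eventually.of_forall fun t => ?_)
    simp only
    rw [show -((v / 2 * t ^ 2 : ℝ) : ℂ) = ((-(v / 2 * t ^ 2) : ℝ) : ℂ) by push_cast; ring,
      ← Complex.ofReal_exp, ← Complex.ofReal_mul, ← Real.exp_add]
    congr 2
    ring
  rw [h2] at h1
  have h3 := h1.const_mul ((K / Real.sqrt (2 * Real.pi) : ℝ) : ℂ)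
  simp_rw [← exp_gauss hK (hX _)] at h3
  rw [← Complex.ofReal_mul] at h3
  have h4 : Tendsto (fun δ => ∫ ω, Real.exp (-(X δ ω ^ 2 / (2 * K ^ 2))) ∂P) (𝓝[>] 0)
      (𝓝 (K / Real.sqrt (2 * Real.pi) * Real.sqrt (Real.pi / ((K ^ 2 + v) / 2)))) := by
    have := (Complex.continuous_re.tendsto _).comp h3
    simpa only [Function.comp_def, Complex.ofReal_re] using this
  have h5 : K / Real.sqrt (2 * Real.pi) * Real.sqrt (Real.pi / ((K ^ 2 + v) / 2)) ≤
      K / Real.sqrt v := by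
    rw [show Real.pi / ((K ^ 2 + v) / 2) = (2 * Real.pi) / (K ^ 2 + v) by (clear * - hK hv; field_simp),
      Real.sqrt_div' _ (by positivity)]
    have hs : (0 : ℝ) < Real.sqrt (2 * Real.pi) := by positivity
    have hsv : (0 : ℝ) < Real.sqrt v := Real.sqrt_pos.2 hv
    have hle : Real.sqrt v ≤ Real.sqrt (K ^ 2 + v) := Real.sqrt_le_sqrt (by nlinarith only [])
    have e : K / Real.sqrt (2 * Real.pi) * (Real.sqrt (2 * Real.pi) / Real.sqrt (K ^ 2 + v)) =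
        K / Real.sqrt (K ^ 2 + v) := by field_simp
    rw [e]
    exact div_le_div_of_nonneg_left hK.le hsv hle
  have h6 : ∀ᶠ δ : ℝ in 𝓝[>] 0, ∫ ω, Real.exp (-(X δ ω ^ 2 / (2 * K ^ 2))) ∂P <
      K / Real.sqrt v + η / 2 := by
    refine h4.eventually_lt_const (lt_of_le_of_lt h5 ?_)
    linarith only [hη]
  filter_upwards [h6] with δ hδ
  -- Markov
  set Y : Ω → ℝ := fun ω => Real.exp (-(X δ ω ^ 2 / (2 * K ^ 2))) with hY
  have hY0 : ∀ ω, 0 ≤ Y ω := fun ω => (Real.exp_pos _).le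
  have hYm : AEStronglyMeasurable Y P :=
    (Real.measurable_exp.comp_aemeasurable
      (((hX δ).pow_const 2).div_const _).neg).aestronglyMeasurable
  have hYi : Integrable Y P := by
    refine Integrable.of_bound hYm 1 (Eventually.of_forall fun ω => ?_)
    rw [Real.norm_eq_abs, abs_of_nonneg (hY0 ω), hY]
    simp only
    rw [Real.exp_le_one_iff]
    have : 0 ≤ X δ ω ^ 2 / (2 * K ^ 2) := by (clear * - hK; positivity)
    linarith only [this]
  have hsub : {ω | |X δ ω| ≤ K} ⊆ {ω | (1 / 2 : ℝ) ≤ Y ω} := by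
    intro ω hω
    have hω' : |X δ ω| ≤ K := hω
    have hsq : X δ ω ^ 2 ≤ K ^ 2 := by
      rw [← sq_abs]
      exact pow_le_pow_left₀ (abs_nonneg _) hω' 2
    have hq : X δ ω ^ 2 / (2 * K ^ 2) ≤ 1 / 2 := by
      rw [div_le_div_iff₀ (by positivity) (by norm_num)]
      nlinarith only [hsq]
    show (1 / 2 : ℝ) ≤ Real.exp (-(X δ ω ^ 2 / (2 * K ^ 2)))
    have := Real.add_one_le_exp (-(X δ ω ^ 2 / (2 * K ^ 2)))
    linarith only [hq, this]
  have hmark := mul_meas_ge_le_integral_of_nonneg (Eventually.of_forall hY0) hYi (1 / 2)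
  have hmono : P.real {ω | |X δ ω| ≤ K} ≤ P.real {ω | (1 / 2 : ℝ) ≤ Y ω} :=
    measureReal_mono hsub
  have e2 : 2 * K / Real.sqrt v = 2 * (K / Real.sqrt v) := by ring
  rw [e2]
  have hδ' : ∫ ω, Y ω ∂P < K / Real.sqrt v + η / 2 := hδ
  have h7 : 1 / 2 * P.real {ω | (1 / 2 : ℝ) ≤ Y ω} ≤ ∫ ω, Y ω ∂P := hmark
  linarith only [hδ, hmark, hmono]

end Vale.Agent.P145.FB.AC
end

section

/-!
P145, block F-B (AC): second moments of differences of bump averages of the height function at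
comparable scales are bounded, and the difference of the averages over two bumps of sizes `s` and
`2 M s` is anti-concentrated for large `M`.
-/

namespace Vale.Agent.P145.FB.AC

open MeasureTheory Filter Topology Finset
open Vale.Agent.P152 Vale.Agent.P152.GFF.S
open Vale.Agent.P145.FA (ev Hgt)

/-! ### Weights of the cells -/

/-- The weights `∫_{cell} F` of the cells in a box. -/
noncomputable def cw (F : ℝ × ℝ → ℝ) (δ : ℝ) (N : ℕ) : (ℤ × ℤ) →₀ ℝ :=
  Finsupp.onFinset (hbox N) (fun v => if v ∈ hbox N then ∫ x in hcell δ v, F x else 0) (by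
    intro v hv
    by_contra h
    rw [if_neg h] at hv
    exact hv rfl)

lemma cw_apply (F : ℝ × ℝ → ℝ) (δ : ℝ) (N : ℕ) (v : ℤ × ℤ) :
    cw F δ N v = if v ∈ hbox N then ∫ x in hcell δ v, F x else 0 := rfl

lemma cw_sum (F : ℝ × ℝ → ℝ) (δ : ℝ) (N : ℕ) (g : ℤ × ℤ → ℝ → ℝ) (hg : ∀ v, g v 0 = 0) :
    (cw F δ N).sum g = ∑ v ∈ hbox N, g v (∫ x in hcell δ v, F x) := by
  unfold cw
  rw [Finsupp.onFinset_sum _ hg]
  refine Finset.sum_congr rfl fun v hv => ?_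
  rw [if_pos hv]

lemma ev_cw (h : ℤ × ℤ → ℤ) {δ : ℝ} (hδ : 0 < δ) {F : ℝ × ℝ → ℝ} (hF : Integrable F)
    {R : ℝ} (hR : ∀ x : ℝ × ℝ, F x ≠ 0 → |x.1| ≤ R ∧ |x.2| ≤ R) {N : ℕ} (hN : R / δ + 1 ≤ N) :
    FA.ev (cw F δ N) h = hint h δ F := by
  unfold FA.ev
  rw [cw_sum F δ N _ (fun v => by simp), hint_cells h hδ hF hR hN]
  exact Finset.sum_congr rfl fun v _ => mul_comm _ _

lemma mass_cw {δ : ℝ} (hδ : 0 < δ) {F : ℝ × ℝ → ℝ} (hF : Integrable F)
    {R : ℝ} (hR : ∀ x : ℝ × ℝ, F x ≠ 0 → |x.1| ≤ R ∧ |x.2| ≤ R) {N : ℕ} (hN : R / δ + 1 ≤ N) :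
    ((cw F δ N).sum fun _ a => a) = ∫ x, F x := by
  rw [cw_sum F δ N _ (fun v => rfl)]
  have h1 := hint_cells (fun _ => 1) hδ hF hR hN
  have h2 : hint (fun _ => 1) δ F = ∫ x, F x := by
    unfold hint hd
    simp
  rw [← h2, h1]
  refine Finset.sum_congr rfl fun v _ => ?_
  simp only [Int.cast_one, one_mul]

lemma cw_supp {F : ℝ × ℝ → ℝ} {δ : ℝ} {N : ℕ} {v : ℤ × ℤ} (hv : v ∈ (cw F δ N).support) :
    ∃ x : ℝ × ℝ, F x ≠ 0 ∧ (δ * v.1 ≤ x.1 ∧ x.1 < δ * (v.1 + 1)) ∧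
      (δ * v.2 ≤ x.2 ∧ x.2 < δ * (v.2 + 1)) := by
  rw [Finsupp.mem_support_iff, cw_apply] at hv
  by_contra hno
  apply hv
  split_ifs
  · refine setIntegral_eq_zero_of_forall_eq_zero fun x hx => ?_
    by_contra hne
    exact hno ⟨x, hne, ⟨hx.1.1, hx.1.2⟩, ⟨hx.2.1, hx.2.2⟩⟩
  · rfl

/-- The weights of the bump at `c` at scale `s`. -/
noncomputable def bw (c : ℝ × ℝ) (s : ℕ) : (ℤ × ℤ) →₀ ℝ :=
  cw (phi c) (1 / s) ⌈(|c.1| + |c.2| + 1) / (1 / (s : ℝ)) + 1⌉₊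

lemma phi_bd (c x : ℝ × ℝ) (h : phi c x ≠ 0) :
    |x.1| ≤ |c.1| + |c.2| + 1 ∧ |x.2| ≤ |c.1| + |c.2| + 1 := by
  have h1 := phi_supp h
  have h2 := abs_sub_abs_le_abs_sub x.1 c.1
  have h3 := abs_sub_abs_le_abs_sub x.2 c.2
  have h4 := abs_nonneg c.1
  have h5 := abs_nonneg c.2
  constructor <;> linarith only [h1, h2, h5, h3, h4]

lemma ev_bw (c : ℝ × ℝ) {s : ℕ} (hs : 0 < s) (h : ℤ × ℤ → ℤ) :
    FA.ev (bw c s) h = hint h (1 / s) (phi c) := by
  have h0 : (0 : ℝ) < 1 / s := by positivity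
  exact ev_cw h h0 (phi_integrable c) (phi_bd c) (Nat.le_ceil _)

lemma mass_bw (c : ℝ × ℝ) {s : ℕ} (hs : 0 < s) : ((bw c s).sum fun _ a => a) = 1 := by
  have h0 : (0 : ℝ) < 1 / s := by positivity
  rw [← phi_int c]
  exact mass_cw h0 (phi_integrable c) (phi_bd c) (Nat.le_ceil _)

lemma supp_bw (c : ℝ × ℝ) {s : ℕ} (hs : 0 < s) {v : ℤ × ℤ} (hv : v ∈ (bw c s).support) :
    (s * c.1 - s / 2 - 1 < v.1 ∧ (v.1 : ℝ) < s * c.1 + s / 2) ∧
      (s * c.2 - s / 2 - 1 < v.2 ∧ (v.2 : ℝ) < s * c.2 + s / 2) := by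
  obtain ⟨x, hx, h1, h2⟩ := cw_supp hv
  have h3 := phi_supp hx
  have hs' : (0 : ℝ) < s := by exact_mod_cast hs
  have key : ∀ (u : ℤ) (y d : ℝ), 1 / (s : ℝ) * u ≤ y → y < 1 / (s : ℝ) * (u + 1) →
      |y - d| < 1 / 2 → s * d - s / 2 - 1 < u ∧ (u : ℝ) < s * d + s / 2 := by
    intro u y d h4 h5 h6
    rw [abs_lt] at h6
    have h7 : (u : ℝ) ≤ s * y := by
      have := mul_le_mul_of_nonneg_left h4 hs'.le
      have e : (s : ℝ) * (1 / (s : ℝ) * u) = u := by field_simp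
      linarith only [this, e]
    have h8 : s * y < u + 1 := by
      have := mul_lt_mul_of_pos_left h5 hs'
      have e : (s : ℝ) * (1 / (s : ℝ) * (u + 1)) = u + 1 := by field_simp
      linarith only [this, e]
    have h9 : s * (y - d) < s * (1 / 2) := mul_lt_mul_of_pos_left h6.2 hs'
    have h10 : s * (-(1 / 2)) < s * (y - d) := mul_lt_mul_of_pos_left h6.1 hs'
    constructor <;> nlinarith only [h7, h9, h8, h10]
  exact ⟨key v.1 x.1 c.1 h1.1 h1.2 h3.1, key v.2 x.2 c.2 h2.1 h2.2 h3.2⟩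

/-! ### Second moments -/

lemma hint_sub (h : ℤ × ℤ → ℤ) {δ : ℝ} (hδ : 0 < δ) {F G : ℝ × ℝ → ℝ} (hF : Continuous F)
    (cF : HasCompactSupport F) (hG : Continuous G) (cG : HasCompactSupport G) :
    hint h δ (fun x => F x - G x) = hint h δ F - hint h δ G := by
  unfold hint
  rw [← integral_sub (hd_integrable h hδ hF cF) (hd_integrable h hδ hG cG)]
  refine integral_congr_ae (Eventually.of_forall (fun x => ?_))
  simp only
  ring

theorem second {P : Measure (Ori (ℤ × ℤ))} [IsProbabilityMeasure P] {C : ℝ} (hC : 0 ≤ C)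
    (hGD : GD P C) (hice : ∀ᵐ ω ∂P, ∀ x y, Ice ω x y) (c : ℝ × ℝ) (a : ℝ) :
    ∃ D : ℝ, ∀ᶠ δ : ℝ in 𝓝[>] 0, ∫ ω, (hint (pth ω) δ (phi c) -
      hint (pth ω) δ (phi (c.1 + a, c.2))) ^ 2 ∂P ≤ D := by
  obtain ⟨Ψ, hΨ, cΨ, dΨ⟩ := diff_deriv c a
  refine ⟨6 * C * (∫ x, Ψ x ^ 2) + 1, ?_⟩
  filter_upwards [row_var hC hGD hice hΨ cΨ (ε := 1) one_pos, self_mem_nhdsWithin] with δ h1 hδ
  have hδ0 : 0 < δ := hδ
  refine le_trans (le_of_eq ?_) h1
  refine integral_congr_ae ?_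
  filter_upwards [hice] with ω hω
  rw [← hint_sub (pth ω) hδ0 (phi_cont _) (phi_compact _) (phi_cont _) (phi_compact _)]
  have e := hint_dt (pth_isHeight hω) hδ0 hΨ.continuous cΨ
    (F := fun x => phi c x - phi (c.1 + a, c.2) x) ((phi_cont _).sub (phi_cont _)) dΨ
  rw [e]

/-! ### Anti-concentration -/

lemma gffCov_smul (t : ℝ) (f : ℝ × ℝ → ℝ) :
    gffCov (fun x => t * f x) (fun x => t * f x) = t ^ 2 * gffCov f f := by
  unfold gffCov
  rw [← integral_const_mul]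
  congr 1
  funext x
  rw [← integral_const_mul]
  congr 1
  funext y
  ring

lemma hint_smul (h : ℤ × ℤ → ℤ) (δ t : ℝ) (f : ℝ × ℝ → ℝ) :
    hint h δ (fun x => t * f x) = t * hint h δ f := by
  unfold hint
  rw [← integral_const_mul]
  congr 1
  funext x
  ring

lemma test_smul {f : ℝ × ℝ → ℝ} (hf : Test f) (t : ℝ) : Test (fun x => t * f x) := by
  refine ⟨contDiff_const.mul hf.1, hf.2.1.mul_left, ?_⟩
  rw [integral_const_mul, hf.2.2, mul_zero]

/-- The characteristic functions of the smoothed heights converge to those of the Gaussian free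
field. -/
def CharLim (P : Measure (Ori (ℤ × ℤ))) (κ : ℝ) : Prop :=
  ∀ F : ℝ × ℝ → ℝ, Test F →
    Tendsto (fun δ : ℝ => ∫ ω, Complex.exp (Complex.I * (hint (pth ω) δ F : ℂ)) ∂P) (𝓝[>] 0)
      (𝓝 (Complex.exp (-(((κ / 2) * gffCov F F : ℝ) : ℂ))))

theorem anti_dif {P : Measure (Ori (ℤ × ℤ))} [IsProbabilityMeasure P] {κ : ℝ} (hκ : 0 < κ)
    (hice : ∀ᵐ ω ∂P, ∀ x y, Ice ω x y) (hch : CharLim P κ) (K ε : ℝ) (hε : 0 < ε) :
    ∃ M1 : ℕ, 1 ≤ M1 ∧ ∀ M : ℕ, M1 ≤ M → ∀ᶠ δ : ℝ in 𝓝[>] 0,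
      P.real {ω | |hint (pth ω) δ (dif (2 * M))| ≤ K} ≤ ε := by
  obtain ⟨a, ha⟩ := cov_dif
  set K' : ℝ := max K 1 with hK'
  have hK1 : 0 < K' := lt_of_lt_of_le one_pos (le_max_right _ _)
  set V : ℝ := (4 * K' / ε) ^ 2 / κ + 1 with hV
  refine ⟨⌈Real.exp (2 * Real.pi * (V - a))⌉₊ + 1, by omega, fun M hM => ?_⟩
  have hM1 : (1 : ℝ) ≤ M := by
    have : 1 ≤ M := by omega
    exact_mod_cast this
  have hl1 : (1 : ℝ) ≤ 2 * M := by linarith only [hM1]
  have hl0 : (0 : ℝ) < 2 * M := by linarith only [hM1]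
  have hMe : Real.exp (2 * Real.pi * (V - a)) ≤ 2 * M := by
    have h1 := Nat.le_ceil (Real.exp (2 * Real.pi * (V - a)))
    have h2 : ((⌈Real.exp (2 * Real.pi * (V - a))⌉₊ : ℕ) : ℝ) ≤ M := by
      have : ⌈Real.exp (2 * Real.pi * (V - a))⌉₊ ≤ M := by omega
      exact_mod_cast this
    linarith only [h1, h2]
  have hlog : 2 * Real.pi * (V - a) ≤ Real.log (2 * M) := by
    rw [← Real.log_exp (2 * Real.pi * (V - a))]
    exact Real.log_le_log (Real.exp_pos _) hMe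
  have hcov : V ≤ gffCov (dif (2 * M)) (dif (2 * M)) := by
    have h1 := ha (2 * M) hl1
    have h2 : V - a ≤ (2 * Real.pi)⁻¹ * Real.log (2 * M) := by
      have h3 := mul_le_mul_of_nonneg_left hlog pi_pos'.le
      have h4 : (2 * Real.pi)⁻¹ * (2 * Real.pi * (V - a)) = V - a := by
        have : (2 * Real.pi) ≠ 0 := by positivity
        (clear * -; field_simp)
      linarith only [h3, h4]
    linarith only [h1, h2]
  have hVpos : 0 < V := by positivity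
  have hTest : Test (dif (2 * M)) := dif_test hl0
  set v : ℝ := κ * gffCov (dif (2 * M)) (dif (2 * M)) with hv
  have hv0 : 0 < v := mul_pos hκ (lt_of_lt_of_le hVpos hcov)
  have hvV : (4 * K' / ε) ^ 2 ≤ v := by
    have h1 : κ * V ≤ v := mul_le_mul_of_nonneg_left hcov hκ.le
    have h2 : κ * V = (4 * K' / ε) ^ 2 + κ := by
      rw [hV]
      field_simp
    linarith only [hκ, h1, h2]
  have hlim : ∀ t : ℝ, Tendsto (fun δ => ∫ ω, Complex.exp (Complex.I *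
      ((t * hint (pth ω) δ (dif (2 * M)) : ℝ) : ℂ)) ∂P) (𝓝[>] 0)
      (𝓝 (Complex.exp (-((v / 2 * t ^ 2 : ℝ) : ℂ)))) := by
    intro t
    have h1 := hch _ (test_smul hTest t)
    simp_rw [hint_smul, gffCov_smul] at h1
    have e : κ / 2 * (t ^ 2 * gffCov (dif (2 * M)) (dif (2 * M))) = v / 2 * t ^ 2 := by
      rw [hv]
      ring
    rw [e] at h1
    exact h1
  have hh : ∀ᵐ ω ∂P, Vale.Agent.P152.IsHeight ω (pth ω) := by
    filter_upwards [hice] with ω hω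
    exact pth_isHeight hω
  have hmain := anti (P := P) (X := fun δ ω => hint (pth ω) δ (dif (2 * M)))
    (fun δ => hint_aemeasurable pth hh hTest δ) hv0 hlim hK1 (η := ε / 2) (by positivity)
  filter_upwards [hmain] with δ hδ
  have h1 : 4 * K' / ε ≤ Real.sqrt v := by
    refine Real.le_sqrt_of_sq_le hvV
  have h2 : 0 < 4 * K' / ε := by positivity
  have h3 : 2 * K' / Real.sqrt v ≤ ε / 2 := by
    rw [div_le_div_iff₀ (lt_of_lt_of_le h2 h1) (by norm_num)]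
    have h4 := mul_le_mul_of_nonneg_left h1 hε.le
    have h5 : ε * (4 * K' / ε) = 4 * K' := by field_simp
    linarith only [h4, h5]
  have h4 : P.real {ω | |hint (pth ω) δ (dif (2 * M))| ≤ K} ≤
      P.real {ω | |hint (pth ω) δ (dif (2 * M))| ≤ K'} := by
    refine measureReal_mono fun ω hω => ?_
    have hω' : |hint (pth ω) δ (dif (2 * M))| ≤ K := hω
    exact hω'.trans (le_max_left _ _)
  linarith only [hδ, h3, h4]

/-! ### The statement -/

/-- Bounded second moments at comparable scales, and anti-concentration between the scales `s` and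
`2 M s`. The faces are those of the six-vertex lattice, `q.1 + q.2` and `q.1 - q.2` are the
coordinates of the fine lattice. -/
def Stmt (P : Measure (Ori (ℤ × ℤ))) : Prop :=
  ∃ C : ℝ, ∀ K ε : ℝ, 0 < ε → ∃ M1 : ℕ, 1 ≤ M1 ∧ ∀ M : ℕ, M1 ≤ M → ∃ s0 : ℕ, 1 ≤ s0 ∧
    ∀ s : ℕ, s0 ≤ s → ∃ r1 o1 r2 o2 : (ℤ × ℤ) →₀ ℝ,
      ((r1.sum fun _ a => a) = 1 ∧ (o1.sum fun _ a => a) = 1 ∧ (r2.sum fun _ a => a) = 1 ∧
        (o2.sum fun _ a => a) = 1) ∧
      (∀ q ∈ r1.support, |q.1 + q.2| < 2 * s ∧ |q.1 - q.2| < 2 * s) ∧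
      (∀ q ∈ o1.support, 4 * s < q.1 + q.2) ∧
      (∀ q ∈ r2.support, |q.1 + q.2 - 6 * (2 * M * s)| < 2 * (2 * M * s) ∧
        |q.1 - q.2| < 2 * (2 * M * s)) ∧
      (∀ q ∈ o2.support, 4 * (2 * M * s) < q.1 + q.2 - 6 * (2 * M * s)) ∧
      ∫ ω, (FA.ev r1 (pth ω) - FA.ev o1 (pth ω)) ^ 2 ∂P ≤ C ∧
      ∫ ω, (FA.ev r2 (pth ω) - FA.ev o2 (pth ω)) ^ 2 ∂P ≤ C ∧
      P.real {ω | |FA.ev r1 (pth ω) - FA.ev r2 (pth ω)| ≤ K} ≤ ε

theorem main {P : Measure (Ori (ℤ × ℤ))} [IsProbabilityMeasure P] {C κ : ℝ} (hC : 0 ≤ C)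
    (hGD : GD P C) (hice : ∀ᵐ ω ∂P, ∀ x y, Ice ω x y) (hκ : 0 < κ) (hch : CharLim P κ) :
    Stmt P := by
  obtain ⟨D1, hD1⟩ := second hC hGD hice (0, 0) 6
  obtain ⟨D2, hD2⟩ := second hC hGD hice (3, 3) 6
  refine ⟨max D1 D2, fun K ε hε => ?_⟩
  obtain ⟨M1, hM1, hM⟩ := anti_dif hκ hice hch K ε hε
  refine ⟨M1, hM1, fun M hMM => ?_⟩
  have hMpos : 1 ≤ M := le_trans hM1 hMM
  have hMr : (1 : ℝ) ≤ M := by exact_mod_cast hMpos
  have t1 : Tendsto (fun s : ℕ => 1 / (s : ℝ)) atTop (𝓝[>] 0) := by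
    rw [tendsto_nhdsWithin_iff]
    refine ⟨tendsto_one_div_atTop_nhds_zero_nat, ?_⟩
    filter_upwards [eventually_gt_atTop 0] with s hs
    have : (0 : ℝ) < s := by exact_mod_cast hs
    exact one_div_pos.2 this
  have t2 : Tendsto (fun s : ℕ => 1 / ((2 * M * s : ℕ) : ℝ)) atTop (𝓝[>] 0) := by
    refine t1.comp ?_
    refine tendsto_atTop_mono (fun s => ?_) tendsto_id
    show s ≤ 2 * M * s
    nlinarith only [hM1, hMM]
  have ev1 := t1.eventually hD1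
  have ev2 := t2.eventually hD2
  have ev3 := t1.eventually (hM M hMM)
  obtain ⟨s0, hs0⟩ := Filter.eventually_atTop.1 (ev1.and (ev2.and ev3))
  refine ⟨max s0 4, by omega, fun s hs => ?_⟩
  have hs4 : 4 ≤ s := le_trans (le_max_right _ _) hs
  obtain ⟨h1, h2, h3⟩ := hs0 s (le_trans (le_max_left _ _) hs)
  have hspos : 0 < s := by omega
  have hRpos : 0 < 2 * M * s := by (clear * - hMpos hs4; positivity)
  have hsr : (4 : ℝ) ≤ s := by exact_mod_cast hs4
  have hRr : (4 : ℝ) ≤ ((2 * M * s : ℕ) : ℝ) := by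
    have : 4 ≤ 2 * M * s := by nlinarith only [hM1, hMM, hs4]
    exact_mod_cast this
  refine ⟨bw (0, 0) s, bw (6, 0) s, bw (3, 3) (2 * M * s), bw (9, 3) (2 * M * s),
    ⟨mass_bw _ hspos, mass_bw _ hspos, mass_bw _ hRpos, mass_bw _ hRpos⟩, ?_, ?_, ?_, ?_, ?_, ?_, ?_⟩
  · intro q hq
    obtain ⟨⟨a1, a2⟩, ⟨a3, a4⟩⟩ := supp_bw _ hspos hq
    simp only [mul_zero] at a1 a2 a3 a4
    rw [abs_lt, abs_lt]
    refine ⟨⟨?_, ?_⟩, ⟨?_, ?_⟩⟩ <;>
    · have : (0 : ℝ) < (s : ℝ) := by linarith only [hsr]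
      rify
      linarith
  · intro q hq
    obtain ⟨⟨a1, a2⟩, ⟨a3, a4⟩⟩ := supp_bw _ hspos hq
    simp only at a1 a2 a3 a4
    rify
    linarith only [hsr, a1, a3]
  · intro q hq
    obtain ⟨⟨a1, a2⟩, ⟨a3, a4⟩⟩ := supp_bw _ hRpos hq
    simp only at a1 a2 a3 a4
    push_cast at a1 a2 a3 a4 hRr
    rw [abs_lt, abs_lt]
    refine ⟨⟨?_, ?_⟩, ⟨?_, ?_⟩⟩ <;>
    · rify
      linarith only [a1, a3, hRr, a4, a2]
  · intro q hq
    obtain ⟨⟨a1, a2⟩, ⟨a3, a4⟩⟩ := supp_bw _ hRpos hq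
    simp only at a1 a2 a3 a4
    push_cast at a1 a2 a3 a4 hRr
    rify
    linarith only [a1, a3, hRr]
  · refine le_trans ?_ (le_max_left _ _)
    simp_rw [ev_bw _ hspos]
    have e : ((0 : ℝ) + 6, (0 : ℝ)) = (6, 0) := by norm_num
    simpa only [e] using h1
  · refine le_trans ?_ (le_max_right _ _)
    simp_rw [ev_bw _ hRpos]
    have e : ((3 : ℝ) + 6, (3 : ℝ)) = (9, 3) := by norm_num
    simpa only [e] using h2
  · have hl0 : (0 : ℝ) < 2 * M := by linarith only [hMr]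
    have e : ∀ ω : Ori (ℤ × ℤ), FA.ev (bw (0, 0) s) (pth ω) - FA.ev (bw (3, 3) (2 * M * s)) (pth ω) =
        hint (pth ω) (1 / s) (dif (2 * M)) := by
      intro ω
      have hs1 : (0 : ℝ) < 1 / s := by (clear * - hs4; positivity)
      have e1 : (1 : ℝ) / ((2 * M * s : ℕ) : ℝ) = 1 / s / (2 * M) := by
        push_cast
        (clear * - hs4 hMpos; field_simp)
      have e2 := hint_sub (pth ω) hs1 (phi_cont (0, 0)) (phi_compact _)
        (psi_smooth (2 * M) (3, 3)).continuous (psi_compact hl0 _)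
      rw [ev_bw _ hspos, ev_bw _ hRpos, e1, ← hint_scale (pth ω) hl0, ← e2]
      rfl
    simp_rw [e]
    exact h3

end Vale.Agent.P145.FB.AC
end

section

/-!
# P145, block F-B: clusters of `SP x` and the flip
-/

namespace Vale.Agent.P145.FB

open MeasureTheory Relation
open Vale.Agent.P152 Vale.Agent.P145.FA

/-- Almost sure properties of the configurations. -/
structure GoodX (x : Hgt × Mk) : Prop where
  par : ∀ q : Pt, Even (q.1 + q.2) → Even (x.1 q)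
  op : ∀ w : Pt, x.2 w = true → x.1 (e1 w) = x.1 (e2 w)

/-- The face whose height is the height of the fine point. -/
def bf (p : Pt) : Pt := if Even (p.1 + p.2) then fc p else e1 (vx p)

theorem e1_even (w : Pt) : Even ((e1 w).1 + (e1 w).2) := by
  unfold e1
  split_ifs with h
  · exact h
  · rw [Int.not_even_iff_odd] at h
    obtain ⟨k, hk⟩ := h
    exact ⟨k, by dsimp only; omega⟩

theorem fc_even {p : Pt} (h1 : Even p.1) (h2 : Even p.2) : Even ((fc p).1 + (fc p).2) := by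
  obtain ⟨a, ha⟩ := h1
  obtain ⟨b, hb⟩ := h2
  exact ⟨p.1 / 2, by unfold fc; dsimp only; (clear * - ha hb; omega)⟩

theorem nn_bf {u v : Pt} (h : NN u v) (h1 : Even u.1) (h2 : Even u.2) :
    fc u = e1 (vx v) ∨ fc u = e2 (vx v) := by
  obtain ⟨a, ha⟩ := h1
  obtain ⟨b, hb⟩ := h2
  unfold NN at h
  unfold e1 e2 vx fc
  simp only [Prod.ext_iff, Int.even_iff]
  split_ifs with h3 <;> dsimp only at h3 ⊢ <;> (clear * - h ha hb h3; omega)

theorem SP_even {x : Hgt × Mk} {p : Pt} (h : p ∈ SP x) (hp : Even (p.1 + p.2)) :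
    Even p.1 ∧ Even p.2 ∧ x.1 (fc p) % 4 = 0 := by
  rcases h with h | ⟨h, -⟩
  · exact h
  · exact absurd hp (Int.not_even_iff_odd.2 h)

theorem SP_odd {x : Hgt × Mk} {p : Pt} (h : p ∈ SP x) (hp : Odd (p.1 + p.2)) :
    x.2 (vx p) = true ∧ x.1 (e1 (vx p)) % 4 = 0 := by
  rcases h with ⟨h1, h2, -⟩ | ⟨-, h⟩
  · exact absurd (h1.add h2) (Int.not_even_iff_odd.2 hp)
  · exact h

theorem bf_even {x : Hgt × Mk} {p : Pt} (h : p ∈ SP x) : Even ((bf p).1 + (bf p).2) := by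
  unfold bf
  split_ifs with hp
  · have := SP_even h hp
    exact fc_even this.1 this.2.1
  · exact e1_even _

/-- The height is constant on the clusters. -/
theorem bf_step {x : Hgt × Mk} (hx : GoodX x) {u v : Pt} (h : NN u v) (hu : u ∈ SP x)
    (hv : v ∈ SP x) : x.1 (bf u) = x.1 (bf v) := by
  by_cases hp : Even (u.1 + u.2)
  · have hq : ¬ Even (v.1 + v.2) := by
      rw [Int.not_even_iff_odd]
      obtain ⟨k, hk⟩ := hp
      unfold NN at h
      rw [Int.odd_iff]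
      (clear * - h hk; omega)
    have h1 := SP_even hu hp
    have h2 := SP_odd hv (Int.not_even_iff_odd.1 hq)
    have h3 := hx.op _ h2.1
    unfold bf
    rw [if_pos hp, if_neg hq]
    rcases nn_bf h h1.1 h1.2.1 with h4 | h4
    · rw [h4]
    · rw [h4, h3]
  · have hq : Even (v.1 + v.2) := by
      rw [Int.not_even_iff_odd] at hp
      obtain ⟨k, hk⟩ := hp
      unfold NN at h
      rw [Int.even_iff]
      omega
    have h1 := SP_even hv hq
    have h2 := SP_odd hu (Int.not_even_iff_odd.1 hp)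
    have h3 := hx.op _ h2.1
    unfold bf
    rw [if_neg hp, if_pos hq]
    rcases nn_bf h.symm h1.1 h1.2.1 with h4 | h4
    · rw [h4]
    · rw [h4, h3]

theorem bf_clu {x : Hgt × Mk} (hx : GoodX x) {T : Set Pt} (hT : T ⊆ SP x) {u v : Pt}
    (h : NC T u v) : x.1 (bf v) = x.1 (bf u) :=
  NC.ind (fun z => x.1 (bf z) = x.1 (bf u)) rfl
    (fun a b ha hab hb ih => by
      rw [← ih]; exact (bf_step hx hab (hT ha.right_mem) (hT hb)).symm) h

/-- The flip event holds for the region enclosed by a cluster. -/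
theorem flipQ_mem {x : Hgt × Mk} (hx : GoodX x) {T : Set Pt} (hT : T ⊆ SP x) {o : Pt}
    (p q t : ℤ) : x ∈ FlipQ (Uf (clu T o) p q t) (bf o) := by
  intro w hw
  have h1 : NC T o (ep w) := Uf_bd hw
  have h2 : ep w ∈ SP x := hT h1.right_mem
  have h3 := SP_odd h2 (ep_odd w)
  have h4 := bf_clu hx hT h1
  have h5 : bf (ep w) = e1 w := by
    unfold bf
    rw [if_neg (Int.not_even_iff_odd.2 (ep_odd w)), vx_ep]
  rw [vx_ep] at h3
  rw [h5] at h4
  exact ⟨h3.1, h4, by rw [← hx.op w h3.1, h4]⟩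

/-! ### The flip -/

theorem refl0_base (U : Finset Pt) (b : Pt) (h : Hgt) : refl0 U b h b = h b := by
  unfold refl0
  split_ifs
  · ring
  · rfl

theorem refl0_mod {U : Finset Pt} {b : Pt} {h : Hgt} (hb : Even (h b)) {q : Pt}
    (hq : Even (h q)) : (refl0 U b h q - h q) % 4 = 0 := by
  obtain ⟨k, hk⟩ := hb
  obtain ⟨l, hl⟩ := hq
  unfold refl0
  split_ifs <;> omega

theorem flipR_mod {x : Hgt × Mk} (hx : GoodX x) {U : Finset Pt} {b : Pt} (hb : Even (b.1 + b.2))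
    {q : Pt} (hq : Even (q.1 + q.2)) : (flipR U b x).1 q % 4 = 0 ↔ x.1 q % 4 = 0 := by
  have h1 := refl0_mod (U := U) (hx.par b hb) (hx.par q hq)
  have h2 := refl0_mod (U := U) (hx.par b hb) (hx.par 0 (by simp only [Prod.fst_zero, Prod.snd_zero, add_zero, Even.zero]))
  have h3 : (flipR U b x).1 q = refl0 U b x.1 q - refl0 U b x.1 0 + x.1 0 := rfl
  rw [h3]
  omega

theorem SP_flip {x : Hgt × Mk} (hx : GoodX x) {U : Finset Pt} {b : Pt} (hb : Even (b.1 + b.2)) :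
    SP (flipR U b x) = SP x := by
  ext p
  unfold SP
  simp only [Set.mem_ofPred_eq]
  have h1 : (flipR U b x).2 = x.2 := rfl
  rw [h1, flipR_mod hx hb (e1_even (vx p))]
  constructor
  · rintro (⟨h2, h3, h4⟩ | h2)
    · exact Or.inl ⟨h2, h3, (flipR_mod hx hb (fc_even h2 h3)).1 h4⟩
    · exact Or.inr h2
  · rintro (⟨h2, h3, h4⟩ | h2)
    · exact Or.inl ⟨h2, h3, (flipR_mod hx hb (fc_even h2 h3)).2 h4⟩
    · exact Or.inr h2

theorem ev_flip_in {U : Finset Pt} {b : Pt} (x : Hgt × Mk) {r : (ℤ × ℤ) →₀ ℝ}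
    (hr : (r.sum fun _ a => a) = 1) (h : ∀ q ∈ r.support, nb U q) :
    FA.ev r (flipR U b x).1 - ((flipR U b x).1 b : ℝ) = -(FA.ev r x.1 - (x.1 b : ℝ)) := by
  have h1 : FA.ev r (flipR U b x).1 = ∑ q ∈ r.support,
      (r q * (2 * (x.1 b : ℝ) - refl0 U b x.1 0 + x.1 0) - r q * (x.1 q : ℝ)) := by
    unfold FA.ev Finsupp.sum
    refine Finset.sum_congr rfl fun q hq => ?_
    have h2 : (flipR U b x).1 q = 2 * x.1 b - x.1 q - refl0 U b x.1 0 + x.1 0 := by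
      show refl0 U b x.1 q - refl0 U b x.1 0 + x.1 0 = _
      have : refl0 U b x.1 q = 2 * x.1 b - x.1 q := by unfold refl0; rw [if_pos (h q hq)]
      rw [this]
    beta_reduce
    rw [h2]; push_cast; ring
  have h3 : (flipR U b x).1 b = x.1 b - refl0 U b x.1 0 + x.1 0 := by
    show refl0 U b x.1 b - refl0 U b x.1 0 + x.1 0 = _
    rw [refl0_base]
  have h4 : ∑ q ∈ r.support, r q = 1 := hr
  rw [h1, h3, Finset.sum_sub_distrib, ← Finset.sum_mul, h4]
  unfold FA.ev Finsupp.sum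
  push_cast; ring

theorem ev_flip_out {U : Finset Pt} {b : Pt} (x : Hgt × Mk) {r : (ℤ × ℤ) →₀ ℝ}
    (hr : (r.sum fun _ a => a) = 1) (h : ∀ q ∈ r.support, ¬ nb U q) :
    FA.ev r (flipR U b x).1 - ((flipR U b x).1 b : ℝ) = FA.ev r x.1 - (x.1 b : ℝ) := by
  have h1 : FA.ev r (flipR U b x).1 = ∑ q ∈ r.support,
      (r q * (x.1 q : ℝ) + r q * (- (refl0 U b x.1 0 : ℝ) + x.1 0)) := by
    unfold FA.ev Finsupp.sum
    refine Finset.sum_congr rfl fun q hq => ?_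
    have h2 : (flipR U b x).1 q = x.1 q - refl0 U b x.1 0 + x.1 0 := by
      show refl0 U b x.1 q - refl0 U b x.1 0 + x.1 0 = _
      have : refl0 U b x.1 q = x.1 q := by unfold refl0; rw [if_neg (h q hq)]
      rw [this]
    beta_reduce
    rw [h2]; push_cast; ring
  have h3 : (flipR U b x).1 b = x.1 b - refl0 U b x.1 0 + x.1 0 := by
    show refl0 U b x.1 b - refl0 U b x.1 0 + x.1 0 = _
    rw [refl0_base]
  have h4 : ∑ q ∈ r.support, r q = 1 := hr
  rw [h1, h3, Finset.sum_add_distrib, ← Finset.sum_mul, h4]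
  unfold FA.ev Finsupp.sum
  push_cast; ring

theorem measurableSet_SP (p : Pt) : MeasurableSet {x : Hgt × Mk | p ∈ SP x} := by
  have h1 : Measurable fun x : Hgt × Mk => (x.1 (fc p), x.1 (e1 (vx p)), x.2 (vx p)) :=
    (measurable_hap _).prodMk ((measurable_hap _).prodMk
      ((measurable_pi_apply _).comp measurable_snd))
  have h2 : {x : Hgt × Mk | p ∈ SP x} =
      (fun x : Hgt × Mk => (x.1 (fc p), x.1 (e1 (vx p)), x.2 (vx p))) ⁻¹'
      {y : ℤ × ℤ × Bool | (Even p.1 ∧ Even p.2 ∧ y.1 % 4 = 0) ∨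
        (Odd (p.1 + p.2) ∧ y.2.2 = true ∧ y.2.1 % 4 = 0)} := rfl
  rw [h2]
  exact h1 (Set.to_countable _).measurableSet

/-- Restriction of a measure preserving map to an invariant event. -/
theorem restr_map {Ω : Type*} [MeasurableSpace Ω] (μ : Measure Ω) {Q A : Set Ω} {Φ : Ω → Ω}
    (hΦ : Measurable Φ) (hA : MeasurableSet A)
    (h : (μ.restrict Q).map Φ = μ.restrict Q) (hAQ : ∀ᵐ x ∂μ, x ∈ A → x ∈ Q)
    (hinv : ∀ᵐ x ∂μ, (Φ x ∈ A ↔ x ∈ A)) : (μ.restrict A).map Φ = μ.restrict A := by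
  ext S hS
  rw [Measure.map_apply hΦ hS, Measure.restrict_apply (hΦ hS), Measure.restrict_apply hS]
  have h1 : (μ.restrict Q).map Φ (S ∩ A) = μ.restrict Q (S ∩ A) := by rw [h]
  rw [Measure.map_apply hΦ (hS.inter hA), Measure.restrict_apply (hΦ (hS.inter hA)),
    Measure.restrict_apply (hS.inter hA)] at h1
  have h2 : μ (Φ ⁻¹' S ∩ A) = μ (Φ ⁻¹' (S ∩ A) ∩ Q) := by
    refine measure_congr ?_
    filter_upwards [hAQ, hinv] with x h3 h4
    refine propext ⟨fun h5 => ⟨⟨h5.1, h4.2 h5.2⟩, h3 h5.2⟩, fun h5 => ⟨h5.1.1, h4.1 h5.1.2⟩⟩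
  have h3 : μ (S ∩ A ∩ Q) = μ (S ∩ A) := by
    refine measure_congr ?_
    filter_upwards [hAQ] with x h3
    exact propext ⟨fun h5 => h5.1, fun h5 => ⟨h5, h3 h5.2⟩⟩
  rw [h2, h1, h3]

end Vale.Agent.P145.FB
end

section

/-!
P145, block F-B, (ARM), abstract part: on each piece `A i` of a family of disjoint events, a flip
which preserves the restricted measure, maps `X - l i` to its negative and fixes `O - l i` makes the
cross term vanish, so the second moments of `X - l i` on the pieces sum to at most the second moment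
of `X - O`. Two such flips with the same level bound the probability of the union by an
anti-concentration probability.
-/

namespace Vale.Agent.P145.FB

open MeasureTheory Set

variable {Ω : Type*} [MeasurableSpace Ω]

lemma integrable_of_bdd {μ : Measure Ω} [IsFiniteMeasure μ] {f : Ω → ℝ} (hf : Measurable f)
    {B : ℝ} (hB : ∀ᵐ ω ∂μ, |f ω| ≤ B) : Integrable f μ :=
  Integrable.mono' (integrable_const B) hf.aestronglyMeasurable
    (hB.mono fun ω h => by rwa [Real.norm_eq_abs])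

/-- One piece, one flip: the second moment of `X - l` is at most the second moment of `X - O`. -/
theorem flip_piece {ν : Measure Ω} [IsFiniteMeasure ν] {X O l : Ω → ℝ} (hX : Measurable X)
    (hO : Measurable O) (hl : Measurable l) {Φ : Ω → Ω} (hΦ : Measurable Φ)
    {B : ℝ} (hB : ∀ᵐ ω ∂ν, |X ω| ≤ B ∧ |O ω| ≤ B ∧ |l ω| ≤ B)
    (hm : ν.map Φ = ν)
    (h1 : ∀ᵐ ω ∂ν, X (Φ ω) - l (Φ ω) = -(X ω - l ω) ∧ O (Φ ω) - l (Φ ω) = O ω - l ω) :
    Integrable (fun ω => (X ω - l ω) ^ 2) ν ∧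
      ∫ ω, (X ω - l ω) ^ 2 ∂ν ≤ ∫ ω, (X ω - O ω) ^ 2 ∂ν := by
  have i1 : Integrable (fun ω => (X ω - l ω) ^ 2) ν := by
    refine integrable_of_bdd ((hX.sub hl).pow_const 2) (B := (2 * B) ^ 2) ?_
    filter_upwards [hB] with ω h
    have h2 : |X ω - l ω| ≤ 2 * B := (abs_sub _ _).trans (by linarith [h.1, h.2.2])
    rw [abs_pow]
    exact pow_le_pow_left₀ (abs_nonneg _) h2 2
  have i2 : Integrable (fun ω => (l ω - O ω) ^ 2) ν := by
    refine integrable_of_bdd ((hl.sub hO).pow_const 2) (B := (2 * B) ^ 2) ?_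
    filter_upwards [hB] with ω h
    have h2 : |l ω - O ω| ≤ 2 * B := (abs_sub _ _).trans (by linarith [h.2.1, h.2.2])
    rw [abs_pow]
    exact pow_le_pow_left₀ (abs_nonneg _) h2 2
  have i3 : Integrable (fun ω => (X ω - l ω) * (l ω - O ω)) ν := by
    refine integrable_of_bdd ((hX.sub hl).mul (hl.sub hO)) (B := (2 * B) * (2 * B)) ?_
    filter_upwards [hB] with ω h
    have h2 : |X ω - l ω| ≤ 2 * B := (abs_sub _ _).trans (by linarith only [h])
    have h3 : |l ω - O ω| ≤ 2 * B := (abs_sub _ _).trans (by linarith [h.2.1, h.2.2])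
    rw [abs_mul]
    exact mul_le_mul h2 h3 (abs_nonneg _) ((abs_nonneg _).trans h2)
  refine ⟨i1, ?_⟩
  have hcross : ∫ ω, (X ω - l ω) * (l ω - O ω) ∂ν = 0 := by
    have e1 : ∫ ω, (X ω - l ω) * (l ω - O ω) ∂ν =
        ∫ ω, (X (Φ ω) - l (Φ ω)) * (l (Φ ω) - O (Φ ω)) ∂ν := by
      conv_lhs => rw [← hm]
      exact integral_map hΦ.aemeasurable
        ((hX.sub hl).mul (hl.sub hO)).aestronglyMeasurable
    have e2 : ∫ ω, (X (Φ ω) - l (Φ ω)) * (l (Φ ω) - O (Φ ω)) ∂ν =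
        ∫ ω, -((X ω - l ω) * (l ω - O ω)) ∂ν := by
      refine integral_congr_ae ?_
      filter_upwards [h1] with ω h
      have h3 : l (Φ ω) - O (Φ ω) = l ω - O ω := by linarith [h.2]
      rw [h.1, h3]
      ring
    rw [integral_neg] at e2
    linarith only [e1, e2]
  have e3 : ∫ ω, (X ω - O ω) ^ 2 ∂ν =
      ∫ ω, (X ω - l ω) ^ 2 ∂ν + 2 * ∫ ω, (X ω - l ω) * (l ω - O ω) ∂ν +
        ∫ ω, (l ω - O ω) ^ 2 ∂ν := by
    have e4 : ∀ ω, (X ω - O ω) ^ 2 =
        ((X ω - l ω) ^ 2 + 2 * ((X ω - l ω) * (l ω - O ω))) + (l ω - O ω) ^ 2 := fun ω => by ring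
    have i4 : Integrable (fun ω => (X ω - l ω) ^ 2 + 2 * ((X ω - l ω) * (l ω - O ω))) ν :=
      i1.add (i3.const_mul 2)
    simp only [e4]
    rw [integral_add i4 i2, integral_add i1 (i3.const_mul 2), integral_const_mul]
  have h0 : 0 ≤ ∫ ω, (l ω - O ω) ^ 2 ∂ν := integral_nonneg fun ω => sq_nonneg _
  rw [e3, hcross]
  linarith

/-- Chebyshev on a piece. -/
lemma cheb_piece {ν : Measure Ω} [IsFiniteMeasure ν] {f : Ω → ℝ}
    (hi : Integrable (fun ω => f ω ^ 2) ν) {T : ℝ} (hT : 0 < T) :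
    ν.real {ω | T < |f ω|} ≤ (∫ ω, f ω ^ 2 ∂ν) / T ^ 2 := by
  have hT2 : 0 < T ^ 2 := by positivity
  rw [le_div_iff₀ hT2, mul_comm]
  have h1 := mul_meas_ge_le_integral_of_nonneg
    (μ := ν) (f := fun ω => f ω ^ 2) (Filter.Eventually.of_forall fun ω => sq_nonneg _) hi (T ^ 2)
  refine le_trans (mul_le_mul_of_nonneg_left (measureReal_mono ?_) hT2.le) h1
  intro ω hω
  simp only [mem_ofPred_eq] at hω ⊢
  calc T ^ 2 ≤ |f ω| ^ 2 := pow_le_pow_left₀ hT.le (le_of_lt hω) 2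
    _ = f ω ^ 2 := sq_abs _

/-- Pieces summed, one flip. -/
theorem flip_sum {μ : Measure Ω} [IsFiniteMeasure μ] {ι : Type*} (I : Finset ι)
    (A : ι → Set Ω) (hA : ∀ i ∈ I, MeasurableSet (A i)) (hd : (I : Set ι).PairwiseDisjoint A)
    {X O : Ω → ℝ} (hX : Measurable X) (hO : Measurable O)
    (l : ι → Ω → ℝ) (hl : ∀ i ∈ I, Measurable (l i))
    (Φ : ι → Ω → Ω) (hΦ : ∀ i ∈ I, Measurable (Φ i))
    (B : ℝ) (hB : ∀ᵐ ω ∂μ, |X ω| ≤ B ∧ |O ω| ≤ B ∧ ∀ i ∈ I, |l i ω| ≤ B)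
    (hm : ∀ i ∈ I, (μ.restrict (A i)).map (Φ i) = μ.restrict (A i))
    (h1 : ∀ i ∈ I, ∀ᵐ ω ∂(μ.restrict (A i)), X (Φ i ω) - l i (Φ i ω) = -(X ω - l i ω) ∧
      O (Φ i ω) - l i (Φ i ω) = O ω - l i ω)
    {V : ℝ} (hV : ∫ ω, (X ω - O ω) ^ 2 ∂μ ≤ V) {T : ℝ} (hT : 0 < T) :
    ∑ i ∈ I, (μ.restrict (A i)).real {ω | T < |X ω - l i ω|} ≤ V / T ^ 2 := by
  have hT2 : 0 < T ^ 2 := by (clear * - hT; positivity)
  have hBi : ∀ i ∈ I, ∀ᵐ ω ∂(μ.restrict (A i)), |X ω| ≤ B ∧ |O ω| ≤ B ∧ |l i ω| ≤ B :=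
    fun i hi => (ae_restrict_of_ae hB).mono fun ω h => ⟨h.1, h.2.1, h.2.2 i hi⟩
  have hXO : Integrable (fun ω => (X ω - O ω) ^ 2) μ := by
    refine integrable_of_bdd ((hX.sub hO).pow_const 2) (B := (2 * B) ^ 2) ?_
    filter_upwards [hB] with ω h
    have h2 : |X ω - O ω| ≤ 2 * B := (abs_sub _ _).trans (by linarith [h.1, h.2.1])
    rw [abs_pow]
    exact pow_le_pow_left₀ (abs_nonneg _) h2 2
  have hstep : ∀ i ∈ I, (μ.restrict (A i)).real {ω | T < |X ω - l i ω|} ≤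
      (∫ ω in A i, (X ω - O ω) ^ 2 ∂μ) / T ^ 2 := by
    intro i hi
    obtain ⟨a1, a2⟩ := flip_piece hX hO (hl i hi) (hΦ i hi) (hBi i hi) (hm i hi) (h1 i hi)
    refine (cheb_piece a1 hT).trans ?_
    (clear * - a2 hT; gcongr)
  refine (Finset.sum_le_sum hstep).trans ?_
  rw [← Finset.sum_div]
  gcongr
  have hU : ∫ ω in ⋃ i ∈ I, A i, (X ω - O ω) ^ 2 ∂μ = ∑ i ∈ I, ∫ ω in A i, (X ω - O ω) ^ 2 ∂μ :=
    integral_biUnion_finset I hA hd fun i _ => hXO.integrableOn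
  rw [← hU]
  exact (setIntegral_le_integral hXO (Filter.Eventually.of_forall fun ω => sq_nonneg _)).trans hV

/-- The abstract arm bound. -/
theorem abs_arm (μ : Measure Ω) [IsProbabilityMeasure μ] {ι : Type*}
    (I : Finset ι) (A : ι → Set Ω) (hA : ∀ i ∈ I, MeasurableSet (A i))
    (hd : (I : Set ι).PairwiseDisjoint A) (X O X' O' : Ω → ℝ) (hX : Measurable X)
    (hO : Measurable O) (hX' : Measurable X') (hO' : Measurable O') (l : ι → Ω → ℝ)
    (hl : ∀ i ∈ I, Measurable (l i)) (Φ Φ' : ι → Ω → Ω) (hΦ : ∀ i ∈ I, Measurable (Φ i))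
    (hΦ' : ∀ i ∈ I, Measurable (Φ' i)) (B : ℝ)
    (hB : ∀ᵐ ω ∂μ, |X ω| ≤ B ∧ |O ω| ≤ B ∧ |X' ω| ≤ B ∧ |O' ω| ≤ B ∧ ∀ i ∈ I, |l i ω| ≤ B)
    (hm : ∀ i ∈ I, (μ.restrict (A i)).map (Φ i) = μ.restrict (A i))
    (hm' : ∀ i ∈ I, (μ.restrict (A i)).map (Φ' i) = μ.restrict (A i))
    (h1 : ∀ i ∈ I, ∀ᵐ ω ∂(μ.restrict (A i)), X (Φ i ω) - l i (Φ i ω) = -(X ω - l i ω) ∧
      O (Φ i ω) - l i (Φ i ω) = O ω - l i ω)
    (h1' : ∀ i ∈ I, ∀ᵐ ω ∂(μ.restrict (A i)), X' (Φ' i ω) - l i (Φ' i ω) = -(X' ω - l i ω) ∧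
      O' (Φ' i ω) - l i (Φ' i ω) = O' ω - l i ω)
    (V : ℝ) (hV : ∫ ω, (X ω - O ω) ^ 2 ∂μ ≤ V) (hV' : ∫ ω, (X' ω - O' ω) ^ 2 ∂μ ≤ V)
    (T : ℝ) (hT : 0 < T) :
    μ.real (⋃ i ∈ I, A i) ≤ μ.real {ω | |X ω - X' ω| ≤ 2 * T} + 2 * V / T ^ 2 := by
  have s1 := flip_sum I A hA hd hX hO l hl Φ hΦ B
    (hB.mono fun ω h => ⟨h.1, h.2.1, h.2.2.2.2⟩) hm h1 hV hT
  have s2 := flip_sum I A hA hd hX' hO' l hl Φ' hΦ' B
    (hB.mono fun ω h => ⟨h.2.2.1, h.2.2.2.1, h.2.2.2.2⟩) hm' h1' hV' hT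
  set G : Set Ω := {ω | |X ω - X' ω| ≤ 2 * T} with hG
  have habs : ∀ {f : Ω → ℝ}, Measurable f → Measurable fun ω => |f ω| := fun hf =>
    continuous_abs.measurable.comp hf
  have hGm : MeasurableSet G := measurableSet_le (habs (hX.sub hX')) measurable_const
  have e1 : μ.real (⋃ i ∈ I, A i) = ∑ i ∈ I, μ.real (A i) :=
    measureReal_biUnion_finset hd hA
  have e2 : ∑ i ∈ I, μ.real (A i ∩ G) ≤ μ.real G := by
    have hd' : (I : Set ι).PairwiseDisjoint fun i => A i ∩ G := fun i hi j hj hij =>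
      (hd hi hj hij).mono inter_subset_left inter_subset_left
    rw [← measureReal_biUnion_finset hd' fun i hi => (hA i hi).inter hGm]
    exact measureReal_mono (iUnion₂_subset fun i _ => inter_subset_right)
  have e3 : ∀ i ∈ I, μ.real (A i) ≤ μ.real (A i ∩ G) +
      ((μ.restrict (A i)).real {ω | T < |X ω - l i ω|} +
        (μ.restrict (A i)).real {ω | T < |X' ω - l i ω|}) := by
    intro i hi
    have m1 : MeasurableSet {ω | T < |X ω - l i ω|} :=
      measurableSet_lt measurable_const (habs (hX.sub (hl i hi)))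
    have m2 : MeasurableSet {ω | T < |X' ω - l i ω|} :=
      measurableSet_lt measurable_const (habs (hX'.sub (hl i hi)))
    rw [measureReal_restrict_apply m1, measureReal_restrict_apply m2]
    have hsub : A i ⊆ (A i ∩ G) ∪ (({ω | T < |X ω - l i ω|} ∩ A i) ∪
        ({ω | T < |X' ω - l i ω|} ∩ A i)) := by
      intro ω hω
      by_cases hg : ω ∈ G
      · exact Or.inl ⟨hω, hg⟩
      · refine Or.inr ?_
        by_cases h2 : T < |X ω - l i ω|
        · exact Or.inl ⟨h2, hω⟩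
        · refine Or.inr ⟨?_, hω⟩
          simp only [hG, mem_ofPred_eq, not_le] at hg
          push Not at h2
          simp only [mem_ofPred_eq]
          have h3 : |X ω - X' ω| ≤ |X ω - l i ω| + |X' ω - l i ω| := by
            have h4 : X ω - X' ω = (X ω - l i ω) - (X' ω - l i ω) := by ring
            rw [h4]
            exact abs_sub _ _
          linarith only [hg, h2, h3]
    exact (measureReal_mono hsub).trans ((measureReal_union_le _ _).trans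
      (add_le_add le_rfl (measureReal_union_le _ _)))
  rw [e1]
  refine (Finset.sum_le_sum e3).trans ?_
  rw [Finset.sum_add_distrib, Finset.sum_add_distrib]
  have e4 : 2 * V / T ^ 2 = V / T ^ 2 + V / T ^ 2 := by ring
  rw [e4]
  exact add_le_add e2 (add_le_add s1 s2)

end Vale.Agent.P145.FB
end

section

/-!
# P145, block F-B: the arm event has small probability

On the event `J2 s R S` one cluster of `S = SP x` cuts the annuli around `(0, 0)` (scale `s`) and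
`(3R, 0)` (scale `R`). The heights enclosed by the cluster are reflected at its level, so the bump
averages at both places are close to the level, hence to each other; for `R = 2 M s` and `M` large
this has small probability.
-/

namespace Vale.Agent.P145.FB

open MeasureTheory Relation
open Vale.Agent.P152 Vale.Agent.P145.FA

/-- One cluster of `S` cuts the annuli around `(0, 0)` and around `(3R, 0)`. -/
def J2 (s R : ℤ) (S : Set Pt) : Prop :=
  ∃ o ∈ S ∩ bigB R, Cut (clu (S ∩ bigB R) o) 0 0 s ∧ Cut (clu (S ∩ bigB R) o) (3 * R) 0 R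

theorem bigB_fin (R : ℤ) : (bigB R).Finite := by
  have h1 : bigB R ⊆ Set.Icc (2 * (-(4 * R))) (2 * (5 * R)) ×ˢ
      Set.Icc (2 * (-(4 * R))) (2 * (4 * R)) := by
    rintro z ⟨h1, h2, h3, h4⟩
    exact ⟨⟨h1, h2⟩, ⟨h3, h4⟩⟩
  exact ((Set.finite_Icc _ _).prod (Set.finite_Icc _ _)).subset h1

open Classical in
/-- The possible values of `SP x ∩ bigB R`. -/
noncomputable def idx (s R : ℤ) : Finset (Finset Pt) :=
  (bigB_fin R).toFinset.powerset.filter fun T =>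
    ∃ o ∈ T, Cut (clu (T : Set Pt) o) 0 0 s ∧ Cut (clu (T : Set Pt) o) (3 * R) 0 R

/-- The event that `SP x ∩ bigB R` is `T`. -/
def pc (R : ℤ) (T : Finset Pt) : Set (Hgt × Mk) := {x | SP x ∩ bigB R = (T : Set Pt)}

theorem measurableSet_pc (R : ℤ) (T : Finset Pt) : MeasurableSet (pc R T) := by
  have h1 : pc R T = ⋂ p : Pt, {x | (p ∈ SP x ∧ p ∈ bigB R) ↔ p ∈ T} := by
    ext x
    simp only [pc, Set.mem_iInter, Set.mem_ofPred_eq, Set.ext_iff, Set.mem_inter_iff,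
      Finset.mem_coe]
  rw [h1]
  refine MeasurableSet.iInter fun p => ?_
  by_cases h2 : p ∈ bigB R <;> by_cases h3 : p ∈ T <;> simp only [h2, h3, and_true, and_false,
    iff_true, iff_false]
  · exact measurableSet_SP p
  · exact (measurableSet_SP p).compl
  · exact MeasurableSet.const _
  · exact MeasurableSet.const _

theorem mem_idx {s R : ℤ} {x : Hgt × Mk} (h : J2 s R (SP x)) : ∃ T ∈ idx s R, x ∈ pc R T := by
  classical
  have hfin : (SP x ∩ bigB R).Finite := (bigB_fin R).subset Set.inter_subset_right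
  refine ⟨hfin.toFinset, ?_, by simp only [pc, Set.Finite.coe_toFinset, Set.mem_ofPred_eq]⟩
  rw [idx, Finset.mem_filter, Finset.mem_powerset]
  constructor
  · intro p hp
    rw [Set.Finite.mem_toFinset] at hp ⊢
    exact hp.2
  · obtain ⟨o, ho, h1, h2⟩ := h
    refine ⟨o, by rwa [Set.Finite.mem_toFinset], ?_, ?_⟩ <;> rw [Set.Finite.coe_toFinset]
    · exact h1
    · exact h2

open Classical in
/-- A point of the cluster. -/
noncomputable def pick (s R : ℤ) (T : Finset Pt) : Pt :=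
  if h : ∃ o ∈ T, Cut (clu (T : Set Pt) o) 0 0 s ∧ Cut (clu (T : Set Pt) o) (3 * R) 0 R then
    Classical.choose h else (0, 0)

theorem pick_spec {s R : ℤ} {T : Finset Pt} (h : T ∈ idx s R) : pick s R T ∈ T ∧
    Cut (clu (T : Set Pt) (pick s R T)) 0 0 s ∧
    Cut (clu (T : Set Pt) (pick s R T)) (3 * R) 0 R := by
  classical
  have h1 := (Finset.mem_filter.1 h).2
  unfold pick
  rw [dif_pos h1]
  exact Classical.choose_spec h1

/-- The flip preserves the law of the configuration restricted to `pc R T`. -/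
theorem pc_flip {t : ℝ} {P : Measure (Ori (ℤ × ℤ))} (hflip : FlipLaw t P)
    (hgood : ∀ᵐ x ∂(J t P), GoodX x) {s R : ℤ} {T : Finset Pt} (hT : T ∈ idx s R) (p q r : ℤ) :
    ((J t P).restrict (pc R T)).map (flipR (Uf (clu (T : Set Pt) (pick s R T)) p q r)
      (bf (pick s R T))) = (J t P).restrict (pc R T) := by
  set U := Uf (clu (T : Set Pt) (pick s R T)) p q r with hU
  set b := bf (pick s R T) with hb
  have hpick := (pick_spec hT).1
  by_cases hbe : Even (b.1 + b.2)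
  · refine restr_map (J t P) (measurable_flipR U b) (measurableSet_pc R T)
      (hflip U (fun f hf => Uf_odd hf) b hbe) ?_ ?_
    · filter_upwards [hgood] with x hx hxT
      have h1 : (T : Set Pt) ⊆ SP x := by
        have : SP x ∩ bigB R = (T : Set Pt) := hxT
        rw [← this]; exact Set.inter_subset_left
      exact flipQ_mem hx h1 p q r
    · filter_upwards [hgood] with x hx
      unfold pc
      simp only [Set.mem_ofPred_eq]
      rw [SP_flip hx hbe]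
  · -- the event is empty
    have h1 : pc R T = ∅ := by
      rw [Set.eq_empty_iff_forall_notMem]
      intro x hx
      apply hbe
      have h2 : pick s R T ∈ SP x ∩ bigB R := by
        have : SP x ∩ bigB R = (T : Set Pt) := hx
        rw [this]; exact hpick
      exact bf_even h2.1
    rw [h1]
    simp

/-- The bound of a height average. -/
noncomputable def bX (r : (ℤ × ℤ) →₀ ℝ) : ℝ :=
  ∑ q ∈ r.support, |r q| * ((|q.1| + |q.2| + 2 : ℤ) : ℝ)

theorem bd_nonneg (q : Pt) : (0 : ℝ) ≤ ((|q.1| + |q.2| + 2 : ℤ) : ℝ) := by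
  have h1 := abs_nonneg q.1
  have h2 := abs_nonneg q.2
  have : (0 : ℤ) ≤ |q.1| + |q.2| + 2 := by omega
  exact_mod_cast this

theorem bX_nonneg (r : (ℤ × ℤ) →₀ ℝ) : 0 ≤ bX r :=
  Finset.sum_nonneg fun q _ => mul_nonneg (abs_nonneg _) (bd_nonneg q)

theorem ev_le_bX {x : Hgt × Mk} (hx : ∀ q : ℤ × ℤ, |x.1 q| ≤ |q.1| + |q.2| + 2)
    (r : (ℤ × ℤ) →₀ ℝ) : |FA.ev r x.1| ≤ bX r := by
  unfold FA.ev Finsupp.sum bX
  refine (Finset.abs_sum_le_sum_abs _ _).trans (Finset.sum_le_sum fun q _ => ?_)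
  rw [abs_mul]
  refine mul_le_mul_of_nonneg_left ?_ (abs_nonneg _)
  have := hx q
  rw [← Int.cast_abs]
  exact_mod_cast this

/-- One scale: the probability of the arm event is bounded by an anti-concentration probability. -/
theorem arm_one {t : ℝ} {P : Measure (Ori (ℤ × ℤ))} [IsProbabilityMeasure P]
    (hflip : FlipLaw t P) (hgood : ∀ᵐ x ∂(J t P), GoodX x) {s R : ℤ} (hs : 0 < s) (hR : 0 < R)
    {r1 o1 r2 o2 : (ℤ × ℤ) →₀ ℝ}
    (m1 : (r1.sum fun _ a => a) = 1) (m2 : (o1.sum fun _ a => a) = 1)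
    (m3 : (r2.sum fun _ a => a) = 1) (m4 : (o2.sum fun _ a => a) = 1)
    (s1 : ∀ q ∈ r1.support, fi q ∈ rc (0 - s) (0 + s) (0 - s) (0 + s))
    (s2 : ∀ q ∈ o1.support, fi q ∉ rc (0 - 2 * s) (0 + 2 * s) (0 - 2 * s) (0 + 2 * s))
    (s3 : ∀ q ∈ r2.support, fi q ∈ rc (3 * R - R) (3 * R + R) (0 - R) (0 + R))
    (s4 : ∀ q ∈ o2.support,
      fi q ∉ rc (3 * R - 2 * R) (3 * R + 2 * R) (0 - 2 * R) (0 + 2 * R)) {V : ℝ}
    (v1 : ∫ ω, (FA.ev r1 (pth ω) - FA.ev o1 (pth ω)) ^ 2 ∂P ≤ V)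
    (v2 : ∫ ω, (FA.ev r2 (pth ω) - FA.ev o2 (pth ω)) ^ 2 ∂P ≤ V) {T : ℝ} (hT : 0 < T) :
    (J t P).real {x | J2 s R (SP x)} ≤
      P.real {ω | |FA.ev r1 (pth ω) - FA.ev r2 (pth ω)| ≤ 2 * T} + 2 * V / T ^ 2 := by
  classical
  have hJ : IsProbabilityMeasure (J t P) := J_prob t P
  have hsub : {x | J2 s R (SP x)} ⊆ ⋃ i ∈ idx s R, pc R i := by
    intro x hx
    obtain ⟨T, hT, hxT⟩ := mem_idx hx
    simp only [Set.mem_iUnion]
    exact ⟨T, hT, hxT⟩
  refine (measureReal_mono hsub (measure_ne_top _ _)).trans ?_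
  -- the two second moments and the probability under `J`
  have e1 : ∫ x, (FA.ev r1 x.1 - FA.ev o1 x.1) ^ 2 ∂(J t P) ≤ V := by
    have h := J_integral (t := t) (P := P) (G := fun x => (FA.ev r1 x.1 - FA.ev o1 x.1) ^ 2)
      (F := fun ω => (FA.ev r1 (pth ω) - FA.ev o1 (pth ω)) ^ 2)
      (((measurable_ev r1).sub (measurable_ev o1)).pow_const 2)
      (((measurable_ev' r1).sub (measurable_ev' o1)).pow_const 2) (by
        intro k y
        rw [ev_hk r1 m1, ev_hk o1 m2]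
        ring)
    rw [h]
    exact v1
  have e2 : ∫ x, (FA.ev r2 x.1 - FA.ev o2 x.1) ^ 2 ∂(J t P) ≤ V := by
    have h := J_integral (t := t) (P := P) (G := fun x => (FA.ev r2 x.1 - FA.ev o2 x.1) ^ 2)
      (F := fun ω => (FA.ev r2 (pth ω) - FA.ev o2 (pth ω)) ^ 2)
      (((measurable_ev r2).sub (measurable_ev o2)).pow_const 2)
      (((measurable_ev' r2).sub (measurable_ev' o2)).pow_const 2) (by
        intro k y
        rw [ev_hk r2 m3, ev_hk o2 m4]
        ring)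
    rw [h]
    exact v2
  have e3 : (J t P).real {x | |FA.ev r1 x.1 - FA.ev r2 x.1| ≤ 2 * T} =
      P.real {ω | |FA.ev r1 (pth ω) - FA.ev r2 (pth ω)| ≤ 2 * T} := by
    refine J_real (s := Set.Iic (2 * T)) (G := fun x => |FA.ev r1 x.1 - FA.ev r2 x.1|)
      (F := fun ω => |FA.ev r1 (pth ω) - FA.ev r2 (pth ω)|)
      (((measurable_ev r1).sub (measurable_ev r2)).abs)
      (((measurable_ev' r1).sub (measurable_ev' r2)).abs) ?_ measurableSet_Iic
    intro k y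
    rw [ev_hk r1 m1, ev_hk r2 m3]
    congr 1
    ring
  rw [← e3]
  set l : Finset Pt → Hgt × Mk → ℝ := fun i x => (x.1 (bf (pick s R i)) : ℝ) with hl
  set bd : Finset Pt → ℝ := fun i =>
    ((|(bf (pick s R i)).1| + |(bf (pick s R i)).2| + 2 : ℤ) : ℝ) with hbd
  refine abs_arm (J t P) (idx s R) (pc R) (fun i _ => measurableSet_pc R i) ?_
    (fun x => FA.ev r1 x.1) (fun x => FA.ev o1 x.1) (fun x => FA.ev r2 x.1)
    (fun x => FA.ev o2 x.1) (measurable_ev r1) (measurable_ev o1) (measurable_ev r2)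
    (measurable_ev o2) l (fun i _ => ?_)
    (fun i => flipR (Uf (clu (i : Set Pt) (pick s R i)) 0 0 s) (bf (pick s R i)))
    (fun i => flipR (Uf (clu (i : Set Pt) (pick s R i)) (3 * R) 0 R) (bf (pick s R i)))
    (fun i _ => measurable_flipR _ _) (fun i _ => measurable_flipR _ _)
    (bX r1 + bX o1 + bX r2 + bX o2 + ∑ i ∈ idx s R, bd i) ?_
    (fun i hi => pc_flip hflip hgood hi _ _ _) (fun i hi => pc_flip hflip hgood hi _ _ _)
    ?_ ?_ V e1 e2 T hT
  · intro i _ j _ hij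
    rw [Function.onFun, Set.disjoint_left]
    intro x hx hx'
    apply hij
    have h1 : SP x ∩ bigB R = (i : Set Pt) := hx
    have h2 : SP x ∩ bigB R = (j : Set Pt) := hx'
    exact Finset.coe_injective (h1.symm.trans h2)
  · exact (measurable_of_countable (fun n : ℤ => (n : ℝ))).comp (measurable_hap _)
  · filter_upwards [bdd_J t P] with x hx
    have hs0 : 0 ≤ ∑ i ∈ idx s R, bd i := Finset.sum_nonneg fun i _ => bd_nonneg _
    have b1 := bX_nonneg r1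
    have b2 := bX_nonneg o1
    have b3 := bX_nonneg r2
    have b4 := bX_nonneg o2
    refine ⟨(ev_le_bX hx r1).trans (by linarith only [hs0, b2, b3, b4]), (ev_le_bX hx o1).trans (by linarith only [hs0, b1, b3, b4]),
      (ev_le_bX hx r2).trans (by linarith), (ev_le_bX hx o2).trans (by linarith only [hs0, b1, b2, b3]), ?_⟩
    intro i hi
    have h1 : |l i x| ≤ bd i := by
      have := hx (bf (pick s R i))
      simp only [hl, hbd]
      rw [← Int.cast_abs]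
      exact_mod_cast this
    have h2 : bd i ≤ ∑ i ∈ idx s R, bd i :=
      Finset.single_le_sum (f := bd) (fun j _ => bd_nonneg _) hi
    linarith only [b1, b2, b3, b4, h1, h2]
  · intro i hi
    refine Filter.Eventually.of_forall fun x => ?_
    have hp := pick_spec hi
    exact ⟨ev_flip_in x m1 fun q hq => nb_in hs hp.2.1 (s1 q hq),
      ev_flip_out x m2 fun q hq => nb_out (s2 q hq)⟩
  · intro i hi
    refine Filter.Eventually.of_forall fun x => ?_
    have hp := pick_spec hi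
    exact ⟨ev_flip_in x m3 fun q hq => nb_in hR hp.2.2 (s3 q hq),
      ev_flip_out x m4 fun q hq => nb_out (s4 q hq)⟩

/-- **The arm event has small probability.** -/
theorem arm_small {t : ℝ} {P : Measure (Ori (ℤ × ℤ))} [IsProbabilityMeasure P]
    (hflip : FlipLaw t P) (hgood : ∀ᵐ x ∂(J t P), GoodX x) (hac : AC.Stmt P) :
    ∀ c > 0, ∀ M0 : ℤ, ∃ M : ℤ, M0 ≤ M ∧ ∃ s0 : ℤ, ∀ s : ℤ, s0 ≤ s →
      (J t P).real {x | J2 s (2 * M * s) (SP x)} < c := by
  intro c hc M0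
  obtain ⟨C, hC⟩ := hac
  set V : ℝ := max C 1 with hV
  have hV1 : 1 ≤ V := le_max_right _ _
  set T : ℝ := 1 + 8 * V / c with hT
  have h8 : 0 < 8 * V / c := by positivity
  have hT0 : 0 < T := by linarith only [h8]
  obtain ⟨M1, hM1, h1⟩ := hC (2 * T) (c / 4) (by positivity)
  set M : ℕ := max M1 M0.toNat with hM
  obtain ⟨s0, hs0, h2⟩ := h1 M (le_max_left _ _)
  have hMpos : 1 ≤ M := hM1.trans (le_max_left _ _)
  refine ⟨M, ?_, s0, fun s hs => ?_⟩
  · have : M0.toNat ≤ M := le_max_right _ _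
    omega
  obtain ⟨k, rfl⟩ : ∃ k : ℕ, s = k := ⟨s.toNat, by omega⟩
  have hk : s0 ≤ k := by exact_mod_cast hs
  obtain ⟨r1, o1, r2, o2, ⟨m1, m2, m3, m4⟩, s1, s2, s3, s4, v1, v2, hp⟩ := h2 k hk
  have hk0 : (0 : ℤ) < k := by omega
  have hM0 : (0 : ℤ) < M := by exact_mod_cast hMpos
  have hR0 : (0 : ℤ) < 2 * M * k := by (clear * - hM1 hk0; positivity)
  have key := arm_one hflip hgood hk0 hR0 m1 m2 m3 m4 (V := V) (T := T)
    (fun q hq => by
      have := s1 q hq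
      rw [abs_lt, abs_lt] at this
      unfold rc fi
      exact ⟨by dsimp only; linarith only [this], by dsimp only; linarith only [this], by dsimp only; linarith only [this],
        by dsimp only; linarith only [this]⟩)
    (fun q hq hin => by
      have := s2 q hq
      have h3 := hin.2.1
      unfold fi at h3
      dsimp only at h3
      linarith only [this, h3])
    (fun q hq => by
      have := s3 q hq
      rw [abs_lt, abs_lt] at this
      unfold rc fi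
      exact ⟨by dsimp only; linarith only [this], by dsimp only; linarith only [this], by dsimp only; linarith only [this],
        by dsimp only; linarith only [this]⟩)
    (fun q hq hin => by
      have := s4 q hq
      have h3 := hin.2.1
      unfold fi at h3
      dsimp only at h3
      linarith only [this, h3])
    (v1.trans (le_max_left _ _)) (v2.trans (le_max_left _ _)) hT0
  have h4 : 2 * V / T ^ 2 ≤ c / 4 := by
    have hTT : T ≤ T ^ 2 := by nlinarith only [h8]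
    have h5 : 2 * V / T ^ 2 ≤ 2 * V / T := by
      apply div_le_div_of_nonneg_left (by linarith only [hV1]) hT0 hTT
    have h6 : 2 * V / T ≤ c / 4 := by
      rw [div_le_iff₀ hT0, hT]
      have : c / 4 * (1 + 8 * V / c) = c / 4 + 2 * V := by field_simp; ring
      rw [this]; linarith only [hc]
    linarith only [h5, h6]
  linarith only [hc, hp, key, h4]

/-- The arm event of the crossing theorem. -/
theorem harm {t : ℝ} {P : Measure (Ori (ℤ × ℤ))} [IsProbabilityMeasure P]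
    (hflip : FlipLaw t P) (hgood : ∀ᵐ x ∂(J t P), GoodX x) (hac : AC.Stmt P) :
    ∀ c > 0, ∀ M0 : ℤ, ∃ M : ℤ, M0 ≤ M ∧ ∃ s0 : ℤ, ∀ s : ℤ, s0 ≤ s →
      (J t P).real {x | Arm s (2 * M * s) (SP x)} < c := by
  intro c hc M0
  obtain ⟨M, hM, s0, h⟩ := arm_small hflip hgood hac c hc (max M0 1)
  refine ⟨M, (le_max_left _ _).trans hM, max s0 1, fun s hs => ?_⟩
  have hs1 : 1 ≤ s := (le_max_right _ _).trans hs
  have hM1 : 1 ≤ M := (le_max_right _ _).trans hM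
  have hJ : IsProbabilityMeasure (J t P) := J_prob t P
  refine lt_of_le_of_lt (measureReal_mono ?_) (h s ((le_max_left _ _).trans hs))
  intro x hx
  refine arm_cut (by omega) (by nlinarith only [hs1, hM1]) ?_ hx
  intro z hz hodd
  rcases hz with h1 | h1
  · exact (Int.not_even_iff_odd.2 hodd.1) h1.1
  · exact (Int.not_even_iff_odd.2 h1.1) (hodd.1.add_odd hodd.2)

/-! ### The hypotheses on the plane measure -/

theorem GoodH.goodX {x : Hgt × Mk} (h : GoodH x) : GoodX x := by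
  refine ⟨fun q hq => ?_, h.opn⟩
  obtain ⟨k, hk⟩ := h.par q
  obtain ⟨l, hl⟩ := hq
  exact ⟨k + l, by omega⟩

theorem goodX_ae {t : ℝ} {P : Measure (Ori (ℤ × ℤ))} [IsProbabilityMeasure P]
    (hice : ∀ᵐ a ∂P, ∀ x y, Ice a x y) : ∀ᵐ x ∂(J t P), GoodX x :=
  (J_goodH hice).mono fun _ hx => hx.goodX

/-- **The cluster event has small probability**, plane measures with the swap property. -/
theorem arm_small_of {c t : ℝ} (hc : 0 < c) (hct : c * t = 1) (ht1 : t ≤ 1)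
    {P : Measure (Ori (ℤ × ℤ))} [IsProbabilityMeasure P] (hice : ∀ᵐ a ∂P, ∀ x y, Ice a x y)
    (hS : Swap c P) (hac : AC.Stmt P) :
    ∀ ε > 0, ∀ M0 : ℤ, ∃ M : ℤ, M0 ≤ M ∧ ∃ s0 : ℤ, ∀ s : ℤ, s0 ≤ s →
      (J t P).real {x | J2 s (2 * M * s) (SP x)} < ε :=
  arm_small (flipLaw_of_swap hc hct ht1 hice hS) (goodX_ae hice) hac

/-- **The arm event has small probability**, plane measures with the swap property. -/
theorem harm_of {c t : ℝ} (hc : 0 < c) (hct : c * t = 1) (ht1 : t ≤ 1)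
    {P : Measure (Ori (ℤ × ℤ))} [IsProbabilityMeasure P] (hice : ∀ᵐ a ∂P, ∀ x y, Ice a x y)
    (hS : Swap c P) (hac : AC.Stmt P) :
    ∀ ε > 0, ∀ M0 : ℤ, ∃ M : ℤ, M0 ≤ M ∧ ∃ s0 : ℤ, ∀ s : ℤ, s0 ≤ s →
      (J t P).real {x | Arm s (2 * M * s) (SP x)} < ε :=
  harm (flipLaw_of_swap hc hct ht1 hice hS) (goodX_ae hice) hac

end Vale.Agent.P145.FB
end
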