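import Mathlib
import Vale.Agent.P145.Bdl.B2
import Vale.Agent.P145.Bdl.B1
import Vale.Agent.P145.Bdl.B4
import Vale.Agent.P145.Bdl.B3
import Vale.Agent.P145.Bdl.B5
import Vale.Agent.P152.Bd3.B24

set_option linter.all false

section

/-!
The self-dual line in terms of `c = √(1 + e^{4U})`, and the hand-in on Jordan domains from the
general theorem.
-/

namespace Vale.Agent.P145.JG

/-- On the self-dual line with `U ≤ J` one has `e^{4U} ≤ 3`. -/
lemma exp_le_three {J U : ℝ} (hUJ : U ≤ J) (hself : Real.sinh (2 * J) = Real.exp (-2 * U)) :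
    Real.exp (4 * U) ≤ 3 := by
  have h1 : Real.sinh (2 * U) ≤ Real.exp (-2 * U) := by
    rw [← hself]
    exact Real.sinh_le_sinh.2 (by linarith only [hUJ])
  rw [Real.sinh_eq, show -(2 * U) = -2 * U by ring] at h1
  have h2 : Real.exp (2 * U) ≤ 3 * Real.exp (-2 * U) := by linarith only [h1]
  have h3 : Real.exp (4 * U) = Real.exp (2 * U) * Real.exp (2 * U) := by
    rw [← Real.exp_add]; ring_nf
  have h4 : Real.exp (-2 * U) * Real.exp (2 * U) = 1 := by
    rw [← Real.exp_add]; ring_nf; exact Real.exp_zero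
  have h5 := mul_le_mul_of_nonneg_right h2 (Real.exp_pos (2 * U)).le
  rw [h3]
  linarith only [h4, h5]

lemma c_range {J U : ℝ} (hUJ : U ≤ J) (hself : Real.sinh (2 * J) = Real.exp (-2 * U)) :
    1 ≤ √(1 + Real.exp (4 * U)) ∧ √(1 + Real.exp (4 * U)) ≤ 2 := by
  have h3 := exp_le_three hUJ hself
  have h0 := Real.exp_pos (4 * U)
  refine ⟨Real.one_le_sqrt.2 (by linarith only [h0]), ?_⟩
  rw [Real.sqrt_le_left (by norm_num)]
  linarith only [h3]

lemma c_hi {U : ℝ} (hU : 0 ≤ U) : √2 ≤ √(1 + Real.exp (4 * U)) := by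
  have h2 : 1 ≤ Real.exp (4 * U) := Real.one_le_exp (by linarith only [hU])
  exact Real.sqrt_le_sqrt (by linarith only [h2])

/-- The constant. -/
lemma s_val {c κ g s : ℝ} (hc : 0 < c) (hs : 0 < s) (h : κ = 1 / Real.arcsin (c / 2))
    (hκ : κ = s ^ 2 * (8 * Real.pi)) (hg : g = 8 / Real.pi * Real.arcsin (c / 2)) :
    s = 1 / (Real.pi * √g) := by
  have hpi := Real.pi_pos
  have ha : 0 < Real.arcsin (c / 2) := Real.arcsin_pos.2 (by linarith only [hc])
  have hg0 : 0 < g := by rw [hg]; (clear * - ha; positivity)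
  have h2 : 0 < 1 / (Real.pi * √g) := by positivity
  have h3 : s ^ 2 = (1 / (Real.pi * √g)) ^ 2 := by
    rw [div_pow, mul_pow, Real.sq_sqrt hg0.le, hg]
    have h4 : s ^ 2 = 1 / Real.arcsin (c / 2) / (8 * Real.pi) := by
      rw [← h, hκ]; field_simp
    rw [h4]
    (clear * - ha; field_simp)
  exact (pow_left_inj₀ hs.le h2.le two_ne_zero).1 h3

theorem jordan_of {J U : ℝ} (hX : ∀ c : ℝ, 1 ≤ c → c ≤ 2 → ∃ κ : ℝ, 0 < κ ∧
      ∀ s : ℝ, κ = s ^ 2 * (2 * Real.pi) →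
        ∀ D : Set (ℝ × ℝ), Dom.JordanDomain D → Dom.Conv (1 / c) s D)
    (hUJ : U ≤ J) (hself : Real.sinh (2 * J) = Real.exp (-2 * U)) :
    ∃ s : ℝ, 0 < s ∧
      ∀ D : Set (ℝ × ℝ), JordanDomain D → Conv (1 / √(1 + Real.exp (4 * U))) s D := by
  obtain ⟨h1, h2⟩ := c_range hUJ hself
  obtain ⟨κ, hκ, h⟩ := hX _ h1 h2
  exact conv_of_kappa hκ h

/-- With the value of the constant under the condition `0 ≤ U`. -/
theorem jordan_val_of {J U : ℝ} (hX : ∀ c : ℝ, 1 ≤ c → c ≤ 2 → ∃ κ : ℝ, 0 < κ ∧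
      (√2 ≤ c → κ = 1 / Real.arcsin (c / 2)) ∧
      ∀ s : ℝ, κ = s ^ 2 * (8 * Real.pi) →
        ∀ D : Set (ℝ × ℝ), Dom.JordanDomain D → Dom.Conv (1 / c) s D)
    (hUJ : U ≤ J) (hself : Real.sinh (2 * J) = Real.exp (-2 * U)) :
    ∃ s : ℝ, 0 < s ∧ (0 ≤ U →
        s = 1 / (Real.pi * √(8 / Real.pi * Real.arcsin (√(1 + Real.exp (4 * U)) / 2)))) ∧
      ∀ D : Set (ℝ × ℝ), JordanDomain D → Conv (1 / √(1 + Real.exp (4 * U))) s D := by
  obtain ⟨h1, h2⟩ := c_range hUJ hself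
  obtain ⟨κ, hκ, hv, h⟩ := hX _ h1 h2
  have h8 : (0 : ℝ) < 8 * Real.pi := by (clear * -; positivity)
  have hs : 0 < √(κ / (8 * Real.pi)) := Real.sqrt_pos.2 (by (clear * - hκ; positivity))
  have hk : κ = √(κ / (8 * Real.pi)) ^ 2 * (8 * Real.pi) := by
    rw [Real.sq_sqrt (by positivity)]
    field_simp
  exact ⟨_, hs, fun hU => s_val (by linarith only [h1]) hs (hv (c_hi hU)) hk rfl,
    fun D hD => conv_of_dom (h _ hk D hD)⟩

end Vale.Agent.P145.JG
end

section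

namespace Vale.Agent.P153

open Finset

/-- mod 2 boundary of a chain of triangles -/
noncomputable def bd (F : (ℤ × ℤ) × Bool → ZMod 2) (e : Sym2 (ℤ × ℤ)) : ZMod 2 :=
  ∑ᶠ (t) (_ : t ∈ {t | e ∈ edges t}), F t

theorem bd_hor (F : (ℤ × ℤ) × Bool → ZMod 2) (i j : ℤ) :
    bd F s((i, j), (i + 1, j)) = F ((i, j), false) + F ((i, j - 1), true) := by
  have : {t | s((i, j), (i + 1, j)) ∈ edges t} = {((i, j), false), ((i, j - 1), true)} := by
    ext t; simp only [Set.mem_ofPred_eq, mem_hor, Set.mem_insert_iff, Set.mem_singleton_iff]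
  rw [bd, this, finsum_mem_pair (by simp)]

theorem bd_vert (F : (ℤ × ℤ) × Bool → ZMod 2) (i j : ℤ) :
    bd F s((i, j), (i, j + 1)) = F ((i, j), false) + F ((i - 1, j), true) := by
  have : {t | s((i, j), (i, j + 1)) ∈ edges t} = {((i, j), false), ((i - 1, j), true)} := by
    ext t; simp only [Set.mem_ofPred_eq, mem_vert, Set.mem_insert_iff, Set.mem_singleton_iff]
  rw [bd, this, finsum_mem_pair (by simp)]

theorem bd_diag (F : (ℤ × ℤ) × Bool → ZMod 2) (i j : ℤ) :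
    bd F s((i + 1, j), (i, j + 1)) = F ((i, j), false) + F ((i, j), true) := by
  have : {t | s((i + 1, j), (i, j + 1)) ∈ edges t} = {((i, j), false), ((i, j), true)} := by
    ext t; simp only [Set.mem_ofPred_eq, mem_diag, Set.mem_insert_iff, Set.mem_singleton_iff]
  rw [bd, this, finsum_mem_pair (by simp)]

/-- the six neighbours -/
def nb (v : ℤ × ℤ) : Finset (ℤ × ℤ) :=
  {(v.1 + 1, v.2), (v.1 - 1, v.2), (v.1, v.2 + 1), (v.1, v.2 - 1), (v.1 + 1, v.2 - 1),
    (v.1 - 1, v.2 + 1)}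

theorem mem_nb {v u : ℤ × ℤ} : u ∈ nb v ↔ Step v u := by
  obtain ⟨a, b⟩ := v
  obtain ⟨p, q⟩ := u
  simp only [nb, mem_insert, mem_singleton, Prod.mk.injEq, Step]

theorem bd_star (F : (ℤ × ℤ) × Bool → ZMod 2) (v : ℤ × ℤ) :
    ∑ u ∈ nb v, bd F s(v, u) = 0 := by
  obtain ⟨a, b⟩ := v
  unfold nb
  rw [sum_insert, sum_insert, sum_insert, sum_insert, sum_insert, sum_singleton]
  · have h1 := bd_hor F a b
    have h2 := bd_hor F (a - 1) b
    have h3 := bd_vert F a b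
    have h4 := bd_vert F a (b - 1)
    have h5 := bd_diag F a (b - 1)
    have h6 := bd_diag F (a - 1) b
    rw [sub_add_cancel] at h2 h4 h5 h6
    rw [Sym2.eq_swap] at h2 h4 h5
    simp only
    rw [h1, h2, h3, h4, h5, h6]
    have h0 : (2 : ZMod 2) = 0 := rfl
    linear_combination (F ((a, b), false) + F ((a, b - 1), true) + F ((a - 1, b), false) +
      F ((a - 1, b - 1), true) + F ((a - 1, b), true) + F ((a, b - 1), false)) * h0
  all_goals
    simp only [mem_insert, mem_singleton, Prod.mk.injEq]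
    omega

/-- a chain without boundary which vanishes far to the right is zero -/
theorem chain_zero (F : (ℤ × ℤ) × Bool → ZMod 2)
    (hb : ∀ x y, Step x y → bd F s(x, y) = 0) (N : ℤ) (hN : ∀ i j b, N < i → F ((i, j), b) = 0) :
    ∀ t, F t = 0 := by
  have h1 : ∀ i j, F ((i, j), false) = F ((i, j), true) := by
    intro i j
    have := hb (i + 1, j) (i, j + 1) (by unfold Step; dsimp only; omega)
    rw [bd_diag] at this
    have h0 : (2 : ZMod 2) = 0 := rfl
    linear_combination this - F ((i, j), true) * h0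
  have h2 : ∀ i j, F ((i, j), true) = F ((i + 1, j), false) := by
    intro i j
    have := hb (i + 1, j) (i + 1, j + 1) (by unfold Step; dsimp only; omega)
    rw [bd_vert, add_sub_cancel_right] at this
    have h0 : (2 : ZMod 2) = 0 := rfl
    linear_combination this - F ((i + 1, j), false) * h0
  have h3 : ∀ (k : ℕ) (i j : ℤ), F ((i, j), false) = F ((i + k, j), false) := by
    intro k
    induction k with
    | zero => intro i j; simp
    | succ k ih =>
      intro i j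
      rw [ih i j, h1, h2]
      push_cast
      rw [add_assoc]
  have h4 : ∀ i j, F ((i, j), false) = 0 := by
    intro i j
    rw [h3 (N + 1 - i).toNat i j]
    apply hN
    have := Int.self_le_toNat (N + 1 - i)
    omega
  rintro ⟨⟨i, j⟩, b⟩
  cases b
  · exact h4 i j
  · rw [← h1]; exact h4 i j

section walk

variable (m : ℕ) (x : ℕ → ℤ × ℤ)

/-- the chain filling a closed walk -/
def fill (t : (ℤ × ℤ) × Bool) : ZMod 2 := ∑ k ∈ range m, ray t (x k) (x (k + 1))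

/-- number of passages through an edge -/
def wt (e : Sym2 (ℤ × ℤ)) : ZMod 2 := ∑ k ∈ range m, if s(x k, x (k + 1)) = e then 1 else 0

variable {m x}

theorem bd_fill (hx : ∀ k < m, Step (x k) (x (k + 1))) (hc : x m = x 0) {p q : ℤ × ℤ}
    (hpq : Step p q) : bd (fill m x) s(p, q) = wt m x s(p, q) := by
  rcases step_kinds hpq with ⟨i, j, h⟩ | ⟨i, j, h⟩ | ⟨i, j, h⟩ <;> rw [h]
  · rw [bd_hor]
    have h1 : fill m x ((i, j), false) + fill m x ((i, j - 1), true) +
        wt m x s((i, j), (i + 1, j)) = 0 := by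
      unfold fill wt
      rw [← sum_add_distrib, ← sum_add_distrib]
      rw [sum_congr rfl (fun k hk => ray_hor (hx k (mem_range.mp hk)) i j)]
      have h0 : (2 : ZMod 2) = 0 := rfl
      have : ∀ k : ℕ, half i j (x k) + half i j (x (k + 1)) =
          half i j (x (k + 1)) - half i j (x k) := by
        intro k
        linear_combination half i j (x k) * h0
      rw [sum_congr rfl (fun k _ => this k), sum_range_sub (fun k => half i j (x k)) m, hc,
        sub_self]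
    have h0 : (2 : ZMod 2) = 0 := rfl
    linear_combination h1 - wt m x s((i, j), (i + 1, j)) * h0
  · rw [bd_vert]
    unfold fill wt
    rw [← sum_add_distrib]
    apply sum_congr rfl
    intro k hk
    have := ray_vert (hx k (mem_range.mp hk)) (i - 1) j
    rw [sub_add_cancel] at this
    rw [add_comm, this]
  · rw [bd_diag]
    unfold fill wt
    rw [← sum_add_distrib]
    apply sum_congr rfl
    intro k hk
    exact ray_diag (hx k (mem_range.mp hk)) i j

end walk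

end Vale.Agent.P153
end

section

/-!
P145, X-level: the law of the absolute heights and the bonds is invariant under the reflection of
the heights of a region at the height of its boundary.
-/

namespace Vale.Agent.P145.X

open Finset Filter Topology MeasureTheory
open Vale.Agent.P152 (Ori Ice pth pth_isHeight IsHeight pth_zero height_eq_pth)
open Vale.Agent.P145.FA (Hgt)
open Vale.Agent.P145.FB

/-- The reflection at the height of `b`, not normalised. -/
noncomputable def rfl0 (U : Finset Pt) (b : Pt) (x : Hgt × Mk) : Hgt × Mk := (refl0 U b x.1, x.2)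

lemma measurable_rfl0 (U : Finset Pt) (b : Pt) : Measurable (rfl0 U b) := by
  classical
  have hc : ∀ q : Pt, Measurable fun x : Hgt × Mk => x.1 q := fun q =>
    (measurable_pi_apply q).comp measurable_fst
  refine Measurable.prodMk (measurable_pi_lambda _ fun q => ?_) measurable_snd
  by_cases h : nb U q
  · simp only [refl0, h, if_true]
    exact ((hc b).const_mul 2).sub (hc q)
  · simp only [refl0, h, if_false]
    exact hc q

lemma lintegral_Jmu {t : ℝ} {P : Measure (Ori (ℤ × ℤ))} {f : Hgt × Mk → ENNReal}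
    (hf : Measurable f) : ∫⁻ x, f x ∂(Jmu t P) = ∫⁻ y, ∑' k : ℤ, f (hk k y) ∂(JO t P) := by
  rw [Jmu, lintegral_sum_measure]
  refine Eq.trans ?_
    (lintegral_tsum fun k => (hf.comp (measurable_hk k)).aemeasurable).symm
  exact tsum_congr fun k => lintegral_map hf (measurable_hk k)

lemma flipQ_hk {U : Finset Pt} {b : Pt} (x : Ori (ℤ × ℤ) × Mk) (k : ℤ) :
    hk k x ∈ FlipQ U b ↔ hk 0 x ∈ FlipQ U b := by
  refine forall_congr' fun w => forall_congr' fun _ => ?_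
  simp only [hk]
  constructor
  · rintro ⟨h1, h2, h3⟩
    exact ⟨h1, by omega, by omega⟩
  · rintro ⟨h1, h2, h3⟩
    exact ⟨h1, by omega, by omega⟩

open Classical in
/-- The change of the base height. -/
noncomputable def jj (U : Finset Pt) (b : Pt) (x : Ori (ℤ × ℤ) × Mk) : ℤ :=
  if nb U 0 then pth x.1 b else 0

lemma rfl_pt {U : Finset Pt} (hU : ∀ f ∈ U, Odd (f.1 + f.2)) (b : Pt)
    {x : Ori (ℤ × ℤ) × Mk} (hx : ∀ i j, Ice x.1 i j) (hq : hk 0 x ∈ FlipQ U b) (k : ℤ) :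
    rfl0 U b (hk k x) = hk (k + jj U b x) (flS (SU U) x) ∧ hk 0 (flS (SU U) x) ∈ FlipQ U b := by
  classical
  have hqk := (flipQ_hk (U := U) (b := b) x k).2 hq
  have hQ : QO U x.2 := fun w hw => (hq w hw).1
  have hS : SU U x.2 = (U : Set Pt) := by unfold SU; rw [if_pos hQ]
  have hh := pth_isHeight hx
  set h : Hgt := (hk k x).1 with hh0
  have hhk : IsHeight x.1 h := by
    intro i j
    have := hh i j
    simp only [hh0, hk]
    refine ⟨?_, ?_⟩
    · rw [← this.1]; ring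
    · rw [← this.2]; ring
  have hbd : ∀ w, ((o1 w ∈ U ∧ o2 w ∉ U) ∨ (o2 w ∈ U ∧ o1 w ∉ U)) →
      h (e1 w) = h b ∧ h (e2 w) = h b := fun w hw => (hqk w hw).2
  set h' : Hgt := fun q => if nb U q then 2 * h b - h q else h q with hh'
  have hH : IsHeight (flA (U : Set Pt) x.1) h' :=
    isHeight_flip hhk hU hbd h' (fun q hn => by simp [hh', hn]) (fun q hn => by simp only [hh', hn, ↓reduceIte])
  have h0 : h 0 = 2 * k := by
    simp only [hh0, hk, pth_zero, zero_add]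
  have h'0 : h' 0 = 2 * (k + jj U b x) := by
    have hb : h b = pth x.1 b + 2 * k := rfl
    simp only [hh', jj]
    by_cases hn : nb U 0
    · rw [if_pos hn, if_pos hn, hb, h0]; ring
    · rw [if_neg hn, if_neg hn, h0]; ring
  have e1' : rfl0 U b (hk k x) = hk (k + jj U b x) (flS (SU U) x) := by
    refine Prod.ext ?_ rfl
    funext q
    show h' q = pth (flA (SU U x.2) x.1) q + 2 * (k + jj U b x)
    rw [hS, ← height_eq_pth hH, h'0]
    ring
  refine ⟨e1', ?_⟩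
  rw [← flipQ_hk (flS (SU U) x) (k + jj U b x), ← e1']
  intro w hw
  have hb' : h' b = h b := by simp only [hh']; split_ifs <;> omega
  have key : ∀ q, h q = h b → h' q = h b := by
    intro q hq
    simp only [hh']; split_ifs <;> omega
  refine ⟨(hqk w hw).1, ?_, ?_⟩
  · show h' (e1 w) = h' b
    rw [hb', key _ (hbd w hw).1]
  · show h' (e2 w) = h' b
    rw [hb', key _ (hbd w hw).2]

/-- **The flip at the X-level.** -/
theorem lintegral_rfl {c t : ℝ} (hc : 0 < c) (hct : c * t = 1) (ht1 : t ≤ 1)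
    {P : Measure (Ori (ℤ × ℤ))} [IsProbabilityMeasure P] (hice : ∀ᵐ a ∂P, ∀ x y, Ice a x y)
    (hS : Swap c P) {U : Finset Pt} (hU : ∀ f ∈ U, Odd (f.1 + f.2)) (b : Pt)
    {f : Hgt × Mk → ENNReal} (hf : Measurable f) :
    ∫⁻ x in FlipQ U b, f (rfl0 U b x) ∂(Jmu t P) = ∫⁻ x in FlipQ U b, f x ∂(Jmu t P) := by
  classical
  have hmf := measurable_flS (S := SU U) U (SU_loc U)
  have hmp := flS_mp hc hct ht1 hice hS U (SU U) (SU_sub U) (SU_loc U) (SU_cl U)
  have hg : ∀ᵐ x ∂(JO t P), GdJ x := JO_good hice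
  have hg2 : ∀ᵐ x ∂(JO t P), GdJ (flS (SU U) x) := by
    have h1 : ∀ᵐ x ∂((JO t P).map (flS (SU U))), GdJ x := by rw [hmp]; exact hg
    exact ae_of_ae_map hmf.aemeasurable h1
  have hQm := measurableSet_FlipQ U b
  set G : Ori (ℤ × ℤ) × Mk → ENNReal := fun y =>
    ∑' k : ℤ, (FlipQ U b).indicator f (hk k y) with hG
  have hGm : Measurable G := Measurable.tsum fun k =>
    (hf.indicator hQm).comp (measurable_hk k)
  have hm1 : Measurable fun x => f (rfl0 U b x) := hf.comp (measurable_rfl0 U b)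
  rw [← lintegral_indicator hQm, ← lintegral_indicator hQm, lintegral_Jmu (hm1.indicator hQm),
    lintegral_Jmu (hf.indicator hQm)]
  have e1 : ∫⁻ y, G y ∂(JO t P) = ∫⁻ y, G (flS (SU U) y) ∂(JO t P) := by
    conv_lhs => rw [← hmp]
    exact lintegral_map hGm hmf
  refine Eq.trans ?_ e1.symm
  refine lintegral_congr_ae ?_
  filter_upwards [hg, hg2] with x hx hx2
  by_cases hq : hk 0 x ∈ FlipQ U b
  · have h1 := fun k => (rfl_pt hU b hx.1 hq k).1
    have h2 := (rfl_pt hU b hx.1 hq 0).2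
    have h3 : ∀ k, hk k x ∈ FlipQ U b := fun k => (flipQ_hk x k).2 hq
    have h4 : ∀ k, hk k (flS (SU U) x) ∈ FlipQ U b := fun k => (flipQ_hk _ k).2 h2
    have e2 : ∀ k, (FlipQ U b).indicator (fun x => f (rfl0 U b x)) (hk k x) =
        f (hk (k + jj U b x) (flS (SU U) x)) := fun k => by
      rw [Set.indicator_of_mem (h3 k), h1 k]
    have e3 : G (flS (SU U) x) = ∑' k : ℤ, f (hk k (flS (SU U) x)) := by
      simp only [hG]
      exact tsum_congr fun k => Set.indicator_of_mem (h4 k) _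
    rw [e3, tsum_congr e2]
    exact (Equiv.addRight (jj U b x)).tsum_eq fun k => f (hk k (flS (SU U) x))
  · have h3 : ∀ k, hk k x ∉ FlipQ U b := fun k h => hq ((flipQ_hk x k).1 h)
    have h5 : hk 0 (flS (SU U) x) ∉ FlipQ U b := by
      intro h
      have := (rfl_pt hU b hx2.1 h 0).2
      rw [flS_flS] at this
      exact hq this
    have h4 : ∀ k, hk k (flS (SU U) x) ∉ FlipQ U b := fun k h => h5 ((flipQ_hk _ k).1 h)
    have e3 : G (flS (SU U) x) = 0 := by
      simp only [hG]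
      rw [tsum_congr fun k => Set.indicator_of_notMem (h4 k) _, tsum_zero]
    rw [e3, tsum_congr fun k => Set.indicator_of_notMem (h3 k) _, tsum_zero]

end Vale.Agent.P145.X
end

section

/-!
P145, X-level: moments of the heights inside (outside) a circuit of open bonds at level `0`.

If `a` is supported inside and `b` outside the annulus and `a + b` has mass `0`, then the even moments
of `h(a)` and of `h(b)` on the event that the annulus contains a circuit at level `0` are at most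
those of `h(a) + h(b)` under the plane measure.
-/

namespace Vale.Agent.P145.X

open Finset Filter Topology MeasureTheory
open Vale.Agent.P152 (Ori Ice pth pth_isHeight IsHeight pth_zero)
open Vale.Agent.P145.FA (Hgt ev mass)
open Vale.Agent.P145.FB

/-- The open bonds at level `0` in the window `F` are those of `T`. -/
def piece (F T : Finset Pt) : Set (Hgt × Mk) := {x | ∀ w ∈ F, w ∈ bl x ↔ w ∈ T}

lemma meas_piece (F T : Finset Pt) : MeasurableSet (piece F T) :=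
  meas_of_opl 0 (Q := fun A => ∀ w ∈ F, w ∈ A ↔ w ∈ T)
    ⟨F, fun _ _ h hA w hw => (h w hw).symm.trans (hA w hw)⟩

/-- The region and the base point. -/
lemma exists_region {p q s : ℤ} (hs : 0 < s) {T : Finset Pt}
    (hA : Ann p q s (fine (T : Set Pt))) :
    ∃ (U : Finset Pt) (w0 : Pt), (∀ f ∈ U, Odd (f.1 + f.2)) ∧ w0 ∈ T ∧
      (∀ w, ((o1 w ∈ U ∧ o2 w ∉ U) ∨ (o2 w ∈ U ∧ o1 w ∉ U)) → w ∈ T) ∧
      (∀ f, fi f ∈ rc (p - s) (p + s) (q - s) (q + s) → nb U f) ∧
      (∀ f, fi f ∉ rc (p - 2 * s) (p + 2 * s) (q - 2 * s) (q + 2 * s) → ¬ nb U f) := by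
  obtain ⟨o, ho⟩ := hA.base hs
  set C : Set Pt := {z | NC (fine (T : Set Pt) ∩ annR p q s) o z} with hC
  have hsub : ∀ z ∈ C, z ∈ fine (T : Set Pt) := fun z hz => hz.right_mem.1
  have hodd : ∀ z ∈ fine (T : Set Pt), ¬ (Odd z.1 ∧ Odd z.2) := by
    rintro z (⟨h1, -⟩ | ⟨h1, -⟩) ⟨h2, h3⟩
    · exact (Int.not_odd_iff_even.2 (h2.add_odd h3)) h1
    · exact (Int.not_odd_iff_even.2 h1) h2
  have hcut : Cut C p q s := cut_of_sep (sep_iff.2 (ho.sep hs)) fun z hz => hodd z (hsub z hz)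
  have hw0 : ∃ w0, w0 ∈ T := by
    rcases ho.mem.1 with ⟨-, h⟩ | ⟨-, -, r, -, h⟩
    · exact ⟨_, h⟩
    · exact ⟨_, h⟩
  obtain ⟨w0, hw0⟩ := hw0
  refine ⟨Uf C p q s, w0, fun f hf => Uf_odd hf, hw0, fun w hw => ?_,
    fun f hf => nb_in hs hcut hf, fun f hf => nb_out hf⟩
  have h1 := hsub _ (Uf_bd hw)
  rcases h1 with ⟨-, h⟩ | ⟨h1, h2, -⟩
  · rw [vx_ep] at h
    exact h
  · exfalso
    have := ep_odd w
    exact (Int.not_odd_iff_even.2 (h1.add h2)) this

lemma refl0_b {U : Finset Pt} {b : Pt} (h : Hgt) : refl0 U b h b = h b := by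
  unfold refl0
  split_ifs <;> ring

lemma bl_rfl {U : Finset Pt} {b : Pt} {x : Hgt × Mk} (hb : x.1 b = 0) :
    bl (rfl0 U b x) = bl x := by
  have key : ∀ q, refl0 U b x.1 q = 0 ↔ x.1 q = 0 := by
    intro q
    unfold refl0
    split_ifs
    · rw [hb]; constructor <;> intro h <;> omega
    · exact Iff.rfl
  ext w
  show (x.2 w = true ∧ refl0 U b x.1 (e1 w) = 0 ∧ refl0 U b x.1 (e2 w) = 0) ↔
    (x.2 w = true ∧ x.1 (e1 w) = 0 ∧ x.1 (e2 w) = 0)
  rw [key, key]

/-- The flip on a piece. -/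
lemma lintegral_piece {c t : ℝ} (hc : 0 < c) (hct : c * t = 1) (ht1 : t ≤ 1)
    {P : Measure (Ori (ℤ × ℤ))} [IsProbabilityMeasure P] (hice : ∀ᵐ a ∂P, ∀ x y, Ice a x y)
    (hS : Swap c P) {F T U : Finset Pt} (hTF : T ⊆ F) {w0 : Pt} (hw0 : w0 ∈ T)
    (hU : ∀ f ∈ U, Odd (f.1 + f.2))
    (hbd : ∀ w, ((o1 w ∈ U ∧ o2 w ∉ U) ∨ (o2 w ∈ U ∧ o1 w ∉ U)) → w ∈ T)
    {f : Hgt × Mk → ENNReal} (hf : Measurable f) :
    ∫⁻ x in piece F T, f (rfl0 U (e1 w0) x) ∂(Jmu t P) = ∫⁻ x in piece F T, f x ∂(Jmu t P) := by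
  have hQm := measurableSet_FlipQ U (e1 w0)
  have hAm := meas_piece F T
  have h0 : ∀ x ∈ piece F T, x.1 (e1 w0) = 0 := fun x hx =>
    ((hx w0 (hTF hw0)).2 hw0).2.1
  have hsub : piece F T ⊆ FlipQ U (e1 w0) := by
    intro x hx w hw
    have hwT := hbd w hw
    have h1 := (hx w (hTF hwT)).2 hwT
    exact ⟨h1.1, by rw [h0 x hx]; exact h1.2.1, by rw [h0 x hx]; exact h1.2.2⟩
  have hinv : ∀ x, rfl0 U (e1 w0) x ∈ piece F T ↔ x ∈ piece F T := by
    intro x
    constructor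
    · intro h
      have h1 : x.1 (e1 w0) = 0 := by
        have := h0 _ h
        simpa only [rfl0, refl0_b] using this
      intro w hw
      rw [← bl_rfl (U := U) h1]
      exact h w hw
    · intro h w hw
      rw [bl_rfl (h0 x h)]
      exact h w hw
  have h1 := lintegral_rfl hc hct ht1 hice hS hU (e1 w0) (hf.indicator hAm)
  have e2 : ∀ g : Hgt × Mk → ENNReal, ∫⁻ x in FlipQ U (e1 w0), (piece F T).indicator g x
      ∂(Jmu t P) = ∫⁻ x in piece F T, g x ∂(Jmu t P) := by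
    intro g
    rw [lintegral_indicator hAm, Measure.restrict_restrict hAm, Set.inter_eq_left.2 hsub]
  have e1' : (fun x => (piece F T).indicator f (rfl0 U (e1 w0) x)) =
      (piece F T).indicator (fun x => f (rfl0 U (e1 w0) x)) := by
    funext x
    by_cases hx : x ∈ piece F T
    · rw [Set.indicator_of_mem hx, Set.indicator_of_mem ((hinv x).2 hx)]
    · rw [Set.indicator_of_notMem hx, Set.indicator_of_notMem (fun h => hx ((hinv x).1 h))]
  rw [e1', e2, e2] at h1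
  exact h1

lemma pow_half (x y : ℝ) (n : ℕ) :
    2 * ENNReal.ofReal (x ^ (2 * n)) ≤
      ENNReal.ofReal ((x + y) ^ (2 * n)) + ENNReal.ofReal ((-x + y) ^ (2 * n)) := by
  have h1 : (-x + y) ^ (2 * n) = (x - y) ^ (2 * n) := by
    rw [pow_mul, pow_mul]
    congr 1
    ring
  have hconv : ConvexOn ℝ Set.univ (fun z : ℝ => z ^ (2 * n)) := Even.convexOn_pow (even_two_mul n)
  have h2 := hconv.2 (Set.mem_univ (x + y)) (Set.mem_univ (x - y))
    (by norm_num : (0 : ℝ) ≤ 1 / 2) (by norm_num : (0 : ℝ) ≤ 1 / 2) (by norm_num)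
  simp only [smul_eq_mul] at h2
  have h3 : 1 / 2 * (x + y) + 1 / 2 * (x - y) = x := by ring
  rw [h3] at h2
  rw [h1, ← ENNReal.ofReal_ofNat, ← ENNReal.ofReal_mul (by norm_num), ← ENNReal.ofReal_add
    (Even.pow_nonneg (even_two_mul n) _) (Even.pow_nonneg (even_two_mul n) _)]
  exact ENNReal.ofReal_le_ofReal (by linarith only [h2])

lemma measurable_evH (a : (ℤ × ℤ) →₀ ℝ) : Measurable fun h : Hgt => ev a h := by
  unfold FA.ev Finsupp.sum
  refine Finset.measurable_sum _ fun q _ => Measurable.const_mul ?_ _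
  exact (measurable_of_countable (fun z : ℤ => (z : ℝ))).comp (measurable_pi_apply q)

/-- The moments on a piece. -/
lemma mom_piece {c t : ℝ} (hc : 0 < c) (hct : c * t = 1) (ht1 : t ≤ 1)
    {P : Measure (Ori (ℤ × ℤ))} [IsProbabilityMeasure P] (hice : ∀ᵐ a ∂P, ∀ x y, Ice a x y)
    (hS : Swap c P) {p q s : ℤ} (hs : 0 < s) {a b : (ℤ × ℤ) →₀ ℝ}
    (ha : ∀ v ∈ a.support, fi v ∈ rc (p - s) (p + s) (q - s) (q + s))
    (hb : ∀ v ∈ b.support, fi v ∉ rc (p - 2 * s) (p + 2 * s) (q - 2 * s) (q + 2 * s))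
    {F T : Finset Pt} (hTF : T ⊆ F) (hA : Ann p q s (fine (T : Set Pt))) (n : ℕ) :
    ∫⁻ x in piece F T, ENNReal.ofReal (ev a x.1 ^ (2 * n)) ∂(Jmu t P) ≤
      ∫⁻ x in piece F T, ENNReal.ofReal ((ev a x.1 + ev b x.1) ^ (2 * n)) ∂(Jmu t P) ∧
    ∫⁻ x in piece F T, ENNReal.ofReal (ev b x.1 ^ (2 * n)) ∂(Jmu t P) ≤
      ∫⁻ x in piece F T, ENNReal.ofReal ((ev a x.1 + ev b x.1) ^ (2 * n)) ∂(Jmu t P) := by
  obtain ⟨U, w0, hU, hw0, hbd, hin, hout⟩ := exists_region hs hA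
  have h0 : ∀ x ∈ piece F T, x.1 (e1 w0) = 0 := fun x hx => ((hx w0 (hTF hw0)).2 hw0).2.1
  have e1' : ∀ x ∈ piece F T, ev a (rfl0 U (e1 w0) x).1 = - ev a x.1 := by
    intro x hx
    unfold FA.ev Finsupp.sum
    rw [← Finset.sum_neg_distrib]
    refine Finset.sum_congr rfl fun v hv => ?_
    have : (rfl0 U (e1 w0) x).1 v = - x.1 v := by
      show refl0 U (e1 w0) x.1 v = - x.1 v
      unfold refl0
      rw [if_pos (hin v (ha v hv)), h0 x hx]
      ring
    show a v * (((rfl0 U (e1 w0) x).1 v : ℤ) : ℝ) = -(a v * ((x.1 v : ℤ) : ℝ))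
    rw [this]
    push_cast
    ring
  have e2' : ∀ x, ev b (rfl0 U (e1 w0) x).1 = ev b x.1 := by
    intro x
    unfold FA.ev Finsupp.sum
    refine Finset.sum_congr rfl fun v hv => ?_
    have : (rfl0 U (e1 w0) x).1 v = x.1 v := by
      show refl0 U (e1 w0) x.1 v = x.1 v
      unfold refl0
      rw [if_neg (hout v (hb v hv))]
    show b v * (((rfl0 U (e1 w0) x).1 v : ℤ) : ℝ) = b v * ((x.1 v : ℤ) : ℝ)
    rw [this]
  have ma : Measurable fun x : Hgt × Mk => ev a x.1 := (measurable_evH a).comp measurable_fst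
  have mb : Measurable fun x : Hgt × Mk => ev b x.1 := (measurable_evH b).comp measurable_fst
  have mf : Measurable fun x : Hgt × Mk => ENNReal.ofReal ((ev a x.1 + ev b x.1) ^ (2 * n)) :=
    ((ma.add mb).pow_const _).ennreal_ofReal
  have mg : Measurable fun x : Hgt × Mk => ENNReal.ofReal ((-ev a x.1 + ev b x.1) ^ (2 * n)) :=
    ((ma.neg.add mb).pow_const _).ennreal_ofReal
  have e3 : ∫⁻ x in piece F T, ENNReal.ofReal ((-ev a x.1 + ev b x.1) ^ (2 * n)) ∂(Jmu t P) =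
      ∫⁻ x in piece F T, ENNReal.ofReal ((ev a x.1 + ev b x.1) ^ (2 * n)) ∂(Jmu t P) := by
    rw [← lintegral_piece hc hct ht1 hice hS hTF hw0 hU hbd mf]
    refine setLIntegral_congr_fun (meas_piece F T) fun x hx => ?_
    simp only [e1' x hx, e2' x]
  have htwo : ∀ (G : Hgt × Mk → ENNReal), Measurable G → (∀ x, 2 * G x ≤
      ENNReal.ofReal ((ev a x.1 + ev b x.1) ^ (2 * n)) +
      ENNReal.ofReal ((-ev a x.1 + ev b x.1) ^ (2 * n))) →
      ∫⁻ x in piece F T, G x ∂(Jmu t P) ≤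
        ∫⁻ x in piece F T, ENNReal.ofReal ((ev a x.1 + ev b x.1) ^ (2 * n)) ∂(Jmu t P) := by
    intro G hG h
    have h1 : ∫⁻ x in piece F T, 2 * G x ∂(Jmu t P) ≤
        ∫⁻ x in piece F T, (ENNReal.ofReal ((ev a x.1 + ev b x.1) ^ (2 * n)) +
        ENNReal.ofReal ((-ev a x.1 + ev b x.1) ^ (2 * n))) ∂(Jmu t P) :=
      lintegral_mono fun x => h x
    rw [lintegral_const_mul _ hG, lintegral_add_left mf, e3, ← two_mul] at h1
    exact (ENNReal.mul_le_mul_iff_right (by norm_num) (by norm_num)).1 h1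
  refine ⟨htwo _ (ma.pow_const _).ennreal_ofReal fun x => pow_half _ _ _,
    htwo _ (mb.pow_const _).ennreal_ofReal fun x => ?_⟩
  have h1 := pow_half (ev b x.1) (ev a x.1) n
  have h2 : (-ev b x.1 + ev a x.1) ^ (2 * n) = (-ev a x.1 + ev b x.1) ^ (2 * n) := by
    rw [pow_mul, pow_mul]
    congr 1
    ring
  rw [h2, add_comm (ev b x.1)] at h1
  exact h1

/-- At most one level. -/
lemma tsum_ann {p q s : ℤ} (hs : 0 < s) (y : Ori (ℤ × ℤ) × Mk) :
    ∑' k : ℤ, ({x | Ann p q s (fine (bl x))} : Set (Hgt × Mk)).indicator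
      (fun _ => (1 : ENNReal)) (hk k y) ≤ 1 := by
  have key : ∀ k k' : ℤ, hk k y ∈ {x | Ann p q s (fine (bl x))} →
      hk k' y ∈ {x | Ann p q s (fine (bl x))} → k = k' := by
    intro k k' h h'
    have e : ∀ k : ℤ, bl (hk k y) = opl (-(2 * k)) (hk 0 y) := by
      intro k
      have h1 := opl_sh (-(2 * k)) k (hk 0 y)
      have e3 : -(2 * k) + 2 * k = 0 := by ring
      rw [e3, sh_hk, zero_add] at h1
      exact h1
    simp only [Set.mem_ofPred_eq, e] at h h'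
    have := opl_unique hs h h' (by simp only [sub_self, abs_zero, Nat.ofNat_pos, mul_nonneg_iff_of_pos_left, hs.le]) (by simp only [sub_self, abs_zero, Nat.ofNat_pos, mul_nonneg_iff_of_pos_left, hs.le])
    omega
  by_cases h : ∃ k : ℤ, hk k y ∈ {x | Ann p q s (fine (bl x))}
  · obtain ⟨k, hk'⟩ := h
    rw [tsum_eq_single k]
    · rw [Set.indicator_of_mem hk']
    · intro k' hne
      exact Set.indicator_of_notMem (fun h' => hne (key _ _ h' hk')) _
  · push Not at h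
    rw [tsum_congr fun k => Set.indicator_of_notMem (h k) _, tsum_zero]
    exact zero_le_one

lemma ev_hk {w : (ℤ × ℤ) →₀ ℝ} (hw : mass w = 0) (k : ℤ) (y : Ori (ℤ × ℤ) × Mk) :
    ev w (hk k y).1 = ev w (pth y.1) := by
  have h1 : ev w (hk k y).1 = ev w (pth y.1) + 2 * k * mass w := by
    unfold FA.ev FA.mass Finsupp.sum
    rw [Finset.mul_sum, ← Finset.sum_add_distrib]
    refine Finset.sum_congr rfl fun v _ => ?_
    simp only [hk]
    push_cast
    ring
  rw [h1, hw, mul_zero, add_zero]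

lemma lintegral_JO_fst {t : ℝ} {P : Measure (Ori (ℤ × ℤ))} [IsProbabilityMeasure P]
    {f : Ori (ℤ × ℤ) → ENNReal} (hf : Measurable f) :
    ∫⁻ y, f y.1 ∂(JO t P) = ∫⁻ ω, f ω ∂P := by
  rw [JO]
  refine (lintegral_map (hf.comp measurable_fst) measurable_oma).trans ?_
  exact (measurePreserving_fst (μ := P) (ν := mkm t)).lintegral_comp hf

/-- A function of the gradients, integrated over the event of a circuit at level `0`. -/
lemma lintegral_ann_le {t : ℝ} {P : Measure (Ori (ℤ × ℤ))} [IsProbabilityMeasure P] {p q s : ℤ}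
    (hs : 0 < s) {w : (ℤ × ℤ) →₀ ℝ} (hw : mass w = 0) (n : ℕ) :
    ∫⁻ x in {x | Ann p q s (fine (bl x))}, ENNReal.ofReal (ev w x.1 ^ (2 * n)) ∂(Jmu t P) ≤
      ∫⁻ ω, ENNReal.ofReal (ev w (pth ω) ^ (2 * n)) ∂P := by
  have hZ : MeasurableSet {x : Hgt × Mk | Ann p q s (fine (bl x))} := (levFam_Ann p q s).meas 0
  have mf : Measurable fun x : Hgt × Mk => ENNReal.ofReal (ev w x.1 ^ (2 * n)) :=
    (((measurable_evH w).comp measurable_fst).pow_const _).ennreal_ofReal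
  have mp : Measurable fun ω : Ori (ℤ × ℤ) => ENNReal.ofReal (ev w (pth ω) ^ (2 * n)) :=
    (((measurable_evH w).comp (measurable_pi_lambda _ measurable_pth_apply)).pow_const
      _).ennreal_ofReal
  rw [← lintegral_indicator hZ, lintegral_Jmu (mf.indicator hZ), ← lintegral_JO_fst (t := t) mp]
  refine lintegral_mono fun y => ?_
  have e : ∀ k : ℤ, ({x | Ann p q s (fine (bl x))} : Set (Hgt × Mk)).indicator
      (fun x => ENNReal.ofReal (ev w x.1 ^ (2 * n))) (hk k y) =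
      ({x | Ann p q s (fine (bl x))} : Set (Hgt × Mk)).indicator
      (fun _ => (1 : ENNReal)) (hk k y) * ENNReal.ofReal (ev w (pth y.1) ^ (2 * n)) := by
    intro k
    by_cases h : hk k y ∈ {x | Ann p q s (fine (bl x))}
    · rw [Set.indicator_of_mem h, Set.indicator_of_mem h, one_mul, ev_hk hw]
    · rw [Set.indicator_of_notMem h, Set.indicator_of_notMem h, zero_mul]
  simp only [e]
  rw [ENNReal.tsum_mul_right]
  exact (mul_le_mul_left (tsum_ann hs y) _).trans (one_mul _).le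

/-- **MOM.** -/
theorem mom {c t : ℝ} (hc : 0 < c) (hct : c * t = 1) (ht1 : t ≤ 1)
    {P : Measure (Ori (ℤ × ℤ))} [IsProbabilityMeasure P] (hice : ∀ᵐ a ∂P, ∀ x y, Ice a x y)
    (hS : Swap c P) {p q s : ℤ} (hs : 0 < s) {a b : (ℤ × ℤ) →₀ ℝ}
    (ha : ∀ v ∈ a.support, fi v ∈ rc (p - s) (p + s) (q - s) (q + s))
    (hb : ∀ v ∈ b.support, fi v ∉ rc (p - 2 * s) (p + 2 * s) (q - 2 * s) (q + 2 * s))
    (hm : mass (a + b) = 0) (n : ℕ) :
    ∫⁻ x in {x | Ann p q s (fine (bl x))}, ENNReal.ofReal (ev a x.1 ^ (2 * n)) ∂(Jmu t P) ≤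
      ∫⁻ ω, ENNReal.ofReal (ev (a + b) (pth ω) ^ (2 * n)) ∂P ∧
    ∫⁻ x in {x | Ann p q s (fine (bl x))}, ENNReal.ofReal (ev b x.1 ^ (2 * n)) ∂(Jmu t P) ≤
      ∫⁻ ω, ENNReal.ofReal (ev (a + b) (pth ω) ^ (2 * n)) ∂P := by
  classical
  obtain ⟨F, hF⟩ := loc_fine (IL_Ann p q s).2
  set I : Finset (Finset Pt) :=
    F.powerset.filter fun T : Finset Pt => Ann p q s (fine (T : Set Pt)) with hI
  have hZ : {x : Hgt × Mk | Ann p q s (fine (bl x))} = ⋃ T ∈ I, piece F T := by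
    ext x
    simp only [Set.mem_ofPred_eq, Set.mem_iUnion, hI, Finset.mem_filter, Finset.mem_powerset,
      exists_prop]
    constructor
    · intro h
      refine ⟨F.filter (fun w => w ∈ bl x), ⟨Finset.filter_subset _ _, ?_⟩, ?_⟩
      · exact hF _ _ (fun w hw => by simp [hw]) h
      · intro w hw
        simp [hw]
    · rintro ⟨T, ⟨-, hT⟩, h⟩
      exact hF _ _ (fun w hw => (h w hw).symm) hT
  have hdis : (I : Set (Finset Pt)).PairwiseDisjoint (piece F) := by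
    intro T hT T' hT' hne
    rw [Function.onFun, Set.disjoint_left]
    intro x h1 h2
    apply hne
    simp only [hI, Finset.coe_filter, Finset.mem_powerset, Set.mem_ofPred_eq] at hT hT'
    ext w
    constructor
    · intro h
      exact (h2 w (hT.1 h)).1 ((h1 w (hT.1 h)).2 h)
    · intro h
      exact (h1 w (hT'.1 h)).1 ((h2 w (hT'.1 h)).2 h)
  have hsum : ∀ g : Hgt × Mk → ENNReal, ∫⁻ x in {x | Ann p q s (fine (bl x))}, g x ∂(Jmu t P) =
      ∑ T ∈ I, ∫⁻ x in piece F T, g x ∂(Jmu t P) := by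
    intro g
    rw [hZ]
    exact lintegral_biUnion_finset hdis (fun T _ => meas_piece F T) g
  have hlast := lintegral_ann_le (t := t) (P := P) (p := p) (q := q) hs hm n
  have hev : ∀ h : Hgt, ev (a + b) h = ev a h + ev b h := by
    intro h
    unfold FA.ev
    rw [Finsupp.sum_add_index' (fun _ => by simp) (fun _ _ _ => by ring)]
  have hp := fun T (hT : T ∈ I) => mom_piece hc hct ht1 hice hS hs ha hb
    (Finset.mem_powerset.1 (Finset.mem_filter.1 hT).1) (Finset.mem_filter.1 hT).2 n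
  constructor
  · refine le_trans ?_ hlast
    rw [hsum, hsum]
    refine Finset.sum_le_sum fun T hT => ((hp T hT).1).trans (le_of_eq ?_)
    exact lintegral_congr fun x => by rw [hev]
  · refine le_trans ?_ hlast
    rw [hsum, hsum]
    refine Finset.sum_le_sum fun T hT => ((hp T hT).2).trans (le_of_eq ?_)
    exact lintegral_congr fun x => by rw [hev]

end Vale.Agent.P145.X
end

section

/-!
P145: the input MONO of the block F-TOP.
-/

namespace Vale.Agent.P145.FK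

open Finset Vale.Agent.P145.FP Vale.Agent.P145.Dom Vale.Agent.P145.Top
open scoped Classical

lemma posH_vh (v : ℤ × ℤ) : PosH (fun x => vh x v) := by
  have h := PosH.smul (c := 1 / 2) (by norm_num) (PosH.ht v)
  refine (congrArg PosH ?_).mp h
  funext x
  simp only [vh]
  ring

lemma posH_list (v : List (ℤ × ℤ)) : PosH (fun x => (v.map (vh x)).prod) := by
  induction v with
  | nil => simpa using PosH.const 1 zero_le_one
  | cons a l ih => simpa only [List.map_cons, List.prod_cons] using PosH.mul (posH_vh a) ih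

lemma neg_mem_ZH {F : Finset (ℤ × ℤ)} {x : Site → ℤ} (hx : x ∈ ZH F) : -x ∈ ZH F := by
  obtain ⟨h1, h2, h3⟩ := hx
  refine ⟨fun v => (h1 v).neg, fun f hf => ?_, fun f a b ha hb => ⟨fun hf => ?_, fun hf => ?_⟩⟩
  · show -x (.inr f) = 0
    rw [h2 f hf, neg_zero]
  · show -x (.inl (f.1 + a, f.2 + b)) = 0
    rw [(h3 f a b ha hb).1 hf, neg_zero]
  · show |-x (.inr f) - -x (.inl (f.1 + a, f.2 + b))| = 1
    rw [← (h3 f a b ha hb).2 hf, ← abs_neg]
    congr 1
    ring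

lemma zw_neg (c : ℝ) (F : Finset (ℤ × ℤ)) (x : Site → ℤ) : zw c F (-x) = zw c F x := by
  unfold zw
  simp only [Pi.neg_apply, neg_inj]

/-- Symmetry of the zero boundary law. -/
lemma zs_neg (c : ℝ) (F : Finset (ℤ × ℤ)) (Φ : (Site → ℤ) → ℝ) :
    zs c F (fun x => Φ (-x)) = zs c F Φ := by
  unfold zs
  refine finsum_mem_eq_of_bijOn (fun x => -x) ?_ ?_
  · refine ⟨fun x hx => neg_mem_ZH hx, fun x _ y _ h => neg_injective h, fun x hx => ?_⟩
    exact ⟨-x, neg_mem_ZH hx, neg_neg x⟩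
  · intro x _
    rw [zw_neg]

lemma zs_odd (c : ℝ) (F : Finset (ℤ × ℤ)) {Φ : (Site → ℤ) → ℝ} (h : ∀ x, Φ (-x) = -Φ x) :
    zs c F Φ = 0 := by
  have h1 := zs_neg c F Φ
  simp only [h] at h1
  have h2 : zs c F (fun x => -Φ x) = -zs c F Φ := by
    unfold zs
    simp only [mul_neg]
    exact finsum_mem_neg_distrib _ (ZH_finite F)
  rw [h2] at h1
  linarith only [h1]

theorem s_mono {c : ℝ} (hc : 1 ≤ c) : S_mono c := by
  intro F F' hF v
  refine ⟨ze_nonneg hc F (posH_list v), ze_mono hc hF (posH_list v), fun u => ?_⟩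
  unfold ze
  rw [zs_odd c F (Φ := fun x => vh x u), zero_div]
  intro x
  simp only [vh, Pi.neg_apply]
  push_cast
  ring

end Vale.Agent.P145.FK
end

section

/-!
P145, block K1: squares of faces of the six-vertex lattice are locally connected.
-/

namespace Vale.Agent.P145.FK

open Finset Vale.Agent.P145.FP Vale.Agent.P145.Dom
open scoped Classical

/-- The vertex between a horizontal and a vertical neighbour of an even face. -/
lemma exists_cor6 {B : Finset (ℤ × ℤ)} {v : ℤ × ℤ} (hv : v ∈ ev6 B) {a b : ℤ}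
    (ha : a = 1 ∨ a = -1) (hb : b = 1 ∨ b = -1) (h1 : (v.1 + a, v.2) ∈ B)
    (h2 : (v.1, v.2 + b) ∈ B) (h3 : (v.1 + a, v.2 + b) ∈ B) :
    ∃ w ∈ FC.VB B, (FB.e1 w = v ∨ FB.e2 w = v) ∧
      ((FB.o1 w = (v.1 + a, v.2) ∧ FB.o2 w = (v.1, v.2 + b)) ∨
        (FB.o2 w = (v.1 + a, v.2) ∧ FB.o1 w = (v.1, v.2 + b))) := by
  obtain ⟨hvB, hve⟩ := mem_ev6.1 hv
  obtain ⟨x, y⟩ := v
  simp only at h1 h2 h3 hve hvB ⊢
  have key : ∀ w : ℤ × ℤ, (FB.e1 w = (x, y) ∧ FB.e2 w = (x + a, y + b) ∨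
      FB.e2 w = (x, y) ∧ FB.e1 w = (x + a, y + b)) →
      ((FB.o1 w = (x + a, y) ∧ FB.o2 w = (x, y + b)) ∨
        (FB.o2 w = (x + a, y) ∧ FB.o1 w = (x, y + b))) →
      ∃ w ∈ FC.VB B, (FB.e1 w = (x, y) ∨ FB.e2 w = (x, y)) ∧
      ((FB.o1 w = (x + a, y) ∧ FB.o2 w = (x, y + b)) ∨
        (FB.o2 w = (x + a, y) ∧ FB.o1 w = (x, y + b))) := by
    intro w hw hw'
    refine ⟨w, mem_VB.2 ?_, ?_, hw'⟩
    · rcases hw with ⟨e, e'⟩ | ⟨e, e'⟩ <;> rcases hw' with ⟨g, g'⟩ | ⟨g, g'⟩ <;>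
        rw [e, e', g, g'] <;> tauto
    · rcases hw with ⟨e, e'⟩ | ⟨e, e'⟩
      · exact Or.inl e
      · exact Or.inr e
  rw [Int.even_iff] at hve
  rcases ha with rfl | rfl <;> rcases hb with rfl | rfl
  · have hp : Even ((x + 1) + (y + 1)) := by rw [Int.even_iff]; omega
    refine key (x + 1, y + 1) (Or.inr ⟨?_, ?_⟩) (Or.inr ⟨?_, ?_⟩) <;>
      simp only [FB.e1, FB.e2, FB.o1, FB.o2, if_pos hp, Prod.mk.injEq, true_and, and_true] <;> omega
  · have hp : ¬ Even ((x + 1) + y) := by rw [Int.even_iff]; omega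
    refine key (x + 1, y) (Or.inl ⟨?_, ?_⟩) (Or.inl ⟨?_, ?_⟩) <;>
      simp only [FB.e1, FB.e2, FB.o1, FB.o2, if_neg hp, Prod.mk.injEq, true_and, and_true] <;> omega
  · have hp : ¬ Even (x + (y + 1)) := by rw [Int.even_iff]; omega
    refine key (x, y + 1) (Or.inr ⟨?_, ?_⟩) (Or.inr ⟨?_, ?_⟩) <;>
      simp only [FB.e1, FB.e2, FB.o1, FB.o2, if_neg hp, Prod.mk.injEq, true_and, and_true] <;> omega
  · have hp : Even (x + y) := by rw [Int.even_iff]; omega
    refine key (x, y) (Or.inl ⟨?_, ?_⟩) (Or.inl ⟨?_, ?_⟩) <;>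
      simp only [FB.e1, FB.e2, FB.o1, FB.o2, if_pos hp, Prod.mk.injEq, true_and, and_true] <;> omega

/-- Squares are locally connected. -/
theorem n6_loc (n : ℕ) : (n6 (Sq n)).Loc := by
  rintro ⟨⟨x, y⟩, hv⟩ D ⟨⟨f, hf⟩, hfa, hfD⟩ ⟨⟨f', hf'⟩, hfa', hfD'⟩
  have hvB := (mem_ev6.1 hv).1
  rw [mem_Sq, abs_le, abs_le] at hvB
  simp only at hvB
  have hev := (mem_ev6.1 hv).2
  simp only at hev
  have hod : ∀ p : ℤ × ℤ, p ∈ Sq n → Adj (x, y) p → p ∈ od6 (Sq n) := by
    intro p hp ha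
    refine mem_od6.2 ⟨hp, ?_⟩
    rw [Int.even_iff] at hev
    rw [Int.even_iff]
    unfold Adj at ha
    simp only at ha
    omega
  -- one step around a corner
  have key : ∀ a b : ℤ, (a = 1 ∨ a = -1) → (b = 1 ∨ b = -1) →
      ∀ (h1 : (x + a, y) ∈ od6 (Sq n)) (h2 : (x, y + b) ∈ od6 (Sq n)),
      ¬ ((⟨_, h1⟩ : F6 (Sq n)) ∈ D ↔ (⟨_, h2⟩ : F6 (Sq n)) ∈ D) →
      ∃ e, ((n6 (Sq n)).u e = ⟨(x, y), hv⟩ ∨ (n6 (Sq n)).v e = ⟨(x, y), hv⟩) ∧
        ¬ ((n6 (Sq n)).f e ∈ D ↔ (n6 (Sq n)).g e ∈ D) := by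
    intro a b ha hb h1 h2 hne
    have h1' := (mem_od6.1 h1).1
    have h2' := (mem_od6.1 h2).1
    have h3 : (x + a, y + b) ∈ Sq n := by
      rw [mem_Sq] at h1' h2' ⊢
      exact ⟨h1'.1, h2'.2⟩
    obtain ⟨w, hw, hwe, hwo⟩ := exists_cor6 (v := (x, y)) hv ha hb h1' h2' h3
    refine ⟨⟨w, hw⟩, ?_, ?_⟩
    · rcases hwe with h | h
      · exact Or.inl (Subtype.ext h)
      · exact Or.inr (Subtype.ext h)
    · intro hiff
      apply hne
      rcases hwo with ⟨g1, g2⟩ | ⟨g1, g2⟩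
      · have q1 : (n6 (Sq n)).f ⟨w, hw⟩ = ⟨_, h1⟩ := Subtype.ext g1
        have q2 : (n6 (Sq n)).g ⟨w, hw⟩ = ⟨_, h2⟩ := Subtype.ext g2
        rw [q1, q2] at hiff
        exact hiff
      · have q1 : (n6 (Sq n)).g ⟨w, hw⟩ = ⟨_, h1⟩ := Subtype.ext g1
        have q2 : (n6 (Sq n)).f ⟨w, hw⟩ = ⟨_, h2⟩ := Subtype.ext g2
        rw [q1, q2] at hiff
        exact hiff.symm
  have hform : ∀ p : ℤ × ℤ, Adj (x, y) p →
      (∃ a : ℤ, (a = 1 ∨ a = -1) ∧ p = (x + a, y)) ∨ ∃ b : ℤ, (b = 1 ∨ b = -1) ∧ p = (x, y + b) := by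
    rintro ⟨p, q⟩ h
    unfold Adj at h
    simp only at h
    rcases h with ⟨h1, h2⟩ | ⟨h1, h2⟩
    · right
      rcases h2 with h2 | h2
      · exact ⟨-1, Or.inr rfl, by ext <;> simp only <;> omega⟩
      · exact ⟨1, Or.inl rfl, by ext <;> simp only <;> omega⟩
    · left
      rcases h2 with h2 | h2
      · exact ⟨-1, Or.inr rfl, by ext <;> simp only <;> omega⟩
      · exact ⟨1, Or.inl rfl, by ext <;> simp only <;> omega⟩
  have hfB := (mem_od6.1 hf).1
  have hfB' := (mem_od6.1 hf').1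
  have hh : ∀ (p : ℤ × ℤ) (h h' : p ∈ od6 (Sq n)), ((⟨p, h⟩ : F6 (Sq n)) ∈ D) →
      (⟨p, h'⟩ : F6 (Sq n)) ∈ D := fun p h h' hD => hD
  rcases hform f hfa with ⟨a, ha, rfl⟩ | ⟨b, hb, rfl⟩ <;>
    rcases hform f' hfa' with ⟨a', ha', rfl⟩ | ⟨b', hb', rfl⟩
  · -- two horizontal neighbours
    have hn : 1 ≤ n := by
      rw [mem_Sq, abs_le, abs_le] at hfB hfB'
      simp only at hfB hfB'
      by_contra h0
      omega
    obtain ⟨b, hb, hbB⟩ : ∃ b : ℤ, (b = 1 ∨ b = -1) ∧ (x, y + b) ∈ Sq n := by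
      rcases le_or_gt (y + 1) n with h | h
      · exact ⟨1, Or.inl rfl, by rw [mem_Sq, abs_le, abs_le]; simp only; omega⟩
      · exact ⟨-1, Or.inr rfl, by rw [mem_Sq, abs_le, abs_le]; simp only; omega⟩
    have hbo : (x, y + b) ∈ od6 (Sq n) := hod _ hbB (by unfold Adj; simp only [true_and]; omega)
    by_cases hD : (⟨_, hbo⟩ : F6 (Sq n)) ∈ D
    · exact key a' b ha' hb hf' hbo fun h => hfD' (h.2 hD)
    · exact key a b ha hb hf hbo fun h => hD (h.1 hfD)
  · exact key a b' ha hb' hf hf' fun h => hfD' (h.1 hfD)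
  · exact key a' b ha' hb hf' hf fun h => hfD' (h.2 hfD)
  · have hn : 1 ≤ n := by
      rw [mem_Sq, abs_le, abs_le] at hfB hfB'
      simp only at hfB hfB'
      by_contra h0
      omega
    obtain ⟨a, ha, haB⟩ : ∃ a : ℤ, (a = 1 ∨ a = -1) ∧ (x + a, y) ∈ Sq n := by
      rcases le_or_gt (x + 1) n with h | h
      · exact ⟨1, Or.inl rfl, by rw [mem_Sq, abs_le, abs_le]; simp only; omega⟩
      · exact ⟨-1, Or.inr rfl, by rw [mem_Sq, abs_le, abs_le]; simp only; omega⟩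
    have hao : (x + a, y) ∈ od6 (Sq n) := hod _ haB (by unfold Adj; simp only [true_and]; omega)
    by_cases hD : (⟨_, hao⟩ : F6 (Sq n)) ∈ D
    · exact key a b' ha hb' hao hf' fun h => hfD' (h.1 hD)
    · exact key a b ha hb hao hf fun h => hD (h.2 hfD)

end Vale.Agent.P145.FK
end

section

/-!
P145, X-level: fourth moments of the average at scale `s` on the event that there is a circuit at
level `0` at the scale `4 ^ j s`: they are at most of order `(j + 1) ^ 2`.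
-/

namespace Vale.Agent.P145.X

open Finset Filter Topology MeasureTheory
open Vale.Agent.P152 (Ori Ice pth pth_isHeight IsHeight pth_zero sgb)
open Vale.Agent.P152.GFF.S (ar ar_abs ar_abs_le ar_measurable)
open Vale.Agent.P145.FA (Hgt ev mass)
open Vale.Agent.P145.FB
open Vale.Agent.P145.FB.Mom (EGD)

/-- Vertex averages of the arrows. -/
noncomputable def dv (ω : Ori (ℤ × ℤ)) (v : ℤ × ℤ) : ℝ :=
  (ar ω (Sum.inl (v.1 - 1, v.2)) + ar ω (Sum.inl v)) / 2

noncomputable def dh (ω : Ori (ℤ × ℤ)) (v : ℤ × ℤ) : ℝ :=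
  (ar ω (Sum.inr (v.1, v.2 - 1)) + ar ω (Sum.inr v)) / 2

theorem abs_dv (ω : Ori (ℤ × ℤ)) (v : ℤ × ℤ) : |dv ω v| ≤ 1 := by
  unfold dv
  have h1 := abs_le.1 (ar_abs_le ω (Sum.inl (v.1 - 1, v.2)))
  have h2 := abs_le.1 (ar_abs_le ω (Sum.inl v))
  rw [abs_le]; constructor <;> linarith [h1.1, h1.2, h2.1, h2.2]

theorem abs_dh (ω : Ori (ℤ × ℤ)) (v : ℤ × ℤ) : |dh ω v| ≤ 1 := by
  unfold dh
  have h1 := abs_le.1 (ar_abs_le ω (Sum.inr (v.1, v.2 - 1)))
  have h2 := abs_le.1 (ar_abs_le ω (Sum.inr v))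
  rw [abs_le]; constructor <;> linarith only [h1, h2]

theorem dv_meas (v : ℤ × ℤ) : Measurable fun ω : Ori (ℤ × ℤ) => dv ω v := by
  unfold dv
  exact ((ar_measurable _).add (ar_measurable _)).div_const 2

theorem dh_meas (v : ℤ × ℤ) : Measurable fun ω : Ori (ℤ × ℤ) => dh ω v := by
  unfold dh
  exact ((ar_measurable _).add (ar_measurable _)).div_const 2

theorem egd_ix {P : Measure (Ori (ℤ × ℤ))} {C γ : ℝ} (hγ : 0 < γ) (hE : EGD P C γ) {ι : Type*}
    (B : Finset ι) (φ : ι → ℤ × ℤ) (hφ : Set.InjOn φ B) (g : ι → ℝ) (hg : ∀ i ∈ B, |g i| ≤ γ) :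
    ∫ ω, Real.exp (∑ i ∈ B, g i * dv ω (φ i)) ∂P ≤ Real.exp (C * ∑ i ∈ B, g i ^ 2) ∧
    ∫ ω, Real.exp (∑ i ∈ B, g i * dh ω (φ i)) ∂P ≤ Real.exp (C * ∑ i ∈ B, g i ^ 2) := by
  classical
  set g' : ℤ × ℤ → ℝ := fun v => if h : ∃ i ∈ B, φ i = v then g h.choose else 0 with hg'
  have h1 : ∀ i ∈ B, g' (φ i) = g i := by
    intro i hi
    have h : ∃ k ∈ B, φ k = φ i := ⟨i, hi, rfl⟩
    simp only [hg', dif_pos h]
    rw [hφ h.choose_spec.1 hi h.choose_spec.2]
  have h2 : ∀ v, |g' v| ≤ γ := by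
    intro v
    simp only [hg']
    split_ifs with h
    · exact hg _ h.choose_spec.1
    · rw [abs_zero]; exact hγ.le
  have h3 := hE (B.image φ) g' h2
  rw [sum_image hφ] at h3
  have e1 : ∑ i ∈ B, g' (φ i) ^ 2 = ∑ i ∈ B, g i ^ 2 :=
    sum_congr rfl fun i hi => by rw [h1 i hi]
  rw [e1] at h3
  have e2 : ∀ d : Ori (ℤ × ℤ) → ℤ × ℤ → ℝ, ∀ ω, ∑ v ∈ B.image φ, g' v * d ω v =
      ∑ i ∈ B, g i * d ω (φ i) := by
    intro d ω
    rw [sum_image hφ]
    exact sum_congr rfl fun i hi => by rw [h1 i hi]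
  refine ⟨?_, ?_⟩
  · refine le_trans (le_of_eq (integral_congr_ae (Eventually.of_forall fun ω => ?_))) h3.1
    simp only
    rw [← e2 dv ω]
    rfl
  · refine le_trans (le_of_eq (integral_congr_ae (Eventually.of_forall fun ω => ?_))) h3.2
    simp only
    rw [← e2 dh ω]
    rfl

theorem bdd_int {P : Measure (Ori (ℤ × ℤ))} [IsProbabilityMeasure P] {X : Ori (ℤ × ℤ) → ℝ}
    (hm : Measurable X) {K : ℝ} (hK : ∀ ω, |X ω| ≤ K) (n : ℕ) : Integrable (fun ω => X ω ^ n) P := by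
  refine Integrable.of_bound (C := K ^ n) (hm.pow_const n).aestronglyMeasurable
    (Eventually.of_forall fun ω => ?_)
  rw [Real.norm_eq_abs, abs_pow]
  exact pow_le_pow_left₀ (abs_nonneg _) (hK ω) n

theorem bdd_exp {P : Measure (Ori (ℤ × ℤ))} [IsProbabilityMeasure P] {X : Ori (ℤ × ℤ) → ℝ}
    (hm : Measurable X) {K : ℝ} (hK : ∀ ω, |X ω| ≤ K) (a : ℝ) :
    Integrable (fun ω => Real.exp (a * X ω)) P := by
  refine Integrable.of_bound (C := Real.exp (|a| * K))
    (Real.measurable_exp.comp (hm.const_mul a)).aestronglyMeasurable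
    (Eventually.of_forall fun ω => ?_)
  rw [Real.norm_eq_abs, abs_of_pos (Real.exp_pos _), Real.exp_le_exp]
  refine (le_abs_self _).trans ?_
  rw [abs_mul]
  exact mul_le_mul_of_nonneg_left (hK ω) (abs_nonneg a)

theorem pow_four_le (x : ℝ) : x ^ 4 ≤ 24 * (Real.exp x + Real.exp (-x)) := by
  have h1 := Real.pow_div_factorial_le_exp |x| (abs_nonneg x) 4
  have h2 : |x| ^ 4 = x ^ 4 := Even.pow_abs (by decide) x
  have h3 : ((4 : ℕ).factorial : ℝ) = 24 := by norm_num [Nat.factorial]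
  rw [h2, h3, div_le_iff₀ (by norm_num)] at h1
  have h4 : Real.exp |x| ≤ Real.exp x + Real.exp (-x) := by
    rcases abs_cases x with ⟨h, _⟩ | ⟨h, _⟩ <;> rw [h]
    · have := Real.exp_pos (-x); linarith
    · have := Real.exp_pos x; linarith only [this]
  linarith only [h1, h4]

theorem four_mom {P : Measure (Ori (ℤ × ℤ))} [IsProbabilityMeasure P] {X : Ori (ℤ × ℤ) → ℝ}
    (hm : Measurable X) {K : ℝ} (hK : ∀ ω, |X ω| ≤ K) {C S : ℝ} (hS : 1 ≤ S)
    (h : ∀ a : ℝ, |a| = 1 / √S → ∫ ω, Real.exp (a * X ω) ∂P ≤ Real.exp C) :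
    ∫ ω, X ω ^ 4 ∂P ≤ 48 * Real.exp C * S ^ 2 := by
  have hS0 : 0 < S := by linarith only [hS]
  set l : ℝ := 1 / √S with hl
  have hl0 : 0 < l := by positivity
  have hl4 : l ^ 4 * S ^ 2 = 1 := by
    have : √S ^ 2 = S := Real.sq_sqrt hS0.le
    have h2 : √S ^ 4 = S ^ 2 := by
      calc √S ^ 4 = (√S ^ 2) ^ 2 := by ring
        _ = S ^ 2 := by rw [this]
    rw [hl, div_pow, one_pow, h2]
    (clear * - hS; field_simp)
  have e1 := h l (abs_of_pos hl0)
  have e2 := h (-l) (by rw [abs_neg, abs_of_pos hl0])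
  have key : ∫ ω, (l * X ω) ^ 4 ∂P ≤ 24 * (Real.exp C + Real.exp C) := by
    calc ∫ ω, (l * X ω) ^ 4 ∂P
        ≤ ∫ ω, 24 * (Real.exp (l * X ω) + Real.exp (-l * X ω)) ∂P := by
          refine integral_mono ?_ (((bdd_exp hm hK l).add (bdd_exp hm hK (-l))).const_mul 24)
            fun ω => ?_
          · refine ((bdd_int hm hK 4).const_mul (l ^ 4)).congr (Eventually.of_forall fun ω => ?_)
            simp only; ring
          · have := pow_four_le (l * X ω)
            rw [← neg_mul] at this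
            exact this
      _ = 24 * (∫ ω, Real.exp (l * X ω) ∂P + ∫ ω, Real.exp (-l * X ω) ∂P) := by
          rw [integral_const_mul, integral_add (bdd_exp hm hK l) (bdd_exp hm hK (-l))]
      _ ≤ _ := by linarith only [e1, e2]
  have e3 : ∫ ω, (l * X ω) ^ 4 ∂P = l ^ 4 * ∫ ω, X ω ^ 4 ∂P := by
    rw [← integral_const_mul]
    congr 1; funext ω; ring
  rw [e3] at key
  calc ∫ ω, X ω ^ 4 ∂P = (l ^ 4 * ∫ ω, X ω ^ 4 ∂P) * S ^ 2 := by
        rw [mul_right_comm, hl4, one_mul]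
    _ ≤ (24 * (Real.exp C + Real.exp C)) * S ^ 2 :=
        mul_le_mul_of_nonneg_right key (sq_nonneg S)
    _ = 48 * Real.exp C * S ^ 2 := by ring

/-- Sum over a finite set of a weighted bounded field. -/
theorem lin_meas {ι : Type*} (B : Finset ι) (φ : ι → ℤ × ℤ) (g : ι → ℝ)
    {d : Ori (ℤ × ℤ) → ℤ × ℤ → ℝ} (hd : ∀ v, Measurable fun ω => d ω v) :
    Measurable fun ω => ∑ i ∈ B, g i * d ω (φ i) :=
  Finset.measurable_sum _ fun i _ => (hd (φ i)).const_mul _

theorem lin_bdd {ι : Type*} (B : Finset ι) (φ : ι → ℤ × ℤ) (g : ι → ℝ)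
    {d : Ori (ℤ × ℤ) → ℤ × ℤ → ℝ} (hd : ∀ ω v, |d ω v| ≤ 1) (ω : Ori (ℤ × ℤ)) :
    |∑ i ∈ B, g i * d ω (φ i)| ≤ ∑ i ∈ B, |g i| := by
  refine (Finset.abs_sum_le_sum_abs _ _).trans (Finset.sum_le_sum fun i _ => ?_)
  rw [abs_mul]
  exact mul_le_of_le_one_right (abs_nonneg _) (hd ω _)

theorem flow_mom {P : Measure (Ori (ℤ × ℤ))} [IsProbabilityMeasure P] {C γ : ℝ} (hC : 0 ≤ C)
    (hγ : 0 < γ) (hE : EGD P C γ) {ι : Type*} (B : Finset ι) (φ : ι → ℤ × ℤ)
    (hφ : Set.InjOn φ B) (g : ι → ℝ) (hg : ∀ i ∈ B, |g i| ≤ γ) {S : ℝ} (hS : 1 ≤ S)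
    (hgS : ∑ i ∈ B, g i ^ 2 ≤ S) :
    ∫ ω, (∑ i ∈ B, g i * dv ω (φ i)) ^ 4 ∂P ≤ 48 * Real.exp C * S ^ 2 ∧
    ∫ ω, (∑ i ∈ B, g i * dh ω (φ i)) ^ 4 ∂P ≤ 48 * Real.exp C * S ^ 2 := by
  have hS0 : 0 < S := by linarith
  have key : ∀ a : ℝ, |a| = 1 / √S →
      ∫ ω, Real.exp (a * ∑ i ∈ B, g i * dv ω (φ i)) ∂P ≤ Real.exp C ∧
      ∫ ω, Real.exp (a * ∑ i ∈ B, g i * dh ω (φ i)) ∂P ≤ Real.exp C := by
    intro a ha
    have hsq : 1 ≤ √S := Real.one_le_sqrt.2 hS
    have ha1 : |a| ≤ 1 := by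
      rw [ha, div_le_one (by linarith only [hsq])]; exact hsq
    have ha2 : a ^ 2 * S = 1 := by
      have : a ^ 2 = |a| ^ 2 := (sq_abs a).symm
      rw [this, ha, div_pow, one_pow, Real.sq_sqrt hS0.le]
      field_simp
    have h := egd_ix hγ hE B φ hφ (fun i => a * g i) (fun i hi => by
      rw [abs_mul]
      calc |a| * |g i| ≤ 1 * |g i| := mul_le_mul_of_nonneg_right ha1 (abs_nonneg _)
        _ ≤ γ := by rw [one_mul]; exact hg i hi)
    have h2 : C * ∑ i ∈ B, (a * g i) ^ 2 ≤ C := by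
      have e : ∑ i ∈ B, (a * g i) ^ 2 = a ^ 2 * ∑ i ∈ B, g i ^ 2 := by
        rw [mul_sum]; exact sum_congr rfl fun i _ => by ring
      rw [e]
      have h3 : a ^ 2 * ∑ i ∈ B, g i ^ 2 ≤ 1 := by
        rw [← ha2]; exact mul_le_mul_of_nonneg_left hgS (sq_nonneg a)
      calc C * (a ^ 2 * ∑ i ∈ B, g i ^ 2) ≤ C * 1 := mul_le_mul_of_nonneg_left h3 hC
        _ = C := mul_one C
    have h3 := Real.exp_le_exp.2 h2
    have e1 : ∀ d : Ori (ℤ × ℤ) → ℤ × ℤ → ℝ, ∀ ω, a * ∑ i ∈ B, g i * d ω (φ i) =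
        ∑ i ∈ B, a * g i * d ω (φ i) := by
      intro d ω
      rw [mul_sum]; exact sum_congr rfl fun i _ => by ring
    constructor
    · simp_rw [e1 dv]
      exact h.1.trans h3
    · simp_rw [e1 dh]
      exact h.2.trans h3
  exact ⟨four_mom (lin_meas B φ g dv_meas) (lin_bdd B φ g abs_dv) hS fun a ha => (key a ha).1,
    four_mom (lin_meas B φ g dh_meas) (lin_bdd B φ g abs_dh) hS fun a ha => (key a ha).2⟩

theorem add_four (a b : ℝ) : (a + b) ^ 4 ≤ 8 * (a ^ 4 + b ^ 4) := by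
  nlinarith only [mul_nonneg (sq_nonneg (a - b)) (sq_nonneg (a + b))]

/-- The heights in the coordinates of the vertices. -/
noncomputable def Hw (ω : Ori (ℤ × ℤ)) (x y : ℕ) : ℝ :=
  (pth ω ((x : ℤ) + y, (x : ℤ) - y) : ℝ)

/-- The vertices of the horizontal and of the vertical steps. -/
def f1 (p : ℕ × ℕ) : ℤ × ℤ := ((p.1 : ℤ) + p.2 + 1, (p.1 : ℤ) - p.2 + 1)

def f2 (p : ℕ × ℕ) : ℤ × ℤ := ((p.1 : ℤ) + p.2 + 1, (p.1 : ℤ) - p.2)

theorem f1_inj : Function.Injective f1 := by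
  intro p q h
  simp only [f1, Prod.mk.injEq] at h
  ext <;> omega

theorem f2_inj : Function.Injective f2 := by
  intro p q h
  simp only [f2, Prod.mk.injEq] at h
  ext <;> omega

theorem step_v {ω : Ori (ℤ × ℤ)} (hω : ∀ x y, Ice ω x y) (x y : ℤ) :
    ar ω (Sum.inl (x, y)) = (pth ω (x, y) : ℝ) - pth ω (x, y - 1) := by
  have h := (pth_isHeight hω x y).1
  unfold ar sgb
  exact_mod_cast h.symm

theorem step_h {ω : Ori (ℤ × ℤ)} (hω : ∀ x y, Ice ω x y) (x y : ℤ) :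
    ar ω (Sum.inr (x, y)) = (pth ω (x - 1, y) : ℝ) - pth ω (x, y) := by
  have h := (pth_isHeight hω x y).2
  unfold ar sgb
  exact_mod_cast h.symm

theorem Hw_step1 {ω : Ori (ℤ × ℤ)} (hω : ∀ x y, Ice ω x y) (p : ℕ × ℕ) :
    Hw ω (p.1 + 1) p.2 - Hw ω p.1 p.2 = dv ω (f1 p) - dh ω (f1 p) := by
  unfold Hw dv dh f1
  simp only
  rw [step_v hω, step_v hω, step_h hω, step_h hω]
  have e1 : (((p.1 + 1 : ℕ) : ℤ) + (p.2 : ℤ), ((p.1 + 1 : ℕ) : ℤ) - (p.2 : ℤ)) =
      ((p.1 : ℤ) + p.2 + 1, (p.1 : ℤ) - p.2 + 1) := by push_cast; ext <;> ring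
  have e2 : ((p.1 : ℤ) + p.2 + 1 - 1, (p.1 : ℤ) - p.2 + 1 - 1) =
      ((p.1 : ℤ) + (p.2 : ℤ), (p.1 : ℤ) - (p.2 : ℤ)) := by ext <;> ring
  rw [e1, e2]
  ring

theorem Hw_step2 {ω : Ori (ℤ × ℤ)} (hω : ∀ x y, Ice ω x y) (p : ℕ × ℕ) :
    Hw ω p.1 (p.2 + 1) - Hw ω p.1 p.2 = -(dv ω (f2 p) + dh ω (f2 p)) := by
  unfold Hw dv dh f2
  simp only
  rw [step_v hω, step_v hω, step_h hω, step_h hω]
  have e1 : ((p.1 : ℤ) + ((p.2 + 1 : ℕ) : ℤ), (p.1 : ℤ) - ((p.2 + 1 : ℕ) : ℤ)) =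
      ((p.1 : ℤ) + p.2 + 1, (p.1 : ℤ) - p.2 - 1) := by push_cast; ext <;> ring
  have e2 : ((p.1 : ℤ) + p.2 + 1 - 1, (p.1 : ℤ) - p.2) =
      ((p.1 : ℤ) + (p.2 : ℤ), (p.1 : ℤ) - (p.2 : ℤ)) := by ext <;> ring
  rw [e1, e2]
  ring

theorem F1_eq {ω : Ori (ℤ × ℤ)} (hω : ∀ x y, Ice ω x y) (M : ℕ) (g : ℕ × ℕ → ℝ) :
    Flow.F1 M g (Hw ω) = ∑ p ∈ range M ×ˢ range M, g p * dv ω (f1 p) -
      ∑ p ∈ range M ×ˢ range M, g p * dh ω (f1 p) := by
  unfold Flow.F1
  rw [← sum_sub_distrib]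
  exact sum_congr rfl fun p _ => by rw [Hw_step1 hω]; ring

theorem F2_eq {ω : Ori (ℤ × ℤ)} (hω : ∀ x y, Ice ω x y) (M : ℕ) (g : ℕ × ℕ → ℝ) :
    Flow.F2 M g (Hw ω) = -(∑ p ∈ range M ×ˢ range M, g p * dv ω (f2 p) +
      ∑ p ∈ range M ×ˢ range M, g p * dh ω (f2 p)) := by
  unfold Flow.F2
  rw [← sum_add_distrib, ← sum_neg_distrib]
  exact sum_congr rfl fun p _ => by rw [Hw_step2 hω]; ring

/-- The six pieces. -/
theorem six {a1 a2 b1 b2 c1 c2 : ℝ} : ((a1 - a2) + -(b1 + b2) + (c1 - c2)) ^ 4 ≤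
    512 * ((a1 ^ 4 + a2 ^ 4) + (b1 ^ 4 + b2 ^ 4) + (c1 ^ 4 + c2 ^ 4)) := by
  have h1 := add_four ((a1 - a2) + -(b1 + b2)) (c1 - c2)
  have h2 := add_four (a1 - a2) (-(b1 + b2))
  have h3 := add_four a1 (-a2)
  have h4 := add_four b1 b2
  have h5 := add_four c1 (-c2)
  have e1 : (-(b1 + b2)) ^ 4 = (b1 + b2) ^ 4 := by ring
  have e2 : (-a2) ^ 4 = a2 ^ 4 := by ring
  have e3 : (-c2) ^ 4 = c2 ^ 4 := by ring
  rw [e1] at h2
  rw [e2, ← sub_eq_add_neg] at h3
  rw [e3, ← sub_eq_add_neg] at h5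
  have p1 : 0 ≤ c1 ^ 4 := by positivity
  have p2 : 0 ≤ c2 ^ 4 := by positivity
  linarith only [h1, h2, h3, h4, h5, p1, p2]

/-- **The moments of the difference of the averages.** -/
theorem diff_mom {P : Measure (Ori (ℤ × ℤ))} [IsProbabilityMeasure P] {C γ : ℝ} (hC : 0 ≤ C)
    (hγ : 0 < γ) (hE : EGD P C γ) (hice : ∀ᵐ a ∂P, ∀ x y, Ice a x y) {s : ℕ} (hs : 0 < s)
    (hsγ : 2 / (s : ℝ) ≤ γ) (j : ℕ) :
    ∫⁻ ω, ENNReal.ofReal ((Flow.AS (2 * Flow.Rs s j + 1) (Flow.Rs s j) (Hw ω)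
        - Flow.AA s (Hw ω)) ^ 4) ∂P ≤
      ENNReal.ofReal (512 * 6 * 48 * 49 * Real.exp C * (j + 1) ^ 2) := by
  set R := Flow.Rs s j with hR
  set L := 2 * R + 1 with hL
  set M := L + R with hM
  have hR0 : 0 < R := Flow.Rs_pos hs j
  have hRs : s ≤ R := Flow.le_Rs s j
  have hs' : (0 : ℝ) < s := by exact_mod_cast hs
  have hR' : (s : ℝ) ≤ R := by exact_mod_cast hRs
  set S : ℝ := 7 * (j + 1) with hSd
  have hj : (0 : ℝ) ≤ j := Nat.cast_nonneg j
  have hS : 1 ≤ S := by rw [hSd]; linarith only []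
  set B := range M ×ˢ range M with hB
  have b1 : ∀ p ∈ B, |Flow.G1 s j p| ≤ γ := fun p _ => by
    rw [abs_of_nonneg (Flow.G1_nonneg s j p)]; exact (Flow.G1_le hs j p).trans hsγ
  have b2 : ∀ p ∈ B, |Flow.G2 s j p| ≤ γ := fun p _ => by
    rw [abs_of_nonneg (Flow.G2_nonneg s j p)]; exact (Flow.G2_le hs j p).trans hsγ
  have b3 : ∀ p ∈ B, |Flow.g3 L R p| ≤ γ := fun p _ => by
    rw [abs_of_nonneg (Flow.g3_nonneg (by omega) p)]
    refine (Flow.g3_le' p).trans (le_trans ?_ hsγ)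
    calc 1 / (R : ℝ) ≤ 1 / s := one_div_le_one_div_of_le hs' hR'
      _ ≤ 2 / s := by gcongr; norm_num
  have q1 : ∑ p ∈ B, Flow.G1 s j p ^ 2 ≤ S := (Flow.G1_sq hs j M (by omega)).trans (by
    rw [hSd]; linarith only [])
  have q2 : ∑ p ∈ B, Flow.G2 s j p ^ 2 ≤ S := (Flow.G2_sq hs j M (by omega)).trans (by
    rw [hSd]; linarith only [])
  have q3 : ∑ p ∈ B, Flow.g3 L R p ^ 2 ≤ S :=
    (Flow.g3_sq hR0 (by (clear * - hR0; omega)) (by omega) le_rfl).trans (by rw [hSd]; linarith only [])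
  have m1 := flow_mom hC hγ hE B f1 f1_inj.injOn (Flow.G1 s j) b1 hS q1
  have m2 := flow_mom hC hγ hE B f2 f2_inj.injOn (Flow.G2 s j) b2 hS q2
  have m3 := flow_mom hC hγ hE B f1 f1_inj.injOn (Flow.g3 L R) b3 hS q3
  set a1 : Ori (ℤ × ℤ) → ℝ := fun ω => ∑ p ∈ B, Flow.G1 s j p * dv ω (f1 p) with ha1
  set a2 : Ori (ℤ × ℤ) → ℝ := fun ω => ∑ p ∈ B, Flow.G1 s j p * dh ω (f1 p) with ha2
  set c1 : Ori (ℤ × ℤ) → ℝ := fun ω => ∑ p ∈ B, Flow.G2 s j p * dv ω (f2 p) with hc1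
  set c2 : Ori (ℤ × ℤ) → ℝ := fun ω => ∑ p ∈ B, Flow.G2 s j p * dh ω (f2 p) with hc2
  set d1 : Ori (ℤ × ℤ) → ℝ := fun ω => ∑ p ∈ B, Flow.g3 L R p * dv ω (f1 p) with hd1
  set d2 : Ori (ℤ × ℤ) → ℝ := fun ω => ∑ p ∈ B, Flow.g3 L R p * dh ω (f1 p) with hd2
  have i1 : Integrable (fun ω => a1 ω ^ 4) P :=
    bdd_int (lin_meas B f1 _ dv_meas) (lin_bdd B f1 _ abs_dv) 4
  have i2 : Integrable (fun ω => a2 ω ^ 4) P :=
    bdd_int (lin_meas B f1 _ dh_meas) (lin_bdd B f1 _ abs_dh) 4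
  have i3 : Integrable (fun ω => c1 ω ^ 4) P :=
    bdd_int (lin_meas B f2 _ dv_meas) (lin_bdd B f2 _ abs_dv) 4
  have i4 : Integrable (fun ω => c2 ω ^ 4) P :=
    bdd_int (lin_meas B f2 _ dh_meas) (lin_bdd B f2 _ abs_dh) 4
  have i5 : Integrable (fun ω => d1 ω ^ 4) P :=
    bdd_int (lin_meas B f1 _ dv_meas) (lin_bdd B f1 _ abs_dv) 4
  have i6 : Integrable (fun ω => d2 ω ^ 4) P :=
    bdd_int (lin_meas B f1 _ dh_meas) (lin_bdd B f1 _ abs_dh) 4
  have ia := i1.add i2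
  have ic := i3.add i4
  have id' := i5.add i6
  have itot : Integrable (fun ω => 512 * ((a1 ω ^ 4 + a2 ω ^ 4) + (c1 ω ^ 4 + c2 ω ^ 4) +
      (d1 ω ^ 4 + d2 ω ^ 4))) P := ((ia.add ic).add id').const_mul 512
  calc ∫⁻ ω, ENNReal.ofReal ((Flow.AS L R (Hw ω) - Flow.AA s (Hw ω)) ^ 4) ∂P
      ≤ ∫⁻ ω, ENNReal.ofReal (512 * ((a1 ω ^ 4 + a2 ω ^ 4) + (c1 ω ^ 4 + c2 ω ^ 4) +
        (d1 ω ^ 4 + d2 ω ^ 4))) ∂P := by
        refine lintegral_mono_ae ?_
        filter_upwards [hice] with ω hω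
        refine ENNReal.ofReal_le_ofReal ?_
        have e1 := Flow.AA_tot (Hw ω) hs (show Flow.Rs s j ≤ M by (clear * - hR0; omega))
        have e2 := Flow.AS_sub (Hw ω) (L := L) (R := R) (M := M) hR0 le_rfl
        have e3 : Flow.AS L R (Hw ω) - Flow.AA s (Hw ω) =
            (a1 ω - a2 ω) + -(c1 ω + c2 ω) + (d1 ω - d2 ω) := by
          rw [F1_eq hω, F2_eq hω] at e1
          rw [F1_eq hω] at e2
          have e4 : Flow.AS L R (Hw ω) - Flow.AA s (Hw ω) =
            (Flow.AS L R (Hw ω) - Flow.AA R (Hw ω)) + (Flow.AA R (Hw ω) - Flow.AA s (Hw ω)) := by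
            ring
          rw [e4, e2, e1]
          ring
        rw [e3]
        exact six
    _ = ENNReal.ofReal (∫ ω, 512 * ((a1 ω ^ 4 + a2 ω ^ 4) + (c1 ω ^ 4 + c2 ω ^ 4) +
        (d1 ω ^ 4 + d2 ω ^ 4)) ∂P) := by
        rw [ofReal_integral_eq_lintegral_ofReal itot
          (Eventually.of_forall fun ω => by simp only [Pi.zero_apply]; (clear * -; positivity))]
    _ ≤ ENNReal.ofReal (512 * 6 * 48 * 49 * Real.exp C * (j + 1) ^ 2) := by
        refine ENNReal.ofReal_le_ofReal ?_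
        have e : ∫ ω, 512 * ((a1 ω ^ 4 + a2 ω ^ 4) + (c1 ω ^ 4 + c2 ω ^ 4) +
            (d1 ω ^ 4 + d2 ω ^ 4)) ∂P = 512 * ((∫ ω, a1 ω ^ 4 ∂P + ∫ ω, a2 ω ^ 4 ∂P) +
            (∫ ω, c1 ω ^ 4 ∂P + ∫ ω, c2 ω ^ 4 ∂P) +
            (∫ ω, d1 ω ^ 4 ∂P + ∫ ω, d2 ω ^ 4 ∂P)) := by
          have k1 : ∫ ω, (a1 ω ^ 4 + a2 ω ^ 4) ∂P = ∫ ω, a1 ω ^ 4 ∂P + ∫ ω, a2 ω ^ 4 ∂P :=
            integral_add i1 i2
          have k2 : ∫ ω, (c1 ω ^ 4 + c2 ω ^ 4) ∂P = ∫ ω, c1 ω ^ 4 ∂P + ∫ ω, c2 ω ^ 4 ∂P :=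
            integral_add i3 i4
          have k3 : ∫ ω, (d1 ω ^ 4 + d2 ω ^ 4) ∂P = ∫ ω, d1 ω ^ 4 ∂P + ∫ ω, d2 ω ^ 4 ∂P :=
            integral_add i5 i6
          have k4 : ∫ ω, ((a1 ω ^ 4 + a2 ω ^ 4) + (c1 ω ^ 4 + c2 ω ^ 4)) ∂P =
            ∫ ω, (a1 ω ^ 4 + a2 ω ^ 4) ∂P + ∫ ω, (c1 ω ^ 4 + c2 ω ^ 4) ∂P := integral_add ia ic
          have k5 : ∫ ω, ((a1 ω ^ 4 + a2 ω ^ 4) + (c1 ω ^ 4 + c2 ω ^ 4) +
            (d1 ω ^ 4 + d2 ω ^ 4)) ∂P = ∫ ω, ((a1 ω ^ 4 + a2 ω ^ 4) + (c1 ω ^ 4 + c2 ω ^ 4)) ∂P +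
            ∫ ω, (d1 ω ^ 4 + d2 ω ^ 4) ∂P := integral_add (ia.add ic) id'
          rw [integral_const_mul, k5, k4, k1, k2, k3]
        rw [e]
        have hS2 : S ^ 2 = 49 * ((j : ℝ) + 1) ^ 2 := by rw [hSd]; ring
        rw [hS2] at m1 m2 m3
        have := m1.1
        have := m1.2
        have := m2.1
        have := m2.2
        have := m3.1
        have := m3.2
        linarith only [m1, m2, m3]

/-! ### The weights -/

/-- Uniform weight on the faces of the vertices of the box `[L, L + R) × [0, R)`. -/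
noncomputable def bw (L R : ℕ) : (ℤ × ℤ) →₀ ℝ :=
  ∑ x ∈ range R, ∑ y ∈ range R,
    Finsupp.single (((L + x : ℕ) : ℤ) + y, ((L + x : ℕ) : ℤ) - y) (1 / (R : ℝ) / R)

theorem ev_add' (a b : (ℤ × ℤ) →₀ ℝ) (h : Hgt) : ev (a + b) h = ev a h + ev b h := by
  unfold FA.ev
  rw [Finsupp.sum_add_index' (fun _ => by simp) (fun _ _ _ => by ring)]

theorem mass_add' (a b : (ℤ × ℤ) →₀ ℝ) : mass (a + b) = mass a + mass b := by
  unfold FA.mass
  rw [Finsupp.sum_add_index' (fun _ => rfl) (fun _ _ _ => rfl)]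

theorem ev_zero' (h : Hgt) : ev (0 : (ℤ × ℤ) →₀ ℝ) h = 0 := by
  unfold FA.ev; simp

theorem mass_zero' : mass (0 : (ℤ × ℤ) →₀ ℝ) = 0 := by
  unfold FA.mass; simp

theorem ev_sum' {ι : Type*} (B : Finset ι) (f : ι → (ℤ × ℤ) →₀ ℝ) (h : Hgt) :
    ev (∑ i ∈ B, f i) h = ∑ i ∈ B, ev (f i) h :=
  map_sum (AddMonoidHom.mk' (fun a => ev a h) fun a b => ev_add' a b h) f B

theorem mass_sum' {ι : Type*} (B : Finset ι) (f : ι → (ℤ × ℤ) →₀ ℝ) :
    mass (∑ i ∈ B, f i) = ∑ i ∈ B, mass (f i) :=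
  map_sum (AddMonoidHom.mk' mass fun a b => mass_add' a b) f B

theorem ev_neg' (a : (ℤ × ℤ) →₀ ℝ) (h : Hgt) : ev (-a) h = -ev a h :=
  map_neg (AddMonoidHom.mk' (fun a => ev a h) fun a b => ev_add' a b h) a

theorem mass_neg' (a : (ℤ × ℤ) →₀ ℝ) : mass (-a) = -mass a :=
  map_neg (AddMonoidHom.mk' mass fun a b => mass_add' a b) a

theorem ev_single' (q : ℤ × ℤ) (a : ℝ) (h : Hgt) : ev (Finsupp.single q a) h = a * (h q : ℝ) := by
  unfold FA.ev
  rw [Finsupp.sum_single_index (by simp)]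

theorem mass_single' (q : ℤ × ℤ) (a : ℝ) : mass (Finsupp.single q a) = a := by
  unfold FA.mass
  rw [Finsupp.sum_single_index rfl]

theorem mass_bw (L : ℕ) {R : ℕ} (hR : 0 < R) : mass (bw L R) = 1 := by
  have hR' : (0 : ℝ) < R := by exact_mod_cast hR
  unfold bw
  simp only [mass_sum', mass_single', sum_const, card_range, nsmul_eq_mul]
  (clear * - hR; field_simp)

theorem ev_bw (L R : ℕ) (ω : Ori (ℤ × ℤ)) : ev (bw L R) (pth ω) = Flow.AS L R (Hw ω) := by
  unfold bw Flow.AS Flow.AA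
  rw [ev_sum', sum_div]
  refine sum_congr rfl fun x _ => ?_
  rw [ev_sum', sum_div, sum_div]
  refine sum_congr rfl fun y _ => ?_
  rw [ev_single']
  unfold Hw
  ring

theorem AS_zero (R : ℕ) (H : ℕ → ℕ → ℝ) : Flow.AS 0 R H = Flow.AA R H := by
  unfold Flow.AS
  simp only [Nat.zero_add]

theorem bw_supp {L R : ℕ} {v : ℤ × ℤ} (h : v ∈ (bw L R).support) :
    ∃ x < R, ∃ y < R, v = (((L + x : ℕ) : ℤ) + y, ((L + x : ℕ) : ℤ) - y) := by
  classical
  unfold bw at h
  have h1 := Finsupp.support_finsetSum h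
  rw [mem_biUnion] at h1
  obtain ⟨x, hx, h2⟩ := h1
  have h3 := Finsupp.support_finsetSum h2
  rw [mem_biUnion] at h3
  obtain ⟨y, hy, h4⟩ := h3
  have h5 := Finsupp.support_single_subset h4
  rw [mem_singleton] at h5
  exact ⟨x, mem_range.1 hx, y, mem_range.1 hy, h5⟩

/-- **The input of the counting lemma.** There is a weight of mass one at scale `s` whose fourth
moment, on the event that there is a circuit at level `0` at scale `4 ^ j s`, is at most
`C' (j + 1) ^ 2`. -/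
theorem log_mom {c t : ℝ} (hc : 0 < c) (hct : c * t = 1) (ht1 : t ≤ 1)
    {P : Measure (Ori (ℤ × ℤ))} [IsProbabilityMeasure P] (hice : ∀ᵐ a ∂P, ∀ x y, Ice a x y)
    (hS : Swap c P) {C γ : ℝ} (hC : 0 ≤ C) (hγ : 0 < γ) (hE : EGD P C γ) :
    ∃ C' : ℝ, 0 ≤ C' ∧ ∃ s₀ : ℕ, 1 ≤ s₀ ∧ ∀ s : ℕ, s₀ ≤ s → ∃ w : (ℤ × ℤ) →₀ ℝ, mass w = 1 ∧
      ∀ j : ℕ, ∫⁻ x in {x | Ann 0 0 (4 ^ j * s) (fine (bl x))},
        ENNReal.ofReal (ev w x.1 ^ 4) ∂(Jmu t P) ≤ ENNReal.ofReal (C' * (j + 1) ^ 2) := by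
  refine ⟨512 * 6 * 48 * 49 * Real.exp C, by positivity, ⌈2 / γ⌉₊ + 1, by omega, fun s hs => ?_⟩
  have hs0 : 0 < s := by omega
  have hs0' : (0 : ℝ) < s := by exact_mod_cast hs0
  have hsγ : 2 / (s : ℝ) ≤ γ := by
    rw [div_le_iff₀ hs0']
    have h1 : 2 / γ ≤ (⌈2 / γ⌉₊ : ℝ) := Nat.le_ceil _
    have h2 : (⌈2 / γ⌉₊ : ℝ) ≤ s := by exact_mod_cast (by omega : ⌈2 / γ⌉₊ ≤ s)
    have h3 : 2 / γ ≤ s := h1.trans h2
    rw [div_le_iff₀ hγ] at h3
    linarith only [h3]
  refine ⟨bw 0 s, mass_bw 0 hs0, fun j => ?_⟩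
  set R := Flow.Rs s j with hR
  have hR0 : 0 < R := Flow.Rs_pos hs0 j
  have hRs : s ≤ R := Flow.le_Rs s j
  have hRz : (4 : ℤ) ^ j * (s : ℤ) = (R : ℤ) := by rw [hR]; unfold Flow.Rs; push_cast; ring
  rw [hRz]
  have hm : mass (bw 0 s + -(bw (2 * R + 1) R)) = 0 := by
    rw [mass_add', mass_neg', mass_bw 0 hs0, mass_bw _ hR0]; ring
  have key := (mom hc hct ht1 hice hS (p := 0) (q := 0) (s := (R : ℤ)) (by exact_mod_cast hR0)
    (a := bw 0 s) (b := -(bw (2 * R + 1) R)) (fun v hv => by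
      obtain ⟨x, hx, y, hy, rfl⟩ := bw_supp hv
      unfold fi rc
      simp only [Set.mem_ofPred_eq]
      push_cast
      omega) (fun v hv => by
      rw [Finsupp.support_neg] at hv
      obtain ⟨x, hx, y, hy, rfl⟩ := bw_supp hv
      unfold fi rc
      simp only [Set.mem_ofPred_eq]
      push_cast
      (clear * -; omega)) hm 2).1
  simp only [show 2 * 2 = 4 from rfl] at key
  refine key.trans (le_trans (le_of_eq (lintegral_congr fun ω => ?_))
    (diff_mom hC hγ hE hice hs0 hsγ j))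
  congr 1
  rw [ev_add', ev_neg', ev_bw, ev_bw, AS_zero]
  ring

end Vale.Agent.P145.X
end

section

/-!
P145: the shell lemma for circuits around the points of a grid.
-/

namespace Vale.Agent.P145.X

open Relation Metric

/-- The face of the point `w y` of the grid of mesh `w`. -/
noncomputable def cen (w δ : ℝ) (y : ℤ × ℤ) : ℤ × ℤ := (⌊w * y.1 / δ⌋, ⌊w * y.2 / δ⌋)

/-- The centres: points `w y` at distance between `a / 4` and `4 b` of `D` such that the ball
of radius `3 w` avoids the corridors of half width `W₀`. -/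
def Good (s d : ℝ × ℝ → ℝ) (D : Set (ℝ × ℝ)) (a₁ b₁ b₂ W₀ w a b : ℝ) (y : ℤ × ℤ) : Prop :=
  a / 4 ≤ infDist (fpt w y) D ∧ infDist (fpt w y) D ≤ 4 * b ∧
    ∀ z, dist z (fpt w y) ≤ 3 * w → ∀ i, z ∉ cor s d a₁ b₁ b₂ W₀ i

theorem abs_infDist_sub_le (D : Set (ℝ × ℝ)) (z z' : ℝ × ℝ) :
    |infDist z D - infDist z' D| ≤ dist z z' := by
  rw [abs_le]
  constructor
  · have := infDist_le_infDist_add_dist (s := D) (x := z') (y := z)
    rw [dist_comm] at this
    linarith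
  · have := infDist_le_infDist_add_dist (s := D) (x := z) (y := z')
    linarith

theorem cor_of_dist {s d : ℝ × ℝ → ℝ} (hF : Frame s d) {a₁ b₁ b₂ W W' : ℝ} {i : Fin 3}
    {z z' : ℝ × ℝ} (hz : z ∈ cor s d a₁ b₁ b₂ W i) (h : W + 2 * dist z z' ≤ W') :
    z' ∈ cor s d a₁ b₁ b₂ W' i := by
  have h1 := abs_le.1 (hF.s_lip z z')
  have h2 := abs_le.1 (hF.d_lip z z')
  fin_cases i
  · have h3 := abs_le.1 (show |s z - a₁| ≤ W from hz)
    show |s z' - a₁| ≤ W'
    exact abs_le.2 (by constructor <;> linarith only [h, h1, h3])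
  · have h3 := abs_le.1 (show |d z - b₂| ≤ W from hz.1)
    have h4 : a₁ - W ≤ s z := hz.2
    exact ⟨abs_le.2 (by constructor <;> linarith only [h, h2, h3]), by
      linarith [h1.1, h1.2]⟩
  · have h3 := abs_le.1 (show |s z - b₁| ≤ W from hz.1)
    have h4 : d z ≤ b₂ + W := hz.2
    exact ⟨abs_le.2 (by constructor <;> linarith only [h, h1, h3]), by
      linarith [h2.1, h2.2]⟩

/-- Every point has a grid point at distance at most `w / 2`. -/
theorem exists_grid {w : ℝ} (hw : 0 < w) (z : ℝ × ℝ) : ∃ y : ℤ × ℤ, dist z (fpt w y) ≤ w / 2 := by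
  have key : ∀ x : ℝ, dist x (w * (round (x / w) : ℤ)) ≤ w / 2 := by
    intro x
    have h := abs_sub_round (x / w)
    rw [Real.dist_eq]
    have h2 : x - w * (round (x / w) : ℤ) = w * (x / w - (round (x / w) : ℤ)) := by
      field_simp
    rw [h2, abs_mul, abs_of_pos hw]
    nlinarith only [hw, h]
  refine ⟨(round (z.1 / w), round (z.2 / w)), ?_⟩
  rw [Prod.dist_eq]
  exact max_le (key z.1) (key z.2)

/-- Every point of the shell off the corridors has a centre at distance at most `w / 2`. -/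
theorem exists_good {s d : ℝ × ℝ → ℝ} (hF : Frame s d) {D : Set (ℝ × ℝ)}
    {a₁ b₁ b₂ W₀ w a b : ℝ} (hw : 0 < w) {z : ℝ × ℝ} (ha : a / 4 + w / 2 ≤ infDist z D)
    (hb : infDist z D ≤ 4 * b - w / 2) (hz : ∀ i, z ∉ cor s d a₁ b₁ b₂ (W₀ + 7 * w) i) :
    ∃ y, Good s d D a₁ b₁ b₂ W₀ w a b y ∧ dist z (fpt w y) ≤ w / 2 := by
  obtain ⟨y, hy⟩ := exists_grid hw z
  have h1 := abs_le.1 (abs_infDist_sub_le D z (fpt w y))
  refine ⟨y, ⟨by linarith only [ha, hy, h1], by linarith only [hb, hy, h1], fun z' hz' i hi => ?_⟩, hy⟩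
  refine hz i (cor_of_dist hF hi ?_)
  have h2 := dist_triangle z' (fpt w y) z
  rw [dist_comm (fpt w y) z] at h2
  linarith only [hy, hz', h2]

theorem cen_near {w δ ρ : ℝ} (hδ : 0 < δ) {f y : ℤ × ℤ} {R : ℤ}
    (h : dist (fpt δ f) (fpt w y) ≤ ρ) (hR : ρ + δ ≤ δ * R) :
    |f.1 - (cen w δ y).1| ≤ R ∧ |f.2 - (cen w δ y).2| ≤ R := by
  have key : ∀ x v : ℤ, dist (δ * (x : ℝ)) (w * (v : ℝ)) ≤ ρ → |x - ⌊w * v / δ⌋| ≤ R := by
    intro x v hxv
    rw [Real.dist_eq] at hxv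
    have h1 := abs_le.1 hxv
    have h2 := Int.floor_le (w * v / δ)
    have h3 := Int.lt_floor_add_one (w * v / δ)
    rw [le_div_iff₀ hδ] at h2
    rw [div_lt_iff₀ hδ] at h3
    have h4 : ((x : ℝ) - ⌊w * v / δ⌋) ≤ R := by
      by_contra hc
      push Not at hc
      nlinarith only [hR, h1, h3, hδ, hc]
    have h5 : -(R : ℝ) ≤ ((x : ℝ) - ⌊w * v / δ⌋) := by
      by_contra hc
      push Not at hc
      nlinarith only [hδ, hR, h1, h2, hc]
    rw [abs_le]
    constructor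
    · exact_mod_cast h5
    · exact_mod_cast h4
  rw [Prod.dist_eq] at h
  exact ⟨key _ _ ((le_max_left _ _).trans h), key _ _ ((le_max_right _ _).trans h)⟩

theorem shell_bdd {D : Set (ℝ × ℝ)} (hD : Bornology.IsBounded D) (hD0 : D.Nonempty) (b : ℝ) :
    ∃ M : ℝ, ∀ z, infDist z D ≤ b → |z.1| ≤ M ∧ |z.2| ≤ M := by
  obtain ⟨M, hM⟩ := hD.subset_closedBall (0 : ℝ × ℝ)
  refine ⟨b + 1 + M, fun z hz => ?_⟩
  obtain ⟨p, hp, hpz⟩ := (infDist_lt_iff hD0).1 (show infDist z D < b + 1 by linarith)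
  have h1 : dist p 0 ≤ M := hM hp
  have h2 := dist_triangle z p 0
  have h3 : dist z 0 ≤ b + 1 + M := by linarith
  rw [Prod.dist_eq] at h3
  have h4 := (le_max_left _ _).trans h3
  have h5 := (le_max_right _ _).trans h3
  simp only [Prod.fst_zero, Prod.snd_zero, dist_zero_right, Real.norm_eq_abs] at h4 h5
  exact ⟨h4, h5⟩

theorem int_finite {w M : ℝ} (hw : 0 < w) : {k : ℤ | |w * k| ≤ M}.Finite := by
  refine (Set.finite_Icc ⌊-(M / w)⌋ ⌈M / w⌉).subset ?_
  intro k hk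
  have h1 : |w * (k : ℝ)| ≤ M := hk
  rw [abs_mul, abs_of_pos hw, ← le_div_iff₀' hw, abs_le] at h1
  constructor
  · exact_mod_cast (Int.floor_le _).trans h1.1
  · exact_mod_cast h1.2.trans (Int.le_ceil _)

/-- There are finitely many centres. -/
theorem good_finite {s d : ℝ × ℝ → ℝ} {D : Set (ℝ × ℝ)} (hD : Bornology.IsBounded D)
    (hD0 : D.Nonempty) {a₁ b₁ b₂ W₀ w a b : ℝ} (hw : 0 < w) :
    {y : ℤ × ℤ | Good s d D a₁ b₁ b₂ W₀ w a b y}.Finite := by
  obtain ⟨M, hM⟩ := shell_bdd hD hD0 (4 * b)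
  refine ((int_finite (M := M) hw).prod (int_finite (M := M) hw)).subset ?_
  intro y hy
  exact hM _ hy.2.1

/-- The point `k` of the corridor `i`; `pt` is the inverse of `z ↦ (s z, d z)`. -/
noncomputable def sp (pt : ℝ → ℝ → ℝ × ℝ) (a₁ b₁ b₂ l : ℝ) (i : Fin 3) (k : ℤ) : ℝ × ℝ :=
  match i with
  | 0 => pt a₁ (k * l)
  | 1 => pt (k * l) b₂
  | 2 => pt b₁ (k * l)

/-- The sparse points: points of the corridors in the shell, with coordinate a multiple of `l`. -/
def Sp (pt : ℝ → ℝ → ℝ × ℝ) (D : Set (ℝ × ℝ)) (a₁ b₁ b₂ l a b : ℝ) (i : Fin 3) (k : ℤ) : Prop :=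
  a / 2 ≤ infDist (sp pt a₁ b₁ b₂ l i k) D ∧ infDist (sp pt a₁ b₁ b₂ l i k) D ≤ 2 * b ∧
    (i = 1 → a₁ ≤ k * l) ∧ (i = 2 → k * l ≤ b₂)

/-- There are finitely many sparse points. -/
theorem sp_finite {s d : ℝ × ℝ → ℝ} (hF : Frame s d) {pt : ℝ → ℝ → ℝ × ℝ}
    (hpt : ∀ x y, s (pt x y) = x ∧ d (pt x y) = y) {D : Set (ℝ × ℝ)}
    (hD : Bornology.IsBounded D) (hD0 : D.Nonempty) {a₁ b₁ b₂ l a b : ℝ} (hl : 0 < l) :
    {q : Fin 3 × ℤ | Sp pt D a₁ b₁ b₂ l a b q.1 q.2}.Finite := by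
  obtain ⟨p, hp⟩ := hD0
  obtain ⟨M, hM⟩ := shell_bdd hD ⟨p, hp⟩ (2 * b)
  set M' : ℝ := 2 * M + |s 0| + |d 0| with hM'
  refine ((Set.finite_univ (α := Fin 3)).prod (int_finite (M := M') hl)).subset ?_
  rintro ⟨i, k⟩ hq
  refine ⟨Set.mem_univ _, ?_⟩
  have h1 := hM _ hq.2.1
  set z := sp pt a₁ b₁ b₂ l i k with hz
  have h2 : dist z 0 ≤ M := by
    rw [Prod.dist_eq]
    simp only [Prod.fst_zero, Prod.snd_zero, dist_zero_right, Real.norm_eq_abs]
    exact max_le h1.1 h1.2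
  have h3 := abs_le.1 (hF.s_lip z 0)
  have h4 := abs_le.1 (hF.d_lip z 0)
  have h5 : s z = k * l ∨ d z = k * l := by
    rw [hz]
    fin_cases i
    · exact Or.inr (hpt _ _).2
    · exact Or.inl (hpt _ _).1
    · exact Or.inr (hpt _ _).2
  have h6 := abs_le.1 (le_refl |s 0|)
  have h7 := abs_le.1 (le_refl |d 0|)
  show |l * (k : ℝ)| ≤ M'
  rw [mul_comm, abs_le]
  have h8 := abs_nonneg (s 0)
  have h9 := abs_nonneg (d 0)
  rcases h5 with h5 | h5
  · rw [← h5, hM']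
    constructor <;> linarith only [h2, h3, h6, h7]
  · rw [← h5, hM']
    constructor <;> linarith only [h2, h4, h6, h7]

/-- Every sparse point has a centre at distance at most `W₀ / 2 + 9 w / 2`. -/
theorem exists_xc {s d : ℝ × ℝ → ℝ} (hF : Frame s d) {pt : ℝ → ℝ → ℝ × ℝ}
    (hpt : ∀ x y, s (pt x y) = x ∧ d (pt x y) = y) {D : Set (ℝ × ℝ)} {a₁ b₁ b₂ : ℝ}
    (hp₀ : pt a₁ b₂ ∈ D) (hp₁ : pt b₁ b₂ ∈ D) {W₀ w l a b : ℝ} (hw : 0 < w) (hW₀ : 0 ≤ W₀)
    (hc : 2 * W₀ + 15 * w < b₁ - a₁) (ha : 3 * W₀ + 23 * w < a) (hab : a ≤ b)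
    {i : Fin 3} {k : ℤ} (hk : Sp pt D a₁ b₁ b₂ l a b i k) :
    ∃ y, Good s d D a₁ b₁ b₂ W₀ w a b y ∧
      dist (sp pt a₁ b₁ b₂ l i k) (fpt w y) ≤ W₀ / 2 + 9 / 2 * w := by
  -- the shifted point
  have key : ∀ z, dist (sp pt a₁ b₁ b₂ l i k) z ≤ (W₀ + 8 * w) / 2 →
      (∀ j, z ∉ cor s d a₁ b₁ b₂ (W₀ + 7 * w) j) → ∃ y, Good s d D a₁ b₁ b₂ W₀ w a b y ∧
      dist (sp pt a₁ b₁ b₂ l i k) (fpt w y) ≤ W₀ / 2 + 9 / 2 * w := by
    intro z hz hcz
    have h1 := abs_le.1 (abs_infDist_sub_le D (sp pt a₁ b₁ b₂ l i k) z)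
    obtain ⟨y, hy, hyz⟩ := exists_good (D := D) (W₀ := W₀) (a := a) (b := b) hF hw (z := z)
      (by (clear * - hw hW₀ ha hz h1 hk; linarith [h1.1, h1.2, hk.1])) (by linarith [h1.1, h1.2, hk.2.1]) hcz
    refine ⟨y, hy, ?_⟩
    have := dist_triangle (sp pt a₁ b₁ b₂ l i k) z (fpt w y)
    linarith
  have hfar : ∀ z, dist (sp pt a₁ b₁ b₂ l i k) z ≤ (W₀ + 8 * w) / 2 → ∀ q ∈ D,
      W₀ + 15 / 2 * w < dist z q := by
    intro z hz q hq
    have h1 := abs_le.1 (abs_infDist_sub_le D (sp pt a₁ b₁ b₂ l i k) z)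
    have h2 := infDist_le_dist_of_mem (x := z) hq
    have h3 := hk.1
    linarith [h1.1, h1.2]
  have h0 : 0 < W₀ + 8 * w := by linarith only [hw, hW₀]
  fin_cases i
  · -- corridor 0
    have hd := hF.dist_le (pt a₁ (k * l)) (pt (a₁ + (W₀ + 8 * w)) (k * l))
    rw [(hpt _ _).1, (hpt _ _).2, (hpt _ _).1, (hpt _ _).2, sub_self, abs_zero, add_zero,
      show a₁ - (a₁ + (W₀ + 8 * w)) = -(W₀ + 8 * w) by ring, abs_neg, abs_of_pos h0] at hd
    have hd' : dist (pt a₁ (k * l)) (pt (a₁ + (W₀ + 8 * w)) (k * l)) ≤ (W₀ + 8 * w) / 2 := by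
      linarith only [hd]
    refine key (pt (a₁ + (W₀ + 8 * w)) (k * l)) hd' fun j hj => ?_
    fin_cases j
    · have hj' : |s (pt (a₁ + (W₀ + 8 * w)) (k * l)) - a₁| ≤ W₀ + 7 * w := hj
      rw [(hpt _ _).1] at hj'
      linarith only [hw, (abs_le.1 hj').2]
    · have hj' : |d (pt (a₁ + (W₀ + 8 * w)) (k * l)) - b₂| ≤ W₀ + 7 * w := hj.1
      have h4 := hfar _ hd' _ hp₀
      have h5 := hF.dist_le (pt (a₁ + (W₀ + 8 * w)) (k * l)) (pt a₁ b₂)
      rw [(hpt a₁ b₂).1, (hpt a₁ b₂).2, (hpt (a₁ + (W₀ + 8 * w)) _).1,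
        show a₁ + (W₀ + 8 * w) - a₁ = W₀ + 8 * w by ring, abs_of_pos h0] at h5
      linarith only [hj', h4, h5]
    · have hj' : |s (pt (a₁ + (W₀ + 8 * w)) (k * l)) - b₁| ≤ W₀ + 7 * w := hj.1
      rw [(hpt _ _).1] at hj'
      linarith only [hc, (abs_le.1 hj').1]
  · -- corridor 1
    have hd := hF.dist_le (pt (k * l) b₂) (pt (k * l) (b₂ + (W₀ + 8 * w)))
    rw [(hpt _ _).1, (hpt _ _).2, (hpt _ _).1, (hpt _ _).2, sub_self, abs_zero, zero_add,
      show b₂ - (b₂ + (W₀ + 8 * w)) = -(W₀ + 8 * w) by ring, abs_neg, abs_of_pos h0] at hd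
    have hd' : dist (pt (k * l) b₂) (pt (k * l) (b₂ + (W₀ + 8 * w))) ≤ (W₀ + 8 * w) / 2 := by
      linarith only [hd]
    refine key (pt (k * l) (b₂ + (W₀ + 8 * w))) hd' fun j hj => ?_
    fin_cases j
    · have hj' : |s (pt (k * l) (b₂ + (W₀ + 8 * w))) - a₁| ≤ W₀ + 7 * w := hj
      have h4 := hfar _ hd' _ hp₀
      have h5 := hF.dist_le (pt (k * l) (b₂ + (W₀ + 8 * w))) (pt a₁ b₂)
      rw [(hpt a₁ b₂).1, (hpt a₁ b₂).2, (hpt _ (b₂ + (W₀ + 8 * w))).2,
        show b₂ + (W₀ + 8 * w) - b₂ = W₀ + 8 * w by ring, abs_of_pos h0] at h5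
      linarith only [hj', h4, h5]
    · have hj' : |d (pt (k * l) (b₂ + (W₀ + 8 * w))) - b₂| ≤ W₀ + 7 * w := hj.1
      rw [(hpt _ _).2] at hj'
      linarith only [hw, (abs_le.1 hj').2]
    · have hj' : d (pt (k * l) (b₂ + (W₀ + 8 * w))) ≤ b₂ + (W₀ + 7 * w) := hj.2
      rw [(hpt _ _).2] at hj'
      linarith only [hw, hj']
  · -- corridor 2
    have hd := hF.dist_le (pt b₁ (k * l)) (pt (b₁ + (W₀ + 8 * w)) (k * l))
    rw [(hpt _ _).1, (hpt _ _).2, (hpt _ _).1, (hpt _ _).2, sub_self, abs_zero, add_zero,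
      show b₁ - (b₁ + (W₀ + 8 * w)) = -(W₀ + 8 * w) by ring, abs_neg, abs_of_pos h0] at hd
    have hd' : dist (pt b₁ (k * l)) (pt (b₁ + (W₀ + 8 * w)) (k * l)) ≤ (W₀ + 8 * w) / 2 := by
      linarith only [hd]
    refine key (pt (b₁ + (W₀ + 8 * w)) (k * l)) hd' fun j hj => ?_
    fin_cases j
    · have hj' : |s (pt (b₁ + (W₀ + 8 * w)) (k * l)) - a₁| ≤ W₀ + 7 * w := hj
      rw [(hpt _ _).1] at hj'
      linarith [(abs_le.1 hj').2]
    · have hj' : |d (pt (b₁ + (W₀ + 8 * w)) (k * l)) - b₂| ≤ W₀ + 7 * w := hj.1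
      have h4 := hfar _ hd' _ hp₁
      have h5 := hF.dist_le (pt (b₁ + (W₀ + 8 * w)) (k * l)) (pt b₁ b₂)
      rw [(hpt b₁ b₂).1, (hpt b₁ b₂).2, (hpt (b₁ + (W₀ + 8 * w)) _).1,
        show b₁ + (W₀ + 8 * w) - b₁ = W₀ + 8 * w by ring, abs_of_pos h0] at h5
      linarith only [hj', h4, h5]
    · have hj' : |s (pt (b₁ + (W₀ + 8 * w)) (k * l)) - b₁| ≤ W₀ + 7 * w := hj.1
      rw [(hpt _ _).1] at hj'
      linarith only [hw, (abs_le.1 hj').2]

/-- **Shell lemma, for the circuits of a grid.** -/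
theorem shell_grid {E : ℤ × ℤ → ℤ × ℤ → Prop} (hs : ∀ u v, E u v → E v u)
    (hE : ∀ u v, E u v → |u.1 - v.1| ≤ 1 ∧ |u.2 - v.2| ≤ 1) {s d : ℝ × ℝ → ℝ} (hF : Frame s d)
    {pt : ℝ → ℝ → ℝ × ℝ} (hpt : ∀ x y, s (pt x y) = x ∧ d (pt x y) = y) {D : Set (ℝ × ℝ)}
    {a₁ b₁ b₂ : ℝ} (hp₀ : pt a₁ b₂ ∈ D) (hp₁ : pt b₁ b₂ ∈ D) {δ W₀ w l h a b : ℝ} (hδ : 0 < δ)
    (hw : 0 < w) (hW₀ : 0 ≤ W₀) (hl : 0 < l) (hh : 0 < h) (hδw : 4 * δ ≤ w)
    (hc : 2 * W₀ + 15 * w < b₁ - a₁) (ha : 3 * W₀ + 23 * w < a)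
    (hab : a + l + W₀ + 8 * w ≤ b) {r : ℤ} (hr : w / 2 + δ ≤ δ * r) (hrh : 4 * δ * r < h)
    (hX : ∀ y, Good s d D a₁ b₁ b₂ W₀ w a b y → CBox E (cen w δ y) r (3 * r))
    (hZ : ∀ i k, Sp pt D a₁ b₁ b₂ l a b i k → ∃ (y : ℤ × ℤ) (R : ℤ),
      dist (sp pt a₁ b₁ b₂ l i k) (fpt w y) ≤ W₀ / 2 + 9 / 2 * w ∧
      W₀ + 8 * w + 2 * δ ≤ δ * R ∧ 4 * δ * R < h ∧ CBox E (cen w δ y) R (3 * R))
    {u v : ℤ × ℤ} (hu : infDist (fpt δ u) D ≤ a - h) (hv : b ≤ infDist (fpt δ v) D) :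
    ¬ ReflTransGen E u v := by
  refine shell_geo hs hE hF hp₀ hp₁ (hpt _ _).1 (hpt _ _).2 (hpt _ _).1 (hpt _ _).2
    (W := W₀ + 7 * w) (l := l) (h := h) hδ.le (by linarith only [hδ, hW₀, hδw]) hl hh (by linarith only [hδ, hδw, hc])
    (by linarith only [hδ, hW₀, hδw, ha]) (by linarith only [hδ, hδw, hab]) ?_ ?_ hu hv
  · intro f hfa hfb hf
    obtain ⟨y, hy, hyf⟩ := exists_good (D := D) (W₀ := W₀) (a := a) (b := b) hF hw (z := fpt δ f)
      (by linarith only [hδ, hW₀, hδw, ha, hfa]) (by linarith) hf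
    obtain ⟨h3, h4⟩ := cen_near hδ hyf hr
    exact ⟨cen w δ y, r, h3, h4, hX y hy, hrh⟩
  · rintro i f hf hfa hfb ⟨k, hk⟩
    -- the distance from `f` to the sparse point
    have hdist : dist (fpt δ f) (sp pt a₁ b₁ b₂ l i k) ≤ (W₀ + 7 * w) / 2 + δ := by
      have h3 := hF.dist_le (fpt δ f) (sp pt a₁ b₁ b₂ l i k)
      fin_cases i
      · have h4 : |s (fpt δ f) - a₁| ≤ W₀ + 7 * w := hf
        have h5 : |d (fpt δ f) - k * l| ≤ 2 * δ := hk
        change 2 * dist (fpt δ f) (pt a₁ (k * l)) ≤ |s (fpt δ f) - s (pt a₁ (k * l))| +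
          |d (fpt δ f) - d (pt a₁ (k * l))| at h3
        rw [(hpt _ _).1, (hpt _ _).2] at h3
        show dist (fpt δ f) (pt a₁ (k * l)) ≤ _
        linarith only [h4, h5, h3]
      · have h4 : |d (fpt δ f) - b₂| ≤ W₀ + 7 * w := hf.1
        have h5 : |s (fpt δ f) - k * l| ≤ 2 * δ := hk
        change 2 * dist (fpt δ f) (pt (k * l) b₂) ≤ |s (fpt δ f) - s (pt (k * l) b₂)| +
          |d (fpt δ f) - d (pt (k * l) b₂)| at h3
        rw [(hpt _ _).1, (hpt _ _).2] at h3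
        show dist (fpt δ f) (pt (k * l) b₂) ≤ _
        linarith only [h4, h5, h3]
      · have h4 : |s (fpt δ f) - b₁| ≤ W₀ + 7 * w := hf.1
        have h5 : |d (fpt δ f) - k * l| ≤ 2 * δ := hk
        change 2 * dist (fpt δ f) (pt b₁ (k * l)) ≤ |s (fpt δ f) - s (pt b₁ (k * l))| +
          |d (fpt δ f) - d (pt b₁ (k * l))| at h3
        rw [(hpt _ _).1, (hpt _ _).2] at h3
        show dist (fpt δ f) (pt b₁ (k * l)) ≤ _
        linarith only [h4, h5, h3]
    have hinf := abs_le.1 (abs_infDist_sub_le D (fpt δ f) (sp pt a₁ b₁ b₂ l i k))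
    have hSp : Sp pt D a₁ b₁ b₂ l a b i k := by
      refine ⟨by linarith only [hδ, hδw, ha, hfa, hdist, hinf], by linarith only [hδ, hl, hδw, ha, hab, hfb, hdist, hinf], ?_, ?_⟩
      · rintro rfl
        have h4 : a₁ - (W₀ + 7 * w) ≤ s (fpt δ f) := hf.2
        have h5 := abs_le.1 (show |s (fpt δ f) - k * l| ≤ 2 * δ from hk)
        have h6 := infDist_le_dist_of_mem (x := sp pt a₁ b₁ b₂ l 1 k) hp₀
        have h7 : 2 * dist (sp pt a₁ b₁ b₂ l 1 k) (pt a₁ b₂) ≤
            |s (pt (k * l) b₂) - s (pt a₁ b₂)| + |d (pt (k * l) b₂) - d (pt a₁ b₂)| :=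
          hF.dist_le (pt (k * l) b₂) (pt a₁ b₂)
        rw [(hpt _ _).1, (hpt _ _).2, (hpt _ _).1, (hpt _ _).2, sub_self, abs_zero,
          add_zero] at h7
        by_contra hc'
        push Not at hc'
        rw [abs_of_neg (by linarith only [hc'])] at h7
        linarith only [hδw, ha, hfa, hdist, hinf, h4, h5, h6, h7]
      · rintro rfl
        have h4 : d (fpt δ f) ≤ b₂ + (W₀ + 7 * w) := hf.2
        have h5 := abs_le.1 (show |d (fpt δ f) - k * l| ≤ 2 * δ from hk)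
        have h6 := infDist_le_dist_of_mem (x := sp pt a₁ b₁ b₂ l 2 k) hp₁
        have h7 : 2 * dist (sp pt a₁ b₁ b₂ l 2 k) (pt b₁ b₂) ≤
            |s (pt b₁ (k * l)) - s (pt b₁ b₂)| + |d (pt b₁ (k * l)) - d (pt b₁ b₂)| :=
          hF.dist_le (pt b₁ (k * l)) (pt b₁ b₂)
        rw [(hpt _ _).1, (hpt _ _).2, (hpt _ _).1, (hpt _ _).2, sub_self, abs_zero,
          zero_add] at h7
        by_contra hc'
        push Not at hc'
        rw [abs_of_pos (by linarith only [hc'])] at h7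
        linarith only [hδw, ha, hfa, hdist, hinf, h4, h5, h6, h7]
    obtain ⟨y, R, hy, hR, hRh, hC⟩ := hZ i k hSp
    have h8 := dist_triangle (fpt δ f) (sp pt a₁ b₁ b₂ l i k) (fpt w y)
    obtain ⟨h3, h4⟩ := cen_near (ρ := W₀ + 8 * w + δ) (R := R) hδ
      (show dist (fpt δ f) (fpt w y) ≤ W₀ + 8 * w + δ by linarith only [hdist, hy, h8]) (by linarith only [hR])
    exact ⟨cen w δ y, R, h3, h4, hC, hRh⟩

/-- The standard frame. -/
theorem frame_std : Frame (fun z => z.1 + z.2) (fun z => z.1 - z.2) := by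
  have key : ∀ z z' : ℝ × ℝ, |z.1 - z'.1| ≤ dist z z' ∧ |z.2 - z'.2| ≤ dist z z' := by
    intro z z'
    rw [Prod.dist_eq, Real.dist_eq, Real.dist_eq]
    exact ⟨le_max_left _ _, le_max_right _ _⟩
  refine ⟨fun z z' => ?_, fun z z' => ?_, fun z z' => ?_⟩
  · have h := key z z'
    rw [show z.1 + z.2 - (z'.1 + z'.2) = (z.1 - z'.1) + (z.2 - z'.2) by ring]
    exact (abs_add_le _ _).trans (by linarith [h.1, h.2])
  · have h := key z z'
    rw [show z.1 - z.2 - (z'.1 - z'.2) = (z.1 - z'.1) - (z.2 - z'.2) by ring]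
    exact (abs_sub _ _).trans (by linarith only [h])
  · rw [Prod.dist_eq, Real.dist_eq, Real.dist_eq]
    have h1 : 2 * |z.1 - z'.1| ≤ |z.1 + z.2 - (z'.1 + z'.2)| + |z.1 - z.2 - (z'.1 - z'.2)| := by
      have := abs_add_le (z.1 + z.2 - (z'.1 + z'.2)) (z.1 - z.2 - (z'.1 - z'.2))
      rw [show z.1 + z.2 - (z'.1 + z'.2) + (z.1 - z.2 - (z'.1 - z'.2)) = 2 * (z.1 - z'.1) by ring,
        abs_mul, abs_two] at this
      exact this
    have h2 : 2 * |z.2 - z'.2| ≤ |z.1 + z.2 - (z'.1 + z'.2)| + |z.1 - z.2 - (z'.1 - z'.2)| := by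
      have := abs_sub (z.1 + z.2 - (z'.1 + z'.2)) (z.1 - z.2 - (z'.1 - z'.2))
      rw [show z.1 + z.2 - (z'.1 + z'.2) - (z.1 - z.2 - (z'.1 - z'.2)) = 2 * (z.2 - z'.2) by ring,
        abs_mul, abs_two] at this
      exact this
    rcases max_cases |z.1 - z'.1| |z.2 - z'.2| with h | h <;> linarith [h.1]

theorem Frame.swap {s d : ℝ × ℝ → ℝ} (h : Frame s d) : Frame d s :=
  ⟨h.d_lip, h.s_lip, fun z z' => by rw [add_comm]; exact h.dist_le z z'⟩

theorem Frame.neg_s {s d : ℝ × ℝ → ℝ} (h : Frame s d) : Frame (fun z => -s z) d := by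
  have key : ∀ z z', |-s z - -s z'| = |s z - s z'| := by
    intro z z'
    rw [show -s z - -s z' = -(s z - s z') by ring, abs_neg]
  exact ⟨fun z z' => by rw [key]; exact h.s_lip z z', h.d_lip, fun z z' => by
    rw [key]; exact h.dist_le z z'⟩

theorem Frame.neg_d {s d : ℝ × ℝ → ℝ} (h : Frame s d) : Frame s (fun z => -d z) :=
  h.swap.neg_s.swap

end Vale.Agent.P145.X
end

section

/-!
P145, block F-X: elementary facts for the shell of circuits (coordinates, scales, domains).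
-/

namespace Vale.Agent.P145.X

open Relation Metric Filter Topology
open Vale.Agent.P145.FB (Pt o1 o2 e1 e2 fine Ann)

private theorem ga_af_inj {f g : ℤ × ℤ} (h : af f = af g) : f = g := by
  have h1 := congrArg Prod.fst h
  have h2 := congrArg Prod.snd h
  simp only [af] at h1 h2
  exact Prod.ext (by omega) (by omega)

theorem stp_symm (B : Set Pt) (u v : ℤ × ℤ) (h : stp B u v) : stp B v u := by
  obtain ⟨w, hw, h | h⟩ := h
  · exact ⟨w, hw, Or.inr h⟩
  · exact ⟨w, hw, Or.inl h⟩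

theorem stp_le (B : Set Pt) (u v : ℤ × ℤ) (h : stp B u v) :
    |u.1 - v.1| ≤ 1 ∧ |u.2 - v.2| ≤ 1 := by
  have key : ∀ (w : Pt) (u v : ℤ × ℤ), o1 w = af u → o2 w = af v →
      |u.1 - v.1| ≤ 1 ∧ |u.2 - v.2| ≤ 1 := by
    intro w u v h1 h2
    have h3 := congrArg Prod.fst h1
    have h4 := congrArg Prod.snd h1
    have h5 := congrArg Prod.fst h2
    have h6 := congrArg Prod.snd h2
    unfold o1 at h3 h4
    unfold o2 at h5 h6
    by_cases he : Even (w.1 + w.2)
    · simp only [af, if_pos he] at h3 h4 h5 h6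
      rw [abs_le, abs_le]
      omega
    · simp only [af, if_neg he] at h3 h4 h5 h6
      rw [abs_le, abs_le]
      omega
  obtain ⟨w, -, h | h⟩ := h
  · exact key w u v h.1 h.2
  · have := key w v u h.1 h.2
    rw [abs_sub_comm, abs_sub_comm u.2]
    exact this

/-- The box form of the confinement by a circuit. -/
theorem Conf.cbox {B : Set Pt} {p : ℤ × ℤ} {r : ℤ} (h : Conf B (bx p r) (bx p (2 * r)))
    {u v : ℤ × ℤ} (h1 : |u.1 - p.1| ≤ r - 1) (h2 : |u.2 - p.2| ≤ r - 1)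
    (huv : ReflTransGen (stp B) u v) : |v.1 - p.1| ≤ 2 * r ∧ |v.2 - p.2| ≤ 2 * r := by
  rw [abs_le] at h1 h2
  have h3 := h u (by simp only [bx, Set.mem_ofPred_eq]; omega) v huv
  simp only [bx, Set.mem_ofPred_eq] at h3
  rw [abs_le, abs_le]
  omega

/-! ### Domains -/

theorem of_mem_Fs {δ : ℝ} {D : Set (ℝ × ℝ)} {f : ℤ × ℤ} (h : f ∈ Top.Fs δ D) :
    Top.sq δ f ⊆ D := by
  classical
  unfold Top.Fs at h
  split_ifs at h with hf
  · simpa only [Set.Finite.mem_toFinset, Set.mem_ofPred_eq] using h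
  · simp at h

theorem fpt_mem_sq {δ : ℝ} (hδ : 0 ≤ δ) (f : ℤ × ℤ) : fpt δ f ∈ Top.sq δ f := by
  refine ⟨le_refl _, ?_, le_refl _, ?_⟩ <;> simp only [fpt] <;> linarith

theorem of_mem_Fs' {δ : ℝ} (hδ : 0 ≤ δ) {D : Set (ℝ × ℝ)} {f : ℤ × ℤ} (h : f ∈ Top.Fs δ D) :
    fpt δ f ∈ D := of_mem_Fs h (fpt_mem_sq hδ f)

theorem sq_finite {δ : ℝ} (hδ : 0 < δ) {D : Set (ℝ × ℝ)} (hD : Bornology.IsBounded D) :
    {f : ℤ × ℤ | Top.sq δ f ⊆ D}.Finite := by
  obtain ⟨M, hM⟩ := hD.subset_closedBall (0 : ℝ × ℝ)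
  refine ((int_finite (M := M) hδ).prod (int_finite (M := M) hδ)).subset ?_
  intro f hf
  have h1 : dist (fpt δ f) 0 ≤ M := hM (hf (fpt_mem_sq hδ.le f))
  rw [Prod.dist_eq] at h1
  have h4 := (le_max_left _ _).trans h1
  have h5 := (le_max_right _ _).trans h1
  simp only [Prod.fst_zero, Prod.snd_zero, dist_zero_right, Real.norm_eq_abs] at h4 h5
  exact ⟨h4, h5⟩

theorem mem_Fs_iff {δ : ℝ} (hδ : 0 < δ) {D : Set (ℝ × ℝ)} (hD : Bornology.IsBounded D)
    (f : ℤ × ℤ) : f ∈ Top.Fs δ D ↔ Top.sq δ f ⊆ D := by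
  classical
  unfold Top.Fs
  rw [dif_pos (sq_finite hδ hD)]
  simp only [Set.Finite.mem_toFinset, Set.mem_ofPred_eq]

theorem dist_sq_le {δ : ℝ} {f : ℤ × ℤ} {z : ℝ × ℝ} (hz : z ∈ Top.sq δ f) :
    dist z (fpt δ f) ≤ δ := by
  obtain ⟨h1, h2, h3, h4⟩ := hz
  rw [Prod.dist_eq, Real.dist_eq, Real.dist_eq]
  simp only [fpt]
  refine max_le ?_ ?_ <;> rw [abs_le] <;> constructor <;> linarith

/-- A face outside the lattice version of `D₂` is far from `D₁`. -/
theorem le_infDist_of_notMem {δ r : ℝ} (hδ : 0 < δ) {D₁ D₂ : Set (ℝ × ℝ)}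
    (hD₂ : Bornology.IsBounded D₂) (h : ∀ z, infDist z D₁ < r → z ∈ D₂)
    {f : ℤ × ℤ} (hf : f ∉ Top.Fs δ D₂) : r - δ ≤ infDist (fpt δ f) D₁ := by
  rw [mem_Fs_iff hδ hD₂] at hf
  obtain ⟨z, hz, hzD⟩ := Set.not_subset.1 hf
  have h1 : r ≤ infDist z D₁ := by
    by_contra hc
    exact hzD (h z (not_le.1 hc))
  have h2 := abs_le.1 (abs_infDist_sub_le D₁ z (fpt δ f))
  linarith only [h1, h2, dist_sq_le hz]

/-- A neighbourhood of `D₁` in `D₂`. -/
theorem exists_thick {D₁ D₂ : Set (ℝ × ℝ)} (h0 : D₁.Nonempty) (h2 : IsOpen D₂)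
    (hb : Bornology.IsBounded D₂) (h : closure D₁ ⊆ D₂) :
    ∃ r : ℝ, 0 < r ∧ ∀ z, infDist z D₁ < r → z ∈ D₂ := by
  have hc : IsCompact (closure D₁) := by
    refine Metric.isCompact_of_isClosed_isBounded isClosed_closure ?_
    exact (hb.subset h)
  obtain ⟨r, hr, hr'⟩ := hc.exists_thickening_subset_open h2 h
  refine ⟨r, hr, fun z hz => hr' ?_⟩
  rw [Metric.mem_thickening_iff]
  obtain ⟨p, hp, hpz⟩ := (infDist_lt_iff h0).1 hz
  exact ⟨p, subset_closure hp, hpz⟩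

/-- Edges with a face in a box which avoids `D₁` are not interior edges of `D₁`. -/
theorem tE_sub {δ : ℝ} (hδ : 0 ≤ δ) {D₁ : Set (ℝ × ℝ)} {F : Set (ℤ × ℤ)}
    (h : ∀ f ∈ F, fpt δ f ∉ D₁) : tE F ⊆ (iE (Top.Fs δ D₁ : Set (ℤ × ℤ)))ᶜ := by
  rintro w ⟨f, hf, hw⟩ ⟨f', hf', g, hg, h1, h2⟩
  rcases hw with hw | hw
  · have h3 : f = f' := ga_af_inj (hw.symm.trans h1)
    exact h f hf (of_mem_Fs' hδ (by rw [h3]; exact hf'))
  · have h3 : f = g := ga_af_inj (hw.symm.trans h2)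
    exact h f hf (of_mem_Fs' hδ (by rw [h3]; exact hg))

theorem dist_bx {δ : ℝ} (hδ : 0 ≤ δ) {p f : ℤ × ℤ} {r : ℤ} (hf : f ∈ bx p r) :
    dist (fpt δ f) (fpt δ p) ≤ δ * r := by
  simp only [bx, Set.mem_ofPred_eq] at hf
  refine dist_fpt_le hδ ?_ ?_ <;> rw [abs_le] <;> omega

theorem tE_bx_sub {δ : ℝ} (hδ : 0 ≤ δ) {D₁ : Set (ℝ × ℝ)} {p : ℤ × ℤ} {r : ℤ}
    (h : δ * r < infDist (fpt δ p) D₁) :
    tE (bx p r) ⊆ (iE (Top.Fs δ D₁ : Set (ℤ × ℤ)))ᶜ := by
  refine tE_sub hδ fun f hf hD => ?_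
  have h1 := infDist_le_dist_of_mem (x := fpt δ p) hD
  have h2 := dist_bx hδ hf
  rw [dist_comm] at h1
  linarith

/-! ### Scales -/

theorem cen_ce {δ : ℝ} (hδ : 0 < δ) (w : ℤ) (y : ℤ × ℤ) : cen (δ * w) δ y = ce w y := by
  have key : ∀ x : ℤ, ⌊δ * (w : ℝ) * (x : ℝ) / δ⌋ = w * x := by
    intro x
    have : δ * (w : ℝ) * (x : ℝ) / δ = ((w * x : ℤ) : ℝ) := by
      push_cast
      field_simp
    rw [this, Int.floor_intCast]
  exact Prod.ext (key y.1) (key y.2)

theorem fpt_ce (δ : ℝ) (w : ℤ) (y : ℤ × ℤ) : fpt (δ * w) y = fpt δ (ce w y) := by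
  refine Prod.ext ?_ ?_ <;> simp only [fpt, ce] <;> push_cast <;> ring

theorem sc_le {ε δ : ℝ} (hδ : 0 < δ) (i : ℕ) : δ * (sc ε δ i : ℝ) ≤ 4 ^ i * ε := by
  have h := Int.floor_le (ε / δ)
  rw [le_div_iff₀ hδ] at h
  have h2 : δ * (sc ε δ i : ℝ) = 4 ^ i * ((⌊ε / δ⌋ : ℝ) * δ) := by
    unfold sc
    push_cast
    ring
  rw [h2]
  exact mul_le_mul_of_nonneg_left h (by positivity)

theorem le_sc {ε δ : ℝ} (hδ : 0 < δ) (hε : 2 * δ ≤ ε) (i : ℕ) :
    4 ^ i * (ε / 2) ≤ δ * (sc ε δ i : ℝ) := by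
  have h := Int.lt_floor_add_one (ε / δ)
  rw [div_lt_iff₀ hδ] at h
  have h2 : δ * (sc ε δ i : ℝ) = 4 ^ i * ((⌊ε / δ⌋ : ℝ) * δ) := by
    unfold sc
    push_cast
    ring
  rw [h2]
  exact mul_le_mul_of_nonneg_left (by linarith only [hε, h]) (by positivity)

theorem sc_pos {ε δ : ℝ} (hδ : 0 < δ) (hε : δ ≤ ε) (i : ℕ) : 1 ≤ sc ε δ i := by
  have h : 1 ≤ ⌊ε / δ⌋ := by
    rw [Int.le_floor]
    push_cast
    rw [le_div_iff₀ hδ]
    linarith
  unfold sc
  have h4 : (1 : ℤ) ≤ 4 ^ i := one_le_pow₀ (by norm_num)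
  nlinarith only [h, h4]

/-- The quotient of two scales. -/
theorem sc_add (ε δ : ℝ) (i k : ℕ) : sc ε δ (i + k) = 4 ^ k * sc ε δ i := by
  unfold sc
  rw [pow_add]
  ring

/-- The indices of the centres are bounded. -/
theorem abs_le_of_sc {ε δ M : ℝ} (hδ : 0 < δ) (hε : 2 * δ ≤ ε) (i : ℕ) {x : ℤ}
    (h : |δ * ((sc ε δ i * x : ℤ) : ℝ)| ≤ M) : |x| ≤ (⌈2 * M / ε⌉₊ : ℤ) := by
  have hε0 : 0 < ε := by linarith
  have h1 := le_sc hδ hε i
  have h2 : (1 : ℝ) ≤ 4 ^ i := one_le_pow₀ (by norm_num)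
  have h3 : ε / 2 ≤ δ * (sc ε δ i : ℝ) := by nlinarith only [h1, hδ, h2, hε]
  have h4 : |δ * ((sc ε δ i * x : ℤ) : ℝ)| = δ * (sc ε δ i : ℝ) * |(x : ℝ)| := by
    push_cast
    rw [← mul_assoc, abs_mul, abs_of_nonneg (by linarith only [hδ, hε, h3] : (0 : ℝ) ≤ δ * (sc ε δ i : ℝ))]
  rw [h4] at h
  have h5 : |(x : ℝ)| ≤ 2 * M / ε := by
    rw [le_div_iff₀ hε0]
    nlinarith only [h, h3, abs_nonneg (x : ℝ)]
  have h6 := h5.trans (Nat.le_ceil _)
  exact_mod_cast h6

end Vale.Agent.P145.X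
end

section

/-!
# Face paths which avoid the blocked edges

Odd faces are points of the fine lattice with two odd coordinates. A path of odd faces which does
not cross the edges of `B` cannot leave a box surrounded by a circuit of `fine B`.
-/

namespace Vale.Agent.P145.FB

open Relation Vale.Agent.P153 Vale.Agent.P153.Topo

/-- Position of a face in the fine lattice. -/
def pos (f : Pt) : Pt := (f.1 + f.2, f.1 - f.2)

/-- Position of a vertex of the six-vertex lattice in the fine lattice. -/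
def pov (w : Pt) : Pt := (w.1 + w.2 - 1, w.1 - w.2)

theorem fc_pos (f : Pt) : fc (pos f) = f := by
  unfold fc pos
  exact Prod.ext (by simp only; omega) (by simp only; omega)

theorem vx_pov (w : Pt) : vx (pov w) = w := by
  unfold vx pov
  exact Prod.ext (by simp only; omega) (by simp only; (clear * -; omega))

/-- One step between two odd faces which does not cross an edge of `B`. -/
def FStep (B : Set Pt) (u v : Pt) : Prop :=
  ∃ w, w ∉ B ∧ ((u = o1 w ∧ v = o2 w) ∨ (u = o2 w ∧ v = o1 w))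

theorem nn_o1 (w : Pt) : NN (pos (o1 w)) (pov w) := by
  by_cases h : Even (w.1 + w.2)
  · simp only [NN, pos, pov, o1, if_pos h]
    omega
  · simp only [NN, pov, pos, o1, if_neg h, or_true, and_self, sub_eq_self, one_ne_zero, left_eq_add, false_or, false_and, or_false]

theorem nn_o2 (w : Pt) : NN (pos (o2 w)) (pov w) := by
  by_cases h : Even (w.1 + w.2)
  · simp only [NN, pos, pov, o2, if_pos h]
    omega
  · simp only [NN, pos, pov, o2, if_neg h]
    omega

theorem pov_notMem {B : Set Pt} {w : Pt} (hw : w ∉ B) : pov w ∉ fine B := by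
  rintro (⟨_, h⟩ | ⟨h1, h2, _⟩)
  · rw [vx_pov] at h; exact hw h
  · unfold pov at h1 h2
    simp only [Int.even_iff] at h1 h2
    omega

theorem pos_notMem {B : Set Pt} {f : Pt} (hf : Odd (f.1 + f.2)) : pos f ∉ fine B := by
  rw [Int.odd_iff] at hf
  rintro (⟨h, _⟩ | ⟨h1, _, _⟩)
  · unfold pos at h
    simp only [Int.odd_iff] at h
    (clear * - hf h; omega)
  · unfold pos at h1
    simp only [Int.even_iff] at h1
    omega

theorem odd_o1 (w : Pt) : Odd ((o1 w).1 + (o1 w).2) := by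
  unfold o1
  split_ifs with h <;> simp only [Int.odd_iff, Int.even_iff] at * <;> omega

theorem odd_o2 (w : Pt) : Odd ((o2 w).1 + (o2 w).2) := by
  unfold o2
  split_ifs with h <;> simp only [Int.odd_iff, Int.even_iff] at * <;> omega

/-- A face path avoiding `B` is a path of the fine lattice avoiding `fine B`. -/
theorem conn_of_path {B : Set Pt} {f g : Pt} (hf : Odd (f.1 + f.2))
    (h : ReflTransGen (FStep B) f g) : Conn (fine B)ᶜ (pos f) (pos g) := by
  induction h with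
  | refl => exact Conn.refl (pos_notMem hf)
  | @tail u v _ huv ih =>
    obtain ⟨w, hw, ⟨rfl, rfl⟩ | ⟨rfl, rfl⟩⟩ := huv
    · exact (ih.tail (nn_o1 w).adj (pov_notMem hw)).tail (nn_o2 w).symm.adj
        (pos_notMem (odd_o2 w))
    · exact (ih.tail (nn_o2 w).adj (pov_notMem hw)).tail (nn_o1 w).symm.adj
        (pos_notMem (odd_o1 w))

/-- Confinement by a separating set. -/
theorem SepG.conf {B : Set Pt} {C : Set Pt} {p q a b : ℤ} (hC : SepG C p q a b)
    (hCB : C ⊆ fine B) {f g : Pt} (hfo : Odd (f.1 + f.2))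
    (hf : pos f ∈ rc (p - a) (p + a) (q - a) (q + a)) (h : ReflTransGen (FStep B) f g) :
    2 * (p - b) < (pos g).1 ∧ (pos g).1 < 2 * (p + b) ∧ 2 * (q - b) < (pos g).2 ∧
      (pos g).2 < 2 * (q + b) := by
  by_contra hc
  obtain ⟨z, hz1, hz2⟩ := hC _ _ _ (conn_of_path hfo h) hf (by omega)
  exact hz1 (hCB hz2)

/-- Confinement by a circuit. -/
theorem conf_of_ann {B : Set Pt} {p q r : ℤ} (hr : 0 < r) (hA : Ann p q r (fine B)) {f g : Pt}
    (hfo : Odd (f.1 + f.2)) (hf : pos f ∈ rc (p - r) (p + r) (q - r) (q + r))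
    (h : ReflTransGen (FStep B) f g) :
    2 * (p - 2 * r) < (pos g).1 ∧ (pos g).1 < 2 * (p + 2 * r) ∧ 2 * (q - 2 * r) < (pos g).2 ∧
      (pos g).2 < 2 * (q + 2 * r) := by
  obtain ⟨o, ho⟩ := hA.base hr
  exact (ho.sep hr).conf (fun z hz => hz.right_mem.1) hfo hf h

end Vale.Agent.P145.FB
end

section

/-! # Confinement by a circuit (`S_conf`) -/

namespace Vale.Agent.P145.X

open Relation
open Vale.Agent.P145.FB (Pt fine Ann FStep pos rc conf_of_ann SepG o1 o2)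

theorem pos_af (f : ℤ × ℤ) : pos (af f) = (2 * f.1 + 1, 2 * f.2 + 1) := by
  unfold pos af
  exact Prod.ext (by simp only; ring) (by simp only; ring)

theorem odd_af (f : ℤ × ℤ) : Odd ((af f).1 + (af f).2) := ⟨f.1, by unfold af; simp only; ring⟩

theorem pos_av (v : ℤ × ℤ) : pos (av v) = (2 * v.1, 2 * v.2) := by
  unfold pos av
  exact Prod.ext (by simp only; ring) (by simp only; ring)

/-- Face paths of `ℤ²` are face paths of the six-vertex lattice. -/
theorem stp_path {B : Set Pt} {f g : ℤ × ℤ} (h : ReflTransGen (stp B) f g) :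
    ReflTransGen (FStep B) (af f) (af g) := by
  induction h with
  | refl => exact ReflTransGen.refl
  | tail _ huv ih =>
    refine ih.tail ?_
    obtain ⟨w, hw, ⟨h1, h2⟩ | ⟨h1, h2⟩⟩ := huv
    · exact ⟨w, hw, Or.inl ⟨h1.symm, h2.symm⟩⟩
    · exact ⟨w, hw, Or.inr ⟨h2.symm, h1.symm⟩⟩

/-- Separation in the fine lattice confines face paths. -/
theorem conf_of_sepG {B C : Set Pt} {p : ℤ × ℤ} {a b : ℤ} (hC : SepG C p.1 p.2 a b)
    (hCB : C ⊆ fine B) : Conf B (bx p a) (bx p b) := by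
  intro f hf g hg
  unfold bx at hf
  simp only [Set.mem_ofPred_eq] at hf
  obtain ⟨h1, h2, h3, h4⟩ := hC.conf hCB (odd_af f)
    (by rw [pos_af]; simp only [rc, Set.mem_ofPred_eq]; omega) (stp_path hg)
  rw [pos_af] at h1 h2 h3 h4
  unfold bx
  simp only [Set.mem_ofPred_eq] at *
  omega

/-- A circuit confines the box inside. -/
theorem s_conf : S_conf := by
  intro p r B hr hZ f hf g hg
  unfold bx at hf
  simp only [Set.mem_ofPred_eq] at hf
  obtain ⟨h1, h2, h3, h4⟩ := conf_of_ann (by omega) hZ (odd_af f)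
    (by rw [pos_af]; simp only [rc, Set.mem_ofPred_eq]; (clear * - hf; omega)) (stp_path hg)
  rw [pos_af] at h1 h2 h3 h4
  unfold bx
  simp only [Set.mem_ofPred_eq] at *
  omega

end Vale.Agent.P145.X
end

section

/-!
P145, block F-X: properties of `avg`.
-/

namespace Vale.Agent.P145.X

open Filter Topology Set MeasureTheory ProbabilityTheory
open Vale.Agent.P152 (Ori)
open Vale.Agent.P145.FA (Hgt mu0)
open Vale.Agent.P145.FB (Pt Mk e1 e2 o1 o2 MU bl opl mkm om measurable_om bern)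

/-- `g(bl(h, om h ξ))` as a function of the marks in `Λ`. -/
def gmk (Λ : Finset Pt) (g : Set Pt → ℝ) (h : Hgt) (y : Λ → Bool) : ℝ :=
  g {w | ∃ hw : w ∈ Λ, (!(decide (h (o1 w) = h (o2 w))) ||
    (decide (h (e1 w) = h (e2 w)) && y ⟨w, hw⟩)) = true ∧ h (e1 w) = 0 ∧ h (e2 w) = 0}

theorem gmk_eq {Λ : Finset Pt} {g : Set Pt → ℝ}
    (hg : ∀ B B' : Set Pt, (∀ w ∈ Λ, w ∈ B ↔ w ∈ B') → g B = g B') (h : Hgt) (ξ : Mk) :
    g (bl (h, om h ξ)) = gmk Λ g h fun w => ξ w.1 := by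
  refine hg _ _ fun w hw => ?_
  constructor
  · rintro ⟨a, b, c⟩
    exact ⟨hw, a, b, c⟩
  · rintro ⟨_, a, b, c⟩
    exact ⟨a, b, c⟩

theorem meas_gmk (Λ : Finset Pt) (g : Set Pt → ℝ) (h : Hgt) : Measurable (gmk Λ g h) :=
  measurable_of_countable _

theorem meas_gom {A : Set Pt} {g : Set Pt → ℝ} (hg : LocS A g) (h : Hgt) :
    Measurable fun ξ : Mk => g (bl (h, om h ξ)) :=
  (meas_g hg).comp (measurable_om.comp (measurable_const.prodMk measurable_id))

theorem int_gom {A : Set Pt} {g : Set Pt → ℝ} (hg : LocS A g) (h : Hgt) (t : ℝ) :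
    Integrable (fun ξ : Mk => g (bl (h, om h ξ))) (mkm t) := by
  obtain ⟨C, -, hC⟩ := bdd_g hg
  exact Integrable.of_bound (meas_gom hg h).aestronglyMeasurable C
    (Eventually.of_forall fun ξ => hC _)

theorem avg_loc {t : ℝ} {A : Set Pt} {g : Set Pt → ℝ} (hg : LocS A g) :
    FA.Loc {q | ∃ w ∈ A, q = e1 w ∨ q = e2 w ∨ q = o1 w ∨ q = o2 w} (avg t g) := by
  classical
  obtain ⟨Λ, hA, hΛ⟩ := hg
  refine ⟨Λ.biUnion fun w => {e1 w, e2 w, o1 w, o2 w}, ?_, ?_⟩
  · intro q hq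
    obtain ⟨w, hw, h1⟩ := Finset.mem_biUnion.1 hq
    exact ⟨w, hA w hw, by simpa using h1⟩
  · intro h h' hh
    have key : ∀ w ∈ Λ, h (e1 w) = h' (e1 w) ∧ h (e2 w) = h' (e2 w) ∧ h (o1 w) = h' (o1 w) ∧
        h (o2 w) = h' (o2 w) := fun w hw =>
      ⟨hh _ (Finset.mem_biUnion.2 ⟨w, hw, by simp⟩), hh _ (Finset.mem_biUnion.2 ⟨w, hw, by simp⟩),
        hh _ (Finset.mem_biUnion.2 ⟨w, hw, by simp⟩), hh _ (Finset.mem_biUnion.2 ⟨w, hw, by simp⟩)⟩
    unfold avg
    refine integral_congr_ae (Eventually.of_forall fun ξ => ?_)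
    refine hΛ _ _ fun w hw => ?_
    obtain ⟨k1, k2, k3, k4⟩ := key w hw
    have h1 : w ∈ bl (h, om h ξ) ↔ (om h ξ w = true ∧ h (e1 w) = 0 ∧ h (e2 w) = 0) := Iff.rfl
    have h2 : w ∈ bl (h', om h' ξ) ↔ (om h' ξ w = true ∧ h' (e1 w) = 0 ∧ h' (e2 w) = 0) := Iff.rfl
    have h3 : om h ξ w = om h' ξ w := by
      unfold om
      rw [k1, k2, k3, k4]
    rw [h1, h2, h3, k1, k2]

theorem avg_mul {t : ℝ} {A A' : Set Pt} {g g' : Set Pt → ℝ} (hg : LocS A g) (hg' : LocS A' g')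
    (hd : Disjoint A A') (h : Hgt) :
    avg t (fun B => g B * g' B) h = avg t g h * avg t g' h := by
  obtain ⟨Λ, hA, hΛ⟩ := hg
  obtain ⟨Λ', hA', hΛ'⟩ := hg'
  have hdis : Disjoint Λ Λ' := by
    rw [Finset.disjoint_left]
    intro w h1 h2
    exact Set.disjoint_left.1 hd (hA w h1) (hA' w h2)
  have hind : iIndepFun (fun (i : Pt) (ξ : Mk) => ξ i) (mkm t) :=
    iIndepFun_infinitePi (P := fun _ : ℤ × ℤ => bern t) (X := fun _ p => p)
      (fun _ => measurable_id)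
  have h2 := iIndepFun.indepFun_finset Λ Λ' hdis hind (fun i => measurable_pi_apply i)
  have h3 := h2.comp (meas_gmk Λ g h) (meas_gmk Λ' g' h)
  have h4 := h3.integral_fun_mul_eq_mul_integral
    ((meas_gmk Λ g h).comp (measurable_pi_lambda _ fun i => measurable_pi_apply i.1)).aestronglyMeasurable
    ((meas_gmk Λ' g' h).comp (measurable_pi_lambda _ fun i => measurable_pi_apply i.1)).aestronglyMeasurable
  unfold avg
  simp only [gmk_eq hΛ h, gmk_eq hΛ' h]
  exact h4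

theorem avg_nonneg {t : ℝ} {g : Set Pt → ℝ} (hg : ∀ B, 0 ≤ g B) (h : Hgt) : 0 ≤ avg t g h :=
  integral_nonneg fun _ => hg _

theorem avg_le_one {t : ℝ} {A : Set Pt} {g : Set Pt → ℝ} (hl : LocS A g) (hg : ∀ B, g B ≤ 1)
    (h : Hgt) : avg t g h ≤ 1 := by
  have h1 : avg t g h ≤ ∫ _ : Mk, (1 : ℝ) ∂(mkm t) :=
    integral_mono (int_gom hl h t) (integrable_const 1) fun ξ => hg _
  simpa only [ge_iff_le, integral_const, probReal_univ, smul_eq_mul, mul_one] using h1

theorem s_avg (t : ℝ) (P : Measure (Ori (ℤ × ℤ))) [IsFiniteMeasure P] : S_avg t P where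
  loc _ _ hg := avg_loc hg
  mul _ _ _ _ hg hg' hd h := avg_mul hg hg' hd h
  nonneg _ hg h := avg_nonneg hg h
  le_one _ hl hg h := avg_le_one hl hg h
  int _ _ hg g0 hF := (avg_int hg g0 hF).2.2

end Vale.Agent.P145.X
end

section

/-!
# P145, block F-B: squares are crossed by open plus bonds with probability at least `1 / 4`
-/

namespace Vale.Agent.P145.FB

open Finset Filter Topology MeasureTheory Relation
open Vale.Agent.P152 (Edge Ori Ice sgb pth pth_isHeight IsHeight height_eq_pth)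
open Vale.Agent.P152.GFF.B3 (shO trO reO IsP symP)
open Vale.Agent.P145.FA (Hgt)

/-- All open bonds, as a subset of the fine lattice. -/
def SB (o : Mk) : Set Pt := {p | (Even p.1 ∧ Even p.2) ∨ (Odd (p.1 + p.2) ∧ o (vx p) = true)}

theorem meas_SB (z : Pt) : MeasurableSet {o : Mk | z ∈ SB o} := by
  by_cases ha : Even z.1 ∧ Even z.2
  · have e : {o : Mk | z ∈ SB o} = Set.univ := by
      ext o
      simp only [SB, Set.mem_ofPred_eq, ha, and_self, true_or, Set.ofPred_true, Set.mem_univ]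
    rw [e]; exact MeasurableSet.univ
  · by_cases hb : Odd (z.1 + z.2)
    · have e : {o : Mk | z ∈ SB o} = (fun o : Mk => o (vx z)) ⁻¹' {true} := by
        ext o
        simp only [SB, Set.mem_ofPred_eq, ha, hb, true_and, false_or, Set.mem_preimage, Set.mem_singleton_iff]
      rw [e]
      exact (measurable_pi_apply (vx z)) (measurableSet_singleton _)
    · have e : {o : Mk | z ∈ SB o} = ∅ := by
        ext o
        simp only [SB, Set.mem_ofPred_eq, ha, hb, false_and, or_self, Set.ofPred_false, Set.mem_empty_iff_false]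
      rw [e]; exact MeasurableSet.empty

theorem meas_evB {Q : Set Pt → Prop} (hQ : Loc Q) : MeasurableSet {o : Mk | Q (SB o)} :=
  meas_of_loc meas_SB hQ

theorem bond_SB (o : Mk) : Bond (SB o) := by
  refine ⟨fun x y => Or.inl ⟨by simp only [even_two, Even.mul_right], by simp only [even_two, Even.mul_right]⟩, fun x y => ?_⟩
  rintro (⟨h, -⟩ | ⟨h, -⟩)
  · simp only at h
    rw [Int.even_iff] at h
    omega
  · simp only at h
    rw [Int.odd_iff] at h
    omega

theorem SB_mono {o o' : Mk} (h : ∀ w, o w = true → o' w = true) : SB o ⊆ SB o' := by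
  rintro p (hp | ⟨hp, h1⟩)
  · exact Or.inl hp
  · exact Or.inr ⟨hp, h _ h1⟩

/-! ### The parity mirror -/

/-- The reflection of the arrows corresponding to `(x, y) ↦ (x + 1, -y)` on the faces. -/
def gA (a : Ori (ℤ × ℤ)) : Ori (ℤ × ℤ)
  | Sum.inl v => !(a (Sum.inl (v.1 + 1, 1 - v.2)))
  | Sum.inr v => a (Sum.inr (v.1 + 1, -v.2))

theorem gA_eq (a : Ori (ℤ × ℤ)) : gA a = ryA (swA (ryA (shO 1 0 a))) := by
  funext e
  rcases e with ⟨i, j⟩ | ⟨i, j⟩
  · show (!a (Sum.inl (i + 1, 1 - j))) = !(!(!a (Sum.inl (i + 1, 1 - j + 0))))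
    rw [Bool.not_not, add_zero]
  · show a (Sum.inr (i + 1, -j)) = !(!(a (Sum.inr (i + 1, -j + 0))))
    rw [Bool.not_not, add_zero]

theorem gA_meas : Measurable gA := by
  have : gA = ryA ∘ (swA ∘ (ryA ∘ shO 1 0)) := funext gA_eq
  rw [this]
  exact ryA_meas.comp (swA_meas.comp (ryA_meas.comp (sh_meas _ _)))

theorem map_gA {P : Measure (Ori (ℤ × ℤ))} (h : SymM P) : P.map gA = P := by
  have : gA = ryA ∘ (swA ∘ (ryA ∘ shO 1 0)) := funext gA_eq
  rw [this, ← Measure.map_map ryA_meas (swA_meas.comp (ryA_meas.comp (sh_meas _ _))),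
    ← Measure.map_map swA_meas (ryA_meas.comp (sh_meas _ _)),
    ← Measure.map_map ryA_meas (sh_meas _ _), h.sh, map_ry h, map_sw h, map_ry h]

/-- The corresponding map of the vertices. -/
def pe : ℤ × ℤ ≃ ℤ × ℤ where
  toFun w := (w.1 + 1, 1 - w.2)
  invFun w := (w.1 - 1, 1 - w.2)
  left_inv w := by simp
  right_inv w := by simp

theorem dg_gA (a : Ori (ℤ × ℤ)) (w : Pt) : dg (gA a) w = ag a (pe w) := by
  simp only [dg, ag, gA, pe, Equiv.coe_fn_mk]
  rw [show -(w.2 - 1) = 1 - w.2 by ring]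
  cases a (Sum.inl (w.1 + 1, 1 - w.2)) <;> cases a (Sum.inr (w.1 + 1, 1 - w.2)) <;> rfl

theorem ag_gA (a : Ori (ℤ × ℤ)) (w : Pt) : ag (gA a) w = dg a (pe w) := by
  simp only [dg, ag, gA, pe, Equiv.coe_fn_mk]
  rw [show (1 - w.2 - 1) = -w.2 by ring]
  cases a (Sum.inl (w.1 + 1, 1 - w.2)) <;> cases a (Sum.inr (w.1 + 1, -w.2)) <;> rfl

theorem even_pe (w : Pt) : Even ((pe w).1 + (pe w).2) ↔ Even (w.1 + w.2) := by
  simp only [pe, Equiv.coe_fn_mk, Int.even_iff]
  omega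

theorem ev_gA (a : Ori (ℤ × ℤ)) (w : Pt) : ev (gA a) w = od a (pe w) := by
  simp only [ev, od, dg_gA, ag_gA, even_pe]

theorem od_gA (a : Ori (ℤ × ℤ)) (w : Pt) : od (gA a) w = ev a (pe w) := by
  simp only [ev, od, dg_gA, ag_gA, even_pe]

/-- The ice rule: the odd faces or the even faces at a vertex agree. -/
theorem sq_ev_or_od {a : Ori (ℤ × ℤ)} (h : ∀ x y, Ice a x y) (w : Pt) :
    ev a w = true ∨ od a w = true := by
  have h1 := h w.1 w.2
  have hh := FP.isHeight_pth h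
  by_contra hcon
  push Not at hcon
  obtain ⟨h2, h3⟩ := hcon
  have h4 : dg a w = false ∧ ag a w = false := by
    by_cases hw : Even (w.1 + w.2)
    · simp only [ev, od, hw, if_true] at h2 h3
      exact ⟨by simpa using h2, by simpa using h3⟩
    · simp only [ev, od, hw, if_false] at h2 h3
      exact ⟨by simpa using h3, by simpa using h2⟩
  obtain ⟨h4, h5⟩ := h4
  unfold Ice at h1
  simp only [dg, ag] at h4 h5
  cases h6 : a (Sum.inl w) <;> cases h7 : a (Sum.inr w) <;>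
    cases h8 : a (Sum.inr (w.1, w.2 - 1)) <;> cases h9 : a (Sum.inl (w.1 - 1, w.2)) <;>
    simp_all

theorem oma_mirror {a : Ori (ℤ × ℤ)} (h : ∀ x y, Ice a x y) (ξ : Mk) (w : Pt) :
    (!(oma a ξ (pe w))) = oma (gA a) (fun w => !(ξ (pe w))) w := by
  have h1 := sq_ev_or_od h (pe w)
  simp only [oma, ev_gA, od_gA]
  cases h2 : ev a (pe w) <;> cases h3 : od a (pe w) <;> cases h4 : ξ (pe w) <;> simp_all

theorem vx_mirror {p : Pt} (hp : Odd (p.1 + p.2)) : vx (p.2 + 1, p.1 + 1) = pe (vx p) := by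
  rw [Int.odd_iff] at hp
  simp only [vx, pe, Equiv.coe_fn_mk, Prod.mk.injEq]
  constructor <;> omega

theorem dl_SB (o o' : Mk) (h : ∀ w, (!(o (pe w))) = o' w) : dl (SB o) = SB o' := by
  ext p
  simp only [dl, SB, Set.mem_ofPred_eq]
  by_cases hp : Odd (p.1 + p.2)
  · have h1 : Odd (p.2 + 1 + (p.1 + 1)) := by
      rw [Int.odd_iff] at hp ⊢; omega
    have h2 : ¬ (Even (p.2 + 1) ∧ Even (p.1 + 1)) := by
      rw [Int.odd_iff] at hp
      rw [Int.even_iff, Int.even_iff]; (clear * - hp; omega)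
    have h3 : ¬ (Even p.1 ∧ Even p.2) := by
      rw [Int.odd_iff] at hp
      rw [Int.even_iff, Int.even_iff]; (clear * - hp; omega)
    simp only [h1, h2, h3, hp, true_and, false_or, vx_mirror hp, ← h (vx p)]
    simp
  · have h1 : ¬ Odd (p.2 + 1 + (p.1 + 1)) := by
      rw [Int.odd_iff] at hp ⊢; omega
    have h2 : ¬ (Even (p.2 + 1) ∧ Even (p.1 + 1)) ↔ (Even p.1 ∧ Even p.2) := by
      rw [Int.odd_iff] at hp
      simp only [Int.even_iff]; (clear * - hp; omega)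
    simp only [h1, hp, false_and, or_false]
    exact h2

/-! ### Measurability -/

/-- Crossing events depend on the points of the rectangle only. -/
theorem LRc_congr {a b c d : ℤ} {S T : Set Pt} (h : ∀ z ∈ rc a b c d, (z ∈ S ↔ z ∈ T)) :
    LRc a b c d S ↔ LRc a b c d T := by
  have : S ∩ rc a b c d = T ∩ rc a b c d := by
    ext z
    simp only [Set.mem_inter_iff]
    constructor
    · rintro ⟨h1, h2⟩; exact ⟨(h z h2).1 h1, h2⟩
    · rintro ⟨h1, h2⟩; exact ⟨(h z h2).2 h1, h2⟩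
  unfold LRc
  rw [this]

theorem LRc_inc {a b c d : ℤ} {S T : Set Pt} (h : S ⊆ T) (hS : LRc a b c d S) :
    LRc a b c d T := by
  obtain ⟨x, y, h1, h2, h3⟩ := hS
  exact ⟨x, y, h1.mono (Set.inter_subset_inter_left _ h), h2, h3⟩

theorem rc_finite (a b c d : ℤ) : (rc a b c d).Finite :=
  P153.Topo.rect_finite (2 * a) (2 * b) (2 * c) (2 * d)

/-- A set of bond configurations which depends on finitely many bonds is measurable. -/
theorem meas_fin {A : Set Mk} (F : Finset Pt) (hA : ∀ o o' : Mk, (∀ w ∈ F, o w = o' w) →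
    o ∈ A → o' ∈ A) : MeasurableSet A := by
  have h1 : A = (fun (o : Mk) (w : F) => o w) ⁻¹' ((fun (o : Mk) (w : F) => o w) '' A) := by
    ext o
    constructor
    · intro h
      exact ⟨o, h, rfl⟩
    · rintro ⟨o', h, e⟩
      refine hA o' o (fun w hw => ?_) h
      exact congrFun e ⟨w, hw⟩
  rw [h1]
  have hm : Measurable (fun (o : Mk) (w : F) => o w) :=
    measurable_pi_lambda _ fun w => measurable_pi_apply _
  exact hm (Set.toFinite _).measurableSet

theorem meas_LRc_SB (a b c d : ℤ) : MeasurableSet {o : Mk | LRc a b c d (SB o)} := by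
  refine meas_fin ((rc_finite a b c d).toFinset.image vx) fun o o' h ho => ?_
  refine (LRc_congr fun z hz => ?_).1 ho
  have h1 : o (vx z) = o' (vx z) := h _ (Finset.mem_image_of_mem _ (by simpa using hz))
  simp only [SB, Set.mem_ofPred_eq, h1]

theorem meas_LRc_dl (a b c d : ℤ) : MeasurableSet {o : Mk | LRc a b c d (dl (SB o))} := by
  refine meas_fin ((rc_finite a b c d).toFinset.image fun z => vx (z.2 + 1, z.1 + 1))
    fun o o' h ho => ?_
  refine (LRc_congr fun z hz => ?_).1 ho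
  have h1 : o (vx (z.2 + 1, z.1 + 1)) = o' (vx (z.2 + 1, z.1 + 1)) :=
    h _ (Finset.mem_image_of_mem (fun z : Pt => vx (z.2 + 1, z.1 + 1)) (by simpa using hz))
  simp only [dl, SB, Set.mem_ofPred_eq, h1]

/-! ### The bond configuration crosses squares -/

section

variable {P : Measure (Ori (ℤ × ℤ))} [IsProbabilityMeasure P] {t : ℝ}

theorem loc_dl {Q : Set Pt → Prop} (hQ : Loc Q) : Loc fun S => Q (dl S) := by
  obtain ⟨N, hN⟩ := hQ
  refine ⟨N + 1, fun S T h hS => hN _ _ (fun z h1 h2 => ?_) hS⟩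
  rw [abs_le] at h1 h2
  have h3 := h (z.2 + 1, z.1 + 1) (by rw [abs_le]; dsimp only; omega)
    (by rw [abs_le]; dsimp only; omega)
  simp only [dl, Set.mem_ofPred_eq, h3]

/-- The dual configuration is dominated by the configuration. -/
theorem dual_le (hP : SymM P) (hice : ∀ᵐ a ∂P, ∀ x y, Ice a x y) (h0 : 1 / 2 ≤ t) (h1 : t ≤ 1)
    {Q : Set Pt → Prop} (hI : Inc Q) (hL : Loc Q) :
    JO t P {x | Q (dl (SB x.2))} ≤ JO t P {x | Q (SB x.2)} := by
  have ht0 : 0 ≤ t := by linarith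
  have mA : MeasurableSet {x : Ori (ℤ × ℤ) × Mk | Q (SB x.2)} :=
    measurable_snd (meas_evB hL)
  have mB : MeasurableSet {x : Ori (ℤ × ℤ) × Mk | Q (dl (SB x.2))} :=
    measurable_snd (meas_evB (loc_dl hL))
  have mC : MeasurableSet {x : Ori (ℤ × ℤ) × Mk | Q (SB (oma x.1 x.2))} :=
    measurable_oma mA
  rw [JO, Measure.map_apply measurable_oma mA, Measure.map_apply measurable_oma mB]
  have e1 : (P.prod (mkm t)) ((fun x => (x.1, oma x.1 x.2)) ⁻¹'
      {x : Ori (ℤ × ℤ) × Mk | Q (dl (SB x.2))}) =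
      (P.prod (mkm (1 - t))) {x | Q (SB (oma x.1 x.2))} := by
    have hmap : (P.prod (mkm t)).map (Prod.map gA fun (ξ : Mk) w => !(ξ (pe w))) =
        P.prod (mkm (1 - t)) := by
      have hm2 : Measurable (fun (ξ : Mk) w => !(ξ (pe w))) :=
        measurable_pi_lambda _ fun w => bnot_meas.comp (measurable_pi_apply _)
      rw [← Measure.map_prod_map _ _ gA_meas hm2, map_gA hP, mkm_not ht0 h1]
    have hm : Measurable (Prod.map gA fun (ξ : Mk) w => !(ξ (pe w))) :=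
      gA_meas.prodMap (measurable_pi_lambda _ fun w => bnot_meas.comp (measurable_pi_apply _))
    rw [← hmap, Measure.map_apply hm mC]
    refine measure_congr ?_
    have hice2 : ∀ᵐ x ∂(P.prod (mkm t)), ∀ i j, Ice x.1 i j :=
      Measure.quasiMeasurePreserving_fst.ae hice
    filter_upwards [hice2] with x hx
    apply propext
    change Q (dl (SB (oma x.1 x.2))) ↔
      Q (SB (oma (gA x.1) fun w => !(x.2 (pe w))))
    rw [dl_SB _ _ (oma_mirror hx x.2)]
  rw [e1]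
  refine prod_mono P (by rw [cl_eq (by linarith only [h1]) (by linarith only [h0]), cl_eq ht0 h1]; linarith) mC ?_
  intro α ξ ζ h hm
  refine hI _ _ (SB_mono fun w hw => ?_) hm
  simp only [oma, Bool.or_eq_true, Bool.and_eq_true] at hw ⊢
  rcases hw with hw | ⟨h3, h4⟩
  · exact Or.inl hw
  · exact Or.inr ⟨h3, h w h4⟩

/-- Squares are crossed with probability at least `1 / 2`. -/
theorem square_half (hP : SymM P) (hice : ∀ᵐ a ∂P, ∀ x y, Ice a x y) (h0 : 1 / 2 ≤ t)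
    (h1 : t ≤ 1) {n : ℤ} (hn : 1 ≤ n) :
    1 ≤ 2 * JO t P {x | LRc 0 n 0 n (SB x.2)} := by
  have e1 : JO t P Set.univ ≤ JO t P {x | LRc 0 n 0 n (SB x.2)} +
      JO t P {x | LRc (-1) n 0 (n - 1) (dl (SB x.2))} := by
    refine le_trans (measure_mono ?_) (measure_union_le _ _)
    intro x _
    exact duality (bond_SB x.2) (a := 0) (b := n) (c := 0) (d := n) (by omega) (by omega)
  rw [measure_univ] at e1
  have e2 : JO t P {x | LRc (-1) n 0 (n - 1) (dl (SB x.2))} ≤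
      JO t P {x | LRc 0 n 0 n (SB x.2)} := by
    refine (dual_le hP hice h0 h1 (IL_LRc _ _ _ _).1 (IL_LRc _ _ _ _).2).trans
      (measure_mono fun x hx => ?_)
    exact LRc.mono (-1) 0 n n 0 0 (n - 1) n _ (by omega) (by omega) (by omega) (by omega)
      (by omega) hx
  rw [two_mul]
  exact e1.trans (by gcongr)

end

/-! ### The sign -/

theorem pth_even {a : Ori (ℤ × ℤ)} (h : ∀ x y, Ice a x y) {q : Pt} (hq : Even (q.1 + q.2)) :
    Even (pth a q) := by
  have hp := FP.pth_parity h q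
  rw [Int.even_iff] at hq ⊢
  omega

theorem even_e1 (w : Pt) : Even ((e1 w).1 + (e1 w).2) := by
  unfold e1
  split_ifs with h
  · exact h
  · simp only
    rw [Int.even_iff] at h ⊢
    omega

theorem even_e2 (w : Pt) : Even ((e2 w).1 + (e2 w).2) := by
  unfold e2
  split_ifs with h <;> rw [Int.even_iff] at h ⊢
  · show (w.1 - 1 + (w.2 - 1)) % 2 = 0
    omega
  · show (w.1 + (w.2 - 1)) % 2 = 0
    (clear * - h; omega)

/-- The even ends of an open bond have the same height. -/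
theorem sq_open_eq {a : Ori (ℤ × ℤ)} (h : ∀ x y, Ice a x y) (ξ : Mk) {w : Pt}
    (hw : oma a ξ w = true) : pth a (e1 w) = pth a (e2 w) := by
  have h1 := sq_ev_or_od h w
  have h2 : ev a w = true := by
    rcases h1 with h1 | h1
    · exact h1
    · simp only [oma, h1, Bool.not_true, Bool.false_or, Bool.and_eq_true] at hw
      exact hw.1
  rw [ev_iff (FP.isHeight_pth h) w] at h2
  simpa using h2

/-- The vertex of an edge is one of its two ends. -/
theorem fc_end {u v : Pt} (huv : NN u v) (hu : Even u.1 ∧ Even u.2) (hv : Odd (v.1 + v.2)) :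
    fc u = e1 (vx v) ∨ fc u = e2 (vx v) := by
  unfold e1 e2
  by_cases h : Even ((vx v).1 + (vx v).2)
  · rw [if_pos h, if_pos h]
    rw [Int.even_iff] at h
    simp only [NN, Int.even_iff, Int.odd_iff] at huv hu hv
    simp only [vx] at h
    simp only [fc, vx, Prod.mk.injEq]
    omega
  · rw [if_neg h, if_neg h]
    rw [Int.even_iff] at h
    simp only [NN, Int.even_iff, Int.odd_iff] at huv hu hv
    simp only [vx] at h
    simp only [fc, vx, Prod.mk.injEq]
    (clear * - huv h hu hv; omega)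

theorem lr_SP {a : Ori (ℤ × ℤ)} (h : ∀ x y, Ice a x y) (ξ : Mk) {p q r s : ℤ}
    (hL : LRc p q r s (SB (oma a ξ))) :
    LRc p q r s (SP (hk 0 (a, oma a ξ))) ∨ LRc p q r s (SP (hk 1 (a, oma a ξ))) := by
  set sg : Pt → Prop := fun z => (Even z.1 ∧ Even z.2 ∧ pth a (fc z) % 4 = 0) ∨
    (Odd (z.1 + z.2) ∧ pth a (e1 (vx z)) % 4 = 0) with hsg
  have key : ∀ u v, u ∈ SB (oma a ξ) → v ∈ SB (oma a ξ) → NN u v → (Even u.1 ∧ Even u.2) →
      (sg u ↔ sg v) := by
    intro u v hu hv huv hue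
    have hvo : Odd (v.1 + v.2) := by
      simp only [NN, Int.even_iff, Int.odd_iff] at huv hue ⊢
      omega
    have huo : ¬ Odd (u.1 + u.2) := by
      simp only [Int.even_iff, Int.odd_iff] at hue ⊢
      omega
    have hve : ¬ (Even v.1 ∧ Even v.2) := by
      simp only [Int.even_iff, Int.odd_iff] at hvo ⊢
      omega
    have hop : oma a ξ (vx v) = true := by
      rcases hv with hv | hv
      · exact absurd hv hve
      · exact hv.2
    have h1 := sq_open_eq h ξ hop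
    have h2 := fc_end huv hue hvo
    have h3 : pth a (fc u) = pth a (e1 (vx v)) := by
      rcases h2 with h2 | h2
      · rw [h2]
      · rw [h2, h1]
    simp only [hsg]
    rw [h3]
    (clear * - hue hve h2 hvo huo; tauto)
  have hcases : ∀ u, u ∈ SB (oma a ξ) → (Even u.1 ∧ Even u.2) ∨ Odd (u.1 + u.2) := by
    rintro u (hu | hu)
    · exact Or.inl hu
    · exact Or.inr hu.1
  have hsgn : ∀ u v, u ∈ SB (oma a ξ) → v ∈ SB (oma a ξ) → NN u v → (sg u ↔ sg v) := by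
    intro u v hu hv huv
    rcases hcases u hu with hue | huo
    · exact key u v hu hv huv hue
    · have hve : Even v.1 ∧ Even v.2 := by
        rcases hcases v hv with hve | hvo
        · exact hve
        · simp only [NN, Int.odd_iff] at huv huo hvo
          omega
      exact (key v u hv hu huv.symm hve).symm
  rcases lr_sign sg hsgn hL with h1 | h1
  · left
    refine LRc_inc ?_ h1
    rintro z ⟨hz, hs⟩
    rcases hs with ⟨g1, g2, g3⟩ | ⟨g1, g2⟩
    · left
      refine ⟨g1, g2, ?_⟩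
      simpa only [hk, mul_zero, add_zero, EuclideanDomain.mod_eq_zero] using g3
    · right
      refine ⟨g1, ?_, ?_⟩
      · rcases hz with hz | hz
        · exfalso
          simp only [Int.even_iff, Int.odd_iff] at hz g1
          omega
        · exact hz.2
      · simpa only [hk, mul_zero, add_zero, EuclideanDomain.mod_eq_zero] using g2
  · right
    refine LRc_inc ?_ h1
    rintro z ⟨hz, hs⟩
    rcases hz with ⟨g1, g2⟩ | ⟨g1, g2⟩
    · left
      refine ⟨g1, g2, ?_⟩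
      have hne : ¬ pth a (fc z) % 4 = 0 := fun h => hs (Or.inl ⟨g1, g2, h⟩)
      have hev : Even (pth a (fc z)) := pth_even h (by
        simp only [fc, Int.even_iff] at g1 g2 ⊢
        (clear * - g1 g2; omega))
      rw [Int.even_iff] at hev
      simp only [hk]
      omega
    · right
      refine ⟨g1, g2, ?_⟩
      have hne : ¬ pth a (e1 (vx z)) % 4 = 0 := fun h => hs (Or.inr ⟨g1, h⟩)
      have hev : Even (pth a (e1 (vx z))) := pth_even h (even_e1 _)
      rw [Int.even_iff] at hev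
      simp only [hk]
      (clear * - hne hev; omega)

/-- **Squares.** -/
theorem square {P : Measure (Ori (ℤ × ℤ))} [IsProbabilityMeasure P] {t : ℝ} (hP : SymM P)
    (hice : ∀ᵐ a ∂P, ∀ x y, Ice a x y) (h0 : 1 / 2 ≤ t) (h1 : t ≤ 1) {n : ℤ} (hn : 1 ≤ n) :
    1 / 4 ≤ (J t P).real {x | LRc 0 n 0 n (SP x)} := by
  have e1 := square_half hP hice h0 h1 hn
  have e2 : JO t P {x | LRc 0 n 0 n (SB x.2)} ≤ JO t P {x | LRc 0 n 0 n (SP (hk 0 x))} +
      JO t P {x | LRc 0 n 0 n (SP (hk 1 x))} := by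
    have mA : MeasurableSet {x : Ori (ℤ × ℤ) × Mk | LRc 0 n 0 n (SB x.2)} :=
      measurable_snd (meas_LRc_SB 0 n 0 n)
    refine le_trans ?_ (measure_union_le _ _)
    have hice2 : ∀ᵐ x ∂(P.prod (mkm t)), ∀ i j, Ice x.1 i j :=
      Measure.quasiMeasurePreserving_fst.ae hice
    have g1 : JO t P {x | LRc 0 n 0 n (SB x.2)} = (P.prod (mkm t))
        ((fun x => (x.1, oma x.1 x.2)) ⁻¹' {x : Ori (ℤ × ℤ) × Mk | LRc 0 n 0 n (SB x.2)}) := by
      rw [JO, Measure.map_apply measurable_oma mA]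
    rw [g1]
    refine le_trans (measure_mono_ae ?_) (Measure.le_map_apply measurable_oma.aemeasurable _)
    filter_upwards [hice2] with x hx hL
    exact lr_SP hx x.2 hL
  have e3 : (2 : ENNReal)⁻¹ * JO t P {x | LRc 0 n 0 n (SB x.2)} ≤
      J t P {x | LRc 0 n 0 n (SP x)} := by
    have g0 := Measure.le_map_apply (μ := JO t P) (measurable_hk 0).aemeasurable
      {x | LRc 0 n 0 n (SP x)}
    have g1 := Measure.le_map_apply (μ := JO t P) (measurable_hk 1).aemeasurable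
      {x | LRc 0 n 0 n (SP x)}
    simp only [J, Measure.coe_add, Measure.coe_smul, Pi.add_apply, Pi.smul_apply, smul_eq_mul]
    rw [← mul_add]
    gcongr
    exact e2.trans (add_le_add g0 g1)
  have e4 : ENNReal.ofReal (1 / 4) ≤ J t P {x | LRc 0 n 0 n (SP x)} := by
    refine le_trans ?_ e3
    have h5 : (2 : ENNReal)⁻¹ ≤ JO t P {x | LRc 0 n 0 n (SB x.2)} := by
      rw [ENNReal.inv_le_iff_le_mul (by simp only [measure_ne_top, ne_eq, OfNat.ofNat_ne_zero, not_false_eq_true, implies_true]) (by simp only [ENNReal.ofNat_ne_top, ne_eq, IsEmpty.forall_iff])]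
      exact e1
    calc ENNReal.ofReal (1 / 4) = (2 : ENNReal)⁻¹ * (2 : ENNReal)⁻¹ := by
          rw [← ENNReal.ofReal_ofNat, ← ENNReal.ofReal_inv_of_pos (by norm_num),
            ← ENNReal.ofReal_mul (by norm_num)]
          norm_num
      _ ≤ _ := by (clear * - h5; gcongr)
  rw [Measure.real]
  exact (ENNReal.ofReal_le_iff_le_toReal (measure_ne_top _ _)).1 e4

/-! ### Minus spins -/

/-- The open bonds with spin minus. -/
def SM (x : Hgt × Mk) : Set Pt :=
  {p | (Even p.1 ∧ Even p.2 ∧ x.1 (fc p) % 4 = 2) ∨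
    (Odd (p.1 + p.2) ∧ x.2 (vx p) = true ∧ x.1 (e1 (vx p)) % 4 = 2)}

theorem SM_hk0 (x : Ori (ℤ × ℤ) × Mk) : SM (hk 0 x) = SP (hk 1 x) := by
  ext p
  simp only [SM, SP, hk, Set.mem_ofPred_eq]
  have h1 : (pth x.1 (fc p) + 2 * 0) % 4 = 2 ↔ (pth x.1 (fc p) + 2 * 1) % 4 = 0 := by (clear * -; omega)
  have h2 : (pth x.1 (e1 (vx p)) + 2 * 0) % 4 = 2 ↔ (pth x.1 (e1 (vx p)) + 2 * 1) % 4 = 0 := by
    omega
  rw [h1, h2]

theorem SM_hk1 (x : Ori (ℤ × ℤ) × Mk) : SM (hk 1 x) = SP (hk 0 x) := by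
  ext p
  simp only [SM, SP, hk, Set.mem_ofPred_eq]
  have h1 : (pth x.1 (fc p) + 2 * 1) % 4 = 2 ↔ (pth x.1 (fc p) + 2 * 0) % 4 = 0 := by omega
  have h2 : (pth x.1 (e1 (vx p)) + 2 * 1) % 4 = 2 ↔ (pth x.1 (e1 (vx p)) + 2 * 0) % 4 = 0 := by
    (clear * -; omega)
  rw [h1, h2]

theorem meas_SM (z : Pt) : MeasurableSet {x : Hgt × Mk | z ∈ SM x} := by
  have h0 : ∀ q : Pt, Measurable fun x : Hgt × Mk => x.1 q := fun q =>
    (measurable_pi_apply q).comp measurable_fst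
  have h1 : Measurable fun x : Hgt × Mk => x.2 (vx z) := (measurable_pi_apply _).comp measurable_snd
  have h2 : Measurable fun x : Hgt × Mk => (x.1 (fc z), x.1 (e1 (vx z)), x.2 (vx z)) :=
    (h0 _).prodMk ((h0 _).prodMk h1)
  have h3 : {x : Hgt × Mk | z ∈ SM x} = (fun x : Hgt × Mk =>
      (x.1 (fc z), x.1 (e1 (vx z)), x.2 (vx z))) ⁻¹'
      {y : ℤ × ℤ × Bool | (Even z.1 ∧ Even z.2 ∧ y.1 % 4 = 2) ∨
        (Odd (z.1 + z.2) ∧ y.2.2 = true ∧ y.2.1 % 4 = 2)} := rfl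
  rw [h3]
  exact h2 (Set.to_countable _).measurableSet

/-- The minus configuration has the law of the plus configuration. -/
theorem sign_sym {P : Measure (Ori (ℤ × ℤ))} {t : ℝ} {Q : Set Pt → Prop} (hQ : Loc Q) :
    J t P {x | Q (SM x)} = J t P {x | Q (SP x)} := by
  have mM : MeasurableSet {x : Hgt × Mk | Q (SM x)} := meas_of_loc meas_SM hQ
  have mP : MeasurableSet {x : Hgt × Mk | Q (SP x)} := meas_ev hQ
  simp only [J, Measure.coe_add, Measure.coe_smul, Pi.add_apply, Pi.smul_apply, smul_eq_mul]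
  rw [Measure.map_apply (measurable_hk 0) mM, Measure.map_apply (measurable_hk 1) mM,
    Measure.map_apply (measurable_hk 0) mP, Measure.map_apply (measurable_hk 1) mP]
  have e0 : hk 0 ⁻¹' {x | Q (SM x)} = hk 1 ⁻¹' {x | Q (SP x)} := by
    ext x
    show Q (SM (hk 0 x)) ↔ Q (SP (hk 1 x))
    rw [SM_hk0]
  have e1 : hk 1 ⁻¹' {x | Q (SM x)} = hk 0 ⁻¹' {x | Q (SP x)} := by
    ext x
    show Q (SM (hk 1 x)) ↔ Q (SP (hk 0 x))
    rw [SM_hk1]
  rw [e0, e1, add_comm]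

end Vale.Agent.P145.FB
end

section

/-!
P145: the properties `FP.Hyp` of the plane measure for all `1 ≤ c ≤ 2`.
-/

set_option autoImplicit false

namespace Vale.Agent.P145.FA

open Finset Filter Topology MeasureTheory
open Vale.Agent.P152 Vale.Agent.P152.GFF.B3
open Vale.Agent.P152.GFF.S (ar GD)

variable {P : Measure (Ori (ℤ × ℤ))} [IsProbabilityMeasure P]

/-! ### The variance of the heights -/

omit [IsProbabilityMeasure P] in
theorem hh_col {c : ℝ} (hP : IsP c P) (hs : SymP P) {C : ℝ} (hC : 0 ≤ C) (hG : GD P C) :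
    ∃ C' > 0, ∀ (n : ℕ) (x y : ℤ), 1 ≤ n →
      ∫ ω, (∑ j ∈ range n, ar ω (Sum.inl (x, y + j))) ^ 2 ∂P ≤ C' * (1 + Real.log n) ∧
      ∫ ω, (∑ i ∈ range n, ar ω (Sum.inr (x + i, y))) ^ 2 ∂P ≤ C' * (1 + Real.log n) := by
  obtain ⟨CE, hCE, hE⟩ := engy
  have hCG : 0 < C + 1 := by linarith
  refine ⟨4 * (C + 1) * CE + 2, by positivity, fun n x y hn => ?_⟩
  obtain ⟨R, hR, φ, hφ0, hφ1, hφE⟩ := hE n hn
  have hG' : ∀ (s : Finset (ℤ × ℤ)) (g : ℤ × ℤ → ℝ),
      ∫ ω, (∑ v ∈ s, g v * ((ar ω (Sum.inl (v.1 - 1, v.2)) + ar ω (Sum.inl v)) / 2)) ^ 2 ∂P ≤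
          (C + 1) * ∑ v ∈ s, g v ^ 2 ∧
      ∫ ω, (∑ v ∈ s, g v * ((ar ω (Sum.inr (v.1, v.2 - 1)) + ar ω (Sum.inr v)) / 2)) ^ 2 ∂P ≤
          (C + 1) * ∑ v ∈ s, g v ^ 2 := by
    intro s g
    have h0 : 0 ≤ ∑ v ∈ s, g v ^ 2 := Finset.sum_nonneg fun v _ => sq_nonneg _
    obtain ⟨h1, h2⟩ := hG s g
    constructor <;> nlinarith only [h0, h1, h2]
  have key := fun x y => cp_first m_ice hCG hP hG' hn hR hφ0 hφ1 hφE x y
  refine ⟨key x y, ?_⟩
  have htr : P.map trO = P := hs.2.1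
  have hmt : Measurable trO := by
    refine measurable_pi_lambda _ (fun e => ?_)
    rcases e with e | e
    · exact measurable_pi_apply _
    · exact measurable_pi_apply _
  have hmar : ∀ e : Edge (ℤ × ℤ), Measurable fun ω : Ori (ℤ × ℤ) => ar ω e := fun e =>
    (measurable_of_finite fun b : Bool => (sgb b : ℝ)).comp (measurable_pi_apply e)
  refine le_trans (le_of_eq ?_) (key y x)
  conv_lhs => rw [← htr]
  rw [integral_map hmt.aemeasurable]
  · rfl
  · exact ((Finset.measurable_sum _ fun i _ => hmar _).pow_const 2).aestronglyMeasurable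

theorem hh_var {C : ℝ} (hC : 0 < C) (hcol : ∀ (n : ℕ) (x y : ℤ), 1 ≤ n →
      ∫ ω, (∑ j ∈ range n, ar ω (Sum.inl (x, y + j))) ^ 2 ∂P ≤ C * (1 + Real.log n) ∧
      ∫ ω, (∑ i ∈ range n, ar ω (Sum.inr (x + i, y))) ^ 2 ∂P ≤ C * (1 + Real.log n))
    (h : Ori (ℤ × ℤ) → ℤ × ℤ → ℤ) (hh : ∀ᵐ ω ∂P, IsHeight ω (h ω)) (x y : ℤ × ℤ) (hxy : x ≠ y) :
    ProbabilityTheory.variance (fun ω => ((h ω x - h ω y : ℤ) : ℝ)) P ≤
      4 * C * (1 + Real.log (|x.1 - y.1| + |x.2 - y.2| : ℤ)) := by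
  obtain ⟨K, hK⟩ : ∃ K : ℤ, K = |x.1 - y.1| + |x.2 - y.2| := ⟨_, rfl⟩
  have h1 := abs_nonneg (x.1 - y.1)
  have h2 := abs_nonneg (x.2 - y.2)
  have hK1 : 1 ≤ K := by
    by_contra hcon
    have h3 : |x.1 - y.1| = 0 := by omega
    have h4 : |x.2 - y.2| = 0 := by omega
    rw [abs_eq_zero] at h3 h4
    exact hxy (Prod.ext (by omega) (by omega))
  obtain ⟨V, hVm, ⟨B, hB⟩, hVi, hV⟩ := VarPAux.seg hC (fun j => Sum.inl (x.1, j))
    (fun n y hn => (hcol n x.1 y hn).1) hK1 (a := x.2) (b := y.2) (by omega)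
  obtain ⟨H, hHm, ⟨B', hB'⟩, hHi, hH⟩ := VarPAux.seg hC (fun j => Sum.inr (j, y.2))
    (fun n x hn => (hcol n x y.2 hn).2) hK1 (a := y.1) (b := x.1) (by
      rw [abs_sub_comm]; omega)
  rw [← hK]
  have hae : (fun ω => ((h ω x - h ω y : ℤ) : ℝ)) =ᵐ[P] fun ω => V ω + H ω := by
    filter_upwards [hh] with ω hω
    rw [← hV ω (fun t => ((h ω (x.1, t) : ℤ) : ℝ)) fun a n => by
        rw [← VarPAux.vert hω, Int.cast_sub],
      ← hH ω (fun t => -((h ω (t, y.2) : ℤ) : ℝ)) fun a n => by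
        rw [← VarPAux.horiz hω, Int.cast_sub]; ring]
    push_cast
    ring
  rw [ProbabilityTheory.variance_congr hae]
  refine (ProbabilityTheory.variance_le_expectation_sq (hVm.add hHm).aestronglyMeasurable).trans ?_
  have hVint : Integrable (fun ω => V ω ^ 2) P := by
    refine Integrable.of_bound (hVm.pow_const 2).aestronglyMeasurable (B ^ 2)
      (Filter.Eventually.of_forall fun ω => ?_)
    rw [Real.norm_eq_abs, abs_of_nonneg (sq_nonneg _), ← sq_abs (V ω)]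
    exact pow_le_pow_left₀ (abs_nonneg _) (hB ω) 2
  have hHint : Integrable (fun ω => H ω ^ 2) P := by
    refine Integrable.of_bound (hHm.pow_const 2).aestronglyMeasurable (B' ^ 2)
      (Filter.Eventually.of_forall fun ω => ?_)
    rw [Real.norm_eq_abs, abs_of_nonneg (sq_nonneg _), ← sq_abs (H ω)]
    exact pow_le_pow_left₀ (abs_nonneg _) (hB' ω) 2
  have h5 : ∫ ω, ((fun ω => V ω + H ω) ^ 2) ω ∂P ≤ ∫ ω, (2 * V ω ^ 2 + 2 * H ω ^ 2) ∂P := by
    refine integral_mono_of_nonneg (Filter.Eventually.of_forall fun ω => ?_)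
      ((hVint.const_mul 2).add (hHint.const_mul 2)) (Filter.Eventually.of_forall fun ω => ?_)
    · simp only [Pi.zero_apply, Pi.pow_apply]
      (clear * -; positivity)
    · simp only [Pi.pow_apply]
      nlinarith only [sq_nonneg (V ω - H ω)]
  refine h5.trans ?_
  rw [integral_add (hVint.const_mul 2) (hHint.const_mul 2), integral_const_mul,
    integral_const_mul]
  linarith only [hVi, hHi]

/-! ### Correlations of the arrows -/

/-- Correlation of two arrows. -/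
noncomputable def cE (P : Measure (Ori (ℤ × ℤ))) (e e' : Edge (ℤ × ℤ)) : ℝ :=
  ∫ ω, ar ω e * ar ω e' ∂P

lemma ar_meas (e : Edge (ℤ × ℤ)) : Measurable fun ω : Ori (ℤ × ℤ) => ar ω e :=
  VarPAux.meas e

lemma ar_prod_int (e e' : Edge (ℤ × ℤ)) : Integrable (fun ω => ar ω e * ar ω e') P := by
  refine Integrable.of_bound ((ar_meas e).mul (ar_meas e')).aestronglyMeasurable 1
    (Eventually.of_forall fun ω => ?_)
  rw [Real.norm_eq_abs, abs_mul]
  exact mul_le_one₀ (VarPAux.abs_ar ω e) (abs_nonneg _) (VarPAux.abs_ar ω e')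

omit [IsProbabilityMeasure P] in
lemma cE_comm (e e' : Edge (ℤ × ℤ)) : cE P e e' = cE P e' e := by
  unfold cE
  simp only [mul_comm]

omit [IsProbabilityMeasure P] in
/-- Image of an edge under a transformation of the orientations. -/
lemma cE_map (T : Ori (ℤ × ℤ) → Ori (ℤ × ℤ)) (hT : Measurable T) (hm : P.map T = P)
    (e e' f f' : Edge (ℤ × ℤ)) (h : ∀ ω, ar (T ω) e * ar (T ω) e' = ar ω f * ar ω f') :
    cE P e e' = cE P f f' := by
  have h1 : ∫ ω, ar ω e * ar ω e' ∂(P.map T) = ∫ ω, ar (T ω) e * ar (T ω) e' ∂P :=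
    integral_map hT.aemeasurable ((ar_meas e).mul (ar_meas e')).aestronglyMeasurable
  rw [hm] at h1
  unfold cE
  rw [h1]
  simp only [h]

lemma cE_sh (hs : SymP P) (a : ℤ × ℤ) (e e' : Edge (ℤ × ℤ)) :
    cE P (Sum.map (· + a) (· + a) e) (Sum.map (· + a) (· + a) e') = cE P e e' := by
  symm
  refine cE_map (shO a.1 a.2) (by
    refine measurable_pi_lambda _ (fun e => ?_)
    rcases e with e | e
    · exact measurable_pi_apply _
    · exact measurable_pi_apply _) (hs.1 a.1 a.2) _ _ _ _ (fun ω => ?_)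
  rcases e with v | v <;> rcases e' with v' | v' <;> rfl

/-- Bessel's inequality. -/
lemma bessel {ι : Type} (A : ι → Ori (ℤ × ℤ) → ℝ) (X : Ori (ℤ × ℤ) → ℝ) (hA : ∀ i, Measurable (A i))
    (hAb : ∀ i ω, |A i ω| ≤ 1) (hX : Measurable X) (hXb : ∀ ω, |X ω| ≤ 1) {C : ℝ} (hC : 0 < C)
    (hG : ∀ (s : Finset ι) (g : ι → ℝ), ∫ ω, (∑ v ∈ s, g v * A v ω) ^ 2 ∂P ≤ C * ∑ v ∈ s, g v ^ 2)
    (s : Finset ι) : ∑ v ∈ s, (∫ ω, X ω * A v ω ∂P) ^ 2 ≤ C := by
  set u : ι → ℝ := fun v => ∫ ω, X ω * A v ω ∂P with hu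
  set Y : Ori (ℤ × ℤ) → ℝ := fun ω => ∑ v ∈ s, u v * A v ω with hY
  have hYm : Measurable Y := Finset.measurable_sum _ fun v _ => (hA v).const_mul _
  have hYb : ∀ ω, |Y ω| ≤ ∑ v ∈ s, |u v| := by
    intro ω
    refine (Finset.abs_sum_le_sum_abs _ _).trans (Finset.sum_le_sum fun v _ => ?_)
    rw [abs_mul]
    calc |u v| * |A v ω| ≤ |u v| * 1 := mul_le_mul_of_nonneg_left (hAb v ω) (abs_nonneg _)
      _ = _ := mul_one _
  have hYi : Integrable (fun ω => Y ω ^ 2) P := by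
    refine Integrable.of_bound (hYm.pow_const 2).aestronglyMeasurable ((∑ v ∈ s, |u v|) ^ 2)
      (Eventually.of_forall fun ω => ?_)
    rw [Real.norm_eq_abs, abs_pow]
    exact pow_le_pow_left₀ (abs_nonneg _) (hYb ω) 2
  have hXi : Integrable (fun ω => X ω ^ 2) P := by
    refine Integrable.of_bound (hX.pow_const 2).aestronglyMeasurable 1
      (Eventually.of_forall fun ω => ?_)
    rw [Real.norm_eq_abs, abs_pow]
    exact pow_le_one₀ (abs_nonneg _) (hXb ω)
  have hXAi : ∀ v, Integrable (fun ω => X ω * A v ω) P := by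
    intro v
    refine Integrable.of_bound (hX.mul (hA v)).aestronglyMeasurable 1
      (Eventually.of_forall fun ω => ?_)
    rw [Real.norm_eq_abs, abs_mul]
    exact mul_le_one₀ (hXb ω) (abs_nonneg _) (hAb v ω)
  have h1 : ∑ v ∈ s, u v ^ 2 = ∫ ω, X ω * Y ω ∂P := by
    have e : ∀ ω, X ω * Y ω = ∑ v ∈ s, u v * (X ω * A v ω) := by
      intro ω
      rw [hY]
      simp only
      rw [Finset.mul_sum]
      exact Finset.sum_congr rfl fun v _ => by ring
    simp only [e]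
    rw [integral_finsetSum _ fun v _ => (hXAi v).const_mul _]
    refine Finset.sum_congr rfl fun v _ => ?_
    rw [integral_const_mul, sq]
  have h2 : ∫ ω, X ω * Y ω ∂P ≤ ∫ ω, ((C * X ω ^ 2 + Y ω ^ 2 / C) / 2) ∂P := by
    refine integral_mono ?_ (((hXi.const_mul C).add (hYi.div_const C)).div_const 2) (fun ω => ?_)
    · refine Integrable.of_bound (hX.mul hYm).aestronglyMeasurable (∑ v ∈ s, |u v|)
        (Eventually.of_forall fun ω => ?_)
      rw [Real.norm_eq_abs, abs_mul]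
      calc |X ω| * |Y ω| ≤ 1 * (∑ v ∈ s, |u v|) :=
            mul_le_mul (hXb ω) (hYb ω) (abs_nonneg _) zero_le_one
        _ = _ := one_mul _
    · show X ω * Y ω ≤ (C * X ω ^ 2 + Y ω ^ 2 / C) / 2
      have h3 : Y ω ^ 2 / C * C = Y ω ^ 2 := div_mul_cancel₀ _ hC.ne'
      have h4 : X ω * Y ω * C ≤ (C * X ω ^ 2 + Y ω ^ 2 / C) / 2 * C := by
        nlinarith only [h3, sq_nonneg (C * X ω - Y ω)]
      exact le_of_mul_le_mul_right h4 hC
  rw [integral_div, integral_add (hXi.const_mul C) (hYi.div_const C), integral_const_mul,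
    integral_div] at h2
  have h5 : ∫ ω, X ω ^ 2 ∂P ≤ 1 := by
    have h6 : ∫ ω, X ω ^ 2 ∂P ≤ ∫ _ω, (1 : ℝ) ∂P := by
      refine integral_mono hXi (integrable_const _) fun ω => ?_
      show X ω ^ 2 ≤ 1
      rw [← sq_abs]
      exact pow_le_one₀ (abs_nonneg _) (hXb ω)
    simpa only [ge_iff_le, integral_const, probReal_univ, smul_eq_mul, mul_one] using h6
  have h7 : (∫ ω, Y ω ^ 2 ∂P) / C ≤ ∑ v ∈ s, u v ^ 2 := by
    rw [div_le_iff₀ hC, mul_comm]
    exact hG s u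
  show ∑ v ∈ s, u v ^ 2 ≤ C
  nlinarith only [h1, h2, h7, hC, h5]

lemma bessel_tendsto {ι : Type} (A : ι → Ori (ℤ × ℤ) → ℝ) (X : Ori (ℤ × ℤ) → ℝ)
    (hA : ∀ i, Measurable (A i)) (hAb : ∀ i ω, |A i ω| ≤ 1) (hX : Measurable X)
    (hXb : ∀ ω, |X ω| ≤ 1) {C : ℝ} (hC : 0 < C)
    (hG : ∀ (s : Finset ι) (g : ι → ℝ), ∫ ω, (∑ v ∈ s, g v * A v ω) ^ 2 ∂P ≤
      C * ∑ v ∈ s, g v ^ 2) :
    Tendsto (fun v => ∫ ω, X ω * A v ω ∂P) cofinite (𝓝 0) := by
  have h1 : Summable fun v => (∫ ω, X ω * A v ω ∂P) ^ 2 :=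
    summable_of_sum_le (fun v => sq_nonneg _) (fun s => bessel A X hA hAb hX hXb hC hG s)
  have h2 := h1.tendsto_cofinite_zero
  have h3 := h2.sqrt
  rw [Real.sqrt_zero] at h3
  have h4 : (fun v => √((∫ ω, X ω * A v ω ∂P) ^ 2)) = fun v => |∫ ω, X ω * A v ω ∂P| :=
    funext fun v => Real.sqrt_sq_eq_abs _
  rw [h4] at h3
  exact (tendsto_zero_iff_abs_tendsto_zero _).2 h3

lemma avl (hG : ∃ C : ℝ, 0 ≤ C ∧ GD P C) (e : Edge (ℤ × ℤ)) :
    Tendsto (fun v : ℤ × ℤ => cE P e (Sum.inl (v.1 - 1, v.2)) + cE P e (Sum.inl v)) cofinite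
      (𝓝 0) := by
  obtain ⟨C, hC, hG⟩ := hG
  have h := bessel_tendsto (P := P)
    (fun (v : ℤ × ℤ) ω => (ar ω (Sum.inl (v.1 - 1, v.2)) + ar ω (Sum.inl v)) / 2)
    (fun ω => ar ω e) (fun v => ((ar_meas _).add (ar_meas _)).div_const 2)
    (fun v ω => by
      have h1 := abs_le.1 (VarPAux.abs_ar ω (Sum.inl (v.1 - 1, v.2)))
      have h2 := abs_le.1 (VarPAux.abs_ar ω (Sum.inl v))
      rw [abs_le]; constructor <;> linarith)
    (ar_meas e) (fun ω => VarPAux.abs_ar ω e) (C := C + 1) (by linarith)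
    (fun s g => (hG s g).1.trans (mul_le_mul_of_nonneg_right (by linarith)
      (Finset.sum_nonneg fun v _ => sq_nonneg _)))
  have h2 := h.const_mul 2
  rw [mul_zero] at h2
  refine h2.congr fun v => ?_
  unfold cE
  rw [← integral_add (ar_prod_int _ _) (ar_prod_int _ _), ← integral_const_mul]
  refine integral_congr_ae (Eventually.of_forall fun ω => ?_)
  simp only
  ring

lemma avr (hG : ∃ C : ℝ, 0 ≤ C ∧ GD P C) (e : Edge (ℤ × ℤ)) :
    Tendsto (fun v : ℤ × ℤ => cE P e (Sum.inr (v.1, v.2 - 1)) + cE P e (Sum.inr v)) cofinite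
      (𝓝 0) := by
  obtain ⟨C, hC, hG⟩ := hG
  have h := bessel_tendsto (P := P)
    (fun (v : ℤ × ℤ) ω => (ar ω (Sum.inr (v.1, v.2 - 1)) + ar ω (Sum.inr v)) / 2)
    (fun ω => ar ω e) (fun v => ((ar_meas _).add (ar_meas _)).div_const 2)
    (fun v ω => by
      have h1 := abs_le.1 (VarPAux.abs_ar ω (Sum.inr (v.1, v.2 - 1)))
      have h2 := abs_le.1 (VarPAux.abs_ar ω (Sum.inr v))
      rw [abs_le]; constructor <;> linarith)
    (ar_meas e) (fun ω => VarPAux.abs_ar ω e) (C := C + 1) (by linarith)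
    (fun s g => (hG s g).2.trans (mul_le_mul_of_nonneg_right (by linarith)
      (Finset.sum_nonneg fun v _ => sq_nonneg _)))
  have h2 := h.const_mul 2
  rw [mul_zero] at h2
  refine h2.congr fun v => ?_
  unfold cE
  rw [← integral_add (ar_prod_int _ _) (ar_prod_int _ _), ← integral_const_mul]
  refine integral_congr_ae (Eventually.of_forall fun ω => ?_)
  simp only
  ring

lemma ice_ar {ω : Ori (ℤ × ℤ)} {x y : ℤ} (h : Ice ω x y) :
    ar ω (Sum.inl (x - 1, y)) + ar ω (Sum.inr (x, y - 1)) =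
      ar ω (Sum.inl (x, y)) + ar ω (Sum.inr (x, y)) := by
  unfold Ice at h
  unfold ar sgb
  cases h1 : ω (Sum.inl (x - 1, y)) <;> cases h2 : ω (Sum.inr (x, y - 1)) <;>
    cases h3 : ω (Sum.inl (x, y)) <;> cases h4 : ω (Sum.inr (x, y)) <;>
    simp only [h1, h2, h3, h4] at h <;> simp_all

lemma ice_cE (hice : ∀ᵐ ω ∂P, ∀ x y, Ice ω x y) (e : Edge (ℤ × ℤ)) (v : ℤ × ℤ) :
    cE P e (Sum.inl (v.1 - 1, v.2)) + cE P e (Sum.inr (v.1, v.2 - 1)) =
      cE P e (Sum.inl v) + cE P e (Sum.inr v) := by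
  unfold cE
  rw [← integral_add (ar_prod_int _ _) (ar_prod_int _ _),
    ← integral_add (ar_prod_int _ _) (ar_prod_int _ _)]
  refine integral_congr_ae ?_
  filter_upwards [hice] with ω hω
  have h := ice_ar (hω v.1 v.2)
  rw [← mul_add, ← mul_add, h]

/-- The horizontal and the vertical correlations are opposite up to a vanishing error. -/
lemma sum_zero (hice : ∀ᵐ ω ∂P, ∀ x y, Ice ω x y) (hG : ∃ C : ℝ, 0 ≤ C ∧ GD P C)
    (e : Edge (ℤ × ℤ)) :
    Tendsto (fun v : ℤ × ℤ => cE P e (Sum.inl v) + cE P e (Sum.inr v)) cofinite (𝓝 0) := by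
  have h := ((avl hG e).add (avr hG e)).div_const 2
  rw [add_zero, zero_div] at h
  refine h.congr fun v => ?_
  have h1 := ice_cE hice e v
  linarith only [h1]

theorem hh_swap (hice : ∀ᵐ ω ∂P, ∀ x y, Ice ω x y) (hs : SymP P)
    (hG : ∃ C : ℝ, 0 ≤ C ∧ GD P C) :
    Tendsto (fun v : ℤ × ℤ => cE P (Sum.inl 0) (Sum.inl v) - cE P (Sum.inl 0) (Sum.inl v.swap))
      cofinite (𝓝 0) := by
  have h1 := sum_zero hice hG (Sum.inl 0)
  have h2 := (sum_zero hice hG (Sum.inr 0)).comp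
    ((neg_injective (G := ℤ × ℤ)).tendsto_cofinite)
  have h3 := h1.sub h2
  rw [sub_zero] at h3
  refine h3.congr fun v => ?_
  -- L(-v) = K(v)
  have e1 : cE P (Sum.inr 0) (Sum.inl (-v)) = cE P (Sum.inl 0) (Sum.inr v) := by
    rw [cE_comm, ← cE_sh hs v (Sum.inl (-v)) (Sum.inr 0)]
    congr 1
    · simp
    · simp
  -- V(-v) = H(v.swap)
  have e2 : cE P (Sum.inr 0) (Sum.inr (-v)) = cE P (Sum.inl 0) (Sum.inl v.swap) := by
    have e3 : cE P (Sum.inr 0) (Sum.inr (-v)) = cE P (Sum.inr v) (Sum.inr 0) := by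
      rw [← cE_sh hs v (Sum.inr 0) (Sum.inr (-v))]
      congr 1
      · simp
      · simp
    rw [e3, cE_comm]
    refine cE_map trO (by
      refine measurable_pi_lambda _ (fun e => ?_)
      rcases e with e | e
      · exact measurable_pi_apply _
      · exact measurable_pi_apply _) hs.2.1 _ _ _ _ (fun ω => ?_)
    rfl
  show cE P (Sum.inl 0) (Sum.inl v) + cE P (Sum.inl 0) (Sum.inr v) -
    (cE P (Sum.inr 0) (Sum.inl (-v)) + cE P (Sum.inr 0) (Sum.inr (-v))) = _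
  rw [e1, e2]
  ring

/-! ### Reflection positivity -/

lemma hh_neg (hs : SymP P) (v : ℤ × ℤ) :
    cE P (Sum.inl 0) (Sum.inl (-v)) = cE P (Sum.inl 0) (Sum.inl v) := by
  rw [← cE_sh hs v (Sum.inl 0) (Sum.inl (-v)), cE_comm]
  congr 1
  · simp
  · simp

lemma hh_refl (hs : SymP P) (v : ℤ × ℤ) :
    cE P (Sum.inl 0) (Sum.inl (-v.1, v.2)) = cE P (Sum.inl 0) (Sum.inl v) := by
  have h1 : cE P (Sum.inl (-1, 0)) (Sum.inl (-v.1 - 1, v.2)) =
      cE P (Sum.inl 0) (Sum.inl (-v.1, v.2)) := by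
    rw [← cE_sh hs (1, 0) (Sum.inl (-1, 0)) (Sum.inl (-v.1 - 1, v.2))]
    congr 1 <;> simp
  rw [← h1]
  symm
  refine cE_map reO (by
    refine measurable_pi_lambda _ (fun e => ?_)
    rcases e with e | e
    · exact measurable_pi_apply _
    · exact (measurable_of_finite (fun b : Bool => !b)).comp
        (measurable_pi_apply (Sum.inr (-e.1, e.2)))) hs.2.2.2 _ _ _ _ (fun ω => ?_)
  rfl

/-- Correlations between columns at distance `x + x'`. -/
lemma hh_rp (hs : SymP P) (hX : GRP P dX RX) {x x' : ℤ} (hx : 0 ≤ x) (hx' : 0 ≤ x') (y : ℤ) :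
    2 * |cE P (Sum.inl 0) (Sum.inl (x + x', y))| ≤
      cE P (Sum.inl 0) (Sum.inl (2 * x, 0)) + cE P (Sum.inl 0) (Sum.inl (2 * x', 0)) := by
  have key : ∀ s : ℝ, 0 ≤ cE P (Sum.inl 0) (Sum.inl (2 * x, 0)) +
      s * (2 * cE P (Sum.inl 0) (Sum.inl (x + x', y))) +
      s ^ 2 * cE P (Sum.inl 0) (Sum.inl (2 * x', 0)) := by
    intro s
    have h1 := hX 0 (fun ω => ar ω (Sum.inl (x, 0)) + s * ar ω (Sum.inl (x', y)))
      {Sum.inl (x, 0), Sum.inl (x', y)} (by
        intro e he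
        simp only [Finset.mem_insert, Finset.mem_singleton] at he
        rcases he with rfl | rfl
        · exact ⟨hx, hx⟩
        · exact ⟨hx', hx'⟩) (by
        intro ω ω' h
        have e1 := h (Sum.inl (x, 0)) (by simp)
        have e2 := h (Sum.inl (x', y)) (by simp)
        unfold ar
        rw [e1, e2])
    have h2 : ∀ ω : Ori (ℤ × ℤ), (ar ω (Sum.inl (x, 0)) + s * ar ω (Sum.inl (x', y))) *
        (ar (RX 0 ω) (Sum.inl (x, 0)) + s * ar (RX 0 ω) (Sum.inl (x', y))) =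
        ar ω (Sum.inl (x, 0)) * ar ω (Sum.inl (2 * 0 - x, 0)) +
        s * (ar ω (Sum.inl (x, 0)) * ar ω (Sum.inl (2 * 0 - x', y))) +
        s * (ar ω (Sum.inl (x', y)) * ar ω (Sum.inl (2 * 0 - x, 0))) +
        s ^ 2 * (ar ω (Sum.inl (x', y)) * ar ω (Sum.inl (2 * 0 - x', y))) := by
      intro ω
      show (ar ω (Sum.inl (x, 0)) + s * ar ω (Sum.inl (x', y))) *
        (ar ω (Sum.inl (2 * 0 - x, 0)) + s * ar ω (Sum.inl (2 * 0 - x', y))) = _
      ring
    have h3 : 0 ≤ cE P (Sum.inl (x, 0)) (Sum.inl (2 * 0 - x, 0)) +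
        s * cE P (Sum.inl (x, 0)) (Sum.inl (2 * 0 - x', y)) +
        s * cE P (Sum.inl (x', y)) (Sum.inl (2 * 0 - x, 0)) +
        s ^ 2 * cE P (Sum.inl (x', y)) (Sum.inl (2 * 0 - x', y)) := by
      refine h1.trans (le_of_eq ?_)
      simp only [h2]
      unfold cE
      rw [integral_add, integral_add, integral_add, integral_const_mul, integral_const_mul,
        integral_const_mul]
      · exact ar_prod_int _ _
      · exact (ar_prod_int _ _).const_mul _
      · exact (ar_prod_int _ _).add ((ar_prod_int _ _).const_mul _)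
      · exact (ar_prod_int _ _).const_mul _
      · exact ((ar_prod_int _ _).add ((ar_prod_int _ _).const_mul _)).add
          ((ar_prod_int _ _).const_mul _)
      · exact (ar_prod_int _ _).const_mul _
    have t : ∀ a b a' b' : ℤ, cE P (Sum.inl (a, b)) (Sum.inl (a', b')) =
        cE P (Sum.inl 0) (Sum.inl (a' - a, b' - b)) := by
      intro a b a' b'
      rw [← cE_sh hs (a, b) (Sum.inl 0) (Sum.inl (a' - a, b' - b))]
      congr 1
      · simp
      · simp
    rw [t x 0 (2 * 0 - x) 0, t x 0 (2 * 0 - x') y, t x' y (2 * 0 - x) 0,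
      t x' y (2 * 0 - x') y] at h3
    have r1 : cE P (Sum.inl 0) (Sum.inl (2 * 0 - x - x, 0 - 0)) =
        cE P (Sum.inl 0) (Sum.inl (2 * x, 0)) := by
      rw [← hh_refl hs (2 * x, 0)]
      congr 2
      exact Prod.ext (by simp only; ring) (by simp)
    have r2 : cE P (Sum.inl 0) (Sum.inl (2 * 0 - x' - x, y - 0)) =
        cE P (Sum.inl 0) (Sum.inl (x + x', y)) := by
      rw [← hh_refl hs (x + x', y)]
      congr 2
      exact Prod.ext (by simp only; ring) (by simp)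
    have r3 : cE P (Sum.inl 0) (Sum.inl (2 * 0 - x - x', 0 - y)) =
        cE P (Sum.inl 0) (Sum.inl (x + x', y)) := by
      rw [← hh_neg hs (x + x', y)]
      congr 2
      exact Prod.ext (by simp only [Prod.fst_neg]; ring) (by simp)
    have r4 : cE P (Sum.inl 0) (Sum.inl (2 * 0 - x' - x', y - y)) =
        cE P (Sum.inl 0) (Sum.inl (2 * x', 0)) := by
      rw [← hh_refl hs (2 * x', 0)]
      congr 2
      exact Prod.ext (by simp only; ring) (by simp)
    rw [r1, r2, r3, r4] at h3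
    linarith only [h3]
  have k1 := key 1
  have k2 := key (-1)
  have h1 : |cE P (Sum.inl 0) (Sum.inl (x + x', y))| ≤
      (cE P (Sum.inl 0) (Sum.inl (2 * x, 0)) + cE P (Sum.inl 0) (Sum.inl (2 * x', 0))) / 2 := by
    rw [abs_le]
    constructor <;> linarith only [k1, k2]
  linarith only [h1]

/-- Decay of the correlations of the arrows in all directions. -/
theorem hh_cc (hice : ∀ᵐ ω ∂P, ∀ x y, Ice ω x y) (hs : SymP P) (hG : ∃ C : ℝ, 0 ≤ C ∧ GD P C)
    (hX : GRP P dX RX) (hdec : Tendsto (fun m : ℕ => Cc P 0 m) atTop (𝓝 0)) :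
    Tendsto (fun a : ℤ × ℤ => ∫ ω, ar ω (Sum.inl 0) * ar ω (Sum.inl a) ∂P) cofinite (𝓝 0) := by
  have hsw := hh_swap hice hs hG
  rw [Metric.tendsto_nhds] at hsw ⊢
  intro ε hε
  rw [Metric.tendsto_atTop] at hdec
  obtain ⟨N, hN⟩ := hdec (ε / 2) (by linarith only [hε])
  have hH : ∀ n : ℤ, (N : ℤ) ≤ n → cE P (Sum.inl 0) (Sum.inl (n, 0)) < ε / 2 := by
    intro n hn
    obtain ⟨k, hk⟩ := Int.eq_ofNat_of_zero_le (show 0 ≤ n by omega)
    have h1 := hN k (by omega)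
    rw [Real.dist_eq, sub_zero] at h1
    have h2 : Cc P 0 k = cE P (Sum.inl 0) (Sum.inl (n, 0)) := by
      rw [hk]
      rfl
    rw [← h2]
    exact (le_abs_self _).trans_lt h1
  have hcol : ∀ (n y : ℤ), (N : ℤ) + 1 ≤ n → |cE P (Sum.inl 0) (Sum.inl (n, y))| < ε / 2 := by
    intro n y hn
    have h1 := hh_rp hs hX (x := n / 2) (x' := n - n / 2) (by omega) (by omega) y
    rw [show n / 2 + (n - n / 2) = n by ring] at h1
    have h2 := hH (2 * (n / 2)) (by omega)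
    have h3 := hH (2 * (n - n / 2)) (by omega)
    linarith
  have hcol' : ∀ (n y : ℤ), (N : ℤ) + 1 ≤ |n| → |cE P (Sum.inl 0) (Sum.inl (n, y))| < ε / 2 := by
    intro n y hn
    rcases le_total 0 n with h | h
    · exact hcol n y (by rwa [abs_of_nonneg h] at hn)
    · rw [← hh_refl hs (n, y)]
      exact hcol (-n) y (by rwa [abs_of_nonpos h] at hn)
  have hfin : ∀ᶠ v : ℤ × ℤ in cofinite, (N : ℤ) + 1 ≤ |v.1| ∨ (N : ℤ) + 1 ≤ |v.2| := by
    rw [eventually_cofinite]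
    refine ((Finset.Icc (-(N : ℤ)) N ×ˢ Finset.Icc (-(N : ℤ)) N).finite_toSet).subset ?_
    intro v hv
    simp only [Set.mem_ofPred_eq, not_or, not_le] at hv
    have h1 := abs_lt.1 hv.1
    have h2 := abs_lt.1 hv.2
    simp only [Finset.coe_product, Finset.coe_Icc, Set.mem_prod, Set.mem_Icc]
    (clear * - h1 h2; omega)
  filter_upwards [hsw (ε / 2) (by linarith), hfin] with v h1 h2
  rw [Real.dist_eq, sub_zero] at h1 ⊢
  show |cE P (Sum.inl 0) (Sum.inl v)| < ε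
  rcases h2 with h2 | h2
  · have := hcol' v.1 v.2 h2
    exact this.trans (by linarith only [hε])
  · have h3 : |cE P (Sum.inl 0) (Sum.inl v.swap)| < ε / 2 := hcol' v.2 v.1 h2
    have h4 : cE P (Sum.inl 0) (Sum.inl v) = (cE P (Sum.inl 0) (Sum.inl v) -
        cE P (Sum.inl 0) (Sum.inl v.swap)) + cE P (Sum.inl 0) (Sum.inl v.swap) := by ring
    rw [h4]
    exact (abs_add_le _ _).trans_lt (by linarith only [h1, h3])

/-- **The properties of the plane measure used for the spin model.** -/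
theorem hyp_hi {c : ℝ} (hP : IsP c P) (hs : SymP P) (hG : ∃ C : ℝ, 0 ≤ C ∧ GD P C)
    (hX : GRP P dX RX) (hdec : Tendsto (fun m : ℕ => Cc P 0 m) atTop (𝓝 0)) : FP.Hyp P := by
  have hPl : Pl c P := pl_of_sym hP hs
  refine ⟨hPl.ice, hh_cc hPl.ice hs hG hX hdec, hPl.shift, ?_⟩
  obtain ⟨C, hC, hGD⟩ := hG
  obtain ⟨C', hC', hcol⟩ := hh_col hP hs hC hGD
  have hpth : ∀ᵐ ω ∂P, P152.IsHeight ω (pth ω) := by
    filter_upwards [hPl.ice] with ω hω
    exact pth_isHeight hω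
  refine ⟨4 * C', by positivity, fun q hq => ?_⟩
  have h1 := hh_var hC' hcol (fun ω => pth ω) hpth q 0 hq
  have h2 := P152.var_height (c := c) ⟨id, strictMono_id, hP.2.1⟩ (fun ω => pth ω) hpth q
  rw [h2] at h1
  simpa only [Prod.fst_zero, Prod.snd_zero, sub_zero] using h1

end Vale.Agent.P145.FA
end

section

/-!
P145: convergence of the boxes with free arrows for `c ^ 2 ≤ 2`.
-/

namespace Vale.Agent.P145.FA

open Finset Filter Topology MeasureTheory
open Vale.Agent.P152 Vale.Agent.P152.GFF.B3 Vale.Agent.P152.GFF.E2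

theorem boxLim_of_sq {c : ℝ} (hc : 0 < c) (hc2 : c ^ 2 ≤ 2) : BoxLim c := by
  intro m r hm hr Ψ _ ε hε
  obtain ⟨q0, hq0⟩ := m_muI (wc c) (wc_good hc hc2) m r hm hr Ψ ε hε
  exact ⟨q0, fun q hq => hq0 (q + m + q) (q + r + q) q q (by omega) (by omega) hq hq (by omega)
    (by omega)⟩

end Vale.Agent.P145.FA
end

section

/-!
P145, block F-B, (A): from the boxes with free arrows to the infinite-volume arrow state.
-/

set_option autoImplicit false

namespace Vale.Agent.P145.FB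

open Finset Filter Topology MeasureTheory
open Vale.Agent.P152
open Vale.Agent.P152.GFF.B3 (BE boxNet Net bxf bxg mu muI insW m_loc m_emb)
open Vale.Agent.P152.GFF.E2 (DG FB boxD fSW fSE fNW fNE pty fg rim wd aE aO EvV Hts st_hbox st_emb
  t3_fiber t3_w6 Emb)
open Vale.Agent.P145.FA (BoxLim rg_evn rg_par rg_W6_nonneg)

/-! ### Bonds -/

/-- Conditional weight of a bond given the differences. -/
noncomputable def kpb (c : ℝ) (a b : ZMod 2) (o : Bool) : ℝ :=
  if b = 0 then (if a = 0 then (if o = true then 1 / c else 1 - 1 / c)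
    else (if o = true then 0 else 1)) else (if o = true then 1 else 0)

lemma kpb_sum (c : ℝ) (a b : ZMod 2) : ∑ o : Bool, kpb c a b o = 1 := by
  rw [Fintype.sum_bool]
  unfold kpb
  split_ifs <;> simp_all

lemma z2_cases (x : ZMod 2) : x = 0 ∨ x = 1 := by revert x; decide

lemma kpb_mul {c : ℝ} (hc : c ≠ 0) (a b : ZMod 2) (o : Bool) :
    wd c 0 a b * kpb c a b o = Ub c a b o := by
  have h10 : ¬ ((1 : ZMod 2) = 0) := by decide
  rcases z2_cases a with rfl | rfl <;> rcases z2_cases b with rfl | rfl <;> cases o <;>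
    simp [wd, kpb, Ub, h10] <;> field_simp

/-- Sums over the bonds of a big graph of an observable of a part. -/
lemma sum_ext {V W : Type} [Fintype V] [DecidableEq V] [Fintype W] [DecidableEq W] (ι : W → V)
    (hι : Function.Injective ι) (K : V → Bool → ℝ) (hK : ∀ v, ∑ b, K v b = 1)
    (G : (W → Bool) → ℝ) :
    ∑ o : V → Bool, (∏ v, K v (o v)) * G (fun w => o (ι w)) =
      ∑ o : W → Bool, (∏ w, K (ι w) (o w)) * G o := by
  classical
  have h1 : ∀ o' : W → Bool, ∑ o ∈ univ.filter (fun o : V → Bool => (fun w => o (ι w)) = o'),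
      ∏ v, K v (o v) = ∏ w, K (ι w) (o' w) := by
    intro o'
    set K' : V → Bool → ℝ := fun v b => if ∃ w, ι w = v ∧ o' w ≠ b then 0 else K v b with hK'
    have e1 : ∀ o : V → Bool, (if (fun w => o (ι w)) = o' then ∏ v, K v (o v) else 0) =
        ∏ v, K' v (o v) := by
      intro o
      split_ifs with h
      · refine Finset.prod_congr rfl fun v _ => ?_
        rw [hK']
        simp only
        rw [if_neg]
        rintro ⟨w, hw, hne⟩
        apply hne
        rw [← h, ← hw]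
      · obtain ⟨w, hw⟩ := Function.ne_iff.1 h
        symm
        refine Finset.prod_eq_zero (Finset.mem_univ (ι w)) ?_
        rw [hK']
        simp only
        rw [if_pos ⟨w, rfl, fun h => hw h.symm⟩]
    rw [Finset.sum_filter, Finset.sum_congr rfl fun o _ => e1 o, ← Fintype.prod_sum]
    have e2 : ∀ v, ∑ b, K' v b = if h : ∃ w, ι w = v then K v (o' h.choose) else 1 := by
      intro v
      split_ifs with h
      · have hc := h.choose_spec
        rw [Finset.sum_eq_single (o' h.choose)]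
        · rw [hK']
          simp only
          rw [if_neg]
          rintro ⟨w, hw, hne⟩
          exact hne (by rw [hι (hw.trans hc.symm)])
        · intro b _ hb
          rw [hK']
          simp only
          rw [if_pos ⟨_, hc, fun h => hb h.symm⟩]
        · intro h; exact absurd (Finset.mem_univ _) h
      · rw [← hK v]
        refine Finset.sum_congr rfl fun b _ => ?_
        rw [hK']
        simp only
        rw [if_neg]
        rintro ⟨w, hw, -⟩
        exact h ⟨w, hw⟩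
    rw [Finset.prod_congr rfl fun v _ => e2 v]
    rw [← Finset.prod_subset (Finset.subset_univ (univ.image ι))]
    · rw [Finset.prod_image fun a _ b _ h => hι h]
      refine Finset.prod_congr rfl fun w _ => ?_
      have hex : ∃ w', ι w' = ι w := ⟨w, rfl⟩
      rw [dif_pos hex, hι hex.choose_spec]
    · intro v _ hv
      rw [dif_neg]
      rintro ⟨w, hw⟩
      exact hv (Finset.mem_image.2 ⟨w, Finset.mem_univ _, hw⟩)
  rw [← Finset.sum_fiberwise (s := univ) (g := fun o : V → Bool => fun w => o (ι w))]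
  refine Finset.sum_congr rfl fun o' _ => ?_
  rw [← h1 o', Finset.sum_mul]
  refine Finset.sum_congr rfl fun o ho => ?_
  rw [(Finset.mem_filter.1 ho).2]

/-! ### Even faces -/

/-- Even faces of the box. -/
def Evf {m r : ℕ} (par : ZMod 2) (q : FB m r) : Prop := (q.1.val : ZMod 2) + q.2.val + par = 0

/-- Spins with the same differences agree up to a constant on the even faces. -/
lemma al_zero {m r : ℕ} (hm : 1 ≤ m) (hr : 1 ≤ r) (par : ZMod 2) (p : FB m r → ZMod 2)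
    (h : ∀ v, (boxD m r par).al p v = 0) : ∃ s, ∀ q, Evf par q → p q = s := by
  set X : ℕ → ℕ → ZMod 2 := fun i j =>
    if hh : i < m + 1 ∧ j < r + 1 then p (⟨i, hh.1⟩, ⟨j, hh.2⟩) else 0 with hX
  have hXp : ∀ q : FB m r, X q.1.val q.2.val = p q := by
    intro q
    rw [hX]
    simp only
    rw [dif_pos ⟨q.1.2, q.2.2⟩]
  have hz : ∀ a b : ZMod 2, a + b = 0 → a = b := by decide
  -- steps
  have s0 : ∀ i j : ℕ, i < m → j < r → (i : ZMod 2) + j + par = 0 → X (i + 1) (j + 1) = X i j := by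
    intro i j hi hj hp
    have h1 := h (⟨i, hi⟩, ⟨j, hj⟩)
    unfold DG.al boxD at h1
    simp only at h1
    have hpt : pty par ((⟨i, hi⟩, ⟨j, hj⟩) : Fin m × Fin r) = 0 := hp
    rw [if_pos hpt, if_pos hpt] at h1
    simp only [Bool.false_eq_true, if_false, if_true, Vale.Agent.P152.GFF.E2.ev, Option.elim] at h1
    have h2 := hz _ _ h1
    rw [← hXp, ← hXp] at h2
    exact h2.symm
  have s1 : ∀ i j : ℕ, i < m → j < r → (i : ZMod 2) + j + par = 1 → X (i + 1) j = X i (j + 1) := by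
    intro i j hi hj hp
    have h1 := h (⟨i, hi⟩, ⟨j, hj⟩)
    unfold DG.al boxD at h1
    simp only at h1
    have hpt : ¬ pty par ((⟨i, hi⟩, ⟨j, hj⟩) : Fin m × Fin r) = 0 := by
      show ¬ ((i : ZMod 2) + j + par = 0)
      rw [hp]; decide
    rw [if_neg hpt, if_neg hpt] at h1
    simp only [Bool.false_eq_true, if_false, if_true, Vale.Agent.P152.GFF.E2.ev, Option.elim] at h1
    have h2 := hz _ _ h1
    rw [← hXp, ← hXp] at h2
    exact h2
  have zz : ∀ a : ZMod 2, a + 1 + 1 = a := by decide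
  have key : ∀ n i j : ℕ, i + j = n → i ≤ m → j ≤ r → (i : ZMod 2) + j + par = 0 →
      X i j = if par = 0 then X 0 0 else X 1 0 := by
    intro n
    induction n using Nat.strong_induction_on with
    | _ n ih =>
      intro i j hn hi hj hp
      rcases i with _ | i
      · rcases j with _ | _ | j
        · have : par = 0 := by simpa using hp
          rw [if_pos this]
        · have hp1 : par = 1 := by
            rcases z2_cases par with h0 | h0
            · exfalso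
              rw [h0] at hp
              exact absurd hp (by decide)
            · exact h0
          rw [if_neg (by rw [hp1]; decide)]
          exact (s1 0 0 (by omega) (by omega) (by rw [hp1]; decide)).symm
        · have hpj : (j : ZMod 2) + par = 0 := by
            push_cast at hp
            have : (0 : ZMod 2) + ((j : ZMod 2) + 1 + 1) + par = (j : ZMod 2) + par := by
              rw [zz, zero_add]
            rw [← this]; exact hp
          have a1 := s1 0 (j + 1) (by omega) (by omega) (by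
            push_cast
            have : (0 : ZMod 2) + ((j : ZMod 2) + 1) + par = ((j : ZMod 2) + par) + 1 := by ring
            rw [this, hpj]; decide)
          have a2 := s0 0 j (by omega) (by omega) (by
            push_cast
            rw [zero_add]; exact hpj)
          rw [← a1, a2]
          exact ih j (by omega) 0 j (by omega) (by omega) (by omega) (by push_cast; rw [zero_add]; exact hpj)
      · rcases j with _ | j
        · rcases i with _ | i
          · have hp1 : par = 1 := by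
              rcases z2_cases par with h0 | h0
              · exfalso
                rw [h0] at hp
                exact absurd hp (by decide)
              · exact h0
            rw [if_neg (by rw [hp1]; decide)]
          · have hpi : (i : ZMod 2) + par = 0 := by
              push_cast at hp
              have : ((i : ZMod 2) + 1 + 1) + 0 + par = (i : ZMod 2) + par := by
                rw [zz, add_zero]
              rw [← this]; exact hp
            have a1 := s1 (i + 1) 0 (by omega) (by omega) (by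
              push_cast
              have : ((i : ZMod 2) + 1) + 0 + par = ((i : ZMod 2) + par) + 1 := by ring
              rw [this, hpi]; decide)
            have a2 := s0 i 0 (by omega) (by omega) (by
              push_cast
              rw [add_zero]; exact hpi)
            rw [a1, a2]
            exact ih i (by omega) i 0 (by omega) (by omega) (by omega) (by
              push_cast; rw [add_zero]; exact hpi)
        · have hpij : (i : ZMod 2) + j + par = 0 := by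
            push_cast at hp
            have : ((i : ZMod 2) + 1) + ((j : ZMod 2) + 1) + par =
                ((i : ZMod 2) + j + par) + 1 + 1 := by ring
            rw [this, zz] at hp
            exact hp
          rw [s0 i j (by omega) (by omega) hpij]
          exact ih (i + j) (by omega) i j rfl (by omega) (by omega) hpij
  refine ⟨if par = 0 then X 0 0 else X 1 0, fun q hq => ?_⟩
  rw [← hXp]
  exact key _ _ _ rfl (by have := q.1.2; omega) (by have := q.2.2; omega) hq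

/-! ### Observables -/

/-- The observable depends on the spins of the even faces only. -/
def EvL {m r : ℕ} (par : ZMod 2) (f : (FB m r → Bool) → (Fin m × Fin r → Bool) → ℝ) : Prop :=
  ∀ τ τ' o, (∀ q, Evf par q → τ q = τ' q) → f τ o = f τ' o

/-- Average over the global sign. -/
noncomputable def Av {m r : ℕ} (f : (FB m r → Bool) → (Fin m × Fin r → Bool) → ℝ)
    (p : FB m r → ZMod 2) (o : Fin m × Fin r → Bool) : ℝ :=
  1 / 2 * ∑ s : ZMod 2, f (fun q => decide (p q + s = 0)) o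

lemma al_add {V F : Type} (D : DG V F) (p p' : F → ZMod 2)
    (hn : ∀ v i, D.x v i ≠ none) (v : V) :
    D.al (fun q => p q + p' q) v = D.al p v + D.al p' v := by
  unfold DG.al
  have h1 := hn v false
  have h2 := hn v true
  obtain ⟨a, ha⟩ := Option.ne_none_iff_exists'.1 h1
  obtain ⟨b, hb⟩ := Option.ne_none_iff_exists'.1 h2
  rw [ha, hb]
  simp only [Vale.Agent.P152.GFF.E2.ev, Option.elim]
  ring

lemma boxD_ne (m r : ℕ) (par : ZMod 2) : ∀ v i, (boxD m r par).x v i ≠ none := by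
  intro v i
  unfold boxD
  simp only
  split_ifs <;> simp

lemma Av_congr {m r : ℕ} (hm : 1 ≤ m) (hr : 1 ≤ r) {par : ZMod 2}
    {f : (FB m r → Bool) → (Fin m × Fin r → Bool) → ℝ} (hf : EvL par f) {p p' : FB m r → ZMod 2}
    (h : ∀ v, (boxD m r par).al p v = (boxD m r par).al p' v) (o : Fin m × Fin r → Bool) :
    Av f p o = Av f p' o := by
  have hz : ∀ a : ZMod 2, a + a = 0 := by decide
  obtain ⟨s0, hs0⟩ := al_zero hm hr par (fun q => p q + p' q) (fun v => by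
    rw [al_add _ _ _ (boxD_ne m r par), h v]
    exact hz _)
  unfold Av
  congr 1
  rw [← Equiv.sum_comp (Equiv.addRight s0) (fun s => f (fun q => decide (p q + s = 0)) o)]
  refine Finset.sum_congr rfl fun s _ => ?_
  refine hf _ _ _ fun q hq => ?_
  have h1 := hs0 q hq
  simp only [Equiv.coe_addRight]
  have h2 : p q + (s + s0) = p' q + s := by
    rw [← h1]
    have : p q + (s + (p q + p' q)) = (p q + p q) + (p' q + s) := by ring
    rw [this, hz, zero_add]
  show decide (p q + (s + s0) = 0) = decide (p' q + s = 0)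
  simp only [h2]

open Classical in
/-- Spins from the arrows of a window. -/
noncomputable def pxx (m r : ℕ) (par : ZMod 2) (x : BE m r → ZMod 2) : FB m r → ZMod 2 :=
  if h : ∃ p, ∀ v, (boxD m r par).al p v = aE (boxNet m r) (pty par) x v then h.choose
  else fun _ => 0

lemma pxx_spec {m r : ℕ} {par : ZMod 2} {x : BE m r → ZMod 2} {p : FB m r → ZMod 2}
    (h : ∀ v, (boxD m r par).al p v = aE (boxNet m r) (pty par) x v) (v : Fin m × Fin r) :
    (boxD m r par).al (pxx m r par x) v = (boxD m r par).al p v := by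
  have hex : ∃ p, ∀ v, (boxD m r par).al p v = aE (boxNet m r) (pty par) x v := ⟨p, h⟩
  unfold pxx
  rw [dif_pos hex, hex.choose_spec v, h v]

/-- The observable as a function of the arrows of the window. -/
noncomputable def phi (c : ℝ) (m r : ℕ) (par : ZMod 2)
    (f : (FB m r → Bool) → (Fin m × Fin r → Bool) → ℝ) (x : BE m r → ZMod 2) : ℝ :=
  ∑ o : Fin m × Fin r → Bool,
    (∏ v, kpb c (aE (boxNet m r) (pty par) x v) (aO (boxNet m r) (pty par) x v) (o v)) *
      Av f (pxx m r par x) o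

lemma phi_eq {c : ℝ} {m r : ℕ} (hm : 1 ≤ m) (hr : 1 ≤ r) {par : ZMod 2}
    {f : (FB m r → Bool) → (Fin m × Fin r → Bool) → ℝ} (hf : EvL par f)
    {x : BE m r → ZMod 2} {p : FB m r → ZMod 2}
    (h : ∀ v, (boxD m r par).al p v = aE (boxNet m r) (pty par) x v) :
    phi c m r par f x = ∑ o : Fin m × Fin r → Bool,
      (∏ v, kpb c (aE (boxNet m r) (pty par) x v) (aO (boxNet m r) (pty par) x v) (o v)) *
        Av f p o := by
  unfold phi
  refine Finset.sum_congr rfl fun o _ => ?_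
  rw [Av_congr hm hr hf (pxx_spec h) o]

/-! ### Sums over the box -/

lemma Bx_shift (c : ℝ) (M R : ℕ) (par : ZMod 2)
    (Φ : (FB M R → Bool) → (Fin M × Fin R → Bool) → ℝ) (s : ZMod 2) :
    ∑ p : FB M R → ZMod 2, ∑ r : FB M R → ZMod 2, ∑ o : Fin M × Fin R → Bool,
      (∏ v, Ub c ((boxD M R par).al p v) ((boxD M R par).be r v) (o v)) *
        Φ (fun q => decide (p q + s = 0)) o = Bx c M R par Φ := by
  unfold Bx
  rw [← Equiv.sum_comp (Equiv.addRight (fun _ : FB M R => s)) (fun p : FB M R → ZMod 2 =>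
    ∑ r : FB M R → ZMod 2, ∑ o : Fin M × Fin R → Bool,
    (∏ v, Ub c ((boxD M R par).al p v) ((boxD M R par).be r v) (o v)) *
      Φ (fun q => decide (p q = 0)) o)]
  refine Finset.sum_congr rfl fun p _ => ?_
  have e1 : ∀ v, (boxD M R par).al ((Equiv.addRight (fun _ : FB M R => s)) p) v =
      (boxD M R par).al p v := by
    intro v
    have := al_add (boxD M R par) p (fun _ => s) (boxD_ne M R par) v
    have h2 : (boxD M R par).al (fun _ => s) v = 0 := by
      unfold DG.al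
      obtain ⟨a, ha⟩ := Option.ne_none_iff_exists'.1 (boxD_ne M R par v false)
      obtain ⟨b, hb⟩ := Option.ne_none_iff_exists'.1 (boxD_ne M R par v true)
      rw [ha, hb]
      simp only [Vale.Agent.P152.GFF.E2.ev, Option.elim]
      exact (by decide : ∀ a : ZMod 2, a + a = 0) s
    rw [h2, add_zero] at this
    exact this
  simp only [e1]
  rfl

end Vale.Agent.P145.FB
end

section

/-!
P145, block F-B, (A): plane expectations of window observables of the heights and the bonds as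
arrow expectations.
-/

set_option autoImplicit false

namespace Vale.Agent.P145.FB

open Finset Filter Topology MeasureTheory
open Vale.Agent.P152
open Vale.Agent.P152.GFF.B3 (BE boxNet mu rd IsP)
open Vale.Agent.P152.GFF.E2 (DG FB boxD fSW fSE fNW fNE pty aE aO)
open Vale.Agent.P145.FA (Hgt)

/-! ### Plane coordinates of a window -/

/-- The plane vertex of the vertex `v` of the window. -/
def pcv {m r : ℕ} (x0 y0 : ℤ) (v : Fin m × Fin r) : Pt := (x0 + (v.1.val : ℤ), y0 + (v.2.val : ℤ))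

/-- The plane face of the face `q` of the window. -/
def pcf {m r : ℕ} (x0 y0 : ℤ) (q : FB m r) : Pt :=
  (x0 - 1 + (q.1.val : ℤ), y0 - 1 + (q.2.val : ℤ))

lemma pcv_inj {m r : ℕ} (x0 y0 : ℤ) : Function.Injective (pcv (m := m) (r := r) x0 y0) := by
  rintro ⟨i, j⟩ ⟨i', j'⟩ h
  simp only [pcv, Prod.mk.injEq] at h
  ext
  · show i.val = i'.val; omega
  · show j.val = j'.val; omega

lemma pc_pty {m r : ℕ} (x0 y0 : ℤ) (v : Fin m × Fin r) :
    pty ((x0 + y0 : ℤ) : ZMod 2) v = 0 ↔ Even ((pcv x0 y0 v).1 + (pcv x0 y0 v).2) := by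
  have h1 : pty ((x0 + y0 : ℤ) : ZMod 2) v =
      (((pcv x0 y0 v).1 + (pcv x0 y0 v).2 : ℤ) : ZMod 2) := by
    simp only [pty, pcv]
    push_cast
    ring
  rw [h1, ZMod.intCast_eq_zero_iff_even]

lemma pc_evf {m r : ℕ} (x0 y0 : ℤ) (q : FB m r) :
    Evf ((x0 + y0 : ℤ) : ZMod 2) q ↔ Even ((pcf x0 y0 q).1 + (pcf x0 y0 q).2) := by
  have h1 : (((pcf x0 y0 q).1 + (pcf x0 y0 q).2 : ℤ) : ZMod 2) =
      (q.1.val : ZMod 2) + q.2.val + ((x0 + y0 : ℤ) : ZMod 2) := by
    simp only [pcf]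
    push_cast
    have h2 : (1 : ZMod 2) + 1 = 0 := by decide
    linear_combination (-1 : ZMod 2) * h2
  unfold Evf
  rw [← h1, ZMod.intCast_eq_zero_iff_even]

/-! ### Arrows, heights and bonds at a vertex -/

lemma pc_rd {m r : ℕ} (x0 y0 : ℤ) (a : Ori (ℤ × ℤ)) (v : Fin m × Fin r) :
    rd m r x0 y0 a ((boxNet m r).l v) =
      (if a (Sum.inl ((pcv x0 y0 v).1 - 1, (pcv x0 y0 v).2)) = true then 0 else 1) ∧
    rd m r x0 y0 a ((boxNet m r).b v) =
      (if a (Sum.inr ((pcv x0 y0 v).1, (pcv x0 y0 v).2 - 1)) = true then 0 else 1) ∧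
    rd m r x0 y0 a ((boxNet m r).a v) =
      (if a (Sum.inr (pcv x0 y0 v)) = true then 0 else 1) := by
  refine ⟨rfl, rfl, ?_⟩
  show (if a (Sum.inr (x0 + (v.1.val : ℤ), y0 + ((v.2.succ.val : ℕ) : ℤ) - 1)) = true then _
    else _) = _
  have h1 : (x0 + (v.1.val : ℤ), y0 + ((v.2.succ.val : ℕ) : ℤ) - 1) = pcv x0 y0 v := by
    simp only [pcv, Fin.val_succ]
    push_cast
    rw [Prod.mk.injEq]
    exact ⟨rfl, by ring⟩
  rw [h1]

lemma pc_aE {m r : ℕ} (x0 y0 : ℤ) {a : Ori (ℤ × ℤ)} (hi : ∀ x y, Ice a x y)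
    (v : Fin m × Fin r) :
    aE (boxNet m r) (pty ((x0 + y0 : ℤ) : ZMod 2)) (rd m r x0 y0 a) v =
      if ev a (pcv x0 y0 v) = true then 0 else 1 := by
  obtain ⟨h1, h2, h3⟩ := pc_rd x0 y0 a v
  have h4 := hi (pcv x0 y0 v).1 (pcv x0 y0 v).2
  unfold aE ev dg ag
  unfold Ice at h4
  rw [h1, h2, h3]
  simp only [Prod.mk.eta] at h4
  by_cases hp : Even ((pcv x0 y0 v).1 + (pcv x0 y0 v).2)
  · rw [if_pos ((pc_pty x0 y0 v).2 hp), if_pos hp]
    cases e1 : a (Sum.inl ((pcv x0 y0 v).1 - 1, (pcv x0 y0 v).2)) <;>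
    cases e2 : a (Sum.inr ((pcv x0 y0 v).1, (pcv x0 y0 v).2 - 1)) <;>
    cases e3 : a (Sum.inr (pcv x0 y0 v)) <;>
    cases e4 : a (Sum.inl (pcv x0 y0 v)) <;>
    simp [e1, e2, e3, e4] at h4 ⊢ <;> decide
  · rw [if_neg (fun h => hp ((pc_pty x0 y0 v).1 h)), if_neg hp]
    cases e1 : a (Sum.inl ((pcv x0 y0 v).1 - 1, (pcv x0 y0 v).2)) <;>
    cases e2 : a (Sum.inr ((pcv x0 y0 v).1, (pcv x0 y0 v).2 - 1)) <;>
    cases e3 : a (Sum.inr (pcv x0 y0 v)) <;>
    cases e4 : a (Sum.inl (pcv x0 y0 v)) <;>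
    simp [e1, e2, e3, e4] at h4 ⊢ <;> decide

lemma pc_aO {m r : ℕ} (x0 y0 : ℤ) {a : Ori (ℤ × ℤ)} (hi : ∀ x y, Ice a x y)
    (v : Fin m × Fin r) :
    aO (boxNet m r) (pty ((x0 + y0 : ℤ) : ZMod 2)) (rd m r x0 y0 a) v =
      if od a (pcv x0 y0 v) = true then 0 else 1 := by
  obtain ⟨h1, h2, h3⟩ := pc_rd x0 y0 a v
  have h4 := hi (pcv x0 y0 v).1 (pcv x0 y0 v).2
  unfold aO od dg ag
  unfold Ice at h4
  rw [h1, h2, h3]
  simp only [Prod.mk.eta] at h4
  by_cases hp : Even ((pcv x0 y0 v).1 + (pcv x0 y0 v).2)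
  · rw [if_pos ((pc_pty x0 y0 v).2 hp), if_pos hp]
    cases e1 : a (Sum.inl ((pcv x0 y0 v).1 - 1, (pcv x0 y0 v).2)) <;>
    cases e2 : a (Sum.inr ((pcv x0 y0 v).1, (pcv x0 y0 v).2 - 1)) <;>
    cases e3 : a (Sum.inr (pcv x0 y0 v)) <;>
    cases e4 : a (Sum.inl (pcv x0 y0 v)) <;>
    simp [e1, e2, e3, e4] at h4 ⊢ <;> decide
  · rw [if_neg (fun h => hp ((pc_pty x0 y0 v).1 h)), if_neg hp]
    cases e1 : a (Sum.inl ((pcv x0 y0 v).1 - 1, (pcv x0 y0 v).2)) <;>
    cases e2 : a (Sum.inr ((pcv x0 y0 v).1, (pcv x0 y0 v).2 - 1)) <;>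
    cases e3 : a (Sum.inr (pcv x0 y0 v)) <;>
    cases e4 : a (Sum.inl (pcv x0 y0 v)) <;>
    simp [e1, e2, e3, e4] at h4 ⊢ <;> decide

lemma pc_antip (g : ℤ → ℤ) (hg : ∀ n, (2 : ℤ) ∣ g n - 1) (n : ℤ) : (2 : ℤ) ∣ anti g n - n := by
  induction n using Int.induction_on with
  | zero => rw [anti_zero]; norm_num
  | succ i ih =>
    have h1 := anti_step g (i + 1)
    rw [add_sub_cancel_right] at h1
    have h2 := hg (i + 1)
    omega
  | pred i ih =>
    have h1 := anti_step g (-i)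
    have h2 := hg (-i)
    (clear * - ih h1 h2; omega)

lemma pc_sgb (x : Bool) : (2 : ℤ) ∣ sgb x - 1 := by cases x <;> decide

lemma pc_parity (ω : Ori (ℤ × ℤ)) (q : ℤ × ℤ) : (2 : ℤ) ∣ pth ω q - (q.1 + q.2) := by
  have h1 := pc_antip (fun j => sgb (ω (Sum.inl (0, j)))) (fun n => pc_sgb _) q.2
  have h2 := pc_antip (fun i => sgb (ω (Sum.inr (i, q.2)))) (fun n => pc_sgb _) q.1
  unfold pth
  omega

/-- Spins of the even faces of the window, from the heights. -/
noncomputable def pcp (m r : ℕ) (x0 y0 : ℤ) (a : Ori (ℤ × ℤ)) (q : FB m r) : ZMod 2 :=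
  ((pth a (pcf x0 y0 q) / 2 : ℤ) : ZMod 2)

lemma pc_half {h1 h2 : ℤ} (he1 : (2 : ℤ) ∣ h1) (he2 : (2 : ℤ) ∣ h2)
    (hd : h1 - h2 = 0 ∨ h1 - h2 = 2 ∨ h1 - h2 = -2) :
    (((h1 / 2 : ℤ) : ZMod 2) + ((h2 / 2 : ℤ) : ZMod 2)) =
      if decide (h1 = h2) = true then 0 else 1 := by
  obtain ⟨k1, rfl⟩ := he1
  obtain ⟨k2, rfl⟩ := he2
  rw [Int.mul_ediv_cancel_left _ (by norm_num), Int.mul_ediv_cancel_left _ (by norm_num)]
  have z1 : (k2 : ZMod 2) + k2 = 0 := by
    have : ∀ a : ZMod 2, a + a = 0 := by decide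
    exact this _
  rcases hd with hd | hd | hd
  · have : k1 = k2 := by omega
    subst this
    rw [decide_eq_true rfl, if_pos rfl]
    exact z1
  · have h3 : k1 = k2 + 1 := by omega
    subst h3
    rw [decide_eq_false (by omega), if_neg (by decide)]
    push_cast
    linear_combination z1
  · have h3 : k1 = k2 - 1 := by omega
    subst h3
    rw [decide_eq_false (by omega), if_neg (by decide)]
    push_cast
    have h2 : (1 : ZMod 2) + 1 = 0 := by decide
    linear_combination z1 - h2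

lemma pc_diff {a : Ori (ℤ × ℤ)} {h : Hgt} (hh : IsHeight a h) (x y : ℤ) :
    (h (x, y) - h (x - 1, y - 1) = 0 ∨ h (x, y) - h (x - 1, y - 1) = 2 ∨
      h (x, y) - h (x - 1, y - 1) = -2) ∧
    (h (x, y - 1) - h (x - 1, y) = 0 ∨ h (x, y - 1) - h (x - 1, y) = 2 ∨
      h (x, y - 1) - h (x - 1, y) = -2) := by
  have h1 := (hh x y).1
  have h2 := (hh x y).2
  have h3 := (hh (x - 1) y).1
  cases e1 : a (Sum.inl (x, y)) <;> cases e2 : a (Sum.inr (x, y)) <;>
    cases e3 : a (Sum.inl (x - 1, y)) <;>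
    simp only [e1, e2, e3, if_true, if_false, Bool.false_eq_true] at h1 h2 h3 <;>
    omega

lemma pc_al {m r : ℕ} (x0 y0 : ℤ) {a : Ori (ℤ × ℤ)} (hi : ∀ x y, Ice a x y)
    (v : Fin m × Fin r) :
    (boxD m r ((x0 + y0 : ℤ) : ZMod 2)).al (pcp m r x0 y0 a) v =
      if ev a (pcv x0 y0 v) = true then 0 else 1 := by
  have hh := pth_isHeight hi
  set w := pcv x0 y0 v with hw
  obtain ⟨d1, d2⟩ := pc_diff hh w.1 w.2
  have fSWe : pcf x0 y0 (fSW v) = (w.1 - 1, w.2 - 1) := by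
    rw [hw]; simp only [pcf, pcv, fSW, Fin.val_castSucc]
    rw [Prod.mk.injEq]; constructor <;> ring
  have fNEe : pcf x0 y0 (fNE v) = (w.1, w.2) := by
    rw [hw]; simp only [pcf, pcv, fNE, Fin.val_succ]
    push_cast
    rw [Prod.mk.injEq]; constructor <;> ring
  have fSEe : pcf x0 y0 (fSE v) = (w.1, w.2 - 1) := by
    rw [hw]; simp only [pcf, pcv, fSE, Fin.val_succ, Fin.val_castSucc]
    push_cast
    rw [Prod.mk.injEq]; constructor <;> ring
  have fNWe : pcf x0 y0 (fNW v) = (w.1 - 1, w.2) := by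
    rw [hw]; simp only [pcf, pcv, fNW, Fin.val_succ, Fin.val_castSucc]
    push_cast
    rw [Prod.mk.injEq]; constructor <;> ring
  rw [ev_iff hh]
  unfold DG.al boxD e1 e2
  by_cases hp : Even (w.1 + w.2)
  · obtain ⟨k, hk⟩ := hp
    simp only [if_pos ((pc_pty x0 y0 v).2 ⟨k, hk⟩), if_pos (show Even (w.1 + w.2) from ⟨k, hk⟩)]
    simp only [Bool.false_eq_true, if_false, if_true, Vale.Agent.P152.GFF.E2.ev, Option.elim, pcp,
      fSWe, fNEe]
    have p1 := pc_parity a (w.1, w.2)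
    have p2 := pc_parity a (w.1 - 1, w.2 - 1)
    simp only at p1 p2
    rw [add_comm]
    exact pc_half (by omega) (by omega) d1
  · have hp' : ¬ pty ((x0 + y0 : ℤ) : ZMod 2) v = 0 := fun h => hp ((pc_pty x0 y0 v).1 h)
    simp only [if_neg hp', if_neg hp]
    simp only [Bool.false_eq_true, if_false, if_true, Vale.Agent.P152.GFF.E2.ev, Option.elim, pcp,
      fSEe, fNWe]
    rw [Int.not_even_iff_odd] at hp
    obtain ⟨k, hk⟩ := hp
    have p1 := pc_parity a (w.1, w.2 - 1)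
    have p2 := pc_parity a (w.1 - 1, w.2)
    simp only at p1 p2
    rw [pc_half (by omega) (by omega) d2]
    simp only [decide_eq_true_eq, eq_comm]

lemma pc_kpb {m r : ℕ} (c : ℝ) (x0 y0 : ℤ) {a : Ori (ℤ × ℤ)} (hi : ∀ x y, Ice a x y)
    (v : Fin m × Fin r) (b : Bool) :
    kpb c (aE (boxNet m r) (pty ((x0 + y0 : ℤ) : ZMod 2)) (rd m r x0 y0 a) v)
      (aO (boxNet m r) (pty ((x0 + y0 : ℤ) : ZMod 2)) (rd m r x0 y0 a) v) b =
      kap (1 / c) a (pcv x0 y0 v) b := by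
  rw [pc_aE x0 y0 hi, pc_aO x0 y0 hi]
  unfold kpb kap
  cases ev a (pcv x0 y0 v) <;> cases od a (pcv x0 y0 v) <;> simp

/-! ### Spins -/

lemma pc_spin {h : ℤ} (he : (2 : ℤ) ∣ h) (k : ℤ) :
    decide ((h + 2 * k) % 4 = 0) = decide (((h / 2 : ℤ) : ZMod 2) + (k : ZMod 2) = 0) := by
  obtain ⟨j, rfl⟩ := he
  rw [Int.mul_ediv_cancel_left _ (by norm_num)]
  congr 1
  rw [← Int.cast_add, ZMod.intCast_eq_zero_iff_even, eq_iff_iff]
  constructor
  · intro h
    exact ⟨(j + k) / 2, by omega⟩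
  · rintro ⟨l, hl⟩
    omega

lemma pc_Av {m r : ℕ} (x0 y0 : ℤ) (a : Ori (ℤ × ℤ))
    {f : (FB m r → Bool) → (Fin m × Fin r → Bool) → ℝ} (hf : EvL ((x0 + y0 : ℤ) : ZMod 2) f)
    (o : Fin m × Fin r → Bool) :
    Av f (pcp m r x0 y0 a) o = 1 / 2 *
      (f (fun q => decide ((pth a (pcf x0 y0 q) + 2 * 0) % 4 = 0)) o +
        f (fun q => decide ((pth a (pcf x0 y0 q) + 2 * 1) % 4 = 0)) o) := by
  have h1 : ∀ k : ℤ, f (fun q => decide ((pth a (pcf x0 y0 q) + 2 * k) % 4 = 0)) o =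
      f (fun q => decide (pcp m r x0 y0 a q + (k : ZMod 2) = 0)) o := by
    intro k
    refine hf _ _ _ fun q hq => ?_
    rw [pc_evf] at hq
    have hp := pc_parity a (pcf x0 y0 q)
    obtain ⟨l, hl⟩ := hq
    exact pc_spin (by omega) k
  unfold Av
  rw [h1 0, h1 1]
  congr 1
  have : (univ : Finset (ZMod 2)) = {0, 1} := by decide
  rw [this, Finset.sum_pair (by decide)]
  simp only [add_zero, Int.cast_zero, Int.cast_one]

/-! ### Integration over the marks -/

lemma pc_mk {t : ℝ} (ht0 : 0 ≤ t) (ht1 : t ≤ 1) {ι : Type} [Fintype ι] [DecidableEq ι]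
    (g : ι → Pt) (hg : Function.Injective g) (a : Ori (ℤ × ℤ)) (G : (ι → Bool) → ℝ) :
    ∫ ξ, G (fun v => oma a ξ (g v)) ∂(mkm t) = ∑ o : ι → Bool, (∏ v, kap t a (g v) (o v)) * G o := by
  classical
  have hm : Measurable fun ξ : Mk => fun v => oma a ξ (g v) :=
    measurable_pi_lambda _ fun v =>
      (measurable_oma_apply (g v)).comp (measurable_const.prodMk measurable_id)
  have hpr : IsProbabilityMeasure ((mkm t).map fun ξ : Mk => fun v => oma a ξ (g v)) :=
    Measure.isProbabilityMeasure_map hm.aemeasurable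
  rw [← integral_map (f := G) hm.aemeasurable (measurable_of_finite G).aestronglyMeasurable,
    integral_fintype (Integrable.of_finite)]
  refine Finset.sum_congr rfl fun o _ => ?_
  rw [smul_eq_mul]
  congr 1
  rw [Measure.real, Measure.map_apply hm (measurableSet_singleton _)]
  have h1 : (fun ξ : Mk => fun v => oma a ξ (g v)) ⁻¹' {o} =
      Set.pi ((univ.image g : Finset Pt) : Set Pt) fun w =>
        {b | ∀ v, g v = w → (!(od a w) || (ev a w && b)) = o v} := by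
    ext ξ
    simp only [Set.mem_preimage, Set.mem_singleton_iff, Set.mem_pi, Finset.mem_coe,
      Finset.mem_image, Finset.mem_univ, true_and, Set.mem_ofPred_eq]
    constructor
    · intro h w hw v hv
      rw [← h, ← hv]
      rfl
    · intro h
      funext v
      exact h (g v) ⟨v, rfl⟩ v rfl
  rw [h1, mkm, Measure.infinitePi_pi _ (fun w _ => by measurability), ENNReal.toReal_prod,
    Finset.prod_image fun x _ y _ h => hg h]
  refine Finset.prod_congr rfl fun v _ => ?_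
  have h2 : {b | ∀ v', g v' = g v → (!(od a (g v)) || (ev a (g v) && b)) = o v'} =
      {b | (!(od a (g v)) || (ev a (g v) && b)) = o v} := by
    ext b
    constructor
    · intro h; exact h v rfl
    · intro h v' hv'
      rw [hg hv']
      exact h
  rw [h2]
  have h3 := bern_real t {b | (!(od a (g v)) || (ev a (g v) && b)) = o v}
  rw [Measure.real] at h3
  rw [h3, cl_eq ht0 ht1]
  unfold kap
  cases h4 : od a (g v) <;> cases h5 : ev a (g v) <;> cases h6 : o v <;> simp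

/-! ### The expectation -/

lemma pc_meas {m r : ℕ} (x0 y0 : ℤ) : Measurable fun x : Hgt × Mk =>
    ((fun q : FB m r => decide (x.1 (pcf x0 y0 q) % 4 = 0)),
      (fun v : Fin m × Fin r => x.2 (pcv x0 y0 v))) := by
  refine Measurable.prodMk (measurable_pi_lambda _ fun q => ?_) (measurable_pi_lambda _ fun v => ?_)
  · exact (measurable_of_countable (fun n : ℤ => decide (n % 4 = 0))).comp
      ((measurable_pi_apply _).comp measurable_fst)
  · exact (measurable_pi_apply _).comp measurable_snd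

lemma pc_int_k {t : ℝ} (ht0 : 0 ≤ t) (ht1 : t ≤ 1) {P : Measure (Ori (ℤ × ℤ))}
    [IsProbabilityMeasure P] {m r : ℕ} (x0 y0 : ℤ)
    (f : (FB m r → Bool) → (Fin m × Fin r → Bool) → ℝ) (k : ℤ) :
    ∫ x : Hgt × Mk, f (fun q => decide (x.1 (pcf x0 y0 q) % 4 = 0))
        (fun v => x.2 (pcv x0 y0 v)) ∂((JO t P).map (hk k)) =
      ∫ a, ∑ o : Fin m × Fin r → Bool, (∏ v, kap t a (pcv x0 y0 v) (o v)) *
        f (fun q => decide ((pth a (pcf x0 y0 q) + 2 * k) % 4 = 0)) o ∂P ∧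
    Integrable (fun a => ∑ o : Fin m × Fin r → Bool, (∏ v, kap t a (pcv x0 y0 v) (o v)) *
        f (fun q => decide ((pth a (pcf x0 y0 q) + 2 * k) % 4 = 0)) o) P := by
  set Φ : Hgt × Mk → (FB m r → Bool) × (Fin m × Fin r → Bool) := fun x =>
    ((fun q => decide (x.1 (pcf x0 y0 q) % 4 = 0)), (fun v => x.2 (pcv x0 y0 v))) with hΦ
  have hΦm : Measurable Φ := pc_meas x0 y0
  set g : (FB m r → Bool) × (Fin m × Fin r → Bool) → ℝ := fun y => f y.1 y.2 with hg
  have hgm : Measurable g := measurable_of_finite g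
  set Ψ : Ori (ℤ × ℤ) × Mk → (FB m r → Bool) × (Fin m × Fin r → Bool) := fun y =>
    Φ (hk k (y.1, oma y.1 y.2)) with hΨ
  have hΨm : Measurable Ψ := hΦm.comp ((measurable_hk k).comp measurable_oma)
  have hint : Integrable (fun y => g (Ψ y)) (P.prod (mkm t)) := by
    have h1 : Integrable g ((P.prod (mkm t)).map Ψ) := by
      have : IsProbabilityMeasure ((P.prod (mkm t)).map Ψ) :=
        Measure.isProbabilityMeasure_map hΨm.aemeasurable
      exact Integrable.of_finite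
    exact h1.comp_measurable hΨm
  have hin : ∀ a, ∫ ξ, g (Ψ (a, ξ)) ∂(mkm t) =
      ∑ o : Fin m × Fin r → Bool, (∏ v, kap t a (pcv x0 y0 v) (o v)) *
        f (fun q => decide ((pth a (pcf x0 y0 q) + 2 * k) % 4 = 0)) o := by
    intro a
    exact pc_mk ht0 ht1 (pcv x0 y0) (pcv_inj x0 y0) a
      (fun o => f (fun q => decide ((pth a (pcf x0 y0 q) + 2 * k) % 4 = 0)) o)
  constructor
  · have h2 : ∫ x : Hgt × Mk, g (Φ x) ∂((JO t P).map (hk k)) =
        ∫ y, g (Ψ y) ∂(P.prod (mkm t)) := by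
      have m1 : Measurable fun x : Hgt × Mk => g (Φ x) := hgm.comp hΦm
      have m2 : Measurable fun x : Ori (ℤ × ℤ) × Mk => g (Φ (hk k x)) :=
        m1.comp (measurable_hk k)
      rw [integral_map (measurable_hk k).aemeasurable m1.aestronglyMeasurable, JO,
        integral_map measurable_oma.aemeasurable m2.aestronglyMeasurable]
    rw [show (∫ x : Hgt × Mk, f (fun q => decide (x.1 (pcf x0 y0 q) % 4 = 0))
        (fun v => x.2 (pcv x0 y0 v)) ∂((JO t P).map (hk k))) =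
        ∫ x : Hgt × Mk, g (Φ x) ∂((JO t P).map (hk k)) from rfl, h2, integral_prod _ hint]
    exact integral_congr_ae (Eventually.of_forall hin)
  · have h3 := hint.integral_prod_left
    exact h3.congr (Eventually.of_forall hin)

/-- Plane expectations of the window observables as arrow expectations. -/
theorem pl_mu {c : ℝ} (hc : 1 ≤ c) {P : Measure (Ori (ℤ × ℤ))} [IsProbabilityMeasure P]
    (hP : IsP c P) (m r : ℕ) (hm : 1 ≤ m) (hr : 1 ≤ r) (x0 y0 : ℤ)
    (f : (FB m r → Bool) → (Fin m × Fin r → Bool) → ℝ) (hf : EvL ((x0 + y0 : ℤ) : ZMod 2) f) :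
    ∫ x, f (fun q => decide (x.1 (x0 - 1 + (q.1.val : ℤ), y0 - 1 + (q.2.val : ℤ)) % 4 = 0))
        (fun v => x.2 (x0 + (v.1.val : ℤ), y0 + (v.2.val : ℤ))) ∂(J (1 / c) P) =
      mu (wc c) m r (phi c m r ((x0 + y0 : ℤ) : ZMod 2) f) := by
  have hc0 : 0 < c := by linarith only [hc]
  have ht0 : 0 ≤ 1 / c := by positivity
  have ht1 : 1 / c ≤ 1 := by rw [div_le_one hc0]; exact hc
  have hsub : IsSubLimit c P := by
    obtain ⟨Q, hQ1, hQ2⟩ := hP.2.1
    exact ⟨id, strictMono_id, Q, fun i => hQ1 i, hQ2⟩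
  have hice := ice_ae hsub
  obtain ⟨e0, i0⟩ := pc_int_k ht0 ht1 (P := P) x0 y0 f 0
  obtain ⟨e1, i1⟩ := pc_int_k ht0 ht1 (P := P) x0 y0 f 1
  have hI : ∀ k : ℤ, Integrable (fun x : Hgt × Mk =>
      f (fun q => decide (x.1 (pcf x0 y0 q) % 4 = 0)) (fun v => x.2 (pcv x0 y0 v)))
      ((JO (1 / c) P).map (hk k)) := by
    intro k
    have hpk : IsProbabilityMeasure ((JO (1 / c) P).map (hk k)) :=
      Measure.isProbabilityMeasure_map (measurable_hk k).aemeasurable
    have hp2 : IsProbabilityMeasure (((JO (1 / c) P).map (hk k)).map fun x : Hgt × Mk =>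
      ((fun q : FB m r => decide (x.1 (pcf x0 y0 q) % 4 = 0)),
        (fun v : Fin m × Fin r => x.2 (pcv x0 y0 v)))) :=
      Measure.isProbabilityMeasure_map (pc_meas x0 y0).aemeasurable
    have h1 : Integrable (fun y : (FB m r → Bool) × (Fin m × Fin r → Bool) => f y.1 y.2)
      (((JO (1 / c) P).map (hk k)).map fun x : Hgt × Mk =>
      ((fun q : FB m r => decide (x.1 (pcf x0 y0 q) % 4 = 0)),
        (fun v : Fin m × Fin r => x.2 (pcv x0 y0 v)))) := Integrable.of_finite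
    exact h1.comp_measurable (pc_meas x0 y0)
  have h1 : ∫ x : Hgt × Mk, f (fun q => decide (x.1 (pcf x0 y0 q) % 4 = 0))
      (fun v => x.2 (pcv x0 y0 v)) ∂(J (1 / c) P) =
      ∫ a, phi c m r ((x0 + y0 : ℤ) : ZMod 2) f (rd m r x0 y0 a) ∂P := by
    rw [J, integral_add_measure ((hI 0).smul_measure (by simp)) ((hI 1).smul_measure (by simp)),
      integral_smul_measure, integral_smul_measure, e0, e1, ← smul_add, ← integral_add i0 i1,
      ← integral_smul]
    refine integral_congr_ae ?_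
    filter_upwards [hice] with a ha
    rw [phi_eq hm hr hf (p := pcp m r x0 y0 a) (fun v => by rw [pc_al x0 y0 ha, pc_aE x0 y0 ha])]
    rw [← Finset.sum_add_distrib, smul_eq_mul, Finset.mul_sum]
    refine Finset.sum_congr rfl fun o _ => ?_
    rw [pc_Av x0 y0 a hf, Finset.prod_congr rfl fun v _ => pc_kpb c x0 y0 ha v (o v)]
    simp only [ENNReal.toReal_inv, ENNReal.toReal_ofNat]
    ring
  rw [← hP.2.2 m r hm hr _ x0 y0]
  exact h1

end Vale.Agent.P145.FB
end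

section

/-!
Finite unions of grid squares: the complement of a small thickening is a union of large squares;
outer and inner approximations of a bounded open set.
-/

namespace Vale.Agent.P145.PT

open MeasureTheory Set Filter Topology

/-- The closed grid square. -/
def gsq (g : ℝ) (q : ℤ × ℤ) : Set (ℝ × ℝ) :=
  {z | g * q.1 ≤ z.1 ∧ z.1 ≤ g * (q.1 + 1) ∧ g * q.2 ≤ z.2 ∧ z.2 ≤ g * (q.2 + 1)}

/-- The union of the grid squares of `S`. -/
def gun (g : ℝ) (S : Set (ℤ × ℤ)) : Set (ℝ × ℝ) := {z | ∃ q ∈ S, z ∈ gsq g q}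

/-- One-dimensional version: the columns which are `s`-close to `x` cover an interval which
contains an interval of length `g - 2 s` around `x`. -/
theorem column {g s : ℝ} (hs : 0 < s) (hsg : s < g / 2) (x : ℝ) :
    ∃ c : ℝ, |x - c| ≤ g / 2 - s ∧ ∀ w y : ℝ, |w - c| ≤ g / 2 - s → |w - y| < s →
      ∀ q : ℤ, g * q ≤ y → y ≤ g * (q + 1) → ∃ y' : ℝ, |x - y'| < s ∧ g * q ≤ y' ∧
        y' ≤ g * (q + 1) := by
  have hg : 0 < g := by linarith
  set i : ℤ := ⌊x / g⌋ with hi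
  have h1 : g * i ≤ x := by
    have := Int.floor_le (x / g)
    rw [← hi, le_div_iff₀ hg] at this; linarith only [this]
  have h2 : x < g * (i + 1) := by
    have := Int.lt_floor_add_one (x / g)
    rw [← hi, div_lt_iff₀ hg] at this; linarith only [this]
  rcases lt_or_ge (x - g * i) s with ha | ha
  · -- columns i - 1 and i
    refine ⟨g * i - (g / 2 - s) + (x - g * i), ?_, ?_⟩
    · rw [abs_le]; constructor <;> linarith
    · intro w y hw hwy q hq1 hq2
      rw [abs_le] at hw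
      rw [abs_lt] at hwy
      have hq3 : (i : ℝ) - 1 < q + 1 := by
        by_contra h; push Not at h
        have : g * (q + 1) ≤ g * (i - 1) := mul_le_mul_of_nonneg_left h hg.le
        nlinarith only [h1, hw, hwy, hq2, this]
      have hq4 : (q : ℝ) < i + 1 := by
        by_contra h; push Not at h
        have : g * (i + 1) ≤ g * q := mul_le_mul_of_nonneg_left h hg.le
        linarith
      have hq5 : i - 1 < q + 1 := by exact_mod_cast hq3
      have hq6 : q < i + 1 := by exact_mod_cast hq4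
      have hq7 : q = i - 1 ∨ q = i := by omega
      rcases hq7 with rfl | rfl
      · refine ⟨g * i, ?_, ?_, ?_⟩
        · rw [abs_lt]; constructor <;> linarith only [ha, hs, h1]
        · push_cast; nlinarith only [hs, hsg]
        · push_cast; nlinarith only []
      · refine ⟨x, ?_, h1, h2.le⟩
        simpa only [sub_self, abs_zero] using hs
  · rcases le_or_gt x (g * (i + 1) - s) with hb | hb
    · -- column i
      refine ⟨g * i + g / 2, ?_, ?_⟩
      · rw [abs_le]; constructor <;> linarith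
      · intro w y hw hwy q hq1 hq2
        rw [abs_le] at hw
        rw [abs_lt] at hwy
        have hq3 : (i : ℝ) < q + 1 := by
          by_contra h; push Not at h
          have : g * (q + 1) ≤ g * i := mul_le_mul_of_nonneg_left h hg.le
          nlinarith only [hw, hwy, hq2, this]
        have hq4 : (q : ℝ) < i + 1 := by
          by_contra h; push Not at h
          have : g * (i + 1) ≤ g * q := mul_le_mul_of_nonneg_left h hg.le
          linarith
        have hq5 : i < q + 1 := by exact_mod_cast hq3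
        have hq6 : q < i + 1 := by exact_mod_cast hq4
        have hq7 : q = i := by omega
        subst hq7
        refine ⟨x, ?_, h1, h2.le⟩
        simpa using hs
    · -- columns i and i + 1
      refine ⟨g * (i + 1) + (g / 2 - s) - (g * (i + 1) - x), ?_, ?_⟩
      · rw [abs_le]; constructor <;> linarith only [hsg]
      · intro w y hw hwy q hq1 hq2
        rw [abs_le] at hw
        rw [abs_lt] at hwy
        have hq3 : (i : ℝ) < q + 1 := by
          by_contra h; push Not at h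
          have : g * (q + 1) ≤ g * i := mul_le_mul_of_nonneg_left h hg.le
          linarith
        have hq4 : (q : ℝ) < i + 2 := by
          by_contra h; push Not at h
          have : g * (i + 2) ≤ g * q := mul_le_mul_of_nonneg_left h hg.le
          linarith
        have hq5 : i < q + 1 := by exact_mod_cast hq3
        have hq6 : q < i + 2 := by exact_mod_cast hq4
        have hq7 : q = i ∨ q = i + 1 := by omega
        rcases hq7 with rfl | rfl
        · refine ⟨x, ?_, h1, h2.le⟩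
          simpa using hs
        · refine ⟨g * (i + 1), ?_, ?_, ?_⟩
          · rw [abs_lt]; constructor <;> linarith only [h2, hb]
          · push_cast; nlinarith only []
          · push_cast; nlinarith only [hsg, h2, hb]

/-- **Exterior squares.** Every point outside of the `s`-thickening of a union of grid squares lies
in a closed square of side `g - 2 s` outside of this thickening. -/
theorem exterior_square {g s : ℝ} (hs : 0 < s) (hsg : s < g / 2) (S : Set (ℤ × ℤ)) {z : ℝ × ℝ}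
    (hz : z ∉ Metric.thickening s (gun g S)) :
    ∃ c : ℝ × ℝ, z ∈ Metric.closedBall c (g / 2 - s) ∧
      Disjoint (Metric.closedBall c (g / 2 - s)) (Metric.thickening s (gun g S)) := by
  obtain ⟨c1, hc1, h1⟩ := column hs hsg z.1
  obtain ⟨c2, hc2, h2⟩ := column hs hsg z.2
  refine ⟨(c1, c2), ?_, ?_⟩
  · rw [Metric.mem_closedBall, Prod.dist_eq, max_le_iff, Real.dist_eq, Real.dist_eq]
    exact ⟨hc1, hc2⟩
  · rw [Set.disjoint_left]
    intro w hw hw'
    rw [Metric.mem_closedBall, Prod.dist_eq, max_le_iff, Real.dist_eq, Real.dist_eq] at hw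
    obtain ⟨y, ⟨q, hqS, hq1, hq2, hq3, hq4⟩, hy⟩ := Metric.mem_thickening_iff.1 hw'
    rw [Prod.dist_eq, max_lt_iff, Real.dist_eq, Real.dist_eq] at hy
    obtain ⟨y1, hy1, a1, a2⟩ := h1 w.1 y.1 hw.1 hy.1 q.1 hq1 hq2
    obtain ⟨y2, hy2, b1, b2⟩ := h2 w.2 y.2 hw.2 hy.2 q.2 hq3 hq4
    refine hz (Metric.mem_thickening_iff.2 ⟨(y1, y2), ⟨q, hqS, a1, a2, b1, b2⟩, ?_⟩)
    rw [Prod.dist_eq, max_lt_iff, Real.dist_eq, Real.dist_eq]
    exact ⟨hy1, hy2⟩

theorem mem_gsq_floor {g : ℝ} (hg : 0 < g) (z : ℝ × ℝ) : z ∈ gsq g (⌊z.1 / g⌋, ⌊z.2 / g⌋) := by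
  have h1 := Int.floor_le (z.1 / g)
  have h2 := (Int.lt_floor_add_one (z.1 / g)).le
  have h3 := Int.floor_le (z.2 / g)
  have h4 := (Int.lt_floor_add_one (z.2 / g)).le
  rw [le_div_iff₀ hg] at h1 h3
  rw [div_le_iff₀ hg] at h2 h4
  exact ⟨by simp only; linarith only [h1], by simp only; linarith only [h2], by simp only; linarith only [h3],
    by simp only; linarith only [h4]⟩

theorem gsq_dist {g : ℝ} {q : ℤ × ℤ} {z w : ℝ × ℝ} (hz : z ∈ gsq g q) (hw : w ∈ gsq g q) :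
    dist z w ≤ g := by
  obtain ⟨a1, a2, a3, a4⟩ := hz
  obtain ⟨b1, b2, b3, b4⟩ := hw
  rw [Prod.dist_eq, max_le_iff, Real.dist_eq, Real.dist_eq, abs_le, abs_le]
  refine ⟨⟨?_, ?_⟩, ⟨?_, ?_⟩⟩ <;> linarith

/-- The squares meeting `D`. -/
def Sout (g : ℝ) (D : Set (ℝ × ℝ)) : Set (ℤ × ℤ) := {q | (gsq g q ∩ D).Nonempty}

/-- The squares well inside `D`. -/
def Sin (g : ℝ) (D : Set (ℝ × ℝ)) : Set (ℤ × ℤ) := {q | ∀ z ∈ gsq g q, 2 * g < dd D z}

theorem subset_gun_Sout {g : ℝ} (hg : 0 < g) (D : Set (ℝ × ℝ)) : D ⊆ gun g (Sout g D) :=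
  fun z hz => ⟨_, ⟨z, mem_gsq_floor hg z, hz⟩, mem_gsq_floor hg z⟩

theorem gun_Sout_subset {g s : ℝ} (hs : s ≤ g) (D : Set (ℝ × ℝ)) :
    Metric.thickening s (gun g (Sout g D)) ⊆ Metric.thickening (2 * g) D := by
  intro z hz
  obtain ⟨y, ⟨q, ⟨w, hw1, hw2⟩, hy⟩, hzy⟩ := Metric.mem_thickening_iff.1 hz
  refine Metric.mem_thickening_iff.2 ⟨w, hw2, ?_⟩
  have := gsq_dist hy hw1
  have h2 := dist_triangle z y w
  linarith only [hs, hzy, this, h2]

theorem gun_Sin_subset {g s : ℝ} (hs : s ≤ g) (D : Set (ℝ × ℝ)) :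
    Metric.thickening s (gun g (Sin g D)) ⊆ {z | g < dd D z} := by
  intro z hz
  obtain ⟨y, ⟨q, hq, hy⟩, hzy⟩ := Metric.mem_thickening_iff.1 hz
  have h1 := hq y hy
  have h2 := dd_le_add D y z
  rw [dist_comm] at h2
  change g < dd D z
  linarith

theorem subset_gun_Sin {g : ℝ} (hg : 0 < g) (D : Set (ℝ × ℝ)) :
    {z | 4 * g < dd D z} ⊆ gun g (Sin g D) := by
  intro z hz
  have hz' : 4 * g < dd D z := hz
  refine ⟨_, fun w hw => ?_, mem_gsq_floor hg z⟩
  have h1 := gsq_dist (mem_gsq_floor hg z) hw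
  have h2 := dd_le_add D z w
  linarith

theorem Sout_finite {g : ℝ} (hg : 0 < g) {D : Set (ℝ × ℝ)} (hb : Bornology.IsBounded D) :
    (Sout g D).Finite := by
  obtain ⟨R, hR⟩ := hb.exists_norm_le
  have hfin : (Icc (⌊(-R) / g⌋ - 1) (⌈R / g⌉ + 1) ×ˢ Icc (⌊(-R) / g⌋ - 1) (⌈R / g⌉ + 1)
      : Set (ℤ × ℤ)).Finite := (finite_Icc _ _).prod (finite_Icc _ _)
  refine hfin.subset ?_
  rintro q ⟨z, ⟨a1, a2, a3, a4⟩, hz⟩
  have h0 := hR z hz
  have h1 := (norm_fst_le z).trans h0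
  have h2 := (norm_snd_le z).trans h0
  rw [Real.norm_eq_abs, abs_le] at h1 h2
  have key : ∀ (m : ℤ) (x : ℝ), g * m ≤ x → x ≤ g * (m + 1) → -R ≤ x → x ≤ R →
      m ∈ Icc (⌊(-R) / g⌋ - 1) (⌈R / g⌉ + 1) := by
    intro m x e1 e2 e3 e4
    have f1 : -R / g ≤ m + 1 := by rw [div_le_iff₀ hg]; linarith
    have f2 : (m : ℝ) ≤ R / g := by rw [le_div_iff₀ hg]; linarith only [e1, e4]
    have f3 : ((⌊-R / g⌋ : ℤ) : ℝ) ≤ m + 1 := (Int.floor_le _).trans f1
    have f4 : (m : ℝ) ≤ (⌈R / g⌉ : ℤ) := f2.trans (Int.le_ceil _)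
    have f5 : ⌊-R / g⌋ ≤ m + 1 := by exact_mod_cast f3
    have f6 : m ≤ ⌈R / g⌉ := by exact_mod_cast f4
    exact ⟨by omega, by omega⟩
  exact ⟨key q.1 z.1 a1 a2 h1.1 h1.2, key q.2 z.2 a3 a4 h2.1 h2.2⟩

end Vale.Agent.P145.PT
end

section

/-!
The families of thickenings of finite unions of grid squares.
-/

namespace Vale.Agent.P145.Top

open Filter Topology Set MeasureTheory
open Vale.Agent.P145.PT Vale.Agent.P145.FP Vale.Agent.P145.Dom

theorem isClosed_gsq (g : ℝ) (q : ℤ × ℤ) : IsClosed (gsq g q) := by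
  have : gsq g q = {z : ℝ × ℝ | g * q.1 ≤ z.1} ∩ ({z | z.1 ≤ g * (q.1 + 1)} ∩
      ({z | g * q.2 ≤ z.2} ∩ {z | z.2 ≤ g * (q.2 + 1)})) := by
    ext z; simp only [gsq, mem_ofPred_eq, mem_inter_iff]
  rw [this]
  exact (isClosed_le continuous_const continuous_fst).inter
    ((isClosed_le continuous_fst continuous_const).inter
      ((isClosed_le continuous_const continuous_snd).inter
        (isClosed_le continuous_snd continuous_const)))

theorem isBounded_gsq (g : ℝ) (q : ℤ × ℤ) : Bornology.IsBounded (gsq g q) := by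
  rcases (gsq g q).eq_empty_or_nonempty with h | ⟨z, hz⟩
  · rw [h]; exact Bornology.isBounded_empty
  · refine (Metric.isBounded_closedBall (x := z) (r := g)).subset fun w hw => ?_
    rw [Metric.mem_closedBall]
    exact gsq_dist hw hz

theorem isCompact_gun {g : ℝ} {S : Set (ℤ × ℤ)} (hS : S.Finite) : IsCompact (gun g S) := by
  have : gun g S = ⋃ q ∈ S, gsq g q := by ext z; simp only [gun, Prod.exists, mem_ofPred_eq, mem_iUnion, exists_prop]
  rw [this]
  exact hS.isCompact_biUnion fun q _ =>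
    Metric.isCompact_of_isClosed_isBounded (isClosed_gsq g q) (isBounded_gsq g q)

/-- The complement of a thickening is a union of squares. -/
theorem thickC_gun {g s : ℝ} (hs : 0 < s) (hsg : s < g / 2) (S : Set (ℤ × ℤ)) :
    ThickC (Metric.thickening s (gun g S)) :=
  ⟨g / 2 - s, by linarith only [hsg], fun _ hx => exterior_square hs hsg S hx⟩

/-- Exterior squares of all small scales. -/
theorem ThickC.cork {D : Set (ℝ × ℝ)} (h : ThickC D) (hb : Bornology.IsBounded D) :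
    ∃ r₀ : ℝ, 0 < r₀ ∧ ∀ x : ℝ × ℝ, ∀ r : ℝ, 0 < r → dd D x ≤ r → r ≤ r₀ →
      ∃ z : ℝ × ℝ, dist z x ≤ 3 * r ∧ Disjoint (Metric.closedBall z r) D := by
  obtain ⟨ρ, hρ0, hρ⟩ := h
  have hne : (Dᶜ).Nonempty := compl_ne hb
  refine ⟨ρ, hρ0, fun x r hr hdr hrρ => ?_⟩
  obtain ⟨z₀, hz₀, hxz⟩ := (Metric.infDist_lt_iff hne (x := x) (r := 2 * r)).1 (by
    change dd D x < 2 * r; linarith)
  obtain ⟨c, hc, hcd⟩ := hρ z₀ hz₀
  refine ⟨z₀ + (r / ρ) • (c - z₀), ?_, ?_⟩
  · have h1 : dist (z₀ + (r / ρ) • (c - z₀)) z₀ ≤ r := by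
      rw [dist_eq_norm, add_sub_cancel_left, norm_smul, Real.norm_of_nonneg (by positivity)]
      rw [Metric.mem_closedBall, dist_comm, dist_eq_norm] at hc
      calc r / ρ * ‖c - z₀‖ ≤ r / ρ * ρ := mul_le_mul_of_nonneg_left hc (by positivity)
        _ = r := by field_simp
    have h2 := dist_triangle (z₀ + (r / ρ) • (c - z₀)) z₀ x
    rw [dist_comm z₀ x] at h2
    linarith only [hxz, h1, h2]
  · refine hcd.mono_left fun w hw => ?_
    rw [Metric.mem_closedBall] at hw ⊢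
    have h1 : dist (z₀ + (r / ρ) • (c - z₀)) c ≤ ρ - r := by
      have e : z₀ + (r / ρ) • (c - z₀) - c = (1 - r / ρ) • (z₀ - c) := by
        rw [sub_smul, one_smul, smul_sub, smul_sub]; abel
      have h3 : r / ρ ≤ 1 := by rw [div_le_one hρ0]; linarith only [hrρ]
      rw [dist_eq_norm, e, norm_smul, Real.norm_of_nonneg (by linarith only [h3])]
      rw [Metric.mem_closedBall, dist_eq_norm] at hc
      calc (1 - r / ρ) * ‖z₀ - c‖ ≤ (1 - r / ρ) * ρ :=
            mul_le_mul_of_nonneg_left hc (by linarith only [h3])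
        _ = ρ - r := by (clear * - hρ0; field_simp)
    have h2 := dist_triangle w (z₀ + (r / ρ) • (c - z₀)) c
    linarith

theorem nest_gun {g : ℝ} (hg : 0 < g) {S : Set (ℤ × ℤ)} (hS : S.Finite) :
    Nest 0 (g / 4) (fun s => Metric.thickening s (gun g S)) where
  lt := by linarith only [hg]
  op := fun s _ => Metric.isOpen_thickening
  bdd := fun s _ => (isCompact_gun hS).isBounded.thickening
  thick := fun s hs => thickC_gun hs.1 (by linarith [hs.2]) S
  nest := fun s hs t ht hst => (Metric.closure_thickening_subset_cthickening s _).trans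
    (Metric.cthickening_subset_thickening' ht.1 hst _)
  exh := fun s hs K hK hKc => by
    rcases (gun g S).eq_empty_or_nonempty with he | hne
    · refine ⟨s / 2, ⟨by linarith only [hs.1], by linarith [hs.1, hs.2]⟩, by linarith [hs.1], ?_⟩
      rw [he, Metric.thickening_empty] at hK ⊢
      exact hK
    rcases K.eq_empty_or_nonempty with hKe | hKne
    · exact ⟨s / 2, ⟨by linarith only [hs.1], by linarith only [hs.1, hs.2]⟩, by linarith [hs.1],
        by rw [hKe]; exact empty_subset _⟩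
    obtain ⟨z, hz, hmax⟩ := hKc.exists_isMaxOn hKne
      (Metric.continuous_infDist_pt (gun g S)).continuousOn
    have h1 : Metric.infDist z (gun g S) < s := by
      obtain ⟨y, hy, hzy⟩ := Metric.mem_thickening_iff.1 (hK hz)
      exact lt_of_le_of_lt (Metric.infDist_le_dist_of_mem hy) hzy
    have h0 : 0 ≤ Metric.infDist z (gun g S) := Metric.infDist_nonneg
    refine ⟨(Metric.infDist z (gun g S) + s) / 2, ⟨by linarith only [h1, h0], by linarith [hs.2]⟩,
      by linarith, fun w hw => ?_⟩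
    have h2 : Metric.infDist w (gun g S) ≤ Metric.infDist z (gun g S) := hmax hw
    obtain ⟨y, hy, hwy⟩ := (Metric.infDist_lt_iff hne (x := w)
      (r := (Metric.infDist z (gun g S) + s) / 2)).1 (by linarith)
    exact Metric.mem_thickening_iff.2 ⟨y, hy, hwy⟩

theorem gun_ball {g : ℝ} {S : Set (ℤ × ℤ)} (hS : S.Finite) :
    ∃ R : ℝ, ∀ s ∈ Ioo 0 (g / 4), Metric.thickening s (gun g S) ⊆ Metric.ball 0 R := by
  obtain ⟨R, hR⟩ := (Metric.isBounded_iff_subset_ball (0 : ℝ × ℝ)).1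
    ((isCompact_gun (g := g) hS).isBounded.thickening (δ := g / 4))
  exact ⟨R, fun s hs => (Metric.thickening_mono hs.2.le _).trans hR⟩

end Vale.Agent.P145.Top
end

section

/-!
Polynomial interpolation: convergence of polynomials of degree at most `k` at `0, …, k` implies
convergence at `-1`; the Gaussian moments as polynomials.
-/

namespace Vale.Agent.P145.Top

open Filter Topology Polynomial Vale.Agent.P145.PT

theorem exists_interp (k : ℕ) : ∃ l : Fin (k + 1) → ℝ, ∀ q : ℝ[X], q.natDegree ≤ k →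
    q.eval (-1) = ∑ i, l i * q.eval (i : ℝ) := by
  have hinj : Set.InjOn (fun i : Fin (k + 1) => ((i : ℕ) : ℝ)) (Finset.univ : Finset (Fin (k + 1))) := by
    intro i _ j _ h
    have h' : ((i : ℕ) : ℝ) = ((j : ℕ) : ℝ) := h
    exact Fin.ext (by exact_mod_cast h')
  refine ⟨fun i => (Lagrange.basis Finset.univ (fun i : Fin (k + 1) => ((i : ℕ) : ℝ)) i).eval (-1),
    fun q hq => ?_⟩
  have hdeg : q.degree < (Finset.univ : Finset (Fin (k + 1))).card := by
    rw [Finset.card_univ, Fintype.card_fin]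
    refine lt_of_le_of_lt degree_le_natDegree ?_
    exact_mod_cast Nat.lt_succ_of_le hq
  have h := Lagrange.eq_interpolate hinj hdeg
  conv_lhs => rw [h]
  rw [Lagrange.interpolate_apply, eval_finsetSum]
  refine Finset.sum_congr rfl fun i _ => ?_
  rw [eval_mul, eval_C]; ring

/-- The Gaussian moments with a polynomial variance. -/
noncomputable def gmP (v : ℝ[X]) : ℕ → ℝ[X]
  | 0 => 1
  | 1 => 0
  | n + 2 => C ((n : ℝ) + 1) * v * gmP v n

theorem gmP_eval (v : ℝ[X]) (a : ℝ) (n : ℕ) :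
    (gmP v n).eval a = gm (v.eval a) n ∧ (gmP v (n + 1)).eval a = gm (v.eval a) (n + 1) := by
  induction n with
  | zero => simp only [gmP, eval_one, gm, eval_zero, and_self]
  | succ n ih =>
    refine ⟨ih.2, ?_⟩
    change (C ((n : ℝ) + 1) * v * gmP v n).eval a = (n + 1) * v.eval a * gm (v.eval a) n
    rw [eval_mul, eval_mul, eval_C, ih.1]

theorem gmP_deg {v : ℝ[X]} (hv : v.natDegree ≤ 2) (n : ℕ) :
    (gmP v n).natDegree ≤ n ∧ (gmP v (n + 1)).natDegree ≤ n + 1 := by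
  induction n with
  | zero => simp only [gmP, natDegree_one, Std.le_refl, natDegree_zero, zero_add, zero_le, and_self]
  | succ n ih =>
    refine ⟨ih.2, ?_⟩
    change (C ((n : ℝ) + 1) * v * gmP v n).natDegree ≤ n + 1 + 1
    refine (natDegree_mul_le).trans ?_
    have h1 : (C ((n : ℝ) + 1) * v).natDegree ≤ 2 :=
      (natDegree_C_mul_le _ _).trans hv
    have := ih.1
    omega

/-- If `∑ⱼ C(k,j) aʲ bₙⱼ` converges to `gm (α + β a + γ a²) k` for `a = 0, …, k`, then it does so for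
`a = -1`. -/
theorem tendsto_neg_one {ι : Type*} {l : Filter ι} (k : ℕ) (b : ι → ℕ → ℝ) (α β γ : ℝ)
    (h : ∀ i : ℕ, i ≤ k → Tendsto (fun n => ∑ j ∈ Finset.range (k + 1),
      (k.choose j : ℝ) * (i : ℝ) ^ j * b n j) l (𝓝 (gm (α + β * i + γ * (i : ℝ) ^ 2) k))) :
    Tendsto (fun n => ∑ j ∈ Finset.range (k + 1), (k.choose j : ℝ) * (-1) ^ j * b n j) l
      (𝓝 (gm (α + β * (-1) + γ * (-1) ^ 2) k)) := by
  obtain ⟨w, hw⟩ := exists_interp k
  set q : ι → ℝ[X] := fun n => ∑ j ∈ Finset.range (k + 1), C ((k.choose j : ℝ) * b n j) * X ^ j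
    with hq
  have hqe : ∀ n a, (q n).eval a = ∑ j ∈ Finset.range (k + 1), (k.choose j : ℝ) * a ^ j * b n j := by
    intro n a
    rw [hq]; simp only
    rw [eval_finsetSum]
    refine Finset.sum_congr rfl fun j _ => ?_
    rw [eval_mul, eval_C, eval_pow, eval_X]; ring
  have hqd : ∀ n, (q n).natDegree ≤ k := by
    intro n
    refine natDegree_sum_le_of_forall_le _ _ fun j hj => ?_
    refine (natDegree_C_mul_X_pow_le _ _).trans ?_
    have := Finset.mem_range.1 hj; omega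
  set v : ℝ[X] := C α + C β * X + C γ * X ^ 2 with hv
  have hve : ∀ a, v.eval a = α + β * a + γ * a ^ 2 := by
    intro a; rw [hv]; simp
  have hvd : v.natDegree ≤ 2 := by
    rw [hv]
    refine (natDegree_add_le _ _).trans (max_le ((natDegree_add_le _ _).trans (max_le ?_ ?_)) ?_)
    · rw [natDegree_C]; norm_num
    · exact (natDegree_C_mul_le _ _).trans (by rw [natDegree_X]; norm_num)
    · exact natDegree_C_mul_X_pow_le γ 2
  have h1 : ∀ n, ∑ j ∈ Finset.range (k + 1), (k.choose j : ℝ) * (-1) ^ j * b n j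
      = ∑ i, w i * (q n).eval ((i : ℕ) : ℝ) := by
    intro n; rw [← hqe, hw (q n) (hqd n)]
  have h2 : gm (α + β * (-1) + γ * (-1) ^ 2) k
      = ∑ i, w i * gm (α + β * ((i : ℕ) : ℝ) + γ * ((i : ℕ) : ℝ) ^ 2) k := by
    rw [← hve, ← (gmP_eval v (-1) k).1, hw _ (gmP_deg hvd k).1]
    refine Finset.sum_congr rfl fun i _ => ?_
    rw [(gmP_eval v _ k).1, hve]
  simp_rw [h1]
  rw [h2]
  refine tendsto_finsetSum _ fun i _ => ?_
  refine Tendsto.const_mul _ ?_
  simp_rw [hqe]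
  exact h i (Nat.lt_succ_iff.1 i.2)

end Vale.Agent.P145.Top
end

section

/-!
The squeeze: from the Gaussian moments for nonnegative test functions in the families of
thickened polyominoes to all moments of signed test functions in the polygons.
-/

namespace Vale.Agent.P145.Top

open Filter Topology Set MeasureTheory
open Vale.Agent.P145.PT Vale.Agent.P145.FP Vale.Agent.P145.Dom

/-! Linearity of `ze`. -/

theorem zs_eq_sum (c : ℝ) (F : Finset (ℤ × ℤ)) (Φ : (Site → ℤ) → ℝ) :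
    zs c F Φ = ∑ x ∈ (ZH_finite F).toFinset, zw c F x * Φ x := by
  unfold zs
  exact finsum_mem_eq_finite_toFinset_sum _ (ZH_finite F)

theorem ze_add' (c : ℝ) (F : Finset (ℤ × ℤ)) (Φ Ψ : (Site → ℤ) → ℝ) :
    ze c F (fun x => Φ x + Ψ x) = ze c F Φ + ze c F Ψ := by
  unfold ze
  rw [← add_div]
  congr 1
  rw [zs_eq_sum, zs_eq_sum, zs_eq_sum, ← Finset.sum_add_distrib]
  exact Finset.sum_congr rfl fun x _ => by ring

theorem ze_smul' (c : ℝ) (F : Finset (ℤ × ℤ)) (a : ℝ) (Φ : (Site → ℤ) → ℝ) :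
    ze c F (fun x => a * Φ x) = a * ze c F Φ := by
  unfold ze
  rw [← mul_div_assoc]
  congr 1
  rw [zs_eq_sum, zs_eq_sum, Finset.mul_sum]
  exact Finset.sum_congr rfl fun x _ => by ring

theorem ze_zero' (c : ℝ) (F : Finset (ℤ × ℤ)) : ze c F (fun _ => 0) = 0 := by
  have := ze_smul' c F 0 (fun _ => 0)
  simpa using this

theorem ze_sum' (c : ℝ) (F : Finset (ℤ × ℤ)) {ι : Type*} (s : Finset ι)
    (Φ : ι → (Site → ℤ) → ℝ) :
    ze c F (fun x => ∑ i ∈ s, Φ i x) = ∑ i ∈ s, ze c F (Φ i) := by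
  classical
  induction s using Finset.induction_on with
  | empty => simpa using ze_zero' c F
  | insert a s ha ih =>
    rw [Finset.sum_insert ha, ← ih, ← ze_add']
    congr 1; funext x; rw [Finset.sum_insert ha]

theorem ze_congr' (c : ℝ) (F : Finset (ℤ × ℤ)) {Φ Ψ : (Site → ℤ) → ℝ}
    (h : ∀ x ∈ ZH F, Φ x = Ψ x) : ze c F Φ = ze c F Ψ := by
  unfold ze
  congr 1
  rw [zs_eq_sum, zs_eq_sum]
  refine Finset.sum_congr rfl fun x hx => ?_
  rw [h x ((ZH_finite F).mem_toFinset.1 hx)]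

/-- Functions in the cone have monotone expectations. -/
theorem cone_ze_mono {c : ℝ} (hm : S_mono c) {F F' : Finset (ℤ × ℤ)} (hF : F ⊆ F') {g : Om → ℝ}
    (hg : Cone g) : ze c F (fun x => g (vh x)) ≤ ze c F' (fun x => g (vh x)) := by
  induction hg with
  | mon l => exact (hm F F' hF l).2.1
  | zero => rw [ze_zero', ze_zero']
  | add _ _ h1 h2 => rw [ze_add', ze_add']; exact add_le_add h1 h2
  | smul a ha _ h1 => rw [ze_smul', ze_smul']; exact mul_le_mul_of_nonneg_left h1 ha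

/-- `(a + b)^k ± (a - b)^k` is in the cone. -/
theorem cone_pm {B : Finset (ℤ × ℤ)} {δ : ℝ} {p m : ℝ × ℝ → ℝ} (hp : ∀ z, 0 ≤ p z)
    (hm : ∀ z, 0 ≤ m z) (k : ℕ) :
    Cone (fun ω => (hB B δ p ω + hB B δ m ω) ^ k + (hB B δ p ω - hB B δ m ω) ^ k) ∧
    Cone (fun ω => (hB B δ p ω + hB B δ m ω) ^ k - (hB B δ p ω - hB B δ m ω) ^ k) := by
  induction k with
  | zero =>
    refine ⟨((Pol.one (P := fun c => 0 ≤ c)).add Pol.one).of_eq fun ω => by simp,
      Pol.zero.of_eq fun ω => by simp⟩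
  | succ k ih =>
    refine ⟨((Cone.hB (B := B) (δ := δ) ih.1 hp).add (Cone.hB (B := B) (δ := δ) ih.2 hm)).of_eq
      fun ω => by ring,
      ((Cone.hB (B := B) (δ := δ) ih.2 hp).add (Cone.hB (B := B) (δ := δ) ih.1 hm)).of_eq
      fun ω => by ring⟩

/-- `hv` is a finite sum. -/
theorem exists_hB {δ : ℝ} (hδ : 0 < δ) {f : ℝ × ℝ → ℝ} (hf : HasCompactSupport f) :
    ∃ B : Finset (ℤ × ℤ), ∀ B', B ⊆ B' → ∀ ω, hv δ f ω = hB B' δ f ω := by
  obtain ⟨R, hR⟩ := hf.isBounded.exists_norm_le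
  have hfin : {v : ℤ × ℤ | f (δ * v.1, δ * v.2) ≠ 0}.Finite := by
    refine ((finite_Icc (-⌈R / δ⌉) ⌈R / δ⌉).prod (finite_Icc (-⌈R / δ⌉) ⌈R / δ⌉)).subset ?_
    rintro v hv
    have h0 := hR _ (subset_tsupport f hv)
    have h1 := (norm_fst_le _).trans h0
    have h2 := (norm_snd_le _).trans h0
    simp only [Real.norm_eq_abs, abs_mul, abs_of_pos hδ] at h1 h2
    have key : ∀ m : ℤ, δ * |(m : ℝ)| ≤ R → m ∈ Icc (-⌈R / δ⌉) ⌈R / δ⌉ := by
      intro m hm
      have h3 : |(m : ℝ)| ≤ R / δ := by rw [le_div_iff₀ hδ]; linarith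
      have h4 : |(m : ℝ)| ≤ (⌈R / δ⌉ : ℤ) := h3.trans (Int.le_ceil _)
      rw [abs_le] at h4
      exact ⟨by exact_mod_cast h4.1, by exact_mod_cast h4.2⟩
    exact ⟨key _ h1, key _ h2⟩
  refine ⟨hfin.toFinset, fun B' hB' ω => ?_⟩
  unfold hv hB
  congr 1
  refine finsum_eq_sum_of_support_subset _ fun v hv => ?_
  refine hB' (hfin.mem_toFinset.2 ?_)
  intro h
  refine hv ?_
  change ω v * f (δ * v.1, δ * v.2) = 0
  rw [h, mul_zero]

theorem hv_add {δ : ℝ} (hδ : 0 < δ) {f g : ℝ × ℝ → ℝ} (hf : HasCompactSupport f)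
    (hg : HasCompactSupport g) (a b : ℝ) (ω : Om) :
    hv δ (fun z => a * f z + b * g z) ω = a * hv δ f ω + b * hv δ g ω := by
  classical
  have k1 : HasCompactSupport (fun z => a * f z) := by
    have h := hf.comp_left (g := fun t : ℝ => a * t) (mul_zero a)
    exact h
  have k2 : HasCompactSupport (fun z => b * g z) := by
    have h := hg.comp_left (g := fun t : ℝ => b * t) (mul_zero b)
    exact h
  have hfg : HasCompactSupport (fun z => a * f z + b * g z) := k1.add k2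
  obtain ⟨B1, h1⟩ := exists_hB hδ hf
  obtain ⟨B2, h2⟩ := exists_hB hδ hg
  obtain ⟨B3, h3⟩ := exists_hB hδ hfg
  set B := B1 ∪ (B2 ∪ B3)
  rw [h1 B Finset.subset_union_left, h2 B (Finset.subset_union_left.trans
    Finset.subset_union_right), h3 B (Finset.subset_union_right.trans Finset.subset_union_right),
    hB_add, hB_smul, hB_smul]

/-- The comparison of moments of signed functions. -/
theorem squeeze_fin {c : ℝ} (hm : S_mono c) {δ : ℝ} (hδ : 0 < δ) {p m : ℝ × ℝ → ℝ}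
    (hp : HasCompactSupport p) (hmc : HasCompactSupport m) (hp0 : ∀ z, 0 ≤ p z)
    (hm0 : ∀ z, 0 ≤ m z) {F0 F F1 : Finset (ℤ × ℤ)} (h0 : F0 ⊆ F) (h1 : F ⊆ F1) (k : ℕ) :
    |ze c F (fun x => (hv δ p (vh x) - hv δ m (vh x)) ^ k)
        - ze c F0 (fun x => (hv δ p (vh x) - hv δ m (vh x)) ^ k)|
      ≤ ze c F1 (fun x => (hv δ p (vh x) + hv δ m (vh x)) ^ k)
        - ze c F0 (fun x => (hv δ p (vh x) + hv δ m (vh x)) ^ k) := by
  classical
  obtain ⟨B1, hB1⟩ := exists_hB hδ hp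
  obtain ⟨B2, hB2⟩ := exists_hB hδ hmc
  set B := B1 ∪ B2
  have e1 : ∀ ω, hv δ p ω = hB B δ p ω := hB1 B Finset.subset_union_left
  have e2 : ∀ ω, hv δ m ω = hB B δ m ω := hB2 B Finset.subset_union_right
  simp_rw [e1, e2]
  obtain ⟨cp, cm⟩ := cone_pm (B := B) (δ := δ) hp0 hm0 k
  have cs : Cone (fun ω => (hB B δ p ω + hB B δ m ω) ^ k) := by
    refine (((cp.add cm).smul (1 / 2) (by norm_num))).of_eq fun ω => by ring
  set A : Finset (ℤ × ℤ) → ℝ := fun F => ze c F (fun x => (hB B δ p (vh x) + hB B δ m (vh x)) ^ k)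
  set A' : Finset (ℤ × ℤ) → ℝ := fun F => ze c F (fun x => (hB B δ p (vh x) - hB B δ m (vh x)) ^ k)
  have hpl : ∀ F, ze c F (fun x => (hB B δ p (vh x) + hB B δ m (vh x)) ^ k
      + (hB B δ p (vh x) - hB B δ m (vh x)) ^ k) = A F + A' F := fun F => ze_add' c F _ _
  have hmi : ∀ F, ze c F (fun x => (hB B δ p (vh x) + hB B δ m (vh x)) ^ k
      - (hB B δ p (vh x) - hB B δ m (vh x)) ^ k) = A F - A' F := fun F => by
    have h := ze_add' c F (fun x => (hB B δ p (vh x) + hB B δ m (vh x)) ^ k)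
      (fun x => (-1) * (hB B δ p (vh x) - hB B δ m (vh x)) ^ k)
    rw [ze_smul'] at h
    have h' : (fun x => (hB B δ p (vh x) + hB B δ m (vh x)) ^ k
      - (hB B δ p (vh x) - hB B δ m (vh x)) ^ k) = fun x =>
      (hB B δ p (vh x) + hB B δ m (vh x)) ^ k
      + (-1) * (hB B δ p (vh x) - hB B δ m (vh x)) ^ k := by funext x; ring
    rw [h', h]; ring
  have a1 := cone_ze_mono hm h0 cp
  have a2 := cone_ze_mono hm h0 cm
  have a3 := cone_ze_mono hm h1 cs
  rw [hpl, hpl] at a1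
  rw [hmi, hmi] at a2
  have a3' : A F ≤ A F1 := a3
  change |A' F - A' F0| ≤ A F1 - A F0
  rw [abs_le]
  constructor <;> linarith

/-- The sum over the vertices of `F` and the sum over all vertices. -/
theorem zf_eq_hv {F : Finset (ℤ × ℤ)} {δ : ℝ} {f : ℝ × ℝ → ℝ} {x : Site → ℤ} (hx : x ∈ ZH F) :
    zf F δ f x = hv δ f (vh x) := by
  unfold zf fldD hv
  congr 1
  symm
  refine finsum_eq_sum_of_support_subset _ fun v hv => ?_
  by_contra hvF
  refine hv ?_
  have hvF' : v ∉ verts F := hvF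
  have h1 : v ∉ F := fun h => hvF' (by unfold verts; simp only [Finset.image_add_right, Prod.neg_mk, Int.reduceNeg, neg_zero, Finset.union_assoc, Finset.mem_union, h, Finset.mem_preimage, true_or])
  have h2 := (hx.2.2 v 0 0 (Or.inl rfl) (Or.inl rfl)).1 h1
  have h3 : x (Sum.inl v) = 0 := by simpa using h2
  change vh x v * f (δ * v.1, δ * v.2) = 0
  unfold vh
  rw [h3]; simp

/-- Quadratic dependence of `V` on the coefficient. -/
theorem V_quad {D : Set (ℝ × ℝ)} (hD : Bornology.IsBounded D) {p m : ℝ × ℝ → ℝ}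
    (hp : TestOn D p) (hm : TestOn D m) : ∃ β : ℝ, ∀ a : ℝ,
    V D (fun z => 1 * p z + a * m z) = V D p + β * a + V D m * a ^ 2 := by
  have hφ : ∀ j : Fin 2, TestOn D ((![p, m] : Fin 2 → ℝ × ℝ → ℝ) j) := by
    intro j; fin_cases j
    · exact hp
    · exact hm
  have key := V_sum hD hφ
  have h0 : V D p = dirCov D p p := by
    have h := key ![1, 0]
    simp only [Matrix.cons_val', Matrix.cons_val_fin_one, Fin.sum_univ_two, Fin.isValue, Matrix.cons_val_zero, one_mul, Matrix.cons_val_one, zero_mul, add_zero, mul_one, mul_zero] at h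
    exact h
  have h1 : V D m = dirCov D m m := by
    have h := key ![0, 1]
    simp only [Matrix.cons_val', Matrix.cons_val_fin_one, Fin.sum_univ_two, Fin.isValue, Matrix.cons_val_zero, zero_mul, Matrix.cons_val_one, one_mul, zero_add, mul_zero, mul_one] at h
    exact h
  refine ⟨dirCov D p m + dirCov D m p, fun a => ?_⟩
  have h := key ![1, a]
  simp only [Fin.sum_univ_two, Matrix.cons_val_zero, Matrix.cons_val_one] at h
  rw [h, h0, h1]
  simp only [mul_one, one_mul]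
  ring

/-- Signed test functions. -/
theorem signed {c κ : ℝ} {δ : ℕ → ℝ} (hδ : ∀ n, 0 < δ n) {D : Set (ℝ × ℝ)}
    (hb : Bornology.IsBounded D) {U : Filter ℕ}
    (h : ∀ f : ℝ × ℝ → ℝ, TestOn D f → (∀ z, 0 ≤ f z) → ∀ k : ℕ,
      Tendsto (fun n => EE c (δ n) D (fun ω => hv (δ n) f ω ^ k)) U (𝓝 (gm (κ * V D f) k)))
    {p m : ℝ × ℝ → ℝ} (hp : TestOn D p) (hm : TestOn D m) (hp0 : ∀ z, 0 ≤ p z)
    (hm0 : ∀ z, 0 ≤ m z) (k : ℕ) :
    Tendsto (fun n => EE c (δ n) D (fun ω => (hv (δ n) p ω - hv (δ n) m ω) ^ k)) U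
      (𝓝 (gm (κ * V D (fun z => p z - m z)) k)) := by
  obtain ⟨β, hβ⟩ := V_quad hb hp hm
  set b : ℕ → ℕ → ℝ := fun n j => ze c (Fs (δ n) D)
    (fun x => hv (δ n) m (vh x) ^ j * hv (δ n) p (vh x) ^ (k - j)) with hbd
  have hexp : ∀ (a : ℝ) n, EE c (δ n) D (fun ω => (hv (δ n) p ω + a * hv (δ n) m ω) ^ k)
      = ∑ j ∈ Finset.range (k + 1), (k.choose j : ℝ) * a ^ j * b n j := by
    intro a n
    unfold EE
    have h1 : ∀ x : Site → ℤ, (hv (δ n) p (vh x) + a * hv (δ n) m (vh x)) ^ k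
        = ∑ j ∈ Finset.range (k + 1), ((k.choose j : ℝ) * a ^ j) *
          (hv (δ n) m (vh x) ^ j * hv (δ n) p (vh x) ^ (k - j)) := by
      intro x
      rw [add_comm, add_pow]
      refine Finset.sum_congr rfl fun j _ => ?_
      rw [mul_pow]; ring
    simp_rw [h1]
    rw [ze_sum']
    refine Finset.sum_congr rfl fun j _ => ?_
    rw [ze_smul']
  have key := tendsto_neg_one (l := U) k b (κ * V D p) (κ * β) (κ * V D m) (fun i hi => by
    have h2 := h (fun z => 1 * p z + (i : ℝ) * m z) ((hp.smul 1).add (hm.smul i))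
      (fun z => add_nonneg (by rw [one_mul]; exact hp0 z)
        (mul_nonneg (Nat.cast_nonneg i) (hm0 z))) k
    rw [hβ] at h2
    have e1 : κ * (V D p + β * (i : ℝ) + V D m * (i : ℝ) ^ 2)
        = κ * V D p + κ * β * i + κ * V D m * (i : ℝ) ^ 2 := by ring
    rw [e1] at h2
    refine h2.congr fun n => ?_
    rw [← hexp]
    congr 1; funext ω
    rw [hv_add (hδ n) hp.cs hm.cs, one_mul])
  have e2 : κ * V D p + κ * β * (-1) + κ * V D m * (-1) ^ 2
      = κ * V D (fun z => p z - m z) := by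
    have h3 := hβ (-1)
    have h4 : (fun z => 1 * p z + (-1) * m z) = fun z => p z - m z := by funext z; ring
    rw [h4] at h3
    rw [h3]; ring
  rw [e2] at key
  refine key.congr fun n => ?_
  rw [← hexp]
  congr 1; funext ω
  ring

theorem gm_cont (k : ℕ) : Continuous (fun v => gm v k) ∧ Continuous (fun v => gm v (k + 1)) := by
  induction k with
  | zero => exact ⟨continuous_const, continuous_const⟩
  | succ k ih =>
    refine ⟨ih.2, ?_⟩
    have : (fun v : ℝ => gm v (k + 1 + 1)) = fun v => ((k : ℝ) + 1) * v * gm v k := by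
      funext v; rfl
    rw [this]
    exact (continuous_const.mul continuous_id).mul ih.1

/-- **The squeeze.** -/
theorem squeeze {c κ : ℝ} {δ : ℕ → ℝ} (hm : S_mono c) (hδ : ∀ n, 0 < δ n)
    (hkey : S_key c κ δ) {D : Set (ℝ × ℝ)} (hJ : JordanDomain D) {F : ℕ → Finset (ℤ × ℤ)}
    (hin : ∀ D' : Set (ℝ × ℝ), IsOpen D' → Bornology.IsBounded D' → closure D' ⊆ D →
      ∀ᶠ n in atTop, Fs (δ n) D' ⊆ F n)
    (hout : ∀ D' : Set (ℝ × ℝ), IsOpen D' → Bornology.IsBounded D' → closure D ⊆ D' →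
      ∀ᶠ n in atTop, F n ⊆ Fs (δ n) D')
    {φ : ℝ × ℝ → ℝ} (hφ : TestOn D φ) (k : ℕ) :
    Tendsto (fun n => ze c (F n) (fun x => zf (F n) (δ n) φ x ^ k)) atTop
      (𝓝 (gm (κ * V D φ) k)) := by
  have hop : IsOpen D := hJ.isOpen
  have hb : Bornology.IsBounded D := hJ.isBounded
  obtain ⟨Φ, hΦ⟩ := hJ
  have hdisc : D = Φ '' disc := hΦ
  rw [tendsto_iff_ultrafilter]
  intro U hU
  obtain ⟨p, m, hp, hm', hp0, hm0, hpm⟩ := exists_decomp hop hb hφ
  have hφe : φ = fun z => p z - m z := funext hpm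
  set ψ : ℝ × ℝ → ℝ := fun z => p z + m z with hψ
  have hψT : TestOn D ψ := hp.add hm'
  have hψ0 : ∀ z, 0 ≤ ψ z := fun z => add_nonneg (hp0 z) (hm0 z)
  rw [Metric.tendsto_nhds]
  intro ε hε
  -- continuity of the Gaussian moments
  obtain ⟨η1, hη1, hc1⟩ := Metric.continuous_iff.1
    ((gm_cont k).1.comp (continuous_const.mul continuous_id : Continuous fun v : ℝ => κ * v))
    (V D ψ) (ε / 8) (by (clear * - hε; positivity))
  obtain ⟨η2, hη2, hc2⟩ := Metric.continuous_iff.1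
    ((gm_cont k).1.comp (continuous_const.mul continuous_id : Continuous fun v : ℝ => κ * v))
    (V D φ) (ε / 4) (by positivity)
  set η : ℝ := min η1 η2 / 2 with hη
  have hη0 : 0 < η := by have := lt_min hη1 hη2; (clear * - hη1 hη2; positivity)
  have hηη1 : η < η1 := by
    have := lt_min hη1 hη2
    have h2 := min_le_left η1 η2
    linarith only [hη, hη0, h2]
  have hηη2 : η < η2 := by
    have := lt_min hη1 hη2
    have h2 := min_le_right η1 η2
    linarith only [hη, hη0, h2]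
  -- inner and outer scales
  obtain ⟨s1, hs1, hV1⟩ := inner_stab hop hb hψT hη0
  obtain ⟨s2, hs2, hV2⟩ := inner_stab hop hb hφ hη0
  obtain ⟨s3, hs3, hT3⟩ := hp.inner hop hb
  obtain ⟨s4, hs4, hT4⟩ := hm'.inner hop hb
  obtain ⟨s5, hs5, hV5⟩ : ∃ s : ℝ, 0 < s ∧ V (Metric.thickening s D) ψ ≤ V D ψ + η := by
    have := jordan_stab Φ (φ := ψ) (by rw [← hdisc]; exact hψT) hψ0 hη0
    rw [← hdisc] at this
    exact this
  set g : ℝ := min (min (min s1 s2) (min s3 s4)) s5 / 4 with hg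
  have hmin : 0 < min (min (min s1 s2) (min s3 s4)) s5 :=
    lt_min (lt_min (lt_min hs1 hs2) (lt_min hs3 hs4)) hs5
  have hg0 : 0 < g := by (clear * - hs1 hs2 hs3 hs4 hs5; positivity)
  have hg1 : 4 * g ≤ s1 := by
    have : min (min (min s1 s2) (min s3 s4)) s5 ≤ s1 :=
      (min_le_left _ _).trans ((min_le_left _ _).trans (min_le_left _ _))
    linarith only [hg, this]
  have hg2 : 4 * g ≤ s2 := by
    have : min (min (min s1 s2) (min s3 s4)) s5 ≤ s2 :=
      (min_le_left _ _).trans ((min_le_left _ _).trans (min_le_right _ _))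
    linarith only [hg, this]
  have hg3 : 4 * g ≤ s3 := by
    have : min (min (min s1 s2) (min s3 s4)) s5 ≤ s3 :=
      (min_le_left _ _).trans ((min_le_right _ _).trans (min_le_left _ _))
    linarith only [hg, this]
  have hg4 : 4 * g ≤ s4 := by
    have : min (min (min s1 s2) (min s3 s4)) s5 ≤ s4 :=
      (min_le_left _ _).trans ((min_le_right _ _).trans (min_le_right _ _))
    linarith only [hg, this]
  have hg5 : 4 * g ≤ s5 := by
    have : min (min (min s1 s2) (min s3 s4)) s5 ≤ s5 := min_le_right _ _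
    linarith only [hg, this]
  -- the families
  have hSo : (Sout g D).Finite := Sout_finite hg0 hb
  have hSi : (Sin g D).Finite := by
    refine hSo.subset fun q hq => ?_
    have hz : ((g * q.1, g * q.2) : ℝ × ℝ) ∈ gsq g q := by
      refine ⟨le_rfl, ?_, le_rfl, ?_⟩ <;> simp only <;> nlinarith only [hg0]
    have h1 := hq _ hz
    exact ⟨_, hz, (dd_pos hop hb).1 (by linarith only [hg0, h1])⟩
  obtain ⟨so, hso, hGo⟩ := hkey 0 (g / 4) _ (nest_gun hg0 hSo) (gun_ball hSo) U hU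
  obtain ⟨si, hsi, hGi⟩ := hkey 0 (g / 4) _ (nest_gun hg0 hSi) (gun_ball hSi) U hU
  set Do := Metric.thickening so (gun g (Sout g D)) with hDo
  set Di := Metric.thickening si (gun g (Sin g D)) with hDi
  have hDob : Bornology.IsBounded Do := (isCompact_gun hSo).isBounded.thickening
  have hDib : Bornology.IsBounded Di := (isCompact_gun hSi).isBounded.thickening
  have hDDo : closure D ⊆ Do := by
    refine (closure_minimal (subset_gun_Sout hg0 D) (isCompact_gun hSo).isClosed).trans ?_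
    exact Metric.self_subset_thickening hso.1 _
  have hDiD : closure Di ⊆ D := by
    have h1 : Di ⊆ {z | g ≤ dd D z} := fun z hz => by
      have h' := gun_Sin_subset (s := si) (by linarith only [hg0, hsi.2]) D hz
      have h'' : g < dd D z := h'
      exact h''.le
    have h2 : closure Di ⊆ {z | g ≤ dd D z} :=
      closure_minimal h1 (isClosed_le continuous_const (dd_cont D))
    intro z hz
    have h3 : g ≤ dd D z := h2 hz
    exact (dd_pos hop hb).1 (by linarith only [hg0, h3])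
  have hDisub : Di ⊆ D := subset_closure.trans hDiD
  have h4g : {z | 4 * g < dd D z} ⊆ Di := (subset_gun_Sin hg0 D).trans
    (Metric.self_subset_thickening hsi.1 _)
  have hpi : TestOn Di p := hT3.mono ((inner_mono hg3).trans h4g)
  have hmi : TestOn Di m := hT4.mono ((inner_mono hg4).trans h4g)
  have hψo : TestOn Do ψ := hψT.mono (subset_closure.trans hDDo)
  have hψi : TestOn Di ψ := hpi.add hmi
  -- values of V
  have v1 : V D ψ - η ≤ V Di ψ := by
    have h1 := V_mono hDib ((inner_mono hg1).trans h4g) hψT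
    linarith only [hV1, h1]
  have v2 : V Di ψ ≤ V D ψ := V_mono hb hDisub hψT
  have v3 : V D φ - η ≤ V Di φ := by
    have h1 := V_mono hDib ((inner_mono hg2).trans h4g) hφ
    linarith only [hV2, h1]
  have v4 : V Di φ ≤ V D φ := V_mono hb hDisub hφ
  have v5 : V Do ψ ≤ V D ψ + η := by
    have h1 : Do ⊆ Metric.thickening s5 D :=
      (gun_Sout_subset (s := so) (by linarith only [hg0, hso.2]) D).trans
        (Metric.thickening_mono (by linarith only [hg0, hg5]) D)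
    exact (V_mono hb.thickening h1 hψT).trans hV5
  have v6 : V D ψ ≤ V Do ψ := V_mono hDob (subset_closure.trans hDDo) hψT
  have w1 : dist (gm (κ * V Di ψ) k) (gm (κ * V D ψ) k) < ε / 8 :=
    hc1 _ (by rw [Real.dist_eq, abs_lt]; constructor <;> linarith only [hη0, hηη1, v2, v1])
  have w2 : dist (gm (κ * V Do ψ) k) (gm (κ * V D ψ) k) < ε / 8 :=
    hc1 _ (by rw [Real.dist_eq, abs_lt]; constructor <;> linarith only [hη0, hηη1, v6, v5])
  have w3 : dist (gm (κ * V Di φ) k) (gm (κ * V D φ) k) < ε / 4 :=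
    hc2 _ (by rw [Real.dist_eq, abs_lt]; constructor <;> linarith only [hη0, hηη2, v4, v3])
  -- the limits
  have l1 := signed (κ := κ) hδ hDib hGi hpi hmi hp0 hm0 k
  rw [← hφe] at l1
  have l2 := hGi ψ hψi hψ0 k
  have l3 := hGo ψ hψo hψ0 k
  have n1 : ∀ᶠ n in (U : Filter ℕ), Fs (δ n) Di ⊆ F n :=
    hU (hin Di Metric.isOpen_thickening hDib hDiD)
  have n2 : ∀ᶠ n in (U : Filter ℕ), F n ⊆ Fs (δ n) Do :=
    hU (hout Do Metric.isOpen_thickening hDob hDDo)
  filter_upwards [n1, n2, Metric.tendsto_nhds.1 l1 (ε / 8) (by positivity),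
    Metric.tendsto_nhds.1 l2 (ε / 8) (by positivity),
    Metric.tendsto_nhds.1 l3 (ε / 8) (by (clear * - hε; positivity))] with n m1 m2 d1 d2 d3
  have sq := squeeze_fin hm (hδ n) hp.cs hm'.cs hp0 hm0 m1 m2 k
  have e1 : ze c (F n) (fun x => zf (F n) (δ n) φ x ^ k)
      = ze c (F n) (fun x => (hv (δ n) p (vh x) - hv (δ n) m (vh x)) ^ k) := by
    refine ze_congr' c (F n) fun x hx => ?_
    rw [zf_eq_hv hx]
    congr 1
    have h1 := hv_add (hδ n) hp.cs hm'.cs 1 (-1) (vh x)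
    have h2 : (fun z => 1 * p z + (-1) * m z) = φ := by funext z; rw [hpm z]; ring
    rw [h2] at h1
    rw [h1]; ring
  have e2 : ∀ ω, hv (δ n) ψ ω = hv (δ n) p ω + hv (δ n) m ω := by
    intro ω
    have h1 := hv_add (hδ n) hp.cs hm'.cs 1 1 ω
    have h2 : (fun z => 1 * p z + 1 * m z) = ψ := by funext z; rw [hψ]; ring
    rw [h2] at h1
    rw [h1]; ring
  simp_rw [e2] at d2 d3
  rw [e1]
  unfold EE at d1 d2 d3
  rw [Real.dist_eq] at d1 d2 d3 w1 w2 w3 ⊢
  rw [abs_lt] at d1 d2 d3 w1 w2 w3 ⊢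
  rw [abs_le] at sq
  constructor <;> linarith only [w1, w2, w3, d1, sq, d2, d3]

/-- The inner inclusion follows from `Approx`. -/
theorem approx_in {D : Set (ℝ × ℝ)} {δ : ℕ → ℝ} {N : ℕ → ℕ} {p : ∀ n, ZMod (N n) → ℤ × ℤ}
    {F : ℕ → Finset (ℤ × ℤ)} (hA : Approx D δ N p F) (D' : Set (ℝ × ℝ))
    (hb : Bornology.IsBounded D') (hD' : closure D' ⊆ D) :
    ∀ᶠ n in atTop, Fs (δ n) D' ⊆ F n := by
  filter_upwards [hA.cpt (closure D') hD' hb.isCompact_closure] with n hn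
  intro f hf
  have hδ := hA.pos n
  have hsub : sq (δ n) f ⊆ D' := by
    unfold Fs at hf
    split_ifs at hf with h
    · exact h.mem_toFinset.1 hf
    · simp at hf
  have hmem : ((δ n * f.1, δ n * f.2) : ℝ × ℝ) ∈ sq (δ n) f := by
    refine ⟨le_rfl, ?_, le_rfl, ?_⟩ <;> simp only <;> linarith
  have := hn _ (subset_closure (hsub hmem))
  have e1 : δ n * (f.1 : ℝ) / δ n = f.1 := by (clear * - hδ; field_simp)
  have e2 : δ n * (f.2 : ℝ) / δ n = f.2 := by (clear * - hδ; field_simp)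
  simp only [e1, e2, Int.floor_intCast] at this
  exact this

end Vale.Agent.P145.Top
end

section

/-!
The convergence in Dom.law of the height functions in polygons, from the convergence of the moments.
-/

namespace Vale.Agent.P145.Top

open Filter Topology Set MeasureTheory
open Vale.Agent.P145.PT Vale.Agent.P145.FP Vale.Agent.P145.Dom

/-- All functions are integrable for the law in a polygon. -/
theorem law_integrable (t : ℝ) {n : ℕ} (p : ZMod n → ℤ × ℤ) (F : Finset (ℤ × ℤ)) (f : Conf → ℝ) :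
    Integrable f (Dom.law t p F) := by
  unfold Dom.law
  rw [integrable_finsetSum_measure]
  intro S _
  exact (integrable_dirac (by simp)).smul_measure ENNReal.ofReal_ne_top

/-- The conclusion, from the convergence of all moments of single test functions. -/
theorem conv_of_mom {t κ s : ℝ} (ht : 0 < t) (hs : κ = s ^ 2 * (2 * Real.pi))
    {D : Set (ℝ × ℝ)} (hJ : JordanDomain D)
    (hmom : ∀ (δ : ℕ → ℝ) (N : ℕ → ℕ) (p : ∀ n, ZMod (N n) → ℤ × ℤ) (F : ℕ → Finset (ℤ × ℤ)),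
      Approx D δ N p F → ∀ φ : ℝ × ℝ → ℝ, TestOn D φ → ∀ k : ℕ,
      Tendsto (fun n => ze (1 / t) (F n) (fun x => zf (F n) (δ n) φ x ^ k)) atTop
        (𝓝 (gm (κ * V D φ) k))) : Conv t s D := by
  intro δ N p F hA
  have hprob : ∀ n, IsProbabilityMeasure (Dom.law t (p n) (F n)) := fun n => law_prob ht.le (p n) (F n)
  refine ⟨hprob, fun n => ae_exists_isHt (hA.poly n) (hA.encl n), ?_⟩
  intro H hH k φ hφ
  refine conv_of_char hJ H (fun ψ hψ => ?_) k φ hφ
  have key := charfun_of_moments (l := atTop) (fun n => Dom.law t (p n) (F n))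
    (fun n σ => fldD (F n) (H n σ) (δ n) ψ) (fun n j => law_integrable _ _ _ _)
    (v := κ * V D ψ) (fun j => by
      refine (hmom δ N p F hA ψ hψ j).congr fun n => ?_
      have h := law_mom ht (hA.poly n) (hA.encl n) (hH n) (δ n) (Finset.range j) (fun _ => ψ)
      simp only [Finset.prod_const, Finset.card_range] at h
      exact h.symm)
  have e1 : ((-(κ * V D ψ / 2) : ℝ) : ℂ) = -((s ^ 2 * (2 * Real.pi) * V D ψ : ℝ) : ℂ) / 2 := by
    rw [hs]; push_cast; ring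
  rw [e1] at key
  refine key.congr fun n => ?_
  refine integral_congr_ae (ae_of_all _ fun σ => ?_)
  simp only []
  rw [mul_comm]

/-- The conclusion, from `S_mono`, `S_key` and the outer inclusion. -/
theorem conv_of_key {t κ s : ℝ} (ht : 0 < t) (hs : κ = s ^ 2 * (2 * Real.pi))
    {D : Set (ℝ × ℝ)} (hJ : JordanDomain D) (hm : S_mono (1 / t))
    (hkey : ∀ δ : ℕ → ℝ, (∀ n, 0 < δ n) → Tendsto δ atTop (𝓝 0) → S_key (1 / t) κ δ)
    (hout : ∀ (δ : ℕ → ℝ) (N : ℕ → ℕ) (p : ∀ n, ZMod (N n) → ℤ × ℤ) (F : ℕ → Finset (ℤ × ℤ)),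
      Approx D δ N p F → ∀ D' : Set (ℝ × ℝ), IsOpen D' → Bornology.IsBounded D' →
      closure D ⊆ D' → ∀ᶠ n in atTop, F n ⊆ Fs (δ n) D') : Conv t s D :=
  conv_of_mom ht hs hJ fun δ N p F hA _ hφ k =>
    squeeze hm hA.pos (hkey δ hA.pos hA.lim) hJ
      (fun D' _ hb hD' => approx_in hA D' hb hD') (hout δ N p F hA) hφ k

end Vale.Agent.P145.Top
end

section

/-!
P145: the stiffness in the Gaussian limit is determined by the law of the limit.
-/

set_option autoImplicit false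

namespace Vale.Agent.P145.X

open Filter Topology Set MeasureTheory ProbabilityTheory Matrix
open Vale.Agent.P152 (Ori Ice pth IsLimit IsHeight)
open Vale.Agent.P152.GFF.S (Test gffCov hint)
open Vale.Agent.P145.PT
open Vale.Agent.P145.FA (CLT)

/-- A test function of positive energy. -/
theorem exists_test_pos : ∃ F : ℝ × ℝ → ℝ, Test F ∧ 0 < gffCov F F := by
  have hb : TestOn (Metric.closedBall (0 : ℝ × ℝ) 1) (bump 1 0) := bump_test one_pos Subset.rfl
  refine ⟨fun x => - lap (bump 1 0) x, ⟨(hb.lap.neg).1, (hb.lap.neg).2.1, ?_⟩, ?_⟩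
  · rw [integral_neg, FA.int_lap hb.1 hb.2.1, neg_zero]
  · rw [FA.green_lap hb.1 hb.2.1 (hb.lap.neg).cont (hb.lap.neg).cs]
    have e : ∫ x, bump 1 0 x * (- lap (bump 1 0) x) = energy (bump 1 0) := by
      rw [energy_eq hb, ← integral_neg]
      refine integral_congr_ae (Eventually.of_forall fun x => ?_)
      simp only
      ring
    rw [e]
    by_contra h
    push Not at h
    have h0 : energy (bump 1 0) = 0 := le_antisymm h (energy_nonneg _)
    have hdx : ∫ z, dx (bump 1 0) z ^ 2 ≤ energy (bump 1 0) := by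
      unfold energy
      refine integral_mono hb.dx.intSq hb.intE fun z => ?_
      have := sq_nonneg (dy (bump 1 0) z)
      simp only
      linarith only [this]
    have hp := poincare (R := 1) (D := Metric.closedBall (0 : ℝ × ℝ) 1) (fun z hz => by
      rw [mem_closedBall_zero_iff, Prod.norm_def, max_le_iff, Real.norm_eq_abs] at hz
      exact hz.1) hb
    have h2 : ∫ z, bump 1 0 z ^ 2 ≤ 0 := by linarith
    have h3 : ∫ z, bump 1 0 z ^ 2 = 0 := le_antisymm h2 (integral_nonneg fun z => sq_nonneg _)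
    have h4 : (fun z : ℝ × ℝ => bump 1 0 z ^ 2) =ᵐ[volume] 0 :=
      (integral_eq_zero_iff_of_nonneg (fun z => sq_nonneg _) hb.intSq).1 h3
    have h5 : ∫ z, bump 1 0 z = 0 := by
      rw [integral_eq_zero_of_ae]
      filter_upwards [h4] with z hz
      have : bump 1 0 z ^ 2 = 0 := hz
      exact pow_eq_zero_iff (two_ne_zero) |>.1 this
    rw [bump_int one_pos] at h5
    exact one_ne_zero h5

/-- The stiffness is determined by the limit in law. -/
theorem kappa_eq {P : Measure (Ori (ℤ × ℤ))} [IsProbabilityMeasure P] {κ κ' : ℝ}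
    (hice : ∀ᵐ ω ∂P, ∀ x y, Ice ω x y) (hclt : CLT P κ)
    (H : ∀ h : Ori (ℤ × ℤ) → ℤ × ℤ → ℤ, (∀ᵐ ω ∂P, IsHeight ω (h ω)) →
      ∀ (m : ℕ) (f : Fin m → ℝ × ℝ → ℝ), (∀ j, Test (f j)) →
        (Matrix.of (fun i j => κ' * gffCov (f i) (f j))).PosSemidef ∧
        TendstoInDistribution (fun (δ : ℝ) (ω : Ori (ℤ × ℤ)) =>
          (WithLp.toLp 2 (fun j => hint (h ω) δ (f j)) : EuclideanSpace ℝ (Fin m))) (𝓝[>] 0)
          (id : EuclideanSpace ℝ (Fin m) → EuclideanSpace ℝ (Fin m)) (fun _ => P)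
          (multivariateGaussian 0 (Matrix.of (fun i j => κ' * gffCov (f i) (f j))))) :
    κ = κ' := by
  obtain ⟨F, hF, hpos⟩ := exists_test_pos
  have hht : ∀ᵐ ω ∂P, IsHeight ω (pth ω) := by
    filter_upwards [hice] with ω hω
    exact P152.pth_isHeight hω
  obtain ⟨hpsd, hX⟩ := H (fun ω => pth ω) hht 1 (fun _ => F) (fun _ => hF)
  set u : ℕ → ℝ := fun n => 1 / ((n : ℝ) + 1) with hu
  have hut : Tendsto u atTop (𝓝[>] 0) :=
    tendsto_nhdsWithin_iff.2 ⟨tendsto_one_div_add_atTop_nhds_zero_nat,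
      Eventually.of_forall fun n => by
        show (0 : ℝ) < 1 / ((n : ℝ) + 1)
        positivity⟩
  set t : EuclideanSpace ℝ (Fin 1) := WithLp.toLp 2 (fun _ => 1) with ht
  have h1 := ProbabilityMeasure.tendsto_iff_tendsto_charFun.1 (hX.tendsto.comp hut) t
  have hid : (multivariateGaussian 0 (Matrix.of (fun _ _ : Fin 1 => κ' * gffCov F F))).map
      (id : EuclideanSpace ℝ (Fin 1) → EuclideanSpace ℝ (Fin 1)) =
      multivariateGaussian 0 (Matrix.of (fun _ _ : Fin 1 => κ' * gffCov F F)) := Measure.map_id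
  simp only [ProbabilityMeasure.coe_mk, hid] at h1
  rw [charFun_multivariateGaussian hpsd] at h1
  have h2 := (hclt F hF).comp hut
  have h3 : Tendsto (fun n => ∫ ω, Complex.exp (Complex.I * (hint (pth ω) (u n) F : ℂ)) ∂P) atTop
      (𝓝 (Complex.exp (((inner ℝ t (0 : EuclideanSpace ℝ (Fin 1)) : ℝ) : ℂ) * Complex.I -
        ((t : Fin 1 → ℝ) ⬝ᵥ (Matrix.of (fun _ _ : Fin 1 => κ' * gffCov F F)).mulVec t : ℝ) / 2))) := by
    refine h1.congr fun n => ?_
    change charFun (P.map (fun ω : Ori (ℤ × ℤ) =>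
      (WithLp.toLp 2 (fun _ => hint (pth ω) (u n) F) : EuclideanSpace ℝ (Fin 1)))) t =
      ∫ ω, Complex.exp (Complex.I * (hint (pth ω) (u n) F : ℂ)) ∂P
    rw [charFun_apply, integral_map (hX.forall_aemeasurable (u n)) (by fun_prop)]
    refine integral_congr_ae (ae_of_all _ fun ω => ?_)
    simp only [ht]
    rw [mul_comm]
    congr 3
    simp [PiLp.inner_apply]
  have h4 := tendsto_nhds_unique h2 h3
  have e1 : ((t : Fin 1 → ℝ) ⬝ᵥ (Matrix.of (fun _ _ : Fin 1 => κ' * gffCov F F)).mulVec t : ℝ) =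
      κ' * gffCov F F := by
    simp [ht, Matrix.mulVec, dotProduct]
  rw [e1, inner_zero_right] at h4
  have h5 : Complex.exp (((-(κ / 2 * gffCov F F) : ℝ) : ℂ)) =
      Complex.exp (((-(κ' * gffCov F F / 2) : ℝ) : ℂ)) := by
    refine Eq.trans ?_ (h4.trans ?_)
    · congr 1
      push_cast
      ring
    · congr 1
      push_cast
      ring
  rw [← Complex.ofReal_exp, ← Complex.ofReal_exp] at h5
  have h6 := Real.exp_injective (Complex.ofReal_injective h5)
  have h7 : κ * gffCov F F = κ' * gffCov F F := by linarith only [h6]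
  exact mul_right_cancel₀ hpos.ne' h7

end Vale.Agent.P145.X
end
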