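import Mathlib
import Vale.Agent.P145.Bdl.B6
import Vale.Agent.P145.Bdl.B4
import Vale.Agent.P145.Bdl.B7
import Vale.Agent.P145.Bdl.B8
import Vale.Agent.P145.Bdl.B5
import Vale.Agent.P145.Bdl.B1
import Vale.Agent.P145.Bdl.B3
import Vale.Agent.P145.Bdl.B2
import Vale.Agent.P152.Bd3.B34

set_option linter.all false

section

/-!
P145, X-level: the sandwich half of the frame from `Sb.sand_n`.
-/

set_option autoImplicit false

namespace Vale.Agent.P145.X

open Filter Topology Set MeasureTheory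
open Vale.Agent.P152 (Ori)
open Vale.Agent.P145.FB (Pt)
open Vale.Agent.P145.PT Vale.Agent.P145.Top

theorem nuInt_of {t : ℝ} {P : Measure (Ori (ℤ × ℤ))} (hint : S_int t P) :
    NuInt t P (Sb.nuX t P) := fun _ h h0 hpos _ hA => Sb.nuX_int hint h h0 hpos hA

theorem sandH_of {c t : ℝ} {P : Measure (Ori (ℤ × ℤ))} {δ : ℕ → ℝ} (hc : 0 < c) (hm : S_mono c)
    (hint : S_int t P) (hlow : S_low c t P) (hup : S_up c t P) (hemom : S_emom t P)
    (hloc : S_loc) (hrsw : S_rsw t P) (hδ : ∀ n, 0 < δ n) (hlim : Tendsto δ atTop (𝓝 0))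
    (hmm : S_mm t P δ) : SandH c t P δ (Sb.nuX t P) := by
  intro D₁ D₂ hD1 _ hb hcl R hR hDR L hL
  obtain ⟨C, hC0, hC⟩ := Sb.sand_n hc hm hint hlow hup hemom hloc hrsw hδ hlim hmm hD1 hb
    (subset_closure.trans hcl) hR hDR L hL
  refine ⟨C, hC0, fun η hη => ?_⟩
  filter_upwards [hC] with n hn Q p s
  exact hn η Q p s hη

/-- `S_xst0` from the X-level statements and the Schwinger-Dyson half. -/
theorem xst0_of' {c t κ : ℝ} {P : Measure (Ori (ℤ × ℤ))} {δ : ℕ → ℝ} (hc : 0 < c)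
    (hδ : ∀ n, 0 < δ n) (hlim : Tendsto δ atTop (𝓝 0)) (hm : S_mono c) (hint : S_int t P)
    (hlow : S_low c t P) (hup : S_up c t P) (hL : S_loc) (hrsw : S_rsw t P) (hgap : S_gap t P)
    (hpos : S_pos t P) (hemom : S_emom t P) (hmm : S_mm t P δ) (hgeom : S_geom) (hfar : S_far)
    (hsd : SdH t κ P δ) : S_xst0 c κ δ :=
  xst0_of hδ hlim hint hL hrsw hgap hpos hemom hmm hgeom hfar (nuInt_of hint)
    (sandH_of hc hm hint hlow hup hemom hL hrsw hδ hlim hmm) hsd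

end Vale.Agent.P145.X
end

section

/-!
P145, block X: functionals of the heights representing functions of the blocked edges; moments.
-/

namespace Vale.Agent.P145.X.Sdx

open Filter Topology Set MeasureTheory
open Vale.Agent.P152 (Ori)
open Vale.Agent.P145.FA (Hgt mu0 Wd)
open Vale.Agent.P145.FA.Use (Lf)
open Vale.Agent.P145.FB (Pt MU bl)
open Vale.Agent.P145.Top
open Vale.Agent.P145.PT

/-- Polynomials in the vertex heights are local. -/
theorem loc_vm {A : Om → ℝ} (hA : Alg A) : FA.Loc univ (fun h : Hgt => A (vm h)) := by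
  classical
  induction hA with
  | mon v =>
    refine ⟨(v.map av).toFinset, fun _ _ => mem_univ _, fun h h' hh => ?_⟩
    show (v.map (vm h)).prod = (v.map (vm h')).prod
    congr 1
    refine List.map_congr_left fun a ha => ?_
    unfold vm
    rw [hh (av a) (List.mem_toFinset.2 (List.mem_map_of_mem ha))]
  | zero => exact ⟨∅, by simp, fun _ _ _ => rfl⟩
  | add _ _ h1 h2 => exact h1.comp₂ h2 (fun x y : ℝ => x + y)
  | smul c _ _ h1 => exact h1.comp (fun x : ℝ => c * x)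

/-- The functional `X` of the heights represents the function `g` of the blocked edges. -/
structure Rep (t : ℝ) (P : Measure (Ori (ℤ × ℤ))) (g : Set Pt → ℝ) (X : Hgt → ℝ) : Prop where
  loc : LocS univ g
  emp : g ∅ = 0
  g0 : ∀ B, 0 ≤ g B
  Xm : Measurable X
  X0 : ∀ h, 0 ≤ X h
  int : ∀ F : Hgt → ℂ, FA.Loc univ F →
    ∫ h, ((X h : ℝ) : ℂ) * F h ∂(mu0 P) = ∫ x, ((g (bl x) : ℝ) : ℂ) * F x.1 ∂(MU t P)

section

variable {t : ℝ} {P : Measure (Ori (ℤ × ℤ))} {g : Set Pt → ℝ} {Y : Hgt → ℝ}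

theorem Rep.eII (r : Rep t P g Y) {A : Om → ℝ} (hA : Alg A) :
    ∫ h, Y h * A (vm h) ∂(mu0 P) = II t P g A := by
  have h1 := r.int (fun h => ((A (vm h) : ℝ) : ℂ)) ((loc_vm hA).comp (fun x : ℝ => (x : ℂ)))
  have e1 : ∀ h, ((Y h : ℝ) : ℂ) * ((A (vm h) : ℝ) : ℂ) = ((Y h * A (vm h) : ℝ) : ℂ) := by
    intro h; push_cast; rfl
  have e2 : ∀ x : Hgt × FB.Mk, ((g (bl x) : ℝ) : ℂ) * ((A (vm x.1) : ℝ) : ℂ) =
      ((g (bl x) * A (vm x.1) : ℝ) : ℂ) := by
    intro h; push_cast; rfl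
  simp only [e1, e2] at h1
  rw [integral_complex_ofReal, integral_complex_ofReal] at h1
  exact_mod_cast h1

theorem Rep.eI (r : Rep t P g Y) : ∫ h, Y h ∂(mu0 P) = II t P g (fun _ => 1) := by
  rw [← r.eII Pol.one]
  simp

theorem Rep.integrable (r : Rep t P g Y) (hi : S_int t P) (hp : 0 < II t P g (fun _ => 1))
    {A : Om → ℝ} (hA : Alg A) (h0 : ∀ ω, 0 ≤ A ω) :
    Integrable (fun h => A (vm h) * Y h) (mu0 P) := by
  have hA1 : Alg (fun ω => 1 + A ω) := Pol.one.add hA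
  have i1 := hi g (fun _ => 1) r.loc r.emp Pol.one
  have i2 := hi g A r.loc r.emp hA
  have e : II t P g (fun ω => 1 + A ω) = II t P g (fun _ => 1) + II t P g A := by
    unfold II
    rw [← integral_add i1 i2]
    refine integral_congr_ae (Eventually.of_forall fun x => ?_)
    simp only
    ring
  have h2 : 0 ≤ II t P g A := integral_nonneg fun x => mul_nonneg (r.g0 _) (h0 _)
  have h3 : Integrable (fun h => Y h * (1 + A (vm h))) (mu0 P) := by
    by_contra h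
    have h4 := r.eII hA1
    rw [integral_undef h, e] at h4
    linarith
  refine h3.mono' ?_ (Eventually.of_forall fun h => ?_)
  · exact ((loc_vm hA).measurable.mul r.Xm).aestronglyMeasurable
  · have a1 := r.X0 h
    have a2 := h0 (vm h)
    rw [Real.norm_eq_abs, abs_of_nonneg (mul_nonneg a2 a1)]
    linarith

theorem Rep.integrable' (r : Rep t P g Y) (hi : S_int t P) (hp : 0 < II t P g (fun _ => 1)) :
    Integrable Y (mu0 P) := by
  have := r.integrable hi hp Pol.one (fun _ => zero_le_one)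
  simpa using this

/-- `hv δ f` is a polynomial. -/
theorem alg_hv {δ : ℝ} (hδ : 0 < δ) {f : ℝ × ℝ → ℝ} (hf : HasCompactSupport f) :
    Alg (hv δ f) := by
  obtain ⟨R, hR⟩ := hf.isCompact.isBounded.subset_ball (0 : ℝ × ℝ)
  obtain ⟨B, hB⟩ := hv_eq_hB (R := R) hδ
  exact alg_hB.of_eq fun ω => (hB f (fun z hz => hR (subset_tsupport _ hz)) ω).symm

theorem hv_sub' {δ : ℝ} (hδ : 0 < δ) {f g : ℝ × ℝ → ℝ} (hf : HasCompactSupport f)
    (hg : HasCompactSupport g) (ω : Om) : hv δ (fun z => f z - g z) ω = hv δ f ω - hv δ g ω := by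
  obtain ⟨R, hR⟩ := hf.isCompact.isBounded.subset_ball (0 : ℝ × ℝ)
  obtain ⟨R', hR'⟩ := hg.isCompact.isBounded.subset_ball (0 : ℝ × ℝ)
  obtain ⟨B, hB⟩ := hv_eq_hB (R := max R R') hδ
  have h1 : ∀ z, f z ≠ 0 → z ∈ Metric.ball (0 : ℝ × ℝ) (max R R') := fun z hz =>
    Metric.ball_subset_ball (le_max_left _ _) (hR (subset_tsupport _ hz))
  have h2 : ∀ z, g z ≠ 0 → z ∈ Metric.ball (0 : ℝ × ℝ) (max R R') := fun z hz =>
    Metric.ball_subset_ball (le_max_right _ _) (hR' (subset_tsupport _ hz))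
  rw [hB f h1, hB g h2, hB (fun z => f z - g z) ?_, hB_sub]
  intro z hz
  by_cases h3 : f z = 0
  · refine h2 z fun h4 => hz ?_
    simp [h3, h4]
  · exact h1 z h3

theorem even_sub_le (x y : ℝ) (k : ℕ) :
    (x - y) ^ (2 * k) ≤ 4 ^ k * (x ^ (2 * k) + y ^ (2 * k)) := by
  have h1 : (x - y) ^ 2 ≤ 4 * max (x ^ 2) (y ^ 2) := by
    have a1 := le_max_left (x ^ 2) (y ^ 2)
    have a2 := le_max_right (x ^ 2) (y ^ 2)
    nlinarith [sq_nonneg (x + y)]
  have h2 : 0 ≤ max (x ^ 2) (y ^ 2) := le_trans (sq_nonneg x) (le_max_left _ _)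
  rw [pow_mul, pow_mul, pow_mul]
  calc ((x - y) ^ 2) ^ k ≤ (4 * max (x ^ 2) (y ^ 2)) ^ k := pow_le_pow_left₀ (sq_nonneg _) h1 k
    _ = 4 ^ k * max (x ^ 2) (y ^ 2) ^ k := mul_pow _ _ _
    _ ≤ 4 ^ k * ((x ^ 2) ^ k + (y ^ 2) ^ k) := by
        refine mul_le_mul_of_nonneg_left ?_ (by positivity)
        rcases le_total (x ^ 2) (y ^ 2) with h | h
        · rw [max_eq_right h]
          have : 0 ≤ (x ^ 2) ^ k := by positivity
          linarith
        · rw [max_eq_left h]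
          have : 0 ≤ (y ^ 2) ^ k := by positivity
          linarith

/-- The even moments of a test function of any sign. -/
theorem mom_signed {δ : ℕ → ℝ} (hδ : ∀ n, 0 < δ n) {D : Set (ℝ × ℝ)} (hD : IsOpen D)
    (hb : Bornology.IsBounded D) {G : ℕ → Set Pt → ℝ} (hi : S_int t P)
    (hG : ∀ᶠ n in atTop, LocS univ (G n) ∧ G n ∅ = 0 ∧ ∀ B, 0 ≤ G n B)
    (hmom : ∀ f, TestOn D f → (∀ z, 0 ≤ f z) → ∀ k : ℕ, ∃ C : ℝ, ∀ᶠ n in atTop,
      II t P (G n) (fun ω => hv (δ n) f ω ^ (2 * k)) ≤ C * II t P (G n) (fun _ => 1))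
    {f : ℝ × ℝ → ℝ} (hf : TestOn D f) (k : ℕ) : ∃ C : ℝ, ∀ᶠ n in atTop,
      II t P (G n) (fun ω => hv (δ n) f ω ^ (2 * k)) ≤ C * II t P (G n) (fun _ => 1) := by
  obtain ⟨F, hF, hFf, -⟩ := exists_dom hD hb hf one_pos
  have hF0 : ∀ z, 0 ≤ F z := fun z => (abs_nonneg _).trans (hFf z)
  have hFs : TestOn D (fun z => F z - f z) := hF.sub hf
  obtain ⟨C1, h1⟩ := hmom F hF hF0 k
  obtain ⟨C2, h2⟩ := hmom (fun z => F z - f z) hFs
    (fun z => sub_nonneg.2 ((le_abs_self _).trans (hFf z))) k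
  refine ⟨4 ^ k * (C1 + C2), ?_⟩
  filter_upwards [h1, h2, hG] with n g1 g2 hGn
  obtain ⟨l1, l2, l3⟩ := hGn
  have a1 : Alg (fun ω => hv (δ n) F ω ^ (2 * k)) := (alg_hv (hδ n) hF.cs).pow _
  have a2 : Alg (fun ω => hv (δ n) (fun z => F z - f z) ω ^ (2 * k)) :=
    (alg_hv (hδ n) hFs.cs).pow _
  have a3 : Alg (fun ω => hv (δ n) f ω ^ (2 * k)) := (alg_hv (hδ n) hf.cs).pow _
  have i1 := hi (G n) _ l1 l2 a1
  have i2 := hi (G n) _ l1 l2 a2
  have i3 := hi (G n) _ l1 l2 a3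
  have key : II t P (G n) (fun ω => hv (δ n) f ω ^ (2 * k)) ≤
      4 ^ k * (II t P (G n) (fun ω => hv (δ n) F ω ^ (2 * k)) +
        II t P (G n) (fun ω => hv (δ n) (fun z => F z - f z) ω ^ (2 * k))) := by
    unfold II
    rw [← integral_add i1 i2, ← integral_const_mul]
    refine integral_mono i3 ((i1.add i2).const_mul _) fun x => ?_
    have e : hv (δ n) f (vm x.1) = hv (δ n) F (vm x.1) -
        hv (δ n) (fun z => F z - f z) (vm x.1) := by
      rw [hv_sub' (hδ n) hF.cs hf.cs]; ring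
    have h5 := even_sub_le (hv (δ n) F (vm x.1)) (hv (δ n) (fun z => F z - f z) (vm x.1)) k
    rw [← e] at h5
    have h6 := mul_le_mul_of_nonneg_left h5 (l3 (bl x))
    simp only [Pi.add_apply]
    linarith
  refine key.trans ?_
  have h4 : (0 : ℝ) ≤ 4 ^ k := by positivity
  calc _ ≤ 4 ^ k * (C1 * II t P (G n) (fun _ => 1) + C2 * II t P (G n) (fun _ => 1)) :=
        mul_le_mul_of_nonneg_left (add_le_add g1 g2) h4
    _ = _ := by ring

end

/-- Test functions in the six-vertex coordinates. -/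
theorem exists_tl {D : Set (ℝ × ℝ)} {f' : ℝ × ℝ → ℝ} (h : TestOn (Ro.symm ⁻¹' D) f') :
    ∃ f, TestOn D f ∧ tl f = f' := by
  refine ⟨f' ∘ Ro, ⟨?_, ?_, ?_⟩, ?_⟩
  · exact ContDiff.comp h.1 ((contDiff_fst.add contDiff_snd).prodMk
      (contDiff_fst.sub contDiff_snd))
  · exact h.2.1.comp_homeomorph Ro
  · rw [tsupport_comp_eq_preimage f' Ro]
    intro z hz
    have := h.2.2 hz
    rwa [mem_preimage, Ro.symm_apply_apply] at this
  · rw [tl_eq]
    funext z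
    simp

end Vale.Agent.P145.X.Sdx
end

section

/-!
P145, block X: the Schwinger-Dyson equation given a family of circuits in the arms of a pinwheel,
in the coordinates of the block Top.
-/

namespace Vale.Agent.P145.X

open Filter Topology Set MeasureTheory
open Vale.Agent.P152 (Ori)
open Vale.Agent.P145.FA (Hgt mu0 Wd Pl GRP CLT dX dY dD dA RX RY RD RA)
open Vale.Agent.P145.FA.Use (Lf PW lat DatE useE)
open Vale.Agent.P145.FB (Pt MU bl e1 e2 o1 o2)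
open Vale.Agent.P145.Top
open Vale.Agent.P145.PT

namespace Sdx

/-! ### Geometry -/

theorem tE_bd {p : ℤ × ℤ} {r : ℤ} {w : Pt} (hw : w ∈ tE (bx p r)) {q : Pt}
    (hq : q = e1 w ∨ q = e2 w ∨ q = o1 w ∨ q = o2 w) :
    |q.1| ≤ |p.1| + |p.2| + 2 * r + 3 ∧ |q.2| ≤ |p.1| + |p.2| + 2 * r + 3 := by
  obtain ⟨f, ⟨b1, b2, b3, b4⟩, h⟩ := hw
  have c1 := le_abs_self p.1
  have c2 := neg_abs_le p.1
  have c3 := le_abs_self p.2
  have c4 := neg_abs_le p.2
  have h' : (o1 w = (f.1 + f.2 + 1, f.1 - f.2)) ∨ (o2 w = (f.1 + f.2 + 1, f.1 - f.2)) := h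
  have k1 : |w.1 - (f.1 + f.2 + 1)| ≤ 1 ∧ |w.2 - (f.1 - f.2)| ≤ 1 := by
    rcases h' with h' | h'
    · have u1 := congrArg Prod.fst h'
      have u2 := congrArg Prod.snd h'
      unfold o1 at u1 u2
      split_ifs at u1 u2 <;> simp only at u1 u2 <;> constructor <;> rw [abs_le] <;> omega
    · have u1 := congrArg Prod.fst h'
      have u2 := congrArg Prod.snd h'
      unfold o2 at u1 u2
      split_ifs at u1 u2 <;> simp only at u1 u2 <;> constructor <;> rw [abs_le] <;> omega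
  rw [abs_le, abs_le] at k1
  have k2 : w.1 - 1 ≤ q.1 ∧ q.1 ≤ w.1 ∧ w.2 - 1 ≤ q.2 ∧ q.2 ≤ w.2 := by
    rcases hq with rfl | rfl | rfl | rfl
    · unfold e1; split_ifs <;> (try simp only) <;> omega
    · unfold e2; split_ifs <;> (try simp only) <;> omega
    · unfold o1; split_ifs <;> (try simp only) <;> omega
    · unfold o2; split_ifs <;> (try simp only) <;> omega
  constructor <;> rw [abs_le] <;> omega

theorem sc_bd {ε δ : ℝ} (hδ : 0 < δ) (i : ℕ) : δ * (sc ε δ i : ℝ) ≤ 4 ^ i * ε := by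
  unfold sc
  push_cast
  have h1 : ((⌊ε / δ⌋ : ℤ) : ℝ) ≤ ε / δ := Int.floor_le _
  calc δ * (4 ^ i * ((⌊ε / δ⌋ : ℤ) : ℝ)) = 4 ^ i * (δ * ((⌊ε / δ⌋ : ℤ) : ℝ)) := by ring
    _ ≤ 4 ^ i * (δ * (ε / δ)) := by gcongr
    _ = 4 ^ i * ε := by rw [mul_div_cancel₀ _ hδ.ne']

theorem sc_pos {ε δ : ℝ} (hδ : 0 < δ) (h : δ ≤ ε) (i : ℕ) : 1 ≤ sc ε δ i := by
  have h1 : 1 ≤ ⌊ε / δ⌋ := Int.le_floor.2 (by rw [Int.cast_one, le_div_iff₀ hδ]; linarith)
  exact pow_ge h1 i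

theorem fin6_bd {δ : ℝ} (hδ : 0 < δ) {w : ℤ} {M : ℝ} (hM : δ * (w : ℝ) ≤ M) {K : ℤ} (hK : 0 ≤ K)
    {p : ℤ × ℤ} {r : ℤ} (h : |p.1| + |p.2| + 2 * r + 3 ≤ w * K) {R : ℝ} (hR : M * K ≤ R) :
    Fin6 δ (tE (bx p r)) {z | |z.1| ≤ R ∧ |z.2| ≤ R} := by
  intro w' hw' q hq
  obtain ⟨h1, h2⟩ := tE_bd hw' hq
  have hK' : (0 : ℝ) ≤ K := by exact_mod_cast hK
  have key : ∀ x : ℤ, |x| ≤ |p.1| + |p.2| + 2 * r + 3 → |δ * (x : ℝ)| ≤ R := by
    intro x hx
    have h3 : ((|x| : ℤ) : ℝ) ≤ ((w * K : ℤ) : ℝ) := by exact_mod_cast hx.trans h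
    rw [abs_mul, abs_of_pos hδ]
    push_cast at h3
    calc δ * |(x : ℝ)| ≤ δ * (w * K) := mul_le_mul_of_nonneg_left h3 hδ.le
      _ = δ * w * K := by ring
      _ ≤ M * K := mul_le_mul_of_nonneg_right hM hK'
      _ ≤ R := hR
  exact ⟨key _ h1, key _ h2⟩

theorem fin6_mono {δ : ℝ} {A : Set Pt} {K K' : Set (ℝ × ℝ)} (h : Fin6 δ A K) (hK : K ⊆ K') :
    Fin6 δ A K' := fun w hw q hq => hK (h w hw q hq)

theorem Kq_mono {x₁ x₂ y₁ y₂ e e' : ℝ} (he : e' ≤ e) (i : Fin 4) :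
    Kq x₁ x₂ y₁ y₂ e i ⊆ Kq x₁ x₂ y₁ y₂ e' i := by
  intro z hz
  rcases hz with ⟨h, h1⟩ | ⟨h, h1, h2⟩ | ⟨h, h1, h2⟩ | ⟨h, h1, h2, h3⟩
  · exact Or.inl ⟨h, by linarith⟩
  · exact Or.inr (Or.inl ⟨h, by linarith, h2⟩)
  · exact Or.inr (Or.inr (Or.inl ⟨h, by linarith, h2⟩))
  · exact Or.inr (Or.inr (Or.inr ⟨h, by linarith, h2, h3⟩))

/-- The family of circuits as a list of centres and radii. -/
noncomputable def TT (w : ℤ) (Y : Finset (ℤ × ℤ)) (p : ℤ × ℤ) (r : ℤ) :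
    Finset ((ℤ × ℤ) × ℤ) := by
  classical
  exact insert (p, r) (Y.image fun y => (ce w y, w))

theorem allZ_TT {w : ℤ} {Y : Finset (ℤ × ℤ)} {p : ℤ × ℤ} {r : ℤ} {B : Set Pt} :
    AllZ (TT w Y p r) B ↔ Fy w Y p r B := by
  classical
  unfold AllZ TT Fy
  simp only [Finset.mem_insert, Finset.mem_image, forall_eq_or_imp, forall_exists_index, and_imp,
    forall_apply_eq_imp_iff₂]
  exact and_comm

theorem ind_TT {w : ℤ} {Y : Finset (ℤ × ℤ)} {p : ℤ × ℤ} {r : ℤ} :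
    ind (AllZ (TT w Y p r)) = ind (Fy w Y p r) := by
  have e : AllZ (TT w Y p r) = Fy w Y p r := funext fun _ => propext allZ_TT
  rw [e]

/-! ### Bumps in the arms -/

theorem exists_rho1 {D : Set (ℝ × ℝ)} (hD : IsOpen D) {a b a' b' : ℝ} (hab' : a' < b')
    (hp : (a, (a' + b') / 2) ∈ D) : ∃ e R : ℝ, 0 < e ∧ 0 < R ∧ ∀ e' R' : ℝ, e' ≤ e → R ≤ R' →
      ∃ ρ : ℝ × ℝ → ℝ, TestOn (PW.K1 ⟨a, b, a', b', e', R'⟩ ∩ D) ρ ∧ ∫ x, ρ x = 1 := by
  obtain ⟨s, hs, hball⟩ := Metric.isOpen_iff.1 hD _ hp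
  refine ⟨s / 4, |a| + |a'| + |b'| + s, by linarith, by (clear * - hs; positivity), fun e' R' he hR => ?_⟩
  have hs8 : 0 < s / 8 := by linarith only [hs]
  refine ⟨bump (s / 8) (a - s / 2, (a' + b') / 2), bump_test hs8 fun z hz => ?_, bump_int hs8 _⟩
  rw [Metric.mem_closedBall, Prod.dist_eq, max_le_iff, Real.dist_eq, Real.dist_eq, abs_le,
    abs_le] at hz
  simp only at hz
  obtain ⟨⟨z1, z2⟩, z3, z4⟩ := hz
  have c1 := le_abs_self a
  have c2 := neg_abs_le a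
  have c3 := le_abs_self a'
  have c4 := neg_abs_le a'
  have c5 := le_abs_self b'
  have c6 := neg_abs_le b'
  refine ⟨⟨?_, ?_, ?_⟩, hball ?_⟩
  · show z.1 ≤ a - e'
    linarith only [hs, he, z2]
  · show |z.1| ≤ R'
    rw [abs_le]; constructor <;> linarith only [hab', hs, hR, z1, c2, c4, c5, z2, c1]
  · show |z.2| ≤ R'
    rw [abs_le]; constructor <;> linarith only [hab', hs, hR, z3, c1, c2, c4, c5, c6, z4, c3]
  · rw [Metric.mem_ball, Prod.dist_eq, max_lt_iff, Real.dist_eq, Real.dist_eq, abs_lt, abs_lt]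
    refine ⟨⟨?_, ?_⟩, ?_, ?_⟩ <;> simp only <;> linarith only [hs, z1, z2, z3, z4]

theorem exists_rho4 {D : Set (ℝ × ℝ)} (hD : IsOpen D) {a b a' b' : ℝ} (hab : a < b)
    (hp : ((a + b) / 2, a') ∈ D) : ∃ e R : ℝ, 0 < e ∧ 0 < R ∧ ∀ e' R' : ℝ, e' ≤ e → R ≤ R' →
      ∃ ρ : ℝ × ℝ → ℝ, TestOn (PW.K4 ⟨a, b, a', b', e', R'⟩ ∩ D) ρ ∧ ∫ x, ρ x = 1 := by
  obtain ⟨s, hs, hball⟩ := Metric.isOpen_iff.1 hD _ hp
  refine ⟨s / 4, |a| + |b| + |a'| + s, by linarith, by (clear * - hs; positivity), fun e' R' he hR => ?_⟩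
  set s8 : ℝ := min (s / 8) ((b - a) / 2) with hs8d
  have hs8 : 0 < s8 := lt_min (by linarith only [hs]) (by linarith only [hab])
  have m1 : s8 ≤ s / 8 := min_le_left _ _
  have m2 : s8 ≤ (b - a) / 2 := min_le_right _ _
  refine ⟨bump s8 ((a + b) / 2, a' - s / 2), bump_test hs8 fun z hz => ?_, bump_int hs8 _⟩
  rw [Metric.mem_closedBall, Prod.dist_eq, max_le_iff, Real.dist_eq, Real.dist_eq, abs_le,
    abs_le] at hz
  simp only at hz
  obtain ⟨⟨z1, z2⟩, z3, z4⟩ := hz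
  have c1 := le_abs_self a
  have c2 := neg_abs_le a
  have c3 := le_abs_self a'
  have c4 := neg_abs_le a'
  have c5 := le_abs_self b
  have c6 := neg_abs_le b
  refine ⟨⟨?_, ?_, ?_, ?_, ?_⟩, hball ?_⟩
  · show z.2 ≤ a' - e'
    linarith only [he, hs8, m1, z4]
  · show a ≤ z.1
    linarith only [m2, z1]
  · show z.1 ≤ b
    linarith only [m2, z2]
  · show |z.1| ≤ R'
    rw [abs_le]; constructor <;> linarith only [hR, hs8, m1, m2, z1, c2, c3, c4, c5, c6, z2, c1]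
  · show |z.2| ≤ R'
    rw [abs_le]; constructor <;> linarith only [hR, hs8, m1, m2, z3, c2, c4, c5, z4, c3]
  · rw [Metric.mem_ball, Prod.dist_eq, max_lt_iff, Real.dist_eq, Real.dist_eq, abs_lt, abs_lt]
    refine ⟨⟨?_, ?_⟩, ?_, ?_⟩ <;> simp only <;> linarith only [hs8, m1, z1, z2, z3, z4]

/-- The geometric conditions. -/
def Gd (δ ε : ℝ) (j N : ℕ) (a b a' b' e1 : ℝ) (Y : Finset (ℤ × ℤ)) (y0 : ℤ × ℤ) (l : ℤ) : Prop :=
  (∀ y ∈ Y, |y.1| ≤ N ∧ |y.2| ≤ N ∧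
    ∃ i, Fin6 δ (tE (bx (ce (sc ε δ (j + 1)) y) (2 * sc ε δ (j + 1)))) (Kq a b a' b' e1 i)) ∧
  1 ≤ l ∧ |y0.1| + 8 * l ≤ N ∧ |y0.2| + 8 * l ≤ N ∧
  Fin6 δ (tE (bx (ce (sc ε δ (j + 1)) y0) (8 * (l * sc ε δ (j + 1))))) {z | z.1 ≤ a - 1}

/-- The product decomposition of the family. -/
theorem exists_X {t : ℝ} {P : Measure (Ori (ℤ × ℤ))} (hA : S_avg t P) (hL : S_loc)
    {δ ε : ℝ} (hδ : 0 < δ) (hδε : δ ≤ ε) {j N : ℕ} {a b a' b' e1 e R : ℝ} (hab : a < b)
    (hab' : a' < b') (he : 0 < e) (hee : e ≤ e1) (he1 : e ≤ 1) (hR : 4 ^ (j + 1) * ε * (2 * N + 7) ≤ R)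
    {Y : Finset (ℤ × ℤ)} {y0 : ℤ × ℤ} {l : ℤ} (h : Gd δ ε j N a b a' b' e1 Y y0 l) :
    ∃ X1 X2 X3 X4 : Hgt → ℝ,
      (FA.Loc (lat δ (PW.K1 ⟨a, b, a', b', e, R⟩)) X1 ∧
        FA.Loc (lat δ (PW.K2 ⟨a, b, a', b', e, R⟩)) X2 ∧
        FA.Loc (lat δ (PW.K3 ⟨a, b, a', b', e, R⟩)) X3 ∧
        FA.Loc (lat δ (PW.K4 ⟨a, b, a', b', e, R⟩)) X4) ∧
      ((∀ h, 0 ≤ X1 h ∧ X1 h ≤ 1) ∧ (∀ h, 0 ≤ X2 h ∧ X2 h ≤ 1) ∧ (∀ h, 0 ≤ X3 h ∧ X3 h ≤ 1) ∧
        ∀ h, 0 ≤ X4 h ∧ X4 h ≤ 1) ∧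
      Rep t P (ind (Fy (sc ε δ (j + 1)) Y (ce (sc ε δ (j + 1)) y0) (4 * (l * sc ε δ (j + 1)))))
        (fun h => X1 h * X2 h * X3 h * X4 h) := by
  classical
  obtain ⟨hY, hl, hy1, hy2, hfar⟩ := h
  set w : ℤ := sc ε δ (j + 1) with hw
  have hw1 : 1 ≤ w := sc_pos hδ hδε _
  have hM : δ * (w : ℝ) ≤ 4 ^ (j + 1) * ε := sc_bd hδ _
  have hlw : 1 ≤ l * w := by nlinarith only [hl, hw1]
  have hN : (0 : ℤ) ≤ N := Int.natCast_nonneg N
  have hR' : 4 ^ (j + 1) * ε * ((2 * (N : ℤ) + 7 : ℤ) : ℝ) ≤ R := by push_cast; exact hR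
  have hT : ∀ s ∈ TT w Y (ce w y0) (4 * (l * w)), 1 ≤ s.2 ∧
      (∃ i, Fin6 δ (tE (bx s.1 (2 * s.2))) (Kq a b a' b' e i)) ∧
      Fin6 δ (tE (bx s.1 (2 * s.2))) {z | |z.1| ≤ R ∧ |z.2| ≤ R} := by
    intro s hs
    unfold TT at hs
    rcases Finset.mem_insert.1 hs with rfl | hs
    · refine ⟨by simp only; linarith only [hlw], ⟨0, ?_⟩, ?_⟩
      · have e8 : 2 * (4 * (l * w)) = 8 * (l * w) := by ring
        simp only
        rw [e8]
        refine fin6_mono hfar fun z hz => Or.inl ⟨rfl, ?_⟩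
        have : z.1 ≤ a - 1 := hz
        linarith
      · refine fin6_bd hδ hM (K := 2 * (N : ℤ) + 7) (by linarith) ?_ hR'
        simp only [ce]
        rw [abs_mul, abs_mul, abs_of_pos (by linarith : (0 : ℤ) < w)]
        nlinarith only [hy1, hy2, hw1]
    · obtain ⟨y, hy, rfl⟩ := Finset.mem_image.1 hs
      obtain ⟨h1, h2, i, h3⟩ := hY y hy
      refine ⟨hw1, ⟨i, fin6_mono h3 (Kq_mono hee i)⟩, ?_⟩
      refine fin6_bd hδ hM (K := 2 * (N : ℤ) + 7) (by linarith) ?_ hR'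
      simp only [ce]
      rw [abs_mul, abs_mul, abs_of_pos (by linarith : (0 : ℤ) < w)]
      nlinarith only [hw1, h1, h2]
  have hne : (TT w Y (ce w y0) (4 * (l * w))).Nonempty := by
    unfold TT
    exact Finset.insert_nonempty _ _
  obtain ⟨X1, X2, X3, X4, hloc, hbd, hint⟩ := exists_prod hA hL hab hab' he _ hne hT
  refine ⟨X1, X2, X3, X4, hloc, hbd, ?_⟩
  rw [ind_TT] at hint
  have hr : 1 ≤ 4 * (l * w) := by linarith
  exact
    { loc := locP_iff.1 (fy_loc hL hw1 hr (fun _ _ => subset_univ _) (subset_univ _))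
      emp := ind_not (fy_empty hL hr)
      g0 := ind_nonneg _
      Xm := ((hloc.1.measurable.mul hloc.2.1.measurable).mul hloc.2.2.1.measurable).mul
        hloc.2.2.2.measurable
      X0 := fun h => mul_nonneg (mul_nonneg (mul_nonneg (hbd.1 h).1 (hbd.2.1 h).1)
        (hbd.2.2.1 h).1) (hbd.2.2.2 h).1
      int := hint }

end Sdx

open Sdx in
/-- **The Schwinger-Dyson equation given a family of circuits** at level `0` in the arms of the
pinwheel of a cell. -/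
theorem sdx_fam {c t κ : ℝ} {P : Measure (Ori (ℤ × ℤ))} (hPl : Pl c P)
    (hG : GRP P dX RX ∧ GRP P dY RY ∧ GRP P dD RD ∧ GRP P dA RA) (hP : FP.Hyp P)
    (hclt : CLT P (4 * κ)) (hA : S_avg t P) (hi : S_int t P) (hL : S_loc) {δ : ℕ → ℝ}
    (hδ : ∀ n, 0 < δ n) (hδ0 : Tendsto δ atTop (𝓝 0)) {D : Set (ℝ × ℝ)} (hD : IsOpen D)
    (hDb : Bornology.IsBounded D) {a b a' b' : ℝ} (hab : a < b) (hab' : a' < b')
    (hcell : ccell a b a' b' ⊆ D) {e : ℝ} (he : 0 < e) {ψ f0 g : ℝ × ℝ → ℝ} {k : ℕ}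
    (hψ : TestOn (cell a b a' b') ψ) (hf0 : TestOn (cell a b a' b') f0) (hg : TestOn D g)
    (hgP : ∀ z, g z ≠ 0 → z ∈ Pin a b a' b' e) {ε : ℝ} (hε : 0 < ε) {j N : ℕ} {e1 : ℝ}
    (he1 : 0 < e1) {Y : ℕ → Finset (ℤ × ℤ)} {y0 : ℕ → ℤ × ℤ} {l : ℕ → ℤ}
    (hY : ∀ᶠ n in atTop, (∀ y ∈ Y n, |y.1| ≤ N ∧ |y.2| ≤ N ∧
      ∃ i, Fin6 (δ n) (tE (bx (ce (sc ε (δ n) (j + 1)) y) (2 * sc ε (δ n) (j + 1))))
        (Kq a b a' b' e1 i)) ∧
      1 ≤ l n ∧ |(y0 n).1| + 8 * l n ≤ N ∧ |(y0 n).2| + 8 * l n ≤ N ∧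
      Fin6 (δ n) (tE (bx (ce (sc ε (δ n) (j + 1)) (y0 n))
        (8 * (l n * sc ε (δ n) (j + 1))))) {z | z.1 ≤ a - 1})
    {c0 : ℝ} (hc0 : 0 < c0)
    (hpos : ∀ᶠ n in atTop, c0 ≤ II t P (ind (Fy (sc ε (δ n) (j + 1)) (Y n)
      (ce (sc ε (δ n) (j + 1)) (y0 n)) (4 * (l n * sc ε (δ n) (j + 1))))) (fun _ => 1))
    (hmom : ∀ f, TestOn D f → (∀ z, 0 ≤ f z) → ∀ k : ℕ, ∃ C : ℝ, ∀ᶠ n in atTop,
      II t P (ind (Fy (sc ε (δ n) (j + 1)) (Y n) (ce (sc ε (δ n) (j + 1)) (y0 n))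
        (4 * (l n * sc ε (δ n) (j + 1))))) (fun ω => hv (δ n) f ω ^ (2 * k)) ≤
      C * II t P (ind (Fy (sc ε (δ n) (j + 1)) (Y n) (ce (sc ε (δ n) (j + 1)) (y0 n))
        (4 * (l n * sc ε (δ n) (j + 1))))) (fun _ => 1)) :
    Tendsto (fun n =>
      (II t P (ind (Fy (sc ε (δ n) (j + 1)) (Y n) (ce (sc ε (δ n) (j + 1)) (y0 n))
        (4 * (l n * sc ε (δ n) (j + 1)))))
        (fun ω => hv (δ n) (lap ψ) ω * hv (δ n) (fun z => f0 z + g z) ω ^ (k + 1)) +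
      κ * (k + 1) * (∫ z, ψ z * (f0 z + g z)) *
      II t P (ind (Fy (sc ε (δ n) (j + 1)) (Y n) (ce (sc ε (δ n) (j + 1)) (y0 n))
        (4 * (l n * sc ε (δ n) (j + 1)))))
        (fun ω => hv (δ n) (fun z => f0 z + g z) ω ^ k)) /
      II t P (ind (Fy (sc ε (δ n) (j + 1)) (Y n) (ce (sc ε (δ n) (j + 1)) (y0 n))
        (4 * (l n * sc ε (δ n) (j + 1))))) (fun _ => 1)) atTop (𝓝 0) := by
  classical
  set G : ℕ → Set Pt → ℝ := fun n => ind (Fy (sc ε (δ n) (j + 1)) (Y n)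
    (ce (sc ε (δ n) (j + 1)) (y0 n)) (4 * (l n * sc ε (δ n) (j + 1)))) with hGd
  set D' : Set (ℝ × ℝ) := Ro.symm ⁻¹' D with hD'
  have hD'o : IsOpen D' := hD.preimage Ro.symm.continuous
  have hcc : {z : ℝ × ℝ | a ≤ z.1 ∧ z.1 ≤ b ∧ a' ≤ z.2 ∧ z.2 ≤ b'} ⊆ D' := by
    rw [← Ro_symm_preimage_ccell]
    exact preimage_mono hcell
  obtain ⟨s1, R1, hs1, hR1, hρ1⟩ := exists_rho1 (b := b) hD'o hab'
    (hcc ⟨le_rfl, hab.le, by simp only; linarith only [hab'], by simp only; linarith⟩)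
  obtain ⟨s4, R4, hs4, hR4, hρ4⟩ := exists_rho4 (b' := b') hD'o hab
    (hcc ⟨by simp only; linarith, by simp only; linarith, le_rfl, hab'.le⟩)
  set g' : ℝ × ℝ → ℝ := tl g with hg'
  have hgT : TestOn D' g' := tl_test hg
  obtain ⟨Rg, hRg⟩ := hgT.cs.isCompact.isBounded.subset_ball (0 : ℝ × ℝ)
  set E : ℝ := min (min e e1) (min (min s1 s4) 1) with hE
  have hE0 : 0 < E := lt_min (lt_min he he1) (lt_min (lt_min hs1 hs4) one_pos)
  have hEe : E ≤ e := (min_le_left _ _).trans (min_le_left _ _)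
  have hEe1 : E ≤ e1 := (min_le_left _ _).trans (min_le_right _ _)
  have hEs1 : E ≤ s1 := (min_le_right _ _).trans ((min_le_left _ _).trans (min_le_left _ _))
  have hEs4 : E ≤ s4 := (min_le_right _ _).trans ((min_le_left _ _).trans (min_le_right _ _))
  have hE1 : E ≤ 1 := (min_le_right _ _).trans (min_le_right _ _)
  set R : ℝ := R1 + R4 + |Rg| + 4 ^ (j + 1) * ε * (2 * N + 7) with hR
  have hRN : 0 ≤ 4 ^ (j + 1) * ε * (2 * (N : ℝ) + 7) := by (clear * - hε; positivity)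
  have hRR1 : R1 ≤ R := by rw [hR]; linarith only [hR4, hRN, abs_nonneg Rg]
  have hRR4 : R4 ≤ R := by rw [hR]; linarith only [hR1, hRN, abs_nonneg Rg]
  have hRRg : Rg ≤ R := by rw [hR]; linarith only [hR1, hR4, hRN, le_abs_self Rg]
  have hRRN : 4 ^ (j + 1) * ε * (2 * (N : ℝ) + 7) ≤ R := by rw [hR]; linarith only [hR1, hR4, abs_nonneg Rg]
  -- the four factors
  have key : ∀ n, ∃ X1 X2 X3 X4 : Hgt → ℝ, δ n ≤ ε →
      Gd (δ n) ε j N a b a' b' e1 (Y n) (y0 n) (l n) →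
      (FA.Loc (lat (δ n) (PW.K1 ⟨a, b, a', b', E, R⟩)) X1 ∧
        FA.Loc (lat (δ n) (PW.K2 ⟨a, b, a', b', E, R⟩)) X2 ∧
        FA.Loc (lat (δ n) (PW.K3 ⟨a, b, a', b', E, R⟩)) X3 ∧
        FA.Loc (lat (δ n) (PW.K4 ⟨a, b, a', b', E, R⟩)) X4) ∧
      ((∀ h, 0 ≤ X1 h ∧ X1 h ≤ 1) ∧ (∀ h, 0 ≤ X2 h ∧ X2 h ≤ 1) ∧ (∀ h, 0 ≤ X3 h ∧ X3 h ≤ 1) ∧
        ∀ h, 0 ≤ X4 h ∧ X4 h ≤ 1) ∧ Rep t P (G n) (fun h => X1 h * X2 h * X3 h * X4 h) := by
    intro n
    by_cases hn : δ n ≤ ε ∧ Gd (δ n) ε j N a b a' b' e1 (Y n) (y0 n) (l n)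
    · obtain ⟨X1, X2, X3, X4, h⟩ := exists_X hA hL (hδ n) hn.1 hab hab' hE0 hEe1 hE1 hRRN hn.2
      exact ⟨X1, X2, X3, X4, fun _ _ => h⟩
    · exact ⟨0, 0, 0, 0, fun h1 h2 => absurd ⟨h1, h2⟩ hn⟩
  choose X1 X2 X3 X4 hX using key
  have hε' : ∀ᶠ n in atTop, δ n ≤ ε := hδ0.eventually (ge_mem_nhds hε)
  have hall : ∀ᶠ n in atTop,
      (FA.Loc (lat (δ n) (PW.K1 ⟨a, b, a', b', E, R⟩)) (X1 n) ∧
        FA.Loc (lat (δ n) (PW.K2 ⟨a, b, a', b', E, R⟩)) (X2 n) ∧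
        FA.Loc (lat (δ n) (PW.K3 ⟨a, b, a', b', E, R⟩)) (X3 n) ∧
        FA.Loc (lat (δ n) (PW.K4 ⟨a, b, a', b', E, R⟩)) (X4 n)) ∧
      ((∀ h, 0 ≤ X1 n h ∧ X1 n h ≤ 1) ∧ (∀ h, 0 ≤ X2 n h ∧ X2 n h ≤ 1) ∧
        (∀ h, 0 ≤ X3 n h ∧ X3 n h ≤ 1) ∧ ∀ h, 0 ≤ X4 n h ∧ X4 n h ≤ 1) ∧
      Rep t P (G n) (fun h => X1 n h * X2 n h * X3 n h * X4 n h) := by
    filter_upwards [hε', hY] with n h1 h2
    exact hX n h1 h2
  set X : ℕ → Hgt → ℝ := fun n h => X1 n h * X2 n h * X3 n h * X4 n h with hXd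
  have hrep : ∀ᶠ n in atTop, Rep t P (G n) (X n) := hall.mono fun n h => h.2.2
  have hposI : ∀ᶠ n in atTop, 0 < II t P (G n) (fun _ => 1) :=
    hpos.mono fun n h => lt_of_lt_of_le hc0 h
  have hms := fun {f : ℝ × ℝ → ℝ} (hf : TestOn D f) (k : ℕ) => mom_signed (t := t) (P := P) hδ hD
    hDb hi (G := G) (hrep.mono fun n h => ⟨h.loc, h.emp, h.g0⟩) hmom hf k
  have hbox : PW.box ⟨a, b, a', b', E, R⟩ = Ro.symm ⁻¹' cell a b a' b' := by
    rw [Ro_symm_preimage_cell]; rfl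
  have d : DatE P δ ⟨a, b, a', b', E, R⟩ D' X1 X2 X3 X4 X :=
    { hx := hab
      hy := hab'
      he := hE0
      hbD := fun z hz => hcc ⟨hz.1.le, hz.2.1.le, hz.2.2.1.le, hz.2.2.2.le⟩
      l1 := hall.mono fun n h => h.1.1
      l2 := hall.mono fun n h => h.1.2.1
      l3 := hall.mono fun n h => h.1.2.2.1
      l4 := hall.mono fun n h => h.1.2.2.2
      n1 := hall.mono fun n h => h.2.1.1
      n2 := hall.mono fun n h => h.2.1.2.1
      n3 := hall.mono fun n h => h.2.1.2.2.1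
      n4 := hall.mono fun n h => h.2.1.2.2.2
      hX := Eventually.of_forall fun n h => rfl
      int := by
        filter_upwards [hrep, hposI] with n h1 h2
        exact h1.integrable' hi h2
      pos := by
        refine ⟨c0, hc0, ?_⟩
        filter_upwards [hrep, hpos] with n h1 h2
        rw [h1.eI]
        exact h2
      mom := by
        intro f' hf' k
        obtain ⟨f, hf, rfl⟩ := exists_tl hf'
        obtain ⟨C, hC⟩ := hms hf k
        refine ⟨4 ^ (2 * k) * C, ?_⟩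
        filter_upwards [hrep, hposI, hC] with n h1 h2 h3
        have hAlg : Alg (fun ω => hv (δ n) f ω ^ (2 * k)) := (alg_hv (hδ n) hf.cs).pow _
        have h4 := h1.integrable hi h2 hAlg fun ω => (even_two_mul k).pow_nonneg _
        have h5 : ∀ h, Lf (δ n) (tl f) h ^ (2 * k) * X n h =
            4 ^ (2 * k) * (hv (δ n) f (vm h) ^ (2 * k) * X n h) := by
          intro h
          unfold FA.Use.Lf
          rw [ev_Wd_tl (hδ n) hf.cs, mul_pow]
          ring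
        simp only [h5]
        refine ⟨h4.const_mul _, ?_⟩
        rw [integral_const_mul, mul_assoc]
        refine mul_le_mul_of_nonneg_left ?_ (by positivity)
        have h6 := h1.eII hAlg
        have h7 : ∫ h, hv (δ n) f (vm h) ^ (2 * k) * X n h ∂(mu0 P) =
            II t P (G n) (fun ω => hv (δ n) f ω ^ (2 * k)) := by
          rw [← h6]
          refine integral_congr_ae (Eventually.of_forall fun h => ?_)
          simp only
          ring
        rw [h7, h1.eI]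
        exact h3
      r1 := hρ1 E R hEs1 hRR1
      r4 := hρ4 E R hEs4 hRR4 }
  have hψ' : TestOn (PW.box ⟨a, b, a', b', E, R⟩) (tl ψ) := by rw [hbox]; exact tl_test hψ
  have hf0' : TestOn (PW.box ⟨a, b, a', b', E, R⟩) (tl f0) := by rw [hbox]; exact tl_test hf0
  have hgK : ∀ x, g' x ≠ 0 → x ∈ PW.K1 ⟨a, b, a', b', E, R⟩ ∨ x ∈ PW.K2 ⟨a, b, a', b', E, R⟩ ∨
      x ∈ PW.K3 ⟨a, b, a', b', E, R⟩ ∨ x ∈ PW.K4 ⟨a, b, a', b', E, R⟩ := by
    intro x hx
    have h1 := hRg (subset_tsupport _ hx)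
    rw [mem_ball_zero_iff, Prod.norm_def, max_lt_iff, Real.norm_eq_abs, Real.norm_eq_abs] at h1
    have b1 : |x.1| ≤ R := (h1.1.le).trans hRRg
    have b2 : |x.2| ≤ R := (h1.2.le).trans hRRg
    have h2 := hgP _ (show g ((x.1 + x.2) / 2, (x.1 - x.2) / 2) ≠ 0 from hx)
    have e3 : (x.1 + x.2) / 2 + (x.1 - x.2) / 2 = x.1 := by ring
    have e4 : (x.1 + x.2) / 2 - (x.1 - x.2) / 2 = x.2 := by ring
    simp only [Pin, Set.mem_ofPred_eq, e3, e4] at h2
    rcases h2 with h2 | ⟨h2, h3⟩ | ⟨h2, h3⟩ | ⟨h2, h3, h4⟩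
    · exact Or.inl ⟨by simp only; linarith only [hEe, h2], b1, b2⟩
    · exact Or.inr (Or.inl ⟨by simp only; linarith only [hEe, h3], h2, b1, b2⟩)
    · exact Or.inr (Or.inr (Or.inl ⟨by simp only; linarith only [hEe, h2], h3, b1, b2⟩))
    · exact Or.inr (Or.inr (Or.inr ⟨by simp only; linarith only [hEe, h4], h2, h3, b1, b2⟩))
  have hδ' : Tendsto δ atTop (𝓝[>] 0) :=
    tendsto_nhdsWithin_iff.2 ⟨hδ0, Eventually.of_forall hδ⟩
  have hmain := useE hPl hG hP hclt hδ hδ' d hψ' hf0' hgT hgK k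
  have hm2 := hmain.const_mul (2 * 4 ^ (k + 1))⁻¹
  rw [mul_zero] at hm2
  refine hm2.congr' ?_
  filter_upwards [hrep] with n hr
  set f : ℝ × ℝ → ℝ := fun z => f0 z + g z with hf
  have hfc : HasCompactSupport f := hf0.cs.add hg.cs
  have ef : (fun x => tl f0 x + g' x) = tl f := rfl
  have a1 : Alg (hv (δ n) (lap ψ)) := alg_hv (hδ n) hψ.lap.cs
  have a2 : Alg (hv (δ n) f) := alg_hv (hδ n) hfc
  have i1 : ∫ h, Lf (δ n) (lap (tl ψ)) h * Lf (δ n) (fun x => tl f0 x + g' x) h ^ (k + 1) *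
      X n h ∂(mu0 P) = 2 * 4 ^ (k + 1) *
        II t P (G n) (fun ω => hv (δ n) (lap ψ) ω * hv (δ n) f ω ^ (k + 1)) := by
    rw [← hr.eII (a1.mul (a2.pow (k + 1))), ← integral_const_mul, ef]
    refine integral_congr_ae (Eventually.of_forall fun h => ?_)
    have h1 := (sd_tl (hδ n) hψ.1 hψ.lap.cs hfc k h).1
    simp only
    unfold FA.Use.Lf
    rw [h1]
    ring
  have i2 : ∫ h, Lf (δ n) (fun x => tl f0 x + g' x) h ^ k * X n h ∂(mu0 P) =
      4 ^ k * II t P (G n) (fun ω => hv (δ n) f ω ^ k) := by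
    rw [← hr.eII (a2.pow k), ← integral_const_mul, ef]
    refine integral_congr_ae (Eventually.of_forall fun h => ?_)
    have h1 := (sd_tl (hδ n) hψ.1 hψ.lap.cs hfc k h).2
    simp only
    unfold FA.Use.Lf
    rw [h1]
    ring
  have i3 : ∫ x, tl ψ x * (tl f0 x + g' x) = 2 * ∫ z, ψ z * f z := int_tl_mul ψ f
  rw [i1, i2, i3, hr.eI, ← mul_div_assoc]
  congr 1
  have h4 : (4 : ℝ) ^ k ≠ 0 := by positivity
  rw [pow_succ]
  field_simp
  ring

end Vale.Agent.P145.X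
end

section

/-!
P145, block X: the Schwinger-Dyson half of the frame.
-/

namespace Vale.Agent.P145.X

open Filter Topology Set MeasureTheory
open Vale.Agent.P152 (Ori)
open Vale.Agent.P145.FA (Pl GRP CLT dX dY dD dA RX RY RD RA)

/-- **The Schwinger-Dyson half of the frame.** -/
theorem sdH_of {c t κ : ℝ} {P : Measure (Ori (ℤ × ℤ))} (hPl : Pl c P)
    (hG : GRP P dX RX ∧ GRP P dY RY ∧ GRP P dD RD ∧ GRP P dA RA) (hP : FP.Hyp P)
    (hclt : CLT P (4 * κ)) (hA : S_avg t P) (hi : S_int t P) (hL : S_loc) {δ : ℕ → ℝ}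
    (hδ : ∀ n, 0 < δ n) (hδ0 : Tendsto δ atTop (𝓝 0)) : SdH t κ P δ := by
  intro D₁ hD hDb a b a' b' hab hab' hcell e he ψ f0 g k hψ hf0 hg hgP ε hε j N e₁ he₁ Y y0 l hY
    c₀ hc₀ hpos hmom
  exact sdx_fam hPl hG hP hclt hA hi hL hδ hδ0 hD hDb hab hab' hcell he hψ hf0 hg hgP hε he₁ hY
    hc₀ hpos hmom

end Vale.Agent.P145.X
end

section

/-!
P145, X-level: linear functionals of the vertex heights: monotonicity of the moments in the
weights, translations, and the moments near a circuit at level `0`.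
-/

namespace Vale.Agent.P145.X

open Finset Filter Topology MeasureTheory
open Vale.Agent.P152 (Ori Ice pth pth_isHeight IsHeight pth_zero height_eq_pth)
open Vale.Agent.P145.FA (Hgt mass)
open Vale.Agent.P145.FB
open Vale.Agent.P145.Top (Om Cone Alg Pol vh)
open Vale.Agent.P145.Dom (ze)

/-! ### Linear functionals -/

/-- `∑ u(v) ω(v)`. -/
noncomputable def LU (u : (ℤ × ℤ) →₀ ℝ) (ω : Om) : ℝ := u.sum fun v a => a * ω v

lemma LU_add (u d : (ℤ × ℤ) →₀ ℝ) (ω : Om) : LU (u + d) ω = LU u ω + LU d ω := by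
  unfold LU
  rw [Finsupp.sum_add_index' (fun _ => by simp) (fun _ _ _ => by ring)]

lemma LU_smul (c : ℝ) (u : (ℤ × ℤ) →₀ ℝ) (ω : Om) : LU (c • u) ω = c * LU u ω := by
  unfold LU
  rw [Finsupp.sum_smul_index' (fun _ => by simp), Finsupp.mul_sum]
  exact Finsupp.sum_congr fun v _ => by rw [smul_eq_mul]; ring

lemma pol_LU_mul {Q : ℝ → Prop} {u : (ℤ × ℤ) →₀ ℝ} (hu : ∀ v, Q (u v)) {g : Om → ℝ}
    (hg : Pol Q g) : Pol Q (fun ω => LU u ω * g ω) := by
  refine (Pol.sum u.support (fun v ω => u v * (ω v * g ω))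
    fun v _ => (hg.cons v).smul _ (hu v)).of_eq fun ω => ?_
  unfold LU Finsupp.sum
  rw [Finset.sum_mul]
  exact Finset.sum_congr rfl fun v _ => by ring

lemma pol_LU_pow {Q : ℝ → Prop} {u : (ℤ × ℤ) →₀ ℝ} (hu : ∀ v, Q (u v)) (n : ℕ) :
    Pol Q (fun ω => LU u ω ^ n) := by
  induction n with
  | zero => exact Pol.one.of_eq fun ω => by simp
  | succ n ih => exact (pol_LU_mul hu ih).of_eq fun ω => by ring

lemma cone_diff {u d : (ℤ × ℤ) →₀ ℝ} (hu : ∀ v, 0 ≤ u v) (hd : ∀ v, 0 ≤ d v) (n : ℕ) :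
    Cone (fun ω => LU (u + d) ω ^ n - LU u ω ^ n) := by
  induction n with
  | zero => exact Pol.zero.of_eq fun ω => by simp
  | succ n ih =>
    refine ((pol_LU_mul (u := u + d) (fun v => add_nonneg (hu v) (hd v)) ih).add
      (pol_LU_mul hd (pol_LU_pow hu n))).of_eq fun ω => ?_
    rw [LU_add]
    ring

lemma posH_of_cone {A : Om → ℝ} (hA : Cone A) : FK.PosH (fun x => A (vh x)) := by
  induction hA with
  | mon l => exact FK.posH_list l
  | zero => exact FK.PosH.const 0 le_rfl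
  | add _ _ h1 h2 => exact FK.PosH.add h1 h2
  | smul c hc _ h1 => exact FK.PosH.smul hc h1

/-- Positivity. -/
lemma II_nonneg {c t : ℝ} (hc : 1 ≤ c) {P : Measure (Ori (ℤ × ℤ))} (hlow : S_low c t P)
    {Θ : Set Pt → ℝ} (hΘ : Fn Set.univ Θ) {A : Om → ℝ} (hA : Cone A) : 0 ≤ II t P Θ A := by
  have hF : (iE (((∅ : Finset (ℤ × ℤ)) : Set (ℤ × ℤ))))ᶜ = Set.univ := by
    ext w
    simp [iE]
  have h1 := hlow ∅ Θ A (by rw [hF]; exact hΘ) hA
  refine le_trans (mul_nonneg ?_ ?_) h1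
  · exact FK.ze_nonneg hc ∅ (posH_of_cone hA)
  · unfold II
    refine integral_nonneg fun x => ?_
    simp only [mul_one]
    exact hΘ.nonneg _

/-- Monotonicity in the weights. -/
lemma II_mono {c t : ℝ} (hc : 1 ≤ c) {P : Measure (Ori (ℤ × ℤ))} (hlow : S_low c t P)
    (hint : S_int t P) {Θ : Set Pt → ℝ} (hΘ : Fn Set.univ Θ) {u u' : (ℤ × ℤ) →₀ ℝ}
    (hu : ∀ v, 0 ≤ u v) (huu : ∀ v, u v ≤ u' v) (n : ℕ) :
    II t P Θ (fun ω => LU u ω ^ n) ≤ II t P Θ (fun ω => LU u' ω ^ n) := by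
  have e : u' = u + (u' - u) := by abel
  have hd : ∀ v, 0 ≤ (u' - u) v := fun v => by
    rw [Finsupp.sub_apply]; linarith [huu v]
  have h1 := II_nonneg hc hlow hΘ (cone_diff hu hd n)
  rw [← e] at h1
  have i1 := hint Θ _ hΘ.loc hΘ.pin (pol_LU_pow (Q := fun _ => True) (u := u) (fun _ => trivial) n)
  have i2 := hint Θ _ hΘ.loc hΘ.pin (pol_LU_pow (Q := fun _ => True) (u := u') (fun _ => trivial) n)
  have e2 : II t P Θ (fun ω => LU u' ω ^ n - LU u ω ^ n) =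
      II t P Θ (fun ω => LU u' ω ^ n) - II t P Θ (fun ω => LU u ω ^ n) := by
    unfold II
    rw [← integral_sub i2 i1]
    congr 1
    funext x
    ring
  rw [e2] at h1
  linarith

/-- The weights on the six-vertex faces. -/
noncomputable def toE (u : (ℤ × ℤ) →₀ ℝ) : (ℤ × ℤ) →₀ ℝ := ((1 / 2 : ℝ) • u).mapDomain av

lemma ev_toE (u : (ℤ × ℤ) →₀ ℝ) (h : Hgt) : FA.ev (toE u) h = LU u (vm h) := by
  unfold FA.ev toE LU vm
  rw [Finsupp.sum_mapDomain_index (fun _ => by simp) (fun _ _ _ => by ring),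
    Finsupp.sum_smul_index' (fun _ => by simp)]
  exact Finsupp.sum_congr fun v _ => by rw [smul_eq_mul]; ring

lemma mass_toE (u : (ℤ × ℤ) →₀ ℝ) : mass (toE u) = (1 / 2) * u.sum fun _ a => a := by
  unfold FA.mass toE
  rw [Finsupp.sum_mapDomain_index (fun _ => rfl) (fun _ _ _ => rfl),
    Finsupp.sum_smul_index' (fun _ => rfl), Finsupp.mul_sum]
  rfl

lemma toE_add (u d : (ℤ × ℤ) →₀ ℝ) : toE (u + d) = toE u + toE d := by
  unfold toE
  rw [smul_add, Finsupp.mapDomain_add]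

lemma fi_av (v : ℤ × ℤ) : fi (av v) = (2 * v.1, 2 * v.2) := by
  unfold fi av
  ext <;> simp only <;> ring

lemma mem_supp_toE {u : (ℤ × ℤ) →₀ ℝ} {q : ℤ × ℤ} (hq : q ∈ (toE u).support) :
    ∃ v, u v ≠ 0 ∧ q = av v := by
  classical
  have h1 := Finsupp.mapDomain_support hq
  rw [Finset.mem_image] at h1
  obtain ⟨v, hv, rfl⟩ := h1
  refine ⟨v, ?_, rfl⟩
  rw [Finsupp.mem_support_iff, Finsupp.smul_apply, smul_eq_mul] at hv
  intro h
  rw [h, mul_zero] at hv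
  exact hv rfl

/-! ### Translations -/

lemma lintegral_move {P : Measure (Ori (ℤ × ℤ))} (hice : ∀ᵐ ω ∂P, ∀ x y, Ice ω x y)
    (hP : SymM P) {w : (ℤ × ℤ) →₀ ℝ} (hw : mass w = 0) (a b : ℤ) (n : ℕ) :
    ∫⁻ ω, ENNReal.ofReal (FA.ev (w.mapDomain fun q => (q.1 + a, q.2 + b)) (pth ω) ^ n) ∂P =
      ∫⁻ ω, ENNReal.ofReal (FA.ev w (pth ω) ^ n) ∂P := by
  have mp : Measurable fun ω : Ori (ℤ × ℤ) => ENNReal.ofReal (FA.ev w (pth ω) ^ n) :=
    (((measurable_evH w).comp (measurable_pi_lambda _ measurable_pth_apply)).pow_const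
      _).ennreal_ofReal
  conv_rhs => rw [← hP.sh a b]
  rw [lintegral_map mp (sh_meas a b)]
  refine lintegral_congr_ae ?_
  filter_upwards [hice] with ω hω
  have h1 := ht_sh hω a b
  have h2 : ∀ q, pth (P152.GFF.B3.shO a b ω) q = pth ω (q.1 + a, q.2 + b) - pth ω (a, b) := by
    intro q
    have := height_eq_pth h1 q
    simp only [Prod.fst_zero, Prod.snd_zero, zero_add] at this
    omega
  congr 2
  unfold FA.ev
  rw [Finsupp.sum_mapDomain_index (fun _ => by simp) (fun _ _ _ => by ring)]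
  have h3 : ∀ q r, r * ((pth (P152.GFF.B3.shO a b ω) q : ℤ) : ℝ) =
      r * ((pth ω (q.1 + a, q.2 + b) : ℤ) : ℝ) - r * ((pth ω (a, b) : ℤ) : ℝ) := by
    intro q r
    rw [h2]
    push_cast
    ring
  simp only [h3]
  rw [Finsupp.sum_sub]
  have h4 : (w.sum fun _ r => r * ((pth ω (a, b) : ℤ) : ℝ)) = 0 := by
    have h5 : (w.sum fun _ r => r * ((pth ω (a, b) : ℤ) : ℝ)) = mass w * ((pth ω (a, b) : ℤ) : ℝ) := by
      unfold FA.mass Finsupp.sum
      rw [Finset.sum_mul]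
    rw [h5, hw, zero_mul]
  rw [h4, sub_zero]

/-! ### Smooth weights -/

lemma fin_supp {φ : ℝ × ℝ → ℝ} (hφ : HasCompactSupport φ) {δ : ℝ} (hδ : 0 < δ) (p : ℤ × ℤ) :
    (Function.support fun v : ℤ × ℤ =>
      δ ^ 2 * φ (δ * (v.1 - p.1), -(δ * (v.2 - p.2)))).Finite := by
  obtain ⟨R, hR⟩ := hφ.isCompact.isBounded.subset_closedBall (0 : ℝ × ℝ)
  obtain ⟨N, hN⟩ := exists_nat_ge (R / δ)
  refine Set.Finite.subset ((Set.finite_Icc (p.1 - N) (p.1 + N)).prod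
    (Set.finite_Icc (p.2 - N) (p.2 + N))) ?_
  intro v hv
  have h1 : φ (δ * (v.1 - p.1), -(δ * (v.2 - p.2))) ≠ 0 := fun h => hv (by simp only [h, mul_zero])
  have h2 := hR (subset_tsupport φ h1)
  rw [mem_closedBall_zero_iff, Prod.norm_def, max_le_iff, Real.norm_eq_abs, Real.norm_eq_abs,
    abs_neg] at h2
  have key : ∀ a : ℤ, |δ * (a : ℝ)| ≤ R → |a| ≤ (N : ℤ) := by
    intro a ha
    rw [abs_mul, abs_of_pos hδ] at ha
    have h3 : |(a : ℝ)| ≤ R / δ := by rw [le_div_iff₀ hδ]; linarith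
    have h4 : ((|a| : ℤ) : ℝ) ≤ ((N : ℤ) : ℝ) := by push_cast; linarith only [hN, h3]
    exact_mod_cast h4
  have h3 := abs_le.1 (key (v.1 - p.1) (by push_cast; exact h2.1))
  have h4 := abs_le.1 (key (v.2 - p.2) (by push_cast; exact h2.2))
  exact ⟨⟨by omega, by omega⟩, ⟨by omega, by omega⟩⟩

open Classical in
/-- The weights `δ² φ(δ (v - p))` (reflected in the second coordinate). -/
noncomputable def Wt (δ : ℝ) (φ : ℝ × ℝ → ℝ) (p : ℤ × ℤ) : (ℤ × ℤ) →₀ ℝ :=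
  if h : (Function.support fun v : ℤ × ℤ =>
      δ ^ 2 * φ (δ * (v.1 - p.1), -(δ * (v.2 - p.2)))).Finite then
    Finsupp.ofSupportFinite _ h else 0

lemma Wt_apply {φ : ℝ × ℝ → ℝ} (hφ : HasCompactSupport φ) {δ : ℝ} (hδ : 0 < δ) (p v : ℤ × ℤ) :
    Wt δ φ p v = δ ^ 2 * φ (δ * (v.1 - p.1), -(δ * (v.2 - p.2))) := by
  unfold Wt
  rw [dif_pos (fin_supp hφ hδ p)]
  rfl

lemma Wt_move {φ : ℝ × ℝ → ℝ} (hφ : HasCompactSupport φ) {δ : ℝ} (hδ : 0 < δ) (p : ℤ × ℤ) :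
    Wt δ φ p = (Wt δ φ 0).mapDomain fun v => (v.1 + p.1, v.2 + p.2) := by
  have hinj : Function.Injective fun v : ℤ × ℤ => ((v.1 + p.1, v.2 + p.2) : ℤ × ℤ) := by
    intro a b hab
    simp only [Prod.mk.injEq] at hab
    exact Prod.ext (by omega) (by omega)
  ext v
  have e : v = (fun v : ℤ × ℤ => ((v.1 + p.1, v.2 + p.2) : ℤ × ℤ)) (v.1 - p.1, v.2 - p.2) := by
    ext <;> simp
  conv_rhs => rw [e]
  rw [Finsupp.mapDomain_apply hinj, Wt_apply hφ hδ, Wt_apply hφ hδ]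
  simp

lemma toE_move (u : (ℤ × ℤ) →₀ ℝ) (p : ℤ × ℤ) :
    toE (u.mapDomain fun v => (v.1 + p.1, v.2 + p.2)) =
      (toE u).mapDomain fun q => (q.1 + (p.1 + p.2), q.2 + (p.1 - p.2)) := by
  unfold toE
  rw [← Finsupp.mapDomain_smul, ← Finsupp.mapDomain_comp, ← Finsupp.mapDomain_comp]
  congr 1
  funext v
  simp only [Function.comp, av]
  ext <;> simp only <;> ring

lemma sum_reflect (F : ℤ × ℤ → ℝ) : ∑' v : ℤ × ℤ, F (v.1, -v.2) = ∑' v, F v :=
  (Equiv.prodCongr (Equiv.refl ℤ) (Equiv.neg ℤ)).tsum_eq F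

lemma LU_Wt {φ : ℝ × ℝ → ℝ} (hφ : HasCompactSupport φ) {δ : ℝ} (hδ : 0 < δ)
    (ω : Ori (ℤ × ℤ)) :
    LU (Wt δ φ 0) (vm (pth ω)) = FP.fld (FP.Hc ω) δ φ := by
  have e0 : ∑' v : ℤ × ℤ, Wt δ φ 0 v * vm (pth ω) v =
      ∑ v ∈ (Wt δ φ 0).support, Wt δ φ 0 v * vm (pth ω) v :=
    tsum_eq_sum fun v hv => by rw [Finsupp.notMem_support_iff.1 hv, zero_mul]
  unfold LU FP.fld
  rw [Finsupp.sum, ← e0, ← tsum_mul_left, ← sum_reflect (fun v => δ ^ 2 * (FP.Hc ω (Sum.inl v) * φ (δ * v.1, δ * v.2)))]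
  refine tsum_congr fun v => ?_
  rw [Wt_apply hφ hδ]
  have e1 : FP.Hc ω (Sum.inl (v.1, -v.2)) = vm (pth ω) v := by
    unfold FP.Hc vm FP.fc av
    simp only [sub_neg_eq_add]
    rw [← sub_eq_add_neg]
    ring
  rw [e1]
  simp only [Prod.fst_zero, Prod.snd_zero, Int.cast_zero, sub_zero, Int.cast_neg, mul_neg]
  ring

lemma sum_Wt {φ : ℝ × ℝ → ℝ} (hφ : HasCompactSupport φ) {δ : ℝ} (hδ : 0 < δ) (p : ℤ × ℤ) :
    ((Wt δ φ p).sum fun _ a => a) = Mom.sm δ φ := by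
  have h0 : ((Wt δ φ 0).sum fun _ a => a) = Mom.sm δ φ := by
    have e0 : ∑' v : ℤ × ℤ, Wt δ φ 0 v = ∑ v ∈ (Wt δ φ 0).support, Wt δ φ 0 v :=
      tsum_eq_sum fun v hv => Finsupp.notMem_support_iff.1 hv
    rw [Mom.sm_eq, Finsupp.sum, ← e0, ← tsum_mul_left, ← sum_reflect (fun v => δ ^ 2 * φ (δ * v.1, δ * v.2))]
    refine tsum_congr fun v => ?_
    rw [Wt_apply hφ hδ]
    simp
  rw [← h0, Wt_move hφ hδ p, Finsupp.sum_mapDomain_index (fun _ => rfl) (fun _ _ _ => rfl)]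

end Vale.Agent.P145.X
end

section

/-!
P145, X-level: the moments near a circuit at level `0`, uniformly in the scale (`S_mom`).
-/

namespace Vale.Agent.P145.X

open Finset Filter Topology MeasureTheory
open Vale.Agent.P152 (Ori Ice pth)
open Vale.Agent.P145.FA (Hgt mass)
open Vale.Agent.P145.FB
open Vale.Agent.P145.Top (Om)

/-- A neutral pair of smooth weights. -/
noncomputable def pair (δ : ℝ) (φ g : ℝ × ℝ → ℝ) (p : ℤ × ℤ) : (ℤ × ℤ) →₀ ℝ :=
  Wt δ φ p + (-(Mom.sm δ φ / Mom.sm δ g)) • Wt δ g p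

lemma pair_move {φ g : ℝ × ℝ → ℝ} (hφ : HasCompactSupport φ) (hg : HasCompactSupport g) {δ : ℝ}
    (hδ : 0 < δ) (p : ℤ × ℤ) :
    pair δ φ g p = (pair δ φ g 0).mapDomain fun v => (v.1 + p.1, v.2 + p.2) := by
  unfold pair
  rw [Finsupp.mapDomain_add, Finsupp.mapDomain_smul, ← Wt_move hφ hδ p, ← Wt_move hg hδ p]

lemma mass_pair {φ g : ℝ × ℝ → ℝ} (hφ : HasCompactSupport φ) (hg : HasCompactSupport g) {δ : ℝ}
    (hδ : 0 < δ) (h0 : Mom.sm δ g ≠ 0) (p : ℤ × ℤ) : mass (toE (pair δ φ g p)) = 0 := by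
  rw [mass_toE]
  unfold pair
  rw [Finsupp.sum_add_index' (fun _ => rfl) (fun _ _ _ => rfl), Finsupp.sum_smul_index' (fun _ => rfl)]
  simp only [smul_eq_mul]
  rw [← Finsupp.mul_sum, sum_Wt hφ hδ, sum_Wt hg hδ]
  field_simp
  ring

/-- The moments of a neutral pair under the plane measure. -/
lemma pair_bound {P : Measure (Ori (ℤ × ℤ))} [IsProbabilityMeasure P] (hP : FP.Hyp P) {C γ : ℝ}
    (hC : 0 ≤ C) (hγ : 0 < γ) (hE : Mom.EGD P C γ) (hS : SymM P) {φ g : ℝ × ℝ → ℝ}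
    (hφ : Mom.Sm φ) (hg : Mom.Sm g) (hI : ∫ x, φ x = ∫ x, g x) (h0 : ∫ x, g x ≠ 0) (k : ℕ) :
    ∃ B : ℝ, 0 ≤ B ∧ ∀ᶠ δ in 𝓝[>] (0 : ℝ), Mom.sm δ g ≠ 0 ∧ |Mom.sm δ φ / Mom.sm δ g| ≤ 2 ∧
      ∀ p : ℤ × ℤ, ∫⁻ ω, ENNReal.ofReal (FA.ev (toE (pair δ φ g p)) (pth ω) ^ (2 * k)) ∂P ≤
        ENNReal.ofReal B := by
  obtain ⟨B, hB⟩ := Mom.gen_moment hP hC hγ hE hS hφ hg hI h0 k
  have hg0 : ∀ᶠ δ in 𝓝[>] (0 : ℝ), Mom.sm δ g ≠ 0 := (Mom.sm_tendsto hg).eventually_ne h0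
  have hr : ∀ᶠ δ in 𝓝[>] (0 : ℝ), |Mom.sm δ φ / Mom.sm δ g| ≤ 2 := by
    have h1 := (Mom.sm_tendsto hφ).div (Mom.sm_tendsto hg) h0
    rw [hI, div_self h0] at h1
    have h2 := h1.abs
    rw [abs_one] at h2
    exact (h2.eventually (gt_mem_nhds (by norm_num : (1 : ℝ) < 2))).mono fun δ h => h.le
  refine ⟨max B 0, le_max_right _ _, ?_⟩
  filter_upwards [hB, hg0, hr, self_mem_nhdsWithin] with δ h1 h2 h3 hδ
  have hδ0 : 0 < δ := hδ
  refine ⟨h2, h3, fun p => ?_⟩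
  have e1 : ∫⁻ ω, ENNReal.ofReal (FA.ev (toE (pair δ φ g p)) (pth ω) ^ (2 * k)) ∂P =
      ∫⁻ ω, ENNReal.ofReal (FA.ev (toE (pair δ φ g 0)) (pth ω) ^ (2 * k)) ∂P := by
    rw [pair_move hφ.2 hg.2 hδ0 p, toE_move]
    exact lintegral_move hP.ice hS (mass_pair hφ.2 hg.2 hδ0 h2 0) _ _ _
  have e2 : ∀ ω, FA.ev (toE (pair δ φ g 0)) (pth ω) = FP.fld (FP.Hc ω) δ φ -
      Mom.sm δ φ / Mom.sm δ g * FP.fld (FP.Hc ω) δ g := by
    intro ω
    rw [ev_toE]
    unfold pair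
    rw [LU_add, LU_smul, LU_Wt hφ.2 hδ0, LU_Wt hg.2 hδ0]
    ring
  rw [e1]
  simp only [e2]
  rw [← ofReal_integral_eq_lintegral_ofReal h1.1
    (Eventually.of_forall fun ω => Even.pow_nonneg (even_two_mul k) _)]
  exact ENNReal.ofReal_le_ofReal (h1.2.trans (le_max_left _ _))

/-- Support of the weights. -/
lemma Wt_ne {φ : ℝ × ℝ → ℝ} (hφ : HasCompactSupport φ) {s : ℤ} (hs : 0 < s) {p v : ℤ × ℤ}
    (h : Wt (1 / (s : ℝ)) φ p v ≠ 0) : ∃ x : ℝ × ℝ, φ x ≠ 0 ∧ ((v.1 - p.1 : ℤ) : ℝ) = s * x.1 ∧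
      ((v.2 - p.2 : ℤ) : ℝ) = -(s * x.2) := by
  have hs0 : (0 : ℝ) < s := by exact_mod_cast hs
  rw [Wt_apply hφ (by positivity)] at h
  refine ⟨_, right_ne_zero_of_mul h, ?_, ?_⟩
  · push_cast
    field_simp
  · push_cast
    field_simp

/-- The moments of a smooth weight on the event of a circuit. -/
lemma Wt_mom {c t : ℝ} (hc : 0 < c) (hct : c * t = 1) (ht1 : t ≤ 1)
    {P : Measure (Ori (ℤ × ℤ))} [IsProbabilityMeasure P] (hP : FP.Hyp P)
    (hS : Swap c P) {C γ : ℝ}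
    (hC : 0 ≤ C) (hγ : 0 < γ) (hE : Mom.EGD P C γ) (hSy : SymM P) {φ i o : ℝ × ℝ → ℝ}
    (hφ : Mom.Sm φ) (hi : Mom.Sm i) (ho : Mom.Sm o) (h1 : ∫ x, φ x = ∫ x, i x)
    (h2 : ∫ x, i x = ∫ x, o x) (h0 : ∫ x, o x ≠ 0)
    (si : ∀ x, i x ≠ 0 → |x.1| ≤ 1 ∧ |x.2| ≤ 1) (so : ∀ x, o x ≠ 0 → 3 ≤ |x.1| ∨ 3 ≤ |x.2|)
    (k : ℕ) :
    ∃ B : ℝ, 0 ≤ B ∧ ∃ s₀ : ℤ, 1 ≤ s₀ ∧ ∀ s, s₀ ≤ s → ∀ p : ℤ × ℤ,
      ∫⁻ x in {x | Ann p.1 p.2 s (fine (bl x))},
        ENNReal.ofReal (LU (Wt (1 / (s : ℝ)) φ p) (vm x.1) ^ (2 * k)) ∂(Jmu t P) ≤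
        ENNReal.ofReal B := by
  obtain ⟨B1, hB1, e1⟩ := pair_bound hP hC hγ hE hSy hφ hi h1 (by rw [h2]; exact h0) k
  obtain ⟨B2, hB2, e2⟩ := pair_bound hP hC hγ hE hSy hi ho h2 h0 k
  have hlim : Tendsto (fun s : ℤ => 1 / (s : ℝ)) atTop (𝓝[>] 0) := by
    rw [tendsto_nhdsWithin_iff]
    constructor
    · exact tendsto_const_nhds.div_atTop tendsto_intCast_atTop_atTop
    · filter_upwards [eventually_gt_atTop 0] with s hs
      have : (0 : ℝ) < s := by exact_mod_cast hs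
      exact Set.mem_Ioi.2 (by positivity)
  obtain ⟨s₀, hs₀⟩ := eventually_atTop.1 ((hlim.eventually e1).and (hlim.eventually e2))
  refine ⟨2 ^ (2 * k) * (B1 + 2 ^ (2 * k) * B2), by (clear * - hB1 hB2; positivity), max s₀ 1, le_max_right _ _,
    fun s hs p => ?_⟩
  obtain ⟨⟨a1, a2, a3⟩, ⟨b1, b2, b3⟩⟩ := hs₀ s ((le_max_left _ _).trans hs)
  have hs1 : 0 < s := lt_of_lt_of_le one_pos ((le_max_right _ _).trans hs)
  have hsR : (0 : ℝ) < s := by exact_mod_cast hs1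
  set δ : ℝ := 1 / (s : ℝ) with hδ
  have hδ0 : 0 < δ := by positivity
  set r : ℝ := Mom.sm δ φ / Mom.sm δ i with hr
  set r' : ℝ := Mom.sm δ i / Mom.sm δ o with hr'
  set Z : Set (Hgt × Mk) := {x | Ann p.1 p.2 s (fine (bl x))} with hZ
  -- the two parts
  have m1 := mass_pair hφ.2 hi.2 hδ0 a1 p
  have m2 := mass_pair hi.2 ho.2 hδ0 b1 p
  have q1 := (lintegral_ann_le (t := t) (P := P) (p := p.1) (q := p.2) hs1 m1 k).trans (a3 p)
  have q2 : ∫⁻ x in Z, ENNReal.ofReal (FA.ev (toE (Wt δ i p)) x.1 ^ (2 * k)) ∂(Jmu t P) ≤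
      ENNReal.ofReal B2 := by
    refine le_trans (mom hc hct ht1 hP.ice hS hs1 (a := toE (Wt δ i p))
      (b := toE ((-r') • Wt δ o p)) ?_ ?_ ?_ k).1 ?_
    · intro q hq
      obtain ⟨v, hv, rfl⟩ := mem_supp_toE hq
      obtain ⟨x, hx, hx1, hx2⟩ := Wt_ne hi.2 hs1 hv
      obtain ⟨y1, y2⟩ := si x hx
      have k1 : |((v.1 - p.1 : ℤ) : ℝ)| ≤ s := by
        rw [hx1, abs_mul, abs_of_pos hsR]; nlinarith only [hsR, y1]
      have k2 : |((v.2 - p.2 : ℤ) : ℝ)| ≤ s := by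
        rw [hx2, abs_neg, abs_mul, abs_of_pos hsR]; nlinarith only [hsR, y2]
      have k3 : |v.1 - p.1| ≤ s := by exact_mod_cast k1
      have k4 : |v.2 - p.2| ≤ s := by exact_mod_cast k2
      rw [abs_le] at k3 k4
      rw [fi_av]
      exact ⟨by simp only; omega, by simp only; omega, by simp only; omega, by simp only; omega⟩
    · intro q hq hmem
      obtain ⟨v, hv, rfl⟩ := mem_supp_toE hq
      rw [Finsupp.smul_apply, smul_eq_mul] at hv
      obtain ⟨x, hx, hx1, hx2⟩ := Wt_ne ho.2 hs1 (right_ne_zero_of_mul hv)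
      rw [fi_av] at hmem
      obtain ⟨u1, u2, u3, u4⟩ := hmem
      simp only at u1 u2 u3 u4
      have k3 : |v.1 - p.1| ≤ 2 * s := by rw [abs_le]; constructor <;> omega
      have k4 : |v.2 - p.2| ≤ 2 * s := by rw [abs_le]; constructor <;> omega
      have k1 : |((v.1 - p.1 : ℤ) : ℝ)| ≤ 2 * s := by exact_mod_cast k3
      have k2 : |((v.2 - p.2 : ℤ) : ℝ)| ≤ 2 * s := by exact_mod_cast k4
      rw [hx1, abs_mul, abs_of_pos hsR] at k1
      rw [hx2, abs_neg, abs_mul, abs_of_pos hsR] at k2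
      rcases so x hx with h | h <;> nlinarith only [hsR, k1, h, k2]
    · rw [← toE_add]
      exact m2
    · rw [← toE_add]
      exact b3 p
  -- the sum
  have e3 : ∀ x : Hgt × Mk, LU (Wt δ φ p) (vm x.1) =
      FA.ev (toE (pair δ φ i p)) x.1 + r * FA.ev (toE (Wt δ i p)) x.1 := by
    intro x
    rw [ev_toE, ev_toE]
    unfold pair
    rw [LU_add, LU_smul]
    ring
  have mA : Measurable fun x : Hgt × Mk =>
      ENNReal.ofReal (FA.ev (toE (pair δ φ i p)) x.1 ^ (2 * k)) :=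
    (((measurable_evH _).comp measurable_fst).pow_const _).ennreal_ofReal
  calc ∫⁻ x in Z, ENNReal.ofReal (LU (Wt δ φ p) (vm x.1) ^ (2 * k)) ∂(Jmu t P)
      ≤ ∫⁻ x in Z, ENNReal.ofReal (2 ^ (2 * k)) *
        (ENNReal.ofReal (FA.ev (toE (pair δ φ i p)) x.1 ^ (2 * k)) +
          ENNReal.ofReal (2 ^ (2 * k)) * ENNReal.ofReal (FA.ev (toE (Wt δ i p)) x.1 ^ (2 * k)))
        ∂(Jmu t P) := by
        refine lintegral_mono fun x => ?_
        rw [← ENNReal.ofReal_mul (by positivity), ← ENNReal.ofReal_add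
          (Even.pow_nonneg (even_two_mul k) _)
          (mul_nonneg (by positivity) (Even.pow_nonneg (even_two_mul k) _)),
          ← ENNReal.ofReal_mul (by positivity)]
        refine ENNReal.ofReal_le_ofReal ?_
        rw [e3]
        refine (Mom.pow_add_two _ _ k).trans (mul_le_mul_of_nonneg_left ?_ (by positivity))
        refine add_le_add le_rfl ?_
        rw [mul_pow]
        refine mul_le_mul_of_nonneg_right ?_ (Even.pow_nonneg (even_two_mul k) _)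
        rw [← (even_two_mul k).pow_abs r]
        exact pow_le_pow_left₀ (abs_nonneg _) a2 _
    _ = ENNReal.ofReal (2 ^ (2 * k)) *
        (∫⁻ x in Z, ENNReal.ofReal (FA.ev (toE (pair δ φ i p)) x.1 ^ (2 * k)) ∂(Jmu t P) +
          ENNReal.ofReal (2 ^ (2 * k)) *
            ∫⁻ x in Z, ENNReal.ofReal (FA.ev (toE (Wt δ i p)) x.1 ^ (2 * k)) ∂(Jmu t P)) := by
        rw [lintegral_const_mul' _ _ ENNReal.ofReal_ne_top, lintegral_add_left mA,
          lintegral_const_mul' _ _ ENNReal.ofReal_ne_top]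
    _ ≤ ENNReal.ofReal (2 ^ (2 * k)) *
        (ENNReal.ofReal B1 + ENNReal.ofReal (2 ^ (2 * k)) * ENNReal.ofReal B2) := by
        (clear * - q1 q2; gcongr)
    _ = ENNReal.ofReal (2 ^ (2 * k) * (B1 + 2 ^ (2 * k) * B2)) := by
        rw [← ENNReal.ofReal_mul (by positivity), ← ENNReal.ofReal_add hB1 (by (clear * - hB2; positivity)),
          ← ENNReal.ofReal_mul (by positivity)]

/-- From `∫⁻` to the functional `II`. -/
lemma II_le {t : ℝ} {P : Measure (Ori (ℤ × ℤ))} [IsProbabilityMeasure P]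
    (hice : ∀ᵐ a ∂P, ∀ x y, Ice a x y) {p : ℤ × ℤ} {s : ℤ} {A : Om → ℝ} (hA : ∀ ω, 0 ≤ A ω)
    {B : ℝ} (hB : 0 ≤ B)
    (h : ∫⁻ x in {x | Ann p.1 p.2 s (fine (bl x))}, ENNReal.ofReal (A (vm x.1)) ∂(Jmu t P) ≤
      ENNReal.ofReal B) : II t P (ind (Zr p s)) A ≤ B := by
  classical
  have hZ : MeasurableSet {x : Hgt × Mk | Ann p.1 p.2 s (fine (bl x))} :=
    (levFam_Ann p.1 p.2 s).meas 0
  unfold II
  rw [MU_eq_Jmu hice]
  by_cases hm : AEStronglyMeasurable (fun x => ind (Zr p s) (bl x) * A (vm x.1)) (Jmu t P)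
  · rw [integral_eq_lintegral_of_nonneg_ae (Eventually.of_forall fun x => ?_) hm]
    · refine ENNReal.toReal_le_of_le_ofReal hB (le_trans (le_of_eq ?_) h)
      rw [← lintegral_indicator hZ]
      refine lintegral_congr fun x => ?_
      by_cases hx : x ∈ {x : Hgt × Mk | Ann p.1 p.2 s (fine (bl x))}
      · rw [Set.indicator_of_mem hx]
        have : ind (Zr p s) (bl x) = 1 := by unfold ind; exact if_pos hx
        rw [this, one_mul]
      · rw [Set.indicator_of_notMem hx]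
        have : ind (Zr p s) (bl x) = 0 := by unfold ind; exact if_neg hx
        rw [this, zero_mul, ENNReal.ofReal_zero]
    · refine mul_nonneg ?_ (hA _)
      unfold ind
      split_ifs <;> norm_num
  · rw [integral_non_aestronglyMeasurable hm]
    exact hB

/-- **MOM**, the statement of `X/Stmt.lean`. -/
theorem s_mom {c t : ℝ} (hc : 1 ≤ c) (hct : c * t = 1)
    {P : Measure (Ori (ℤ × ℤ))} [IsProbabilityMeasure P] (hP : FP.Hyp P)
    (hS : Swap c P) {C γ : ℝ} (hC : 0 ≤ C) (hγ : 0 < γ) (hE : Mom.EGD P C γ) (hSy : SymM P)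
    (hlow : S_low c t P) (hint : S_int t P) (hloc : S_loc) : S_mom t P := by
  intro K k hK
  have hc0 : 0 < c := by linarith
  have ht1 : t ≤ 1 := by
    by_contra h
    push Not at h
    nlinarith only [hc, hct, h]
  -- the bumps
  obtain ⟨β, hβ⟩ : ∃ β : ContDiffBump (0 : ℝ × ℝ), β.rIn = K + 1 ∧ β.rOut = K + 2 :=
    ⟨⟨K + 1, K + 2, by linarith, by linarith⟩, rfl, rfl⟩
  obtain ⟨ι, hι⟩ : ∃ ι : ContDiffBump (0 : ℝ × ℝ), ι.rOut = 1 :=
    ⟨⟨1 / 2, 1, by norm_num, by norm_num⟩, rfl⟩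
  obtain ⟨θ, hθ⟩ : ∃ θ : ContDiffBump ((4, 0) : ℝ × ℝ), θ.rOut = 1 :=
    ⟨⟨1 / 2, 1, by norm_num, by norm_num⟩, rfl⟩
  set φ : ℝ × ℝ → ℝ := fun x => K * β x with hφ
  have hφS : Mom.Sm φ := ⟨contDiff_const.mul β.contDiff, β.hasCompactSupport.mul_left⟩
  set I : ℝ := ∫ x, φ x with hI
  have hIpos : 0 < I := by
    rw [hI, hφ]
    simp only
    rw [integral_const_mul]
    exact mul_pos hK β.integral_pos
  set i : ℝ × ℝ → ℝ := fun x => I * ι.normed volume x with hi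
  set o : ℝ × ℝ → ℝ := fun x => I * θ.normed volume x with ho
  have hiS : Mom.Sm i := ⟨contDiff_const.mul ι.contDiff_normed, ι.hasCompactSupport_normed.mul_left⟩
  have hoS : Mom.Sm o := ⟨contDiff_const.mul θ.contDiff_normed, θ.hasCompactSupport_normed.mul_left⟩
  have hiI : ∫ x, i x = I := by
    rw [hi]; simp only; rw [integral_const_mul, ι.integral_normed, mul_one]
  have hoI : ∫ x, o x = I := by
    rw [ho]; simp only; rw [integral_const_mul, θ.integral_normed, mul_one]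
  have si : ∀ x, i x ≠ 0 → |x.1| ≤ 1 ∧ |x.2| ≤ 1 := by
    intro x hx
    have h1 : ι.normed volume x ≠ 0 := right_ne_zero_of_mul hx
    have h2 : x ∈ Function.support (ι.normed volume) := h1
    rw [ι.support_normed_eq, hι, mem_ball_zero_iff, Prod.norm_def, max_lt_iff] at h2
    exact ⟨h2.1.le, h2.2.le⟩
  have so : ∀ x, o x ≠ 0 → 3 ≤ |x.1| ∨ 3 ≤ |x.2| := by
    intro x hx
    have h1 : θ.normed volume x ≠ 0 := right_ne_zero_of_mul hx
    have h2 : x ∈ Function.support (θ.normed volume) := h1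
    rw [θ.support_normed_eq, hθ, mem_ball_iff_norm, Prod.norm_def, max_lt_iff] at h2
    left
    have h3 := h2.1
    rw [Prod.fst_sub, Real.norm_eq_abs, abs_lt] at h3
    simp only at h3
    exact le_trans (by linarith [h3.1]) (le_abs_self _)
  obtain ⟨B, hB, s₀, hs₀, h⟩ := Wt_mom hc0 hct ht1 hP hS hC hγ hE hSy hφS hiS hoS
    (by rw [hiI]) (by rw [hiI, hoI]) (by rw [hoI]; exact hIpos.ne') si so k
  refine ⟨B, s₀, hs₀, fun s hs p u hu1 hu2 => ?_⟩
  have hs1 : 1 ≤ s := hs₀.trans hs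
  have hsR : (0 : ℝ) < s := by exact_mod_cast hs1
  have hΘ : Fn Set.univ (ind (Zr p s)) := by
    have h1 := (hloc p s hs1).2
    exact ⟨h1.nonneg, by
      obtain ⟨Λ, h2, h3⟩ := h1.loc
      exact ⟨Λ, fun w _ => Set.mem_univ _, h3⟩, h1.pin⟩
  have hdom : ∀ v, u v ≤ Wt (1 / (s : ℝ)) φ p v := by
    intro v
    rw [Wt_apply hφS.2 (by positivity)]
    by_cases hv : u v = 0
    · rw [hv, hφ]
      have := β.nonneg (x := (1 / (s : ℝ) * (v.1 - p.1), -(1 / (s : ℝ) * (v.2 - p.2))))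
      (clear * - hs1 hK this; positivity)
    · obtain ⟨k1, k2⟩ := hu2 v hv
      push_cast at k1 k2
      have h1 : β (1 / (s : ℝ) * (v.1 - p.1), -(1 / (s : ℝ) * (v.2 - p.2))) = 1 := by
        apply β.one_of_mem_closedBall
        rw [mem_closedBall_zero_iff, Prod.norm_def, max_le_iff, hβ.1]
        simp only [Real.norm_eq_abs, abs_neg, abs_mul]
        rw [abs_of_pos (by (clear * - hs1; positivity) : (0 : ℝ) < 1 / s)]
        constructor
        · rw [one_div, inv_mul_le_iff₀ hsR]; nlinarith only [hsR, k1]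
        · rw [one_div, inv_mul_le_iff₀ hsR]; nlinarith only [hsR, k2]
      rw [hφ]
      simp only
      rw [h1, mul_one]
      refine (hu1 v).2.trans (le_of_eq ?_)
      (clear * - hs1 hK; field_simp)
  refine (II_mono hc hlow hint hΘ (fun v => (hu1 v).1) hdom (2 * k)).trans ?_
  exact II_le hP.ice (fun ω => Even.pow_nonneg (even_two_mul k) _) hB (h s hs p)

end Vale.Agent.P145.X
end

section

/-!
P145, X-level: the moments of the heights given a macroscopic circuit at level `0` (`S_mm`).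
-/

namespace Vale.Agent.P145.X

open Filter Topology MeasureTheory
open Vale.Agent.P152 (Ori Ice pth)
open Vale.Agent.P145.FA (Hgt mass)
open Vale.Agent.P145.FB
open Vale.Agent.P145.Top (Om hv)
open Vale.Agent.P145.PT (TestOn)

namespace MmH

/-- Reflection in the first axis. -/
def rfx (f : ℝ × ℝ → ℝ) : ℝ × ℝ → ℝ := fun z => f (z.1, -z.2)

def rhom : (ℝ × ℝ) ≃ₜ (ℝ × ℝ) := (Homeomorph.refl ℝ).prodCongr (Homeomorph.neg ℝ)

theorem rhom_apply (z : ℝ × ℝ) : rhom z = (z.1, -z.2) := rfl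

theorem rfx_sm {D : Set (ℝ × ℝ)} {f : ℝ × ℝ → ℝ} (h : TestOn D f) : Mom.Sm (rfx f) := by
  obtain ⟨h1, h2, -⟩ := h
  refine ⟨?_, ?_⟩
  · unfold rfx
    exact h1.comp (contDiff_fst.prodMk contDiff_snd.neg)
  · have : rfx f = f ∘ rhom := rfl
    rw [this]
    exact h2.comp_homeomorph rhom

theorem rfx_sq (f : ℝ × ℝ → ℝ) : ∫ z, rfx f z ^ 2 = ∫ z, f z ^ 2 := by
  have h1 : MeasurePreserving (fun z : ℝ × ℝ => (z.1, -z.2)) (volume : Measure (ℝ × ℝ)) volume := by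
    have := (MeasurePreserving.id (volume : Measure ℝ)).prod
      (Measure.measurePreserving_neg (volume : Measure ℝ))
    exact this
  exact h1.integral_comp rhom.measurableEmbedding (fun z => f z ^ 2)

theorem rfx_int (f : ℝ × ℝ → ℝ) : ∫ z, rfx f z = ∫ z, f z := by
  have h1 : MeasurePreserving (fun z : ℝ × ℝ => (z.1, -z.2)) (volume : Measure (ℝ × ℝ)) volume := by
    have := (MeasurePreserving.id (volume : Measure ℝ)).prod
      (Measure.measurePreserving_neg (volume : Measure ℝ))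
    exact this
  exact h1.integral_comp rhom.measurableEmbedding f

theorem hv_eq_LU {f : ℝ × ℝ → ℝ} (hf : HasCompactSupport (rfx f)) {δ : ℝ} (hδ : 0 < δ) (ω : Om) :
    hv δ f ω = LU (Wt δ (rfx f) 0) ω := by
  unfold hv LU
  rw [finsum_eq_sum_of_support_subset (s := (Wt δ (rfx f) 0).support), Finsupp.sum, Finset.mul_sum]
  · refine Finset.sum_congr rfl fun v _ => ?_
    rw [Wt_apply hf hδ]
    simp [rfx]
    ring
  · intro v hv
    rw [Function.mem_support] at hv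
    rw [Finset.mem_coe, Finsupp.mem_support_iff, Wt_apply hf hδ]
    have h1 := right_ne_zero_of_mul hv
    refine mul_ne_zero (by positivity) ?_
    simpa [rfx] using h1

/-- The estimate for fixed `δ`. -/
theorem core {c t : ℝ} (hc : 0 < c) (hct : c * t = 1) (ht1 : t ≤ 1)
    {P : Measure (Ori (ℤ × ℤ))} [IsProbabilityMeasure P] (hice : ∀ᵐ a ∂P, ∀ x y, Ice a x y)
    (hS : Swap c P) {φ i o : ℝ × ℝ → ℝ} (hφ : HasCompactSupport φ) (hi : HasCompactSupport i)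
    (ho : HasCompactSupport o) {δ : ℝ} (hδ : 0 < δ) (hi0 : Mom.sm δ i ≠ 0) (ho0 : Mom.sm δ o ≠ 0)
    {p : ℤ × ℤ} {s : ℤ} (hs : 0 < s)
    (si : ∀ x, i x ≠ 0 → |x.1 - δ * p.1| ≤ δ * s ∧ |x.2 + δ * p.2| ≤ δ * s)
    (so : ∀ x, o x ≠ 0 → 2 * (δ * s) < |x.1 - δ * p.1|) (k : ℕ) {b1 b2 r : ℝ} (hb1 : 0 ≤ b1)
    (hb2 : 0 ≤ b2) (hr : (Mom.sm δ φ / Mom.sm δ i) ^ (2 * k) ≤ r)
    (h1 : ∫⁻ ω, ENNReal.ofReal ((FP.fld (FP.Hc ω) δ φ -
      Mom.sm δ φ / Mom.sm δ i * FP.fld (FP.Hc ω) δ i) ^ (2 * k)) ∂P ≤ ENNReal.ofReal b1)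
    (h2 : ∫⁻ ω, ENNReal.ofReal ((FP.fld (FP.Hc ω) δ i -
      Mom.sm δ i / Mom.sm δ o * FP.fld (FP.Hc ω) δ o) ^ (2 * k)) ∂P ≤ ENNReal.ofReal b2) :
    ∫⁻ x in {x | Ann p.1 p.2 s (fine (bl x))},
      ENNReal.ofReal (LU (Wt δ φ 0) (vm x.1) ^ (2 * k)) ∂(Jmu t P) ≤
        ENNReal.ofReal (2 ^ (2 * k) * (b1 + r * b2)) := by
  set Z : Set (Hgt × Mk) := {x | Ann p.1 p.2 s (fine (bl x))} with hZ
  set q : ℝ := Mom.sm δ φ / Mom.sm δ i with hq
  set q' : ℝ := Mom.sm δ i / Mom.sm δ o with hq'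
  have hr0 : 0 ≤ r := le_trans (Even.pow_nonneg (even_two_mul k) _) hr
  have fl : ∀ {φ' i' : ℝ × ℝ → ℝ}, HasCompactSupport φ' → HasCompactSupport i' →
      ∀ ω, FA.ev (toE (pair δ φ' i' 0)) (pth ω) = FP.fld (FP.Hc ω) δ φ' -
        Mom.sm δ φ' / Mom.sm δ i' * FP.fld (FP.Hc ω) δ i' := by
    intro φ' i' h1 h2 ω
    rw [ev_toE]
    unfold pair
    rw [LU_add, LU_smul, LU_Wt h1 hδ, LU_Wt h2 hδ]
    ring
  have m1 := mass_pair hφ hi hδ hi0 0
  have m2 := mass_pair hi ho hδ ho0 0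
  have q1 : ∫⁻ x in Z, ENNReal.ofReal (FA.ev (toE (pair δ φ i 0)) x.1 ^ (2 * k)) ∂(Jmu t P) ≤
      ENNReal.ofReal b1 := by
    refine (lintegral_ann_le (t := t) (P := P) (p := p.1) (q := p.2) hs m1 k).trans ?_
    simp only [fl hφ hi]
    exact h1
  have wne : ∀ {φ' : ℝ × ℝ → ℝ}, HasCompactSupport φ' → ∀ {v : ℤ × ℤ}, Wt δ φ' 0 v ≠ 0 →
      φ' (δ * v.1, -(δ * v.2)) ≠ 0 := by
    intro φ' hφ' v hv
    rw [Wt_apply hφ' hδ] at hv
    have := right_ne_zero_of_mul hv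
    simpa using this
  have q2 : ∫⁻ x in Z, ENNReal.ofReal (FA.ev (toE (Wt δ i 0)) x.1 ^ (2 * k)) ∂(Jmu t P) ≤
      ENNReal.ofReal b2 := by
    refine le_trans (mom hc hct ht1 hice hS hs (a := toE (Wt δ i 0))
      (b := toE ((-q') • Wt δ o 0)) ?_ ?_ ?_ k).1 ?_
    · intro z hz
      obtain ⟨v, hv, rfl⟩ := mem_supp_toE hz
      obtain ⟨y1, y2⟩ := si _ (wne hi hv)
      simp only at y1 y2
      have k1 : |((v.1 - p.1 : ℤ) : ℝ)| ≤ s := by
        have e : δ * (v.1 : ℝ) - δ * p.1 = δ * ((v.1 - p.1 : ℤ) : ℝ) := by push_cast; ring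
        rw [e, abs_mul, abs_of_pos hδ] at y1
        exact le_of_mul_le_mul_left y1 hδ
      have k2 : |((v.2 - p.2 : ℤ) : ℝ)| ≤ s := by
        have e : -(δ * (v.2 : ℝ)) + δ * p.2 = -(δ * ((v.2 - p.2 : ℤ) : ℝ)) := by push_cast; ring
        rw [e, abs_neg, abs_mul, abs_of_pos hδ] at y2
        exact le_of_mul_le_mul_left y2 hδ
      have k3 : |v.1 - p.1| ≤ s := by exact_mod_cast k1
      have k4 : |v.2 - p.2| ≤ s := by exact_mod_cast k2
      rw [abs_le] at k3 k4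
      rw [fi_av]
      exact ⟨by simp only; omega, by simp only; omega, by simp only; omega, by simp only; omega⟩
    · intro z hz hmem
      obtain ⟨v, hv, rfl⟩ := mem_supp_toE hz
      rw [Finsupp.smul_apply, smul_eq_mul] at hv
      have y1 := so _ (wne ho (right_ne_zero_of_mul hv))
      simp only at y1
      rw [fi_av] at hmem
      obtain ⟨u1, u2, u3, u4⟩ := hmem
      simp only at u1 u2 u3 u4
      have k3 : |v.1 - p.1| ≤ 2 * s := by rw [abs_le]; constructor <;> omega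
      have k1 : |((v.1 - p.1 : ℤ) : ℝ)| ≤ 2 * s := by exact_mod_cast k3
      have e : δ * (v.1 : ℝ) - δ * p.1 = δ * ((v.1 - p.1 : ℤ) : ℝ) := by push_cast; ring
      rw [e, abs_mul, abs_of_pos hδ] at y1
      nlinarith only [y1, hδ, k1]
    · rw [← toE_add]
      exact m2
    · rw [← toE_add]
      refine le_trans (le_of_eq ?_) h2
      refine lintegral_congr fun ω => ?_
      congr 2
      exact fl hi ho ω
  -- the sum
  have e3 : ∀ x : Hgt × Mk, LU (Wt δ φ 0) (vm x.1) =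
      FA.ev (toE (pair δ φ i 0)) x.1 + q * FA.ev (toE (Wt δ i 0)) x.1 := by
    intro x
    rw [ev_toE, ev_toE]
    unfold pair
    rw [LU_add, LU_smul]
    ring
  have mA : Measurable fun x : Hgt × Mk =>
      ENNReal.ofReal (FA.ev (toE (pair δ φ i 0)) x.1 ^ (2 * k)) :=
    (((measurable_evH _).comp measurable_fst).pow_const _).ennreal_ofReal
  calc ∫⁻ x in Z, ENNReal.ofReal (LU (Wt δ φ 0) (vm x.1) ^ (2 * k)) ∂(Jmu t P)
      ≤ ∫⁻ x in Z, ENNReal.ofReal (2 ^ (2 * k)) *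
        (ENNReal.ofReal (FA.ev (toE (pair δ φ i 0)) x.1 ^ (2 * k)) +
          ENNReal.ofReal r * ENNReal.ofReal (FA.ev (toE (Wt δ i 0)) x.1 ^ (2 * k)))
        ∂(Jmu t P) := by
        refine lintegral_mono fun x => ?_
        rw [← ENNReal.ofReal_mul hr0, ← ENNReal.ofReal_add
          (Even.pow_nonneg (even_two_mul k) _)
          (mul_nonneg hr0 (Even.pow_nonneg (even_two_mul k) _)),
          ← ENNReal.ofReal_mul (by positivity)]
        refine ENNReal.ofReal_le_ofReal ?_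
        rw [e3]
        refine (Mom.pow_add_two _ _ k).trans (mul_le_mul_of_nonneg_left ?_ (by positivity))
        refine add_le_add le_rfl ?_
        rw [mul_pow]
        exact mul_le_mul_of_nonneg_right hr (Even.pow_nonneg (even_two_mul k) _)
    _ = ENNReal.ofReal (2 ^ (2 * k)) *
        (∫⁻ x in Z, ENNReal.ofReal (FA.ev (toE (pair δ φ i 0)) x.1 ^ (2 * k)) ∂(Jmu t P) +
          ENNReal.ofReal r *
            ∫⁻ x in Z, ENNReal.ofReal (FA.ev (toE (Wt δ i 0)) x.1 ^ (2 * k)) ∂(Jmu t P)) := by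
        rw [lintegral_const_mul' _ _ ENNReal.ofReal_ne_top, lintegral_add_left mA,
          lintegral_const_mul' _ _ ENNReal.ofReal_ne_top]
    _ ≤ ENNReal.ofReal (2 ^ (2 * k)) *
        (ENNReal.ofReal b1 + ENNReal.ofReal r * ENNReal.ofReal b2) := by
        (clear * - q1 q2; gcongr)
    _ = ENNReal.ofReal (2 ^ (2 * k) * (b1 + r * b2)) := by
        rw [← ENNReal.ofReal_mul hr0, ← ENNReal.ofReal_add hb1 (mul_nonneg hr0 hb2),
          ← ENNReal.ofReal_mul (by positivity)]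

/-- Smooth bumps of integral one. -/
theorem exists_bump (z : ℝ × ℝ) {ρ : ℝ} (hρ : 0 < ρ) : ∃ i : ℝ × ℝ → ℝ, Mom.Sm i ∧
    ∫ x, i x = 1 ∧ ∀ x, i x ≠ 0 → |x.1 - z.1| ≤ ρ ∧ |x.2 - z.2| ≤ ρ := by
  let b : ContDiffBump z := ⟨ρ / 2, ρ, by positivity, by linarith⟩
  have h0 : 0 < ∫ x, b x := b.integral_pos
  refine ⟨fun x => (∫ y, b y)⁻¹ * b x, ⟨contDiff_const.mul b.contDiff, ?_⟩, ?_, fun x hx => ?_⟩
  · exact b.hasCompactSupport.mul_left
  · rw [integral_const_mul, inv_mul_cancel₀ h0.ne']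
  · have h1 : b x ≠ 0 := right_ne_zero_of_mul hx
    have h2 : x ∈ Function.support b := h1
    rw [b.support_eq, Metric.mem_ball, dist_eq_norm, Prod.norm_def, max_lt_iff] at h2
    exact ⟨h2.1.le, h2.2.le⟩

theorem vol_box {R : ℝ} (hR : 0 < R) :
    (volume : Measure (ℝ × ℝ)) (Set.Icc (-R) R ×ˢ Set.Icc (-R) R) ≠ ⊤ ∧
    (volume : Measure (ℝ × ℝ)).real (Set.Icc (-R) R ×ˢ Set.Icc (-R) R) = 4 * R ^ 2 := by
  constructor
  · rw [Measure.volume_eq_prod, Measure.prod_prod, Real.volume_Icc]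
    exact ENNReal.mul_ne_top ENNReal.ofReal_ne_top ENNReal.ofReal_ne_top
  · rw [measureReal_def, Measure.volume_eq_prod, Measure.prod_prod, Real.volume_Icc,
      ENNReal.toReal_mul, ENNReal.toReal_ofReal (by linarith)]
    ring

/-- Cauchy-Schwarz on a set of finite measure. -/
theorem cs_set {α : Type*} [MeasurableSpace α] {μ : Measure α} {φ : α → ℝ} {S : Set α}
    (hfin : μ S ≠ ⊤) {v : ℝ} (hv : 0 < v) (hvol : μ.real S = v) (i1 : IntegrableOn φ S μ)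
    (i2 : IntegrableOn (fun x => φ x ^ 2) S μ) :
    (∫ x in S, φ x ∂μ) ^ 2 ≤ v * ∫ x in S, φ x ^ 2 ∂μ := by
  set m : ℝ := ∫ x in S, φ x ∂μ with hm
  have key : 0 ≤ ∫ x in S, (φ x - m / v) ^ 2 ∂μ := integral_nonneg fun x => sq_nonneg _
  have i3 : IntegrableOn (fun x => 2 * (m / v) * φ x) S μ := i1.const_mul _
  have i5 : IntegrableOn (fun _ : α => (m / v) ^ 2) S μ := integrableOn_const hfin
  have e3 : ∫ x in S, (φ x - m / v) ^ 2 ∂μ =
      (∫ x in S, φ x ^ 2 ∂μ) - 2 * (m / v) * m + (m / v) ^ 2 * v := by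
    have h1 : ∀ x, (φ x - m / v) ^ 2 = φ x ^ 2 - 2 * (m / v) * φ x + (m / v) ^ 2 :=
      fun x => by ring
    simp only [h1]
    have i4 : IntegrableOn (fun x => φ x ^ 2 - 2 * (m / v) * φ x) S μ := i2.sub i3
    rw [integral_add i4 i5, integral_sub i2 i3,
      integral_const_mul, setIntegral_const, smul_eq_mul, hvol, ← hm]
    ring
  rw [e3] at key
  have e4 : 2 * (m / v) * m - (m / v) ^ 2 * v = m ^ 2 / v := by
    field_simp
    ring
  have h5 : m ^ 2 / v ≤ ∫ x in S, φ x ^ 2 ∂μ := by linarith only [key, e4]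
  rw [div_le_iff₀ hv] at h5
  linarith only [h5]

/-- Cauchy-Schwarz. -/
theorem cs_int {φ : ℝ × ℝ → ℝ} (hφ : Mom.Sm φ) {R : ℝ} (hR : 0 < R)
    (h : ∀ x, φ x ≠ 0 → |x.1| ≤ R ∧ |x.2| ≤ R) :
    (∫ x, φ x) ^ 2 ≤ 4 * R ^ 2 * ∫ x, φ x ^ 2 := by
  have hc : Continuous φ := hφ.1.continuous
  have i1 : Integrable φ := hc.integrable_of_hasCompactSupport hφ.2
  have c2 : HasCompactSupport (fun x => φ x ^ 2) :=
    hφ.2.comp_left (g := fun y : ℝ => y ^ 2) (by norm_num)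
  have i2 : Integrable fun x => φ x ^ 2 := (hc.pow 2).integrable_of_hasCompactSupport c2
  obtain ⟨hfin, hvol⟩ := vol_box hR
  have hSm : MeasurableSet (Set.Icc (-R) R ×ˢ Set.Icc (-R) R) :=
    measurableSet_Icc.prod measurableSet_Icc
  have e1 : ∫ x, φ x = ∫ x in Set.Icc (-R) R ×ˢ Set.Icc (-R) R, φ x := by
    rw [← integral_indicator hSm]
    refine integral_congr_ae (Eventually.of_forall fun x => ?_)
    by_cases hx : x ∈ Set.Icc (-R) R ×ˢ Set.Icc (-R) R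
    · rw [Set.indicator_of_mem hx]
    · rw [Set.indicator_of_notMem hx]
      by_contra h0
      obtain ⟨h1, h2⟩ := h x h0
      exact hx ⟨abs_le.1 h1, abs_le.1 h2⟩
  have e2 : ∫ x in Set.Icc (-R) R ×ˢ Set.Icc (-R) R, φ x ^ 2 ≤ ∫ x, φ x ^ 2 :=
    setIntegral_le_integral i2 (Eventually.of_forall fun x => sq_nonneg _)
  have hV : 0 < 4 * R ^ 2 := by positivity
  have e3 := cs_set hfin hV hvol i1.integrableOn i2.integrableOn
  rw [← e1] at e3
  exact e3.trans (mul_le_mul_of_nonneg_left e2 hV.le)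

end MmH

open MmH in
/-- **MM**, the statement `S_mm` of `X/Stmt.lean`. -/
theorem s_mm {c t : ℝ} (hc : 0 < c) (hct : c * t = 1) (ht1 : t ≤ 1)
    {P : Measure (Ori (ℤ × ℤ))} [IsProbabilityMeasure P] (hP : FP.Hyp P)
    (hS : Swap c P) {C γ : ℝ} (hC : 0 ≤ C) (hγ : 0 < γ) (hE : Mom.EGD P C γ) (hSy : SymM P)
    {δ : ℕ → ℝ} (hδ : ∀ n, 0 < δ n) (hlim : Tendsto δ atTop (𝓝 0)) : S_mm t P δ := by
  intro R hR1 k
  have hR : 0 < R := by linarith
  set ρ : ℝ := 1 / (2 * R) with hρ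
  have hρ0 : 0 < ρ := by positivity
  -- the outer bump
  obtain ⟨o, ho, ho1, hos⟩ := exists_bump ((4 * R + 3, 0) : ℝ × ℝ) one_pos
  -- the inner bumps
  obtain ⟨T, hTs, hTf, hTc⟩ := (isCompact_closedBall (0 : ℝ × ℝ) R).finite_cover_balls hρ0
  choose i hi hi1 his using fun z : ℝ × ℝ => exists_bump z hρ0
  have hlimW : Tendsto δ atTop (𝓝[>] 0) := by
    rw [tendsto_nhdsWithin_iff]
    exact ⟨hlim, Eventually.of_forall hδ⟩
  -- constants
  have hK : ∀ z : ℝ × ℝ, ∃ K : ℝ, 0 ≤ K ∧ ∀ φ : ℝ × ℝ → ℝ, Mom.Sm φ →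
      (∀ x, φ x ≠ 0 → |x.1| ≤ R ∧ |x.2| ≤ R) → ∀ ε : ℝ, 0 < ε → ∀ᶠ δ in 𝓝[>] (0 : ℝ),
      Integrable (fun ω => (FP.fld (FP.Hc ω) δ φ -
        Mom.sm δ φ / Mom.sm δ (i z) * FP.fld (FP.Hc ω) δ (i z)) ^ (2 * k)) P ∧
      ∫ ω, (FP.fld (FP.Hc ω) δ φ -
        Mom.sm δ φ / Mom.sm δ (i z) * FP.fld (FP.Hc ω) δ (i z)) ^ (2 * k) ∂P ≤
          K * ((∫ x, φ x ^ 2) + ε) ^ k := fun z =>
    Mom.gen_quant hP hC hγ hE hSy (hi z) (by rw [hi1]; norm_num) hR k
  choose K hK0 hK using hK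
  obtain ⟨Ko, hKo0, hKo⟩ := Mom.gen_quant hP hC hγ hE hSy ho (by rw [ho1]; norm_num)
    (show (0 : ℝ) < 2 * R + 1 by linarith only [hR1]) k
  -- bound for the inner bumps against the outer bump
  set Bo : ℝ × ℝ → ℝ := fun z => Ko * ((∫ x, i z x ^ 2) + 1) ^ k with hBo
  have hBo0 : ∀ z, 0 ≤ Bo z := fun z => by
    have : 0 ≤ ∫ x, i z x ^ 2 := integral_nonneg fun x => sq_nonneg _
    simp only [hBo]
    (clear * - hKo0; positivity)
  set A : ℝ × ℝ → ℝ := fun z => 2 ^ (2 * k) * (K z + (4 * R ^ 2 + 1) ^ k * Bo z) with hA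
  have hA0 : ∀ z, 0 ≤ A z := fun z => by
    have h1 := hK0 z
    have h2 := hBo0 z
    simp only [hA]
    (clear * - h1 hR1 hKo0; positivity)
  refine ⟨∑ z ∈ hTf.toFinset, A z, Finset.sum_nonneg fun z _ => hA0 z, fun f hf ε hε => ?_⟩
  set φ : ℝ × ℝ → ℝ := rfx f with hφd
  have hφ : Mom.Sm φ := rfx_sm hf
  have hsupp : ∀ x, φ x ≠ 0 → |x.1| ≤ R ∧ |x.2| ≤ R := by
    intro x hx
    have h1 : (x.1, -x.2) ∈ Metric.ball (0 : ℝ × ℝ) R := hf.2.2 (subset_tsupport f hx)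
    rw [Metric.mem_ball, dist_zero_right, Prod.norm_def, max_lt_iff, Real.norm_eq_abs,
      Real.norm_eq_abs, abs_neg] at h1
    exact ⟨h1.1.le, h1.2.le⟩
  have hq2 : ∫ x, φ x ^ 2 = ∫ z, f z ^ 2 := rfx_sq f
  have hq0 : 0 ≤ ∫ z, f z ^ 2 := integral_nonneg fun x => sq_nonneg _
  -- the events
  have E1 : ∀ z ∈ T, ∀ᶠ n in atTop, ∫⁻ ω, ENNReal.ofReal ((FP.fld (FP.Hc ω) (δ n) φ -
      Mom.sm (δ n) φ / Mom.sm (δ n) (i z) * FP.fld (FP.Hc ω) (δ n) (i z)) ^ (2 * k)) ∂P ≤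
        ENNReal.ofReal (K z * ((∫ z, f z ^ 2) + ε) ^ k) := by
    intro z _
    filter_upwards [hlimW.eventually (hK z φ hφ hsupp ε hε)] with n hn
    rw [← ofReal_integral_eq_lintegral_ofReal hn.1
      (Eventually.of_forall fun ω => Even.pow_nonneg (even_two_mul k) _)]
    refine ENNReal.ofReal_le_ofReal ?_
    rw [← hq2]
    exact hn.2
  have E2 : ∀ z ∈ T, ∀ᶠ n in atTop, ∫⁻ ω, ENNReal.ofReal ((FP.fld (FP.Hc ω) (δ n) (i z) -
      Mom.sm (δ n) (i z) / Mom.sm (δ n) o * FP.fld (FP.Hc ω) (δ n) o) ^ (2 * k)) ∂P ≤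
        ENNReal.ofReal (Bo z) := by
    intro z hz
    have hzR := hTs hz
    rw [mem_closedBall_zero_iff, Prod.norm_def, max_le_iff, Real.norm_eq_abs,
      Real.norm_eq_abs] at hzR
    have hρ1 : ρ ≤ 1 := by
      rw [hρ, div_le_one (by positivity)]
      linarith only [hR1]
    have hs' : ∀ x, i z x ≠ 0 → |x.1| ≤ 2 * R + 1 ∧ |x.2| ≤ 2 * R + 1 := by
      intro x hx
      obtain ⟨h1, h2⟩ := his z x hx
      have a1 := abs_sub_abs_le_abs_sub x.1 z.1
      have a2 := abs_sub_abs_le_abs_sub x.2 z.2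
      constructor <;> linarith only [hR1, hzR, hρ1, h1, a1, h2, a2]
    filter_upwards [hlimW.eventually (hKo (i z) (hi z) hs' 1 one_pos)] with n hn
    rw [← ofReal_integral_eq_lintegral_ofReal hn.1
      (Eventually.of_forall fun ω => Even.pow_nonneg (even_two_mul k) _)]
    exact ENNReal.ofReal_le_ofReal hn.2
  have E3 : ∀ z ∈ T, ∀ᶠ n in atTop, Mom.sm (δ n) (i z) ≠ 0 ∧
      (Mom.sm (δ n) φ / Mom.sm (δ n) (i z)) ^ (2 * k) ≤
        ((4 * R ^ 2 + 1) * ((∫ z, f z ^ 2) + ε)) ^ k := by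
    intro z _
    have l1 := (Mom.sm_tendsto (hi z)).comp hlimW
    have l2 := (Mom.sm_tendsto hφ).comp hlimW
    rw [hi1] at l1
    have l3 := (l2.div l1 one_ne_zero).pow 2
    rw [div_one] at l3
    have hcs := cs_int hφ hR hsupp
    rw [hq2] at hcs
    have hlt : (∫ x, φ x) ^ 2 < (4 * R ^ 2 + 1) * ((∫ z, f z ^ 2) + ε) := by
      nlinarith only [hε, hq0, hcs]
    filter_upwards [l1.eventually_ne one_ne_zero, l3.eventually (gt_mem_nhds hlt)] with n h1 h2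
    refine ⟨h1, ?_⟩
    rw [pow_mul]
    exact pow_le_pow_left₀ (sq_nonneg _) h2.le k
  have E4 : ∀ᶠ n in atTop, Mom.sm (δ n) o ≠ 0 := by
    have l1 := (Mom.sm_tendsto ho).comp hlimW
    rw [ho1] at l1
    exact l1.eventually_ne one_ne_zero
  have E : ∀ᶠ n in atTop, ∀ z ∈ T, _ := (hTf.eventually_all).2 fun z hz =>
    (E1 z hz).and ((E2 z hz).and (E3 z hz))
  filter_upwards [E, E4] with n hn hn4
  intro p s hp1 hp2 hs1 hs2
  have hδn := hδ n
  have hs0 : 0 < s := by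
    have h1 : 0 < δ n * s := lt_of_lt_of_le (by positivity) hs1
    have h2 : (0 : ℝ) < s := (mul_pos_iff_of_pos_left hδn).1 h1
    exact_mod_cast h2
  -- the centre of the net
  have hpc : ((δ n * p.1, -(δ n * p.2)) : ℝ × ℝ) ∈ Metric.closedBall (0 : ℝ × ℝ) R := by
    rw [mem_closedBall_zero_iff, Prod.norm_def, max_le_iff, Real.norm_eq_abs, Real.norm_eq_abs,
      abs_neg]
    exact ⟨hp1, hp2⟩
  obtain ⟨z, hzT, hzd⟩ := Set.mem_iUnion₂.1 (hTc hpc)
  rw [Metric.mem_ball, dist_eq_norm, Prod.norm_def, max_lt_iff, Real.norm_eq_abs,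
    Real.norm_eq_abs] at hzd
  simp only [Prod.fst_sub, Prod.snd_sub] at hzd
  obtain ⟨e1, e2, e3, e4⟩ := hn z hzT
  have hρR : 2 * ρ = R⁻¹ := by rw [hρ]; field_simp
  have hmain := core hc hct ht1 hP.ice hS hφ.2 (hi z).2 ho.2 hδn e3 hn4 (p := p) (s := s) hs0
    (fun x hx => by
      obtain ⟨y1, y2⟩ := his z x hx
      have a1 := abs_sub_le x.1 z.1 (δ n * p.1)
      have a2 := abs_sub_le x.2 z.2 (-(δ n * p.2))
      rw [abs_sub_comm z.1] at a1
      rw [abs_sub_comm z.2] at a2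
      rw [sub_neg_eq_add] at a2
      constructor <;> linarith only [hs1, hzd, hρR, y1, a1, y2, a2])
    (fun x hx => by
      obtain ⟨y1, -⟩ := hos x hx
      have a1 := (abs_le.1 y1).1
      have a2 := (abs_le.1 hp1).2
      have a3 := le_abs_self (x.1 - δ n * p.1)
      simp only at a1
      linarith only [hρ0, hs1, hs2, hρR, a1, a2, a3]) k
    (mul_nonneg (hK0 z) (pow_nonneg (by linarith only [hε, hq0]) k)) (hBo0 z) e4 e1 e2
  have hfin : II t P (ind (Zr p s)) (fun ω => hv (δ n) f ω ^ (2 * k)) ≤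
      2 ^ (2 * k) * (K z * ((∫ z, f z ^ 2) + ε) ^ k +
        ((4 * R ^ 2 + 1) * ((∫ z, f z ^ 2) + ε)) ^ k * Bo z) := by
    refine II_le hP.ice (fun ω => Even.pow_nonneg (even_two_mul k) _) ?_ ?_
    · have h1 := hK0 z
      have h2 := hBo0 z
      have h3 : 0 ≤ (∫ z, f z ^ 2) + ε := by linarith only [hε, hq0]
      (clear * - h1 hε hR1 hKo0; positivity)
    · simp only [hv_eq_LU hφ.2 hδn]
      exact hmain
  refine hfin.trans ?_
  have h5 : A z ≤ ∑ z ∈ hTf.toFinset, A z :=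
    Finset.single_le_sum (f := A) (fun z _ => hA0 z) (hTf.mem_toFinset.2 hzT)
  have h6 : 0 ≤ ((∫ z, f z ^ 2) + ε) ^ k := pow_nonneg (by linarith only [hε, hq0]) k
  calc 2 ^ (2 * k) * (K z * ((∫ z, f z ^ 2) + ε) ^ k +
        ((4 * R ^ 2 + 1) * ((∫ z, f z ^ 2) + ε)) ^ k * Bo z)
      = A z * ((∫ z, f z ^ 2) + ε) ^ k := by
        simp only [hA]
        rw [mul_pow]
        ring
    _ ≤ _ := mul_le_mul_of_nonneg_right h5 h6

end Vale.Agent.P145.X
end

section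

/-!
P145, block F-C: the sandwich for `MU t P`, the law of the absolute heights and the bonds.
-/

namespace Vale.Agent.P145.FK

open Finset MeasureTheory Vale.Agent.P145.FP Vale.Agent.P145.Dom
open Vale.Agent.P145.FA (Hgt mu0 Pl)
open Vale.Agent.P145.FB (Mk Pt mkm om e1 e2 o1 o2 Swap MU measurable_om)
open Vale.Agent.P152 (Ori)

instance sfinite_mu0 (P : Measure (Ori (ℤ × ℤ))) [SFinite P] : SFinite (mu0 P) := by
  unfold mu0; infer_instance

/-- Integrals with respect to `MU`. -/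
theorem int_MU {t : ℝ} {P : Measure (Ori (ℤ × ℤ))} [SFinite P] {f : Hgt × Mk → ℝ}
    (hf : Integrable f (MU t P)) :
    ∫ x, f x ∂(MU t P) = ∫ h, ∫ ξ, f (h, om h ξ) ∂(mkm t) ∂(mu0 P) ∧
    Integrable (fun h => ∫ ξ, f (h, om h ξ) ∂(mkm t)) (mu0 P) := by
  have h1 : Integrable (fun x : Hgt × Mk => f (x.1, om x.1 x.2)) ((mu0 P).prod (mkm t)) :=
    (integrable_map_measure hf.aestronglyMeasurable measurable_om.aemeasurable).1 hf
  refine ⟨?_, h1.integral_prod_left⟩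
  unfold MU
  rw [integral_map measurable_om.aemeasurable hf.aestronglyMeasurable]
  exact integral_prod _ h1

/-- **The sandwich for `MU`.** -/
theorem MU_sandwich {c : ℝ} (hc : 1 ≤ c) {P : Measure (Ori (ℤ × ℤ))} (hP : Pl c P)
    (hS : Swap c P) {F₁ F₂ : Finset (ℤ × ℤ)} (hF : F₁ ⊆ F₂) {g : Set Pt → ℝ} (hg : Adm F₁ F₂ g)
    {A : (Site → ℤ) → ℝ} (hA : PosH A) (hAI : Dep F₁ A)
    (hi0 : Integrable (fun x => g (bl x)) (MU c⁻¹ P))
    (hi1 : Integrable (fun x => g (bl x) * A (fun s => x.1 (fc s))) (MU c⁻¹ P)) :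
    ∫ x, g (bl x) * A (fun s => x.1 (fc s)) ∂(MU c⁻¹ P) ≤
        ze c F₂ A * ∫ x, g (bl x) ∂(MU c⁻¹ P) ∧
      ze c F₁ A * ∫ x, g (bl x) ∂(MU c⁻¹ P) ≤
        ∫ x, g (bl x) * A (fun s => x.1 (fc s)) ∂(MU c⁻¹ P) := by
  have := hP.prob
  obtain ⟨a1, a2⟩ := int_MU hi0
  obtain ⟨b1, b2⟩ := int_MU hi1
  have e1 : ∀ h : Hgt, ∫ ξ, g (bl (h, om h ξ)) ∂(mkm c⁻¹) = avg c⁻¹ g h := fun h => rfl
  have e2 : ∀ h : Hgt, ∫ ξ, g (bl (h, om h ξ)) * A (fun s => h (fc s)) ∂(mkm c⁻¹) =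
      avg c⁻¹ g h * A (fun s => h (fc s)) := fun h => integral_mul_const _ _
  simp only at a1 a2 b1 b2
  simp only [e1] at a1 a2
  simp only [e2] at b1 b2
  rw [a1, b1]
  exact plane_sandwich hc hP hS hF hg hA hAI a2 b2

end Vale.Agent.P145.FK
end

section

/-!
P145, block K1: the sum over the heights on the square of faces with free boundary conditions and
bounded value at the origin is a sum over the ice configurations of the box with free arrows.
-/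

namespace Vale.Agent.P145.FK

open Finset Vale.Agent.P145.FP Vale.Agent.P145.Dom
open Vale.Agent.P145.FA (Hgt ofW)
open Vale.Agent.P145.FC (Hon ext0 res0 ext0_res0 ext0_of_mem HL WB SqF)
open Vale.Agent.P152 (pth wc)
open Vale.Agent.P152.GFF.B3 (BE boxNet)
open scoped Classical

lemma vw6_eq_fw (c : ℝ) (η : Hgt) (w : ℤ × ℤ) : vw6 c η w = FC.fw c η w := by
  unfold vw6 FC.fw FB.e1 FB.e2 FB.o1 FB.o2
  by_cases h : Even (w.1 + w.2)
  · simp only [if_pos h]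
  · simp only [if_neg h]
    exact if_congr and_comm rfl rfl

lemma adj_cases {v f : ℤ × ℤ} (h : Adj v f) : f = (v.1, v.2 - 1) ∨ f = (v.1, v.2 + 1) ∨
    f = (v.1 - 1, v.2) ∨ f = (v.1 + 1, v.2) := by
  rcases h with ⟨h1, h2 | h2⟩ | ⟨h1, h2 | h2⟩
  · left; ext <;> simp only <;> omega
  · right; left; ext <;> simp only <;> omega
  · right; right; left; ext <;> simp only <;> omega
  · right; right; right; ext <;> simp only <;> omega

/-- Neighbouring faces of a height function. -/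
lemma hon_adj {B : Finset (ℤ × ℤ)} {η : Hgt} (h : Hon B η) {v f : ℤ × ℤ} (hv : v ∈ B) (hf : f ∈ B)
    (hvf : Adj v f) : |η v - η f| = 1 := by
  obtain ⟨a, b⟩ := v
  rcases adj_cases hvf with rfl | rfl | rfl | rfl
  · exact h.2.1 a b hv hf
  · have := h.2.1 a (b + 1) hf (by simpa using hv)
    simp only [add_sub_cancel_right] at this
    rw [abs_sub_comm]
    exact this
  · have := h.2.2 a b hv hf
    rw [abs_sub_comm]
    exact this
  · have := h.2.2 (a + 1) b hf (by simpa using hv)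
    simp only [add_sub_cancel_right] at this
    exact this

/-- Heights on the net are height functions. -/
lemma hon_of_HS {n : ℕ} (hn : 1 ≤ n) {y : V6 (Sq n) ⊕ F6 (Sq n) → ℤ}
    (hy : (n6 (Sq n)).HS Set.univ y) : Hon (SqF n) (ex6 y) := by
  obtain ⟨-, -, h3, h4⟩ := hy
  have key : ∀ v f : ℤ × ℤ, v ∈ Sq n → f ∈ Sq n → Even (v.1 + v.2) → Adj v f →
      |ex6 y v - ex6 y f| = 1 := by
    intro v f hv hf he ha
    have hv' : v ∈ ev6 (Sq n) := mem_ev6.2 ⟨hv, he⟩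
    have hf' : f ∈ od6 (Sq n) := mem_od6.2 ⟨hf, by
      rw [Int.not_even_iff_odd]
      obtain ⟨k, hk⟩ := he
      rcases ha with ⟨h1, h2 | h2⟩ | ⟨h1, h2 | h2⟩
      · exact ⟨k - 1, by omega⟩
      · exact ⟨k, by omega⟩
      · exact ⟨k - 1, by omega⟩
      · exact ⟨k, by omega⟩⟩
    have := h4 ⟨v, hv'⟩ ⟨f, hf'⟩ ha trivial
    rwa [← ex6_inl y, ← ex6_inr y] at this
  have hadj : ∀ v f : ℤ × ℤ, v ∈ Sq n → f ∈ Sq n → Adj v f → |ex6 y v - ex6 y f| = 1 := by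
    intro v f hv hf ha
    by_cases he : Even (v.1 + v.2)
    · exact key v f hv hf he ha
    · rw [abs_sub_comm]
      refine key f v hf hv ?_ ?_
      · rw [Int.not_even_iff_odd] at he
        obtain ⟨k, hk⟩ := he
        rcases ha with ⟨h1, h2 | h2⟩ | ⟨h1, h2 | h2⟩
        · exact ⟨k, by omega⟩
        · exact ⟨k + 1, by omega⟩
        · exact ⟨k, by omega⟩
        · exact ⟨k + 1, by omega⟩
      · unfold Adj at ha ⊢
        omega
  refine ⟨fun q hq => ?_, fun a b h1 h2 => ?_, fun a b h1 h2 => ?_⟩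
  · by_cases he : Even (q.1 + q.2)
    · have h5 := h3 ⟨q, mem_ev6.2 ⟨hq, he⟩⟩
      rw [← ex6_inl y] at h5
      exact (h5.sub he).two_dvd
    · -- a neighbour
      have hq' := (FC.mem_SqF (N := n)).1 hq
      obtain ⟨v, hv, hvq⟩ : ∃ v : ℤ × ℤ, v ∈ Sq n ∧ Adj v q := by
        by_cases h6 : q.1 < n
        · exact ⟨(q.1 + 1, q.2), (FC.mem_SqF (N := n)).2 (by simp only; omega),
            Or.inr ⟨rfl, Or.inl rfl⟩⟩
        · refine ⟨(q.1 - 1, q.2), (FC.mem_SqF (N := n)).2 (by simp only; omega),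
            Or.inr ⟨rfl, Or.inr ?_⟩⟩
          simp
      have hev : Even (v.1 + v.2) := by
        rw [Int.not_even_iff_odd] at he
        obtain ⟨k, hk⟩ := he
        rcases hvq with ⟨h1, h2 | h2⟩ | ⟨h1, h2 | h2⟩
        · exact ⟨k + 1, by omega⟩
        · exact ⟨k, by omega⟩
        · exact ⟨k + 1, by omega⟩
        · exact ⟨k, by omega⟩
      have h7 := key v q hv hq hev hvq
      have h5 := h3 ⟨v, mem_ev6.2 ⟨hv, hev⟩⟩
      rw [← ex6_inl y] at h5
      have h5' : Even (ex6 y v) := h5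
      rw [Int.not_even_iff_odd] at he
      obtain ⟨k, hk⟩ := he
      obtain ⟨l, hl⟩ := h5'
      rcases (abs_eq (by norm_num)).1 h7 with h8 | h8 <;> omega
  · exact hadj _ _ h1 h2 (Or.inl ⟨rfl, Or.inl (by simp)⟩)
  · exact hadj _ _ h2 h1 (Or.inr ⟨rfl, Or.inr (by simp)⟩)

/-- The free height sum on the square. -/
theorem za {c : ℝ} (hc : 0 < c) {n : ℕ} (hn : 1 ≤ n) {K L : ℕ} (hK : L + 2 * n + 2 ≤ K)
    (g : Hgt → ℝ) (hg : ∀ h h' : Hgt, (∀ q ∈ Sq n, h q = h' q) → g h = g h') :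
    ∑ y ∈ Net.TTs (V := V6 (Sq n)) K (Set.univ : Set (F6 (Sq n))),
      (if (n6 (Sq n)).HS Set.univ y ∧ |ex6 y 0| ≤ 2 * (L : ℤ) then
        (n6 (Sq n)).hw c Set.univ y * g (ex6 y) else 0) =
    ∑ j ∈ Finset.Icc (-(L : ℤ)) L, ∑ k : BE (2 * n) (2 * n) → ZMod 2,
      g (fun q => pth (ofW (2 * n) (2 * n) (1 - (n : ℤ)) (1 - (n : ℤ)) k) q + 2 * j) *
        (boxNet (2 * n) (2 * n)).W6 (wc c) k := by
  rw [← FC.HL_sum L rfl hc (fun h h' hh => hg h h' hh), ← Finset.sum_filter,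
    ← finsum_mem_coe_finset]
  have hex : ∀ (y : V6 (Sq n) ⊕ F6 (Sq n) → ℤ), ∀ q ∈ Sq n,
      ext0 (res0 (SqF n) (ex6 y)) q = ex6 y q := fun y q hq => ext0_res0 _ hq
  have h0 : (0 : ℤ × ℤ) ∈ Sq n := (FC.con_SqF n).1
  refine finsum_mem_eq_of_bijOn (fun y => res0 (SqF n) (ex6 y)) ⟨?_, ?_, ?_⟩ ?_
  · intro y hy
    rw [Finset.mem_coe, Finset.mem_filter] at hy
    obtain ⟨-, hHS, hL⟩ := hy
    refine ⟨(hon_of_HS hn hHS).congr fun q hq => (hex y q hq).symm, ?_⟩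
    rw [hex y 0 h0]
    exact hL
  · intro y _ y' _ h
    apply ex6_inj
    funext q
    by_cases hq : q ∈ Sq n
    · rw [← hex y q hq, ← hex y' q hq]
      exact congrFun (congrArg (fun z : SqF n → ℤ => ext0 z) h) q
    · rw [ex6_of_not y hq, ex6_of_not y' hq]
  · rintro x ⟨hx, hx0⟩
    set y : V6 (Sq n) ⊕ F6 (Sq n) → ℤ := Sum.elim (fun v => ext0 x v.1) (fun f => ext0 x f.1)
      with hy
    have hyx : ∀ q ∈ Sq n, ex6 y q = ext0 x q := by
      intro q hq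
      by_cases he : Even (q.1 + q.2)
      · exact ex6_inl y ⟨q, mem_ev6.2 ⟨hq, he⟩⟩
      · exact ex6_inr y ⟨q, mem_od6.2 ⟨hq, he⟩⟩
    have hb : ∀ q ∈ Sq n, |ext0 x q| ≤ 2 * (K : ℤ) := by
      intro q hq
      have h1 := FC.Hon_bound hx hq
      have h2 : (L : ℤ) + 2 * n + 2 ≤ K := by exact_mod_cast hK
      linarith only [hK, hx0, h1]
    refine ⟨y, ?_, ?_⟩
    · rw [Finset.mem_coe, Finset.mem_filter]
      refine ⟨?_, ⟨fun v hv => absurd (fun f _ => trivial) hv, fun f hf => absurd trivial hf,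
        fun v => ?_, fun v f hvf _ => ?_⟩, ?_⟩
      · rw [Net.mem_TTs]
        rintro (v | f)
        · refine Net.mem_TT_inl ?_ (hb v.1 (mem_ev6.1 v.2).1)
          have h1 := hx.1 v.1 (mem_ev6.1 v.2).1
          have h2 := (mem_ev6.1 v.2).2
          have h3 := (even_iff_two_dvd.2 h1).add h2
          rwa [sub_add_cancel] at h3
        · refine Net.mem_TT_inr trivial ?_ ((hb f.1 (mem_od6.1 f.2).1).trans (by omega))
          have h1 := hx.1 f.1 (mem_od6.1 f.2).1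
          have h2 := (mem_od6.1 f.2).2
          rw [Int.not_even_iff_odd] at h2
          have h3 := (even_iff_two_dvd.2 h1).add_odd h2
          rwa [sub_add_cancel] at h3
      · have h1 := hx.1 v.1 (mem_ev6.1 v.2).1
        have h2 := (mem_ev6.1 v.2).2
        have h3 := (even_iff_two_dvd.2 h1).add h2
        rwa [sub_add_cancel] at h3
      · exact hon_adj hx (mem_ev6.1 v.2).1 (mem_od6.1 f.2).1 hvf
      · rw [hyx 0 h0]
        exact hx0
    · funext q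
      show ex6 y q.1 = x q
      rw [hyx q.1 q.2, ext0_of_mem x q.2]
  · intro y hy
    rw [Finset.mem_coe, Finset.mem_filter] at hy
    obtain ⟨-, hHS, hL⟩ := hy
    congr 1
    · rw [hw6_eq']
      have e1 : ∀ w : E6 (Sq n), (if (n6 (Sq n)).inE Set.univ w then vw6 c (ex6 y) w.1 else 1) =
          (fun w : ℤ × ℤ => FC.fw c (ex6 y) w) w.1 := by
        intro w
        rw [if_pos (show (n6 (Sq n)).inE Set.univ w from ⟨trivial, trivial⟩), vw6_eq_fw]
      rw [Finset.prod_congr rfl fun w _ => e1 w, Finset.prod_coe_sort (FC.VB (Sq n))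
        (fun w : ℤ × ℤ => FC.fw c (ex6 y) w)]
      unfold WB
      refine Finset.prod_congr rfl fun w hw => ?_
      simp only [FC.VB, Finset.mem_filter] at hw
      obtain ⟨h1, h2, h3, h4⟩ := hw
      unfold FC.fw
      simp only [hex y _ h1, hex y _ h2, hex y _ h3, hex y _ h4]
    · exact hg _ _ fun q hq => (hex y q hq).symm

end Vale.Agent.P145.FK
end

section

/-!
P145, block K1: the passage from the boxes with free heights to the plane, for local observables of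
the absolute heights and of the set of blocked vertices.
-/

namespace Vale.Agent.P145.FK

open Finset Filter Topology MeasureTheory Vale.Agent.P145.FP Vale.Agent.P145.Dom
open Vale.Agent.P145.FA (Hgt mu0 Pl BoxLim ofW)
open Vale.Agent.P145.FB (Pt Mk mkm om MU)
open Vale.Agent.P152 (Ori pth wc)
open Vale.Agent.P152.GFF.B3 (IsP boxNet BE)

open scoped Classical

/-- Average over the marks of a plane observable. -/
noncomputable def av6 (t : ℝ) (G : Hgt → Set Pt → ℝ) (h : Hgt) : ℝ :=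
  ∫ ξ, G h (bl (h, om h ξ)) ∂(mkm t)

/-- The observable depends only on the heights and the blocked vertices of the square. -/
def Loc6 (m : ℕ) (G : Hgt → Set Pt → ℝ) : Prop :=
  ∀ h h' b b', (∀ q ∈ Sq m, h q = h' q) → (∀ w ∈ FC.VB (Sq m), (w ∈ b ↔ w ∈ b')) → G h b = G h' b'

lemma Sq_mono {m n : ℕ} (h : m ≤ n) : Sq m ⊆ Sq n := by
  intro q hq
  rw [mem_Sq] at hq ⊢
  have : (m : ℤ) ≤ n := by exact_mod_cast h
  exact ⟨hq.1.trans this, hq.2.trans this⟩

lemma VB_mono {B B' : Finset (ℤ × ℤ)} (h : B ⊆ B') : FC.VB B ⊆ FC.VB B' := by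
  intro w hw
  rw [mem_VB] at hw ⊢
  exact ⟨h hw.1, h hw.2.1, h hw.2.2.1, h hw.2.2.2⟩

lemma Loc6.mono {m n : ℕ} (h : m ≤ n) {G : Hgt → Set Pt → ℝ} (hG : Loc6 m G) : Loc6 n G :=
  fun _ _ _ _ h1 h2 => hG _ _ _ _ (fun q hq => h1 q (Sq_mono h hq))
    (fun w hw => h2 w (VB_mono (Sq_mono h) hw))

lemma Loc6.mul {m : ℕ} {G G' : Hgt → Set Pt → ℝ} (hG : Loc6 m G) (hG' : Loc6 m G') :
    Loc6 m (fun h b => G h b * G' h b) :=
  fun h h' b b' h1 h2 => by
    show G h b * G' h b = G h' b' * G' h' b'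
    rw [hG _ _ _ _ h1 h2, hG' _ _ _ _ h1 h2]

lemma om_congr {h h' : Hgt} {w : Pt} (h1 : h (FB.e1 w) = h' (FB.e1 w))
    (h2 : h (FB.e2 w) = h' (FB.e2 w)) (h3 : h (FB.o1 w) = h' (FB.o1 w))
    (h4 : h (FB.o2 w) = h' (FB.o2 w)) (ξ : Mk) : om h ξ w = om h' ξ w := by
  unfold om
  rw [h1, h2, h3, h4]

lemma av6_congr {m : ℕ} {G : Hgt → Set Pt → ℝ} (hG : Loc6 m G) (t : ℝ) {h h' : Hgt}
    (hh : ∀ q ∈ Sq m, h q = h' q) : av6 t G h = av6 t G h' := by
  unfold av6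
  congr 1
  funext ξ
  refine hG _ _ _ _ hh fun w hw => ?_
  obtain ⟨h1, h2, h3, h4⟩ := mem_VB.1 hw
  have e := om_congr (hh _ h1) (hh _ h2) (hh _ h3) (hh _ h4) ξ
  unfold bl
  simp only [Set.mem_ofPred_eq]
  rw [hh _ h1, hh _ h2, e]

/-- Summation over magnitudes and signs, in terms of the heights. -/
theorem J6_eq {B : Finset (ℤ × ℤ)} {K m : ℕ} (hm : Sq m ⊆ B) {t : ℝ} (ht : 0 < t) (ht1 : t ≤ 1)
    {G : Hgt → Set Pt → ℝ} (hG : Loc6 m G) :
    J6 B K t G = t ^ Fintype.card (E6 B) * ∑ y ∈ Net.TTs (V := V6 B) K (Set.univ : Set (F6 B)),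
      (if (n6 B).HS Set.univ y then (n6 B).hw t⁻¹ Set.univ y else 0) * av6 t G (ex6 y) := by
  set G' : FC.Cf (V6 B) (F6 B) (E6 B) → ℝ := fun c =>
    G (ex6 (Sum.elim c.h c.k)) {p | ∃ h : p ∈ FC.VB B, c.w ⟨p, h⟩ = false} with hG'
  have key := (n6 B).bridge_sum (K := K) ht Set.univ G'
  have e1 : (fun (x : Net.Cfg (V6 B) (F6 B) (E6 B) K) (s : V6 B ⊕ F6 B → Bool) =>
      (n6 B).zbi Set.univ x * G' ((n6 B).img Set.univ x s)) =
      fun x s => G (hg6 x s) (bk6 x) := by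
    funext x s
    have h1 : (n6 B).zbi Set.univ x = 1 := by
      refine if_pos ⟨fun i hi => absurd ?_ hi, fun e he => absurd ?_ he⟩
      · rcases i with v | f
        · exact fun f _ => Set.mem_univ f
        · exact Set.mem_univ f
      · exact ⟨Set.mem_univ _, Set.mem_univ _⟩
    have h2 : ex6 (Sum.elim ((n6 B).img Set.univ x s).h ((n6 B).img Set.univ x s).k) = hg6 x s := by
      unfold hg6
      congr 1
      funext i
      rcases i with v | f <;> rfl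
    have h3 : {p | ∃ h : p ∈ FC.VB B, ((n6 B).img Set.univ x s).w ⟨p, h⟩ = false} = bk6 x := by
      ext p
      unfold bk6
      simp only [Set.mem_ofPred_eq]
      refine exists_congr fun hp => ?_
      simp only [Net.img, decide_eq_false_iff_not, not_and, not_not]
      constructor
      · intro h
        exact h ⟨Set.mem_univ _, Set.mem_univ _⟩
      · intro h _
        exact h
    rw [h1, one_mul, hG']
    simp only
    rw [h2, h3]
  rw [e1] at key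
  have e2 : ∀ inst : DecidablePred (fun f : F6 B => f ∉ (Set.univ : Set (F6 B))),
      (@Finset.filter _ (fun f : F6 B => f ∉ (Set.univ : Set (F6 B))) inst Finset.univ).card = 0 := by
    intro inst
    rw [Finset.card_eq_zero, Finset.filter_eq_empty_iff]
    intro f _ h
    exact h (Set.mem_univ f)
  rw [e2, pow_zero, mul_one] at key
  unfold J6
  rw [key]
  congr 1
  refine Finset.sum_congr rfl fun y _ => ?_
  by_cases h : (n6 B).HS Set.univ y
  · rw [if_pos h]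
    have e0 := Net.sum_phi (n6 B) ht.ne' h (fun w => G' (Net.toCf y w))
    refine Eq.trans (Finset.sum_congr (Finset.ext fun _ => by simp) fun _ _ => rfl)
      (e0.trans ?_)
    congr 1
    rw [← int_mkm (ι := fun e : E6 B => e.1) Subtype.val_injective ht.le ht1
      (fun η => G' (Net.toCf y ((n6 B).wof y η)))]
    unfold av6
    congr 1
    funext ξ
    have e3 : ex6 (Sum.elim (Net.toCf y ((n6 B).wof y (fun e : E6 B => ξ e.1))).h
        (Net.toCf y ((n6 B).wof y (fun e : E6 B => ξ e.1))).k) = ex6 y := by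
      congr 1
      funext i
      rcases i with v | f <;> rfl
    rw [hG']
    simp only
    rw [e3]
    refine hG _ _ _ _ (fun _ _ => rfl) fun w hw => ?_
    have hwB : w ∈ FC.VB B := VB_mono hm hw
    have t1 : ex6 y (FB.e1 w) = y (.inl ((n6 B).u ⟨w, hwB⟩)) := ex6_inl y ((n6 B).u ⟨w, hwB⟩)
    have t2 : ex6 y (FB.e2 w) = y (.inl ((n6 B).v ⟨w, hwB⟩)) := ex6_inl y ((n6 B).v ⟨w, hwB⟩)
    have t3 : ex6 y (FB.o1 w) = y (.inr ((n6 B).f ⟨w, hwB⟩)) := ex6_inr y ((n6 B).f ⟨w, hwB⟩)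
    have t4 : ex6 y (FB.o2 w) = y (.inr ((n6 B).g ⟨w, hwB⟩)) := ex6_inr y ((n6 B).g ⟨w, hwB⟩)
    unfold bl om
    simp only [Set.mem_ofPred_eq]
    rw [t1, t2, t3, t4]
    have e4 : (∃ h : w ∈ FC.VB B, (Net.toCf y ((n6 B).wof y (fun e : E6 B => ξ e.1))).w ⟨w, h⟩ =
        false) ↔ (n6 B).wof y (fun e : E6 B => ξ e.1) ⟨w, hwB⟩ = false :=
      ⟨fun ⟨_, h⟩ => h, fun h => ⟨hwB, h⟩⟩
    rw [e4]
    unfold Net.wof
    by_cases h1 : y (.inl ((n6 B).u ⟨w, hwB⟩)) = 0 <;>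
      by_cases h2 : y (.inl ((n6 B).v ⟨w, hwB⟩)) = 0 <;>
      by_cases h3 : y (.inr ((n6 B).f ⟨w, hwB⟩)) = y (.inr ((n6 B).g ⟨w, hwB⟩)) <;>
      simp [h1, h2, h3]
  · rw [if_neg h, zero_mul]
    refine Finset.sum_eq_zero fun w _ => ?_
    unfold Net.Φ
    rw [if_neg, zero_mul]
    intro hC
    exact h ⟨hC.1, hC.2.1, hC.2.2.1, hC.2.2.2.1⟩

lemma Hon_mono {B B' : Finset (ℤ × ℤ)} (h : B ⊆ B') {η : Hgt} (hη : FC.Hon B' η) : FC.Hon B η :=
  ⟨fun q hq => hη.1 q (h hq), fun x y h1 h2 => hη.2.1 x y (h h1) (h h2),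
    fun x y h1 h2 => hη.2.2 x y (h h1) (h h2)⟩

/-- The normalisation. -/
noncomputable def Dn (c : ℝ) (n : ℕ) : ℝ :=
  c⁻¹ ^ Fintype.card (E6 (Sq n)) * (boxNet (2 * n) (2 * n)).ar (wc c) (fun _ => 1)

lemma Dn_pos {c : ℝ} (hc : 0 < c) (hc2 : c ≤ 2) (n : ℕ) : 0 < Dn c n :=
  mul_pos (pow_pos (inv_pos.2 hc) _) (lh_ar_pos hc hc2 _ _)

/-- The observable vanishes unless the height of the face `0` is bounded. -/
def Sup6 (m L : ℕ) (G : Hgt → Set Pt → ℝ) : Prop :=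
  ∀ h b, FC.Hon (Sq m) h → G h b ≠ 0 → |h 0| ≤ 2 * (L : ℤ)

lemma Sup6.av6 {m L : ℕ} {G : Hgt → Set Pt → ℝ} (hG : Sup6 m L G) (t : ℝ) {h : Hgt}
    (hh : FC.Hon (Sq m) h) (h0 : ¬ |h 0| ≤ 2 * (L : ℤ)) : av6 t G h = 0 := by
  unfold FK.av6
  have : ∀ ξ, G h (bl (h, om h ξ)) = 0 := fun ξ => by
    by_contra hne
    exact h0 (hG h _ hh hne)
  simp only [this]
  exact integral_zero _ _

/-- The integral over the absolute heights as a finite sum. -/
lemma int_sum {c : ℝ} {P : Measure (Ori (ℤ × ℤ))} (hPl : Pl c P) {g : Hgt → ℝ} {L : ℕ}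
    (hi : Integrable g (mu0 P)) (h0 : ∀ᵐ h ∂(mu0 P), ¬ |h 0| ≤ 2 * (L : ℤ) → g h = 0) :
    ∫ h, g h ∂(mu0 P) = ∑ j ∈ Finset.Icc (-(L : ℤ)) L, ∫ w, g (fun q => pth w q + 2 * j) ∂P := by
  set g' : Hgt → ℝ := fun h => if |h 0| ≤ 2 * (L : ℤ) then g h else 0 with hg'
  have he : g =ᵐ[mu0 P] g' := by
    filter_upwards [h0] with h hh
    simp only [hg']
    split_ifs with h1
    · rfl
    · exact hh h1
  have h1 := FA.s_base c P hPl (0, 0) ℝ g' (hi.congr he)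
  have e1 : ∀ (k : ℤ) (w : Ori (ℤ × ℤ)), g' (fun q => pth w q - pth w (0, 0) +
      (2 * k + ((0, 0) : ℤ × ℤ).1 + ((0, 0) : ℤ × ℤ).2)) =
      if k ∈ Finset.Icc (-(L : ℤ)) L then g (fun q => pth w q + 2 * k) else 0 := by
    intro k w
    have e0 : pth w (0, 0) = 0 := P152.pth_zero w
    have e2 : (fun q => pth w q - pth w (0, 0) + (2 * k + ((0, 0) : ℤ × ℤ).1 +
        ((0, 0) : ℤ × ℤ).2)) = fun q => pth w q + 2 * k := by
      funext q
      rw [e0]
      simp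
    rw [e2]
    have e3 : (fun q => pth w q + 2 * k : Hgt) 0 = 2 * k := by
      show pth w 0 + 2 * k = 2 * k
      rw [P152.pth_zero, zero_add]
    by_cases hk : k ∈ Finset.Icc (-(L : ℤ)) L
    · rw [if_pos hk]
      refine if_pos ?_
      rw [e3, abs_le]
      rw [Finset.mem_Icc] at hk
      omega
    · rw [if_neg hk]
      refine if_neg fun h => hk ?_
      rw [e3, abs_le] at h
      rw [Finset.mem_Icc]
      omega
  simp only [e1] at h1
  rw [integral_congr_ae he]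
  refine h1.unique ?_
  have h3 : ∑ k ∈ Finset.Icc (-(L : ℤ)) L, ∫ w, (if k ∈ Finset.Icc (-(L : ℤ)) L then
      g (fun q => pth w q + 2 * k) else 0) ∂P =
      ∑ k ∈ Finset.Icc (-(L : ℤ)) L, ∫ w, g (fun q => pth w q + 2 * k) ∂P :=
    Finset.sum_congr rfl fun k hk => by simp only [if_pos hk]
  rw [← h3]
  refine hasSum_sum_of_ne_finset_zero fun k hk => ?_
  simp only [if_neg hk]
  exact integral_zero _ _

/-- The passage to the plane. -/
theorem lim6 {c : ℝ} (hc : 1 ≤ c) (hb : BoxLim c) {P : Measure (Ori (ℤ × ℤ))}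
    (hPl : Pl c P) (hP : IsP c P) {m L : ℕ} {G : Hgt → Set Pt → ℝ} (hG : Loc6 m G)
    (hL : Sup6 m L G) (hi : Integrable (fun x => G x.1 (bl x)) (MU c⁻¹ P)) {K : ℕ → ℕ}
    (hK : ∀ n, L + 2 * n + 2 ≤ K n) :
    Tendsto (fun n : ℕ => J6 (Sq n) (K n) c⁻¹ G / Dn c n) atTop
      (𝓝 (∫ x, G x.1 (bl x) ∂(MU c⁻¹ P))) := by
  have hc0 : 0 < c := by linarith
  have ht : 0 < c⁻¹ := inv_pos.mpr hc0
  have ht1 : c⁻¹ ≤ 1 := inv_le_one_of_one_le₀ hc
  have := hPl.prob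
  obtain ⟨i1, i2⟩ := int_MU hi
  have e0 : (fun h => ∫ ξ, G h (bl (h, om h ξ)) ∂(mkm c⁻¹)) = av6 c⁻¹ G := rfl
  simp only at i1 i2
  rw [i1]
  change Integrable (av6 c⁻¹ G) (mu0 P) at i2
  change Tendsto _ _ (𝓝 (∫ h, av6 c⁻¹ G h ∂(mu0 P)))
  rw [int_sum hPl (L := L) i2 (by
    filter_upwards [FC.ae_Hon hPl (Sq m)] with h hh h1
    exact hL.av6 _ hh h1)]
  have hloc : ∀ h h' : Hgt, (∀ q ∈ Sq m, h q = h' q) → av6 c⁻¹ G h = av6 c⁻¹ G h' :=
    fun h h' => av6_congr hG _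
  have hlim : Tendsto (fun n : ℕ => ∑ j ∈ Finset.Icc (-(L : ℤ)) L,
      (∑ k : BE (2 * n) (2 * n) → ZMod 2,
        av6 c⁻¹ G (fun q => pth (ofW (2 * n) (2 * n) (1 - n) (1 - n) k) q + 2 * j) *
          (boxNet (2 * n) (2 * n)).W6 (wc c) k) / (boxNet (2 * n) (2 * n)).ar (wc c)
            (fun _ => 1)) atTop
      (𝓝 (∑ j ∈ Finset.Icc (-(L : ℤ)) L, ∫ w, av6 c⁻¹ G (fun q => pth w q + 2 * j) ∂P)) :=
    tendsto_finsetSum _ fun j _ => lim_hgt hb hP (m := m) (av6 c⁻¹ G) hloc j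
  refine hlim.congr' ?_
  filter_upwards [eventually_ge_atTop (m + 1)] with n hn
  have hmn : Sq m ⊆ Sq n := Sq_mono (by omega)
  have e1 := J6_eq (K := K n) hmn ht ht1 hG
  rw [inv_inv] at e1
  have e2 : ∑ y ∈ Net.TTs (V := V6 (Sq n)) (K n) (Set.univ : Set (F6 (Sq n))),
      (if (n6 (Sq n)).HS Set.univ y then (n6 (Sq n)).hw c Set.univ y else 0) *
        av6 c⁻¹ G (ex6 y) =
      ∑ y ∈ Net.TTs (V := V6 (Sq n)) (K n) (Set.univ : Set (F6 (Sq n))),
      (if (n6 (Sq n)).HS Set.univ y ∧ |ex6 y 0| ≤ 2 * (L : ℤ) then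
        (n6 (Sq n)).hw c Set.univ y * av6 c⁻¹ G (ex6 y) else 0) := by
    refine Finset.sum_congr rfl fun y _ => ?_
    by_cases h1 : (n6 (Sq n)).HS Set.univ y
    · rw [if_pos h1]
      by_cases h2 : |ex6 y 0| ≤ 2 * (L : ℤ)
      · rw [if_pos ⟨h1, h2⟩]
      · rw [if_neg fun h => h2 h.2,
          hL.av6 _ (Hon_mono hmn (hon_of_HS (by omega) h1)) h2, mul_zero]
    · rw [if_neg h1, if_neg fun h => h1 h.1, zero_mul]
  rw [e2, za hc0 (by omega) (hK n) (av6 c⁻¹ G) (fun h h' hh => hloc h h' fun q hq =>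
    hh q (hmn hq))] at e1
  rw [e1]
  unfold Dn
  rw [mul_div_mul_left _ _ (pow_pos ht _).ne', Finset.sum_div]

end Vale.Agent.P145.FK
end

section

/-!
P145, block K1: the inequality LOW in the plane.
-/

namespace Vale.Agent.P145.FK

open Finset Filter Topology MeasureTheory Vale.Agent.P145.FP Vale.Agent.P145.Dom
open Vale.Agent.P145.FA (Hgt mu0 Pl BoxLim ofW)
open Vale.Agent.P145.FB (Pt Mk mkm om MU)
open Vale.Agent.P152 (Ori pth wc)
open Vale.Agent.P152.GFF.B3 (IsP boxNet BE)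
open scoped Classical

/-! ### Truncation -/

/-- Truncation at the face `q`. -/
noncomputable def tr6 (q : Pt) (L : ℕ) (G : Hgt → Set Pt → ℝ) : Hgt → Set Pt → ℝ :=
  fun h b => if |h q| ≤ 2 * (L : ℤ) then G h b else 0

lemma tr6_nonneg {q : Pt} {L : ℕ} {G : Hgt → Set Pt → ℝ} (hG : ∀ h b, 0 ≤ G h b) (h : Hgt)
    (b : Set Pt) : 0 ≤ tr6 q L G h b := by
  unfold tr6
  split_ifs
  · exact hG h b
  · exact le_rfl

lemma tr6_mul (q : Pt) (L : ℕ) (G A : Hgt → Set Pt → ℝ) :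
    (fun h b => tr6 q L G h b * A h b) = tr6 q L (fun h b => G h b * A h b) := by
  funext h b
  unfold tr6
  split_ifs
  · rfl
  · exact zero_mul _

lemma Loc6.tr6 {m : ℕ} {q : Pt} (hq : q ∈ Sq m) (L : ℕ) {G : Hgt → Set Pt → ℝ}
    (hG : Loc6 m G) : Loc6 m (tr6 q L G) := by
  intro h h' b b' h1 h2
  unfold FK.tr6
  rw [h1 q hq, hG _ _ _ _ h1 h2]

lemma sup6_tr6 {m : ℕ} {q : Pt} (hq : q ∈ Sq m) : ∃ R : ℕ, ∀ (L : ℕ) (G : Hgt → Set Pt → ℝ),
    Sup6 m (L + R) (FK.tr6 q L G) := by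
  obtain ⟨R, hR⟩ := FC.exists_bound (FC.con_SqF m)
  refine ⟨R.toNat, fun L G h b hh hne => ?_⟩
  have h1 := hR h hh q hq
  unfold tr6 at hne
  have h2 : |h q| ≤ 2 * (L : ℤ) := by
    by_contra h3
    exact hne (if_neg h3)
  have h3 := Int.self_le_toNat R
  push_cast
  rw [abs_le] at h1 h2 ⊢
  constructor <;> linarith only [h1, h2, h3]

lemma ins_abs {h h' : Hgt} {q : Pt} (e : (h q).natAbs = (h' q).natAbs) : |h q| = |h' q| := by
  rw [Int.abs_eq_natAbs, Int.abs_eq_natAbs, e]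

lemma OutM.tr6 {F : Set (ℤ × ℤ)} {q : Pt} (hq : ¬ Ins F q) (L : ℕ) {G : Hgt → Set Pt → ℝ}
    (hG : OutM F G) : OutM F (FK.tr6 q L G) := by
  intro h h' b b' h1 h2
  unfold FK.tr6
  rw [ins_abs (h1 q hq), hG _ _ _ _ h1 h2]

lemma DecM.tr6 (q : Pt) (L : ℕ) {G : Hgt → Set Pt → ℝ} (h0 : ∀ h b, 0 ≤ G h b)
    (hG : DecM G) : DecM (FK.tr6 q L G) := by
  intro h h' b b' h1 h2
  unfold FK.tr6
  by_cases h3 : |h' q| ≤ 2 * (L : ℤ)
  · have h4 : |h q| ≤ 2 * (L : ℤ) := by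
      have := h1 q
      rw [Int.abs_eq_natAbs] at h3 ⊢
      omega
    rw [if_pos h3, if_pos h4]
    exact hG _ _ _ _ h1 h2
  · rw [if_neg h3]
    split_ifs
    · exact h0 _ _
    · exact le_rfl

lemma tr6_int (q : Pt) {μ : Measure (Hgt × Mk)} {G : Hgt → Set Pt → ℝ}
    (hi : Integrable (fun x => G x.1 (bl x)) μ) (L : ℕ) :
    Integrable (fun x => tr6 q L G x.1 (bl x)) μ := by
  have hm : MeasurableSet {x : Hgt × Mk | |x.1 q| ≤ 2 * (L : ℤ)} := by
    have h1 : Measurable fun x : Hgt × Mk => x.1 q := (measurable_pi_apply q).comp measurable_fst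
    exact h1 (MeasurableSet.of_discrete (s := {z : ℤ | |z| ≤ 2 * (L : ℤ)}))
  have h2 := hi.indicator hm
  refine h2.congr (Filter.Eventually.of_forall fun x => ?_)
  unfold tr6
  simp only [Set.indicator, Set.mem_ofPred_eq]

lemma tr6_lim (q : Pt) {μ : Measure (Hgt × Mk)} {G : Hgt → Set Pt → ℝ}
    (hi : Integrable (fun x => G x.1 (bl x)) μ) :
    Tendsto (fun L : ℕ => ∫ x, tr6 q L G x.1 (bl x) ∂μ) atTop (𝓝 (∫ x, G x.1 (bl x) ∂μ)) := by
  refine tendsto_integral_of_dominated_convergence (fun x => ‖G x.1 (bl x)‖)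
    (fun L => (tr6_int q hi L).aestronglyMeasurable) hi.norm
    (fun L => Filter.Eventually.of_forall fun x => ?_) (Filter.Eventually.of_forall fun x => ?_)
  · unfold tr6
    split_ifs
    · exact le_rfl
    · rw [norm_zero]; exact norm_nonneg _
  · refine tendsto_const_nhds.congr' ?_
    filter_upwards [eventually_ge_atTop (x.1 q).natAbs] with L hL
    unfold tr6
    rw [if_pos]
    rw [Int.abs_eq_natAbs]
    omega

/-! ### LOW -/

/-- LOW in the plane. -/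
theorem low_plane {c : ℝ} (hc : 1 ≤ c) (hc2 : c ≤ 2) (hb : BoxLim c)
    {P : Measure (Ori (ℤ × ℤ))} (hPl : Pl c P) (hP : IsP c P) {F : Finset (ℤ × ℤ)}
    {Θ A : Hgt → Set Pt → ℝ} {m : ℕ} (hΘ0 : ∀ h b, 0 ≤ Θ h b) (hΘ : OutM F Θ) (hΘl : Loc6 m Θ)
    (hA : PosM A) (hAl : Loc6 m A) (hi0 : Integrable (fun x => Θ x.1 (bl x)) (MU c⁻¹ P))
    (hi1 : Integrable (fun x => Θ x.1 (bl x) * A x.1 (bl x)) (MU c⁻¹ P)) {p : ℝ} {K0 : ℕ}
    (hp : ∀ᶠ n in atTop, ∀ K, K0 ≤ K → Jz (Sq n) K c⁻¹ F A = p * Jz (Sq n) K c⁻¹ F (fun _ _ => 1)) :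
    p * ∫ x, Θ x.1 (bl x) ∂(MU c⁻¹ P) ≤ ∫ x, Θ x.1 (bl x) * A x.1 (bl x) ∂(MU c⁻¹ P) := by
  have hc0 : 0 < c := by linarith
  have ht : 0 < c⁻¹ := inv_pos.mpr hc0
  have ht1 : c⁻¹ ≤ 1 := inv_le_one_of_one_le₀ hc
  obtain ⟨v0, hv0⟩ := Infinite.exists_notMem_finset F
  set q0 : Pt := FP.fc (.inl v0) with hq0
  have hq0F : ¬ Ins (F : Set (ℤ × ℤ)) q0 := by
    intro h
    unfold Ins at h
    rw [hq0, cf_fc] at h
    exact hv0 (h v0 (cor00 v0))
  set M : ℕ := max m (max q0.1.natAbs q0.2.natAbs) with hM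
  have hq0M : q0 ∈ Sq M := by
    rw [mem_Sq]
    have h1 : q0.1.natAbs ≤ M := (le_max_left _ _).trans (le_max_right _ _)
    have h2 : q0.2.natAbs ≤ M := (le_max_right _ _).trans (le_max_right _ _)
    rw [Int.abs_eq_natAbs, Int.abs_eq_natAbs]
    exact ⟨by exact_mod_cast h1, by exact_mod_cast h2⟩
  have hΘM : Loc6 M Θ := hΘl.mono (le_max_left _ _)
  have hAM : Loc6 M A := hAl.mono (le_max_left _ _)
  obtain ⟨R, hR⟩ := sup6_tr6 hq0M
  obtain ⟨n0, hn0⟩ := exists_Nb6 F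
  have key : ∀ L : ℕ, p * ∫ x, tr6 q0 L Θ x.1 (bl x) ∂(MU c⁻¹ P) ≤
      ∫ x, tr6 q0 L (fun h b => Θ h b * A h b) x.1 (bl x) ∂(MU c⁻¹ P) := by
    intro L
    have hK : ∀ n, (L + R) + 2 * n + 2 ≤ max K0 ((L + R) + 2 * n + 2) := fun n => le_max_right _ _
    have l1 := lim6 hc hb hPl hP (hΘM.tr6 hq0M L) (hR L Θ) (tr6_int q0 hi0 L) hK
    have l2 := lim6 hc hb hPl hP ((hΘM.mul hAM).tr6 hq0M L) (hR L (fun h b => Θ h b * A h b))
      (tr6_int q0 hi1 L) hK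
    refine le_of_tendsto_of_tendsto (l1.const_mul p) l2 ?_
    filter_upwards [hp, eventually_ge_atTop (max n0 1)] with n hn hn1
    have hnb := hn0 n ((le_max_left _ _).trans hn1)
    have hni := NI_Sq (n := n) ((le_max_right _ _).trans hn1)
    have h1 := low6 (K := max K0 ((L + R) + 2 * n + 2)) ht ht1 hni hnb hA
      (tr6_nonneg (q := q0) (L := L) hΘ0) (hΘ.tr6 hq0F L)
    rw [hn _ (le_max_left _ _), tr6_mul] at h1
    have h2 := Jz_one_pos (B := Sq n) (K := max K0 ((L + R) + 2 * n + 2)) ht ht1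
      (F : Set (ℤ × ℤ))
    have h3 : p * J6 (Sq n) (max K0 ((L + R) + 2 * n + 2)) c⁻¹ (tr6 q0 L Θ) ≤
        J6 (Sq n) (max K0 ((L + R) + 2 * n + 2)) c⁻¹ (tr6 q0 L fun h b => Θ h b * A h b) := by
      refine le_of_mul_le_mul_left ?_ h2
      calc _ = p * Jz (Sq n) (max K0 ((L + R) + 2 * n + 2)) c⁻¹ (F : Set (ℤ × ℤ)) (fun _ _ => 1) *
            J6 (Sq n) (max K0 ((L + R) + 2 * n + 2)) c⁻¹ (tr6 q0 L Θ) := by ring
        _ ≤ _ := h1
    show p * (_ / _) ≤ _ / _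
    rw [← mul_div_assoc]
    exact div_le_div_of_nonneg_right h3 (Dn_pos hc0 hc2 n).le
  exact le_of_tendsto_of_tendsto' ((tr6_lim q0 hi0).const_mul p) (tr6_lim q0 hi1) key

/-- The zero boundary expectation of a polynomial in the heights, on the box. -/
theorem Jz_zeH {B F : Finset (ℤ × ℤ)} (hI : NI B) (hB : Nb6 B F) {K : ℕ} (hK : KF F ≤ K) {t : ℝ}
    (ht : 0 < t) (ht1 : t ≤ 1) {A : (Site → ℤ) → ℝ} (hA : PosH A) :
    Jz B K t F (fun h _ => A (fun s => h (FP.fc s))) =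
      ze t⁻¹ F A * Jz B K t F (fun _ _ => 1) := by
  have e0 : ∀ Φ : (Site → ℤ) → ℝ, (n6 B).J (K := K) t Net.κ6 (Net.β6 t) (fun x s =>
      (n6 B).zbi (in6 B F) x * Φ (fun σ => ex6 (fun i => Net.pv (V := V6 B) (in6 B F) i
        (x.1 i, s i)) (FP.fc σ))) =
      (t ^ Fintype.card (E6 B) * 2 ^ (Finset.univ.filter (fun f => f ∉ in6 B F)).card) *
        zs t⁻¹ F Φ := by
    intro Φ
    rw [zs6_eq hI hB hK]
    exact (n6 B).bridge_h ht (in6 B F) (fun y => Φ (fun σ => ex6 y (FP.fc σ)))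
  have e1 : ∀ (S : Set (F6 B)) (x : Net.Cfg (V6 B) (F6 B) (E6 B) K) (s : V6 B ⊕ F6 B → Bool),
      A (fun σ => ex6 (fun i => Net.pv (V := V6 B) S i (x.1 i, s i)) (FP.fc σ)) =
      A (fun σ => hg6 x s (FP.fc σ)) := by
    intro S x s
    induction hA with
    | const c hc => rfl
    | ht v =>
      by_cases hv : FP.fc (.inl v) ∈ B
      · have h1 := ex6_inl (fun i => Net.pv (V := V6 B) S i (x.1 i, s i)) ⟨_, ev6_fc hv⟩
        have h2 := hg6_inl x s ⟨_, ev6_fc hv⟩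
        simp only at h1 h2
        show ((ex6 (fun i => Net.pv (V := V6 B) S i (x.1 i, s i)) (FP.fc (.inl v)) : ℤ) : ℝ) =
          ((hg6 x s (FP.fc (.inl v)) : ℤ) : ℝ)
        rw [h1, h2]
        rfl
      · show ((ex6 (fun i => Net.pv (V := V6 B) S i (x.1 i, s i)) (FP.fc (.inl v)) : ℤ) : ℝ) =
          ((hg6 x s (FP.fc (.inl v)) : ℤ) : ℝ)
        rw [hg6, ex6_of_not _ hv, ex6_of_not _ hv]
    | add h1 h2 ih1 ih2 => simp only [ih1, ih2]
    | mul h1 h2 ih1 ih2 => simp only [ih1, ih2]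
  have a1 := e0 A
  have a2 := e0 (fun _ => 1)
  simp only [e1 (in6 B F)] at a1
  have h3 := zs_one_pos F ht ht1
  unfold Jz
  have h4 : ∀ C z w : ℝ, z ≠ 0 → C * w = w / z * (C * z) := by
    intro C z w hz
    (clear * - hz; field_simp)
  rw [a1, a2, ze]
  exact h4 _ _ _ h3.ne'

/-- Local form of a polynomial in the heights. -/
lemma PosH.loc6 {A : (Site → ℤ) → ℝ} (hA : PosH A) :
    ∃ m : ℕ, Loc6 m (fun h _ => A (fun s => h (FP.fc s))) := by
  induction hA with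
  | const c hc => exact ⟨0, fun _ _ _ _ _ _ => rfl⟩
  | ht v =>
    refine ⟨max (FP.fc (.inl v)).1.natAbs (FP.fc (.inl v)).2.natAbs, fun h h' _ _ h1 _ => ?_⟩
    show ((h (FP.fc (.inl v)) : ℤ) : ℝ) = ((h' (FP.fc (.inl v)) : ℤ) : ℝ)
    rw [h1 _ ?_]
    rw [mem_Sq, Int.abs_eq_natAbs, Int.abs_eq_natAbs]
    exact ⟨by exact_mod_cast le_max_left _ _, by exact_mod_cast le_max_right _ _⟩
  | add h1 h2 ih1 ih2 =>
    obtain ⟨m1, hm1⟩ := ih1
    obtain ⟨m2, hm2⟩ := ih2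
    refine ⟨max m1 m2, fun h h' b b' k1 k2 => ?_⟩
    have e1 := (hm1.mono (le_max_left m1 m2)) h h' b b' k1 k2
    have e2 := (hm2.mono (le_max_right m1 m2)) h h' b b' k1 k2
    simp only at e1 e2 ⊢
    rw [e1, e2]
  | mul h1 h2 ih1 ih2 =>
    obtain ⟨m1, hm1⟩ := ih1
    obtain ⟨m2, hm2⟩ := ih2
    refine ⟨max m1 m2, fun h h' b b' k1 k2 => ?_⟩
    have e1 := (hm1.mono (le_max_left m1 m2)) h h' b b' k1 k2
    have e2 := (hm2.mono (le_max_right m1 m2)) h h' b b' k1 k2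
    simp only at e1 e2 ⊢
    rw [e1, e2]

/-- LOW in the plane for polynomials in the heights. -/
theorem low_planeH {c : ℝ} (hc : 1 ≤ c) (hc2 : c ≤ 2) (hb : BoxLim c)
    {P : Measure (Ori (ℤ × ℤ))} (hPl : Pl c P) (hP : IsP c P) {F : Finset (ℤ × ℤ)}
    {Θ : Hgt → Set Pt → ℝ} {m : ℕ} (hΘ0 : ∀ h b, 0 ≤ Θ h b) (hΘ : OutM F Θ) (hΘl : Loc6 m Θ)
    {A : (Site → ℤ) → ℝ} (hA : PosH A) (hi0 : Integrable (fun x => Θ x.1 (bl x)) (MU c⁻¹ P))
    (hi1 : Integrable (fun x => Θ x.1 (bl x) * A (fun s => x.1 (FP.fc s))) (MU c⁻¹ P)) :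
    ze c F A * ∫ x, Θ x.1 (bl x) ∂(MU c⁻¹ P) ≤
      ∫ x, Θ x.1 (bl x) * A (fun s => x.1 (FP.fc s)) ∂(MU c⁻¹ P) := by
  have hc0 : 0 < c := by linarith
  have ht : 0 < c⁻¹ := inv_pos.mpr hc0
  have ht1 : c⁻¹ ≤ 1 := inv_le_one_of_one_le₀ hc
  obtain ⟨m', hm'⟩ := hA.loc6
  obtain ⟨n0, hn0⟩ := exists_Nb6 F
  refine low_plane (A := fun h _ => A (fun s => h (FP.fc s))) (K0 := KF F) hc hc2 hb hPl hP hΘ0 hΘ
    (hΘl.mono (le_max_left m m')) hA.posM (hm'.mono (le_max_right m m')) hi0 hi1 ?_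
  filter_upwards [eventually_ge_atTop (max n0 1)] with n hn K hK
  have h1 := Jz_zeH (NI_Sq (n := n) ((le_max_right _ _).trans hn))
    (hn0 n ((le_max_left _ _).trans hn)) hK ht ht1 hA
  rwa [inv_inv] at h1

end Vale.Agent.P145.FK
end

section

/-!
P145, block K1: the inequality EXT in the plane.
-/

namespace Vale.Agent.P145.FK

open Finset Filter Topology MeasureTheory Vale.Agent.P145.FP Vale.Agent.P145.Dom
open Vale.Agent.P145.FA (Hgt mu0 Pl BoxLim ofW)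
open Vale.Agent.P145.FB (Pt Mk mkm om MU)
open Vale.Agent.P152 (Ori pth wc)
open Vale.Agent.P152.GFF.B3 (IsP boxNet BE)
open scoped Classical

/-- EXT in the plane. -/
theorem ext_plane {c : ℝ} (hc : 1 ≤ c) (hc2 : c ≤ 2) (hb : BoxLim c)
    {P : Measure (Ori (ℤ × ℤ))} (hPl : Pl c P) (hP : IsP c P) {O I : Set (ℤ × ℤ)}
    (hOf : O.Finite) (hOn : O.Nonempty) {X Θ A : Hgt → Set Pt → ℝ} {m : ℕ}
    (hX0 : ∀ h b, 0 ≤ X h b) (hX : DecM X) (hXd : ∀ h b, X h b ≠ 0 → Cf6 b O Iᶜ)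
    (hΘ0 : ∀ h b, 0 ≤ Θ h b) (hΘ : OutM Oᶜ Θ) (hA : PosM A) (hAI : InM I A)
    (hXl : Loc6 m X) (hΘl : Loc6 m Θ) (hAl : Loc6 m A)
    (iX : Integrable (fun x => X x.1 (bl x)) (MU c⁻¹ P))
    (iXA : Integrable (fun x => X x.1 (bl x) * A x.1 (bl x)) (MU c⁻¹ P))
    (iΘ : Integrable (fun x => Θ x.1 (bl x)) (MU c⁻¹ P))
    (iΘA : Integrable (fun x => Θ x.1 (bl x) * A x.1 (bl x)) (MU c⁻¹ P)) :
    (∫ x, X x.1 (bl x) * A x.1 (bl x) ∂(MU c⁻¹ P)) * (∫ x, Θ x.1 (bl x) ∂(MU c⁻¹ P)) ≤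
      (∫ x, X x.1 (bl x) ∂(MU c⁻¹ P)) * (∫ x, Θ x.1 (bl x) * A x.1 (bl x) ∂(MU c⁻¹ P)) := by
  have hc0 : 0 < c := by linarith
  have ht : 0 < c⁻¹ := inv_pos.mpr hc0
  have ht1 : c⁻¹ ≤ 1 := inv_le_one_of_one_le₀ hc
  obtain ⟨v1, hv1⟩ := hOn
  set q1 : Pt := FP.fc (.inl v1) with hq1
  have hq1O : ¬ Ins Oᶜ q1 := by
    intro h
    unfold Ins at h
    rw [hq1, cf_fc] at h
    exact h v1 (cor00 v1) hv1
  set M : ℕ := max m (max q1.1.natAbs q1.2.natAbs) with hM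
  have hq1M : q1 ∈ Sq M := by
    rw [mem_Sq]
    have h1 : q1.1.natAbs ≤ M := (le_max_left _ _).trans (le_max_right _ _)
    have h2 : q1.2.natAbs ≤ M := (le_max_right _ _).trans (le_max_right _ _)
    rw [Int.abs_eq_natAbs, Int.abs_eq_natAbs]
    exact ⟨by exact_mod_cast h1, by exact_mod_cast h2⟩
  have hXM : Loc6 M X := hXl.mono (le_max_left _ _)
  have hΘM : Loc6 M Θ := hΘl.mono (le_max_left _ _)
  have hAM : Loc6 M A := hAl.mono (le_max_left _ _)
  obtain ⟨R, hR⟩ := sup6_tr6 hq1M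
  obtain ⟨n0, hn0⟩ := exists_Nb6 hOf.toFinset
  rw [Set.Finite.coe_toFinset] at hn0
  have key : ∀ L : ℕ,
      (∫ x, tr6 q1 L (fun h b => X h b * A h b) x.1 (bl x) ∂(MU c⁻¹ P)) *
        (∫ x, tr6 q1 L Θ x.1 (bl x) ∂(MU c⁻¹ P)) ≤
      (∫ x, tr6 q1 L X x.1 (bl x) ∂(MU c⁻¹ P)) *
        (∫ x, tr6 q1 L (fun h b => Θ h b * A h b) x.1 (bl x) ∂(MU c⁻¹ P)) := by
    intro L
    have hK : ∀ n, (L + R) + 2 * n + 2 ≤ (L + R) + 2 * n + 2 := fun n => le_rfl
    have l1 := lim6 hc hb hPl hP ((hXM.mul hAM).tr6 hq1M L) (hR L (fun h b => X h b * A h b))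
      (tr6_int q1 iXA L) hK
    have l2 := lim6 hc hb hPl hP (hΘM.tr6 hq1M L) (hR L Θ) (tr6_int q1 iΘ L) hK
    have l3 := lim6 hc hb hPl hP (hXM.tr6 hq1M L) (hR L X) (tr6_int q1 iX L) hK
    have l4 := lim6 hc hb hPl hP ((hΘM.mul hAM).tr6 hq1M L) (hR L (fun h b => Θ h b * A h b))
      (tr6_int q1 iΘA L) hK
    refine le_of_tendsto_of_tendsto (l1.mul l2) (l3.mul l4) ?_
    filter_upwards [eventually_ge_atTop n0] with n hn
    have hnb := hn0 n hn
    have h1 := ext6' (K := (L + R) + 2 * n + 2) ht ht1 (n6_loc n) hnb hA hAI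
      (tr6_nonneg (q := q1) (L := L) hX0) (hX.tr6 q1 L hX0)
      (fun h b hne => hXd h b fun h0 => hne (by unfold tr6; rw [h0, ite_self]))
      (tr6_nonneg (q := q1) (L := L) hΘ0) (hΘ.tr6 hq1O L)
    rw [tr6_mul, tr6_mul] at h1
    have hD := Dn_pos hc0 hc2 n
    rw [div_mul_div_comm, div_mul_div_comm]
    exact div_le_div_of_nonneg_right h1 (mul_pos hD hD).le
  exact le_of_tendsto_of_tendsto' ((tr6_lim q1 iXA).mul (tr6_lim q1 iΘ))
    ((tr6_lim q1 iX).mul (tr6_lim q1 iΘA)) key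

end Vale.Agent.P145.FK
end

section

/-!
P145, X-level: the comparison inequalities LOW and EXT in the plane, for functions of the set of the
blocked edges and for polynomials in the heights of the vertices.
-/

namespace Vale.Agent.P145.X

open Filter Topology Set MeasureTheory
open Vale.Agent.P152 (Ori)
open Vale.Agent.P145.FA (Hgt)
open Vale.Agent.P145.FB (Pt Mk e1 e2 o1 o2 MU bl mkm om)
open Vale.Agent.P145.Top (Om Cone vh)
open Vale.Agent.P145.FP (Site)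
open Vale.Agent.P145.Dom (ze)
open Vale.Agent.P145.FK (PosM PosH OutM InM DecM Loc6 Sq Ins In6 Cf6 st6 mem_Sq)

namespace LowE

/-! ### Functions of the blocked edges -/

lemma bl_eq (x : Hgt × Mk) : FK.bl x = bl x := by
  ext w
  constructor
  · exact fun h => ⟨h.2.2, h.1, h.2.1⟩
  · exact fun h => ⟨h.2.1, h.2.2, h.1⟩

/-- A square which contains the faces of finitely many edges. -/
lemma exists_sq (Λ : Finset Pt) : ∃ m : ℕ, ∀ n, m ≤ n → ∀ w ∈ Λ, w ∈ FC.VB (Sq n) := by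
  refine ⟨∑ w ∈ Λ, (w.1.natAbs + w.2.natAbs) + 2, fun n hn w hw => ?_⟩
  have h1 : w.1.natAbs + w.2.natAbs ≤ ∑ w ∈ Λ, (w.1.natAbs + w.2.natAbs) :=
    Finset.single_le_sum (f := fun w : Pt => w.1.natAbs + w.2.natAbs) (fun _ _ => Nat.zero_le _) hw
  have h2 : |w.1| ≤ n - 1 := abs_le.2 ⟨by omega, by omega⟩
  have h3 : |w.2| ≤ n - 1 := abs_le.2 ⟨by omega, by omega⟩
  have a1 := abs_sub w.1 1
  have a2 := abs_sub w.2 1
  have a3 : |(1 : ℤ)| = 1 := abs_one
  rw [FK.mem_VB]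
  unfold e1 e2 o1 o2
  refine ⟨?_, ?_, ?_, ?_⟩ <;> rw [mem_Sq] <;> split_ifs <;> constructor <;> linarith only [h2, a1, a3, h3, a2]

lemma loc6_of {A : Set Pt} {g : Set Pt → ℝ} (hg : LocS A g) :
    ∃ m : ℕ, ∀ n, m ≤ n → Loc6 n (fun _ b => g b) := by
  obtain ⟨Λ, _, h2⟩ := hg
  obtain ⟨m, hm⟩ := exists_sq Λ
  exact ⟨m, fun n hn h h' b b' _ hb => h2 _ _ fun w hw => hb w (hm n hn w hw)⟩

/-! ### Orientation -/

lemma In6_iff' {F : Set (ℤ × ℤ)} {w : Pt} : In6 (rf ⁻¹' F) w ↔ w ∈ iE F := by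
  constructor
  · rintro ⟨⟨g, hg, h1⟩, ⟨g', hg', h2⟩⟩
    refine ⟨rf g, hg, rf g', hg', ?_, ?_⟩
    · rw [af_rf]; exact h1.symm
    · rw [af_rf]; exact h2.symm
  · rintro ⟨f, hf, g, hg, h1, h2⟩
    refine ⟨⟨rf f, ?_, ?_⟩, ⟨rf g, ?_, ?_⟩⟩
    · rw [Set.mem_preimage, rf_rf]; exact hf
    · rw [fc_rf]; exact h1.symm
    · rw [Set.mem_preimage, rf_rf]; exact hg
    · rw [fc_rf]; exact h2.symm

lemma out_of {F : Set (ℤ × ℤ)} {g : Set Pt → ℝ} (hg : LocS (iE F)ᶜ g) :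
    OutM (rf ⁻¹' F) (fun _ b => g b) := by
  obtain ⟨Λ, h1, h2⟩ := hg
  intro h h' b b' _ hb
  exact h2 _ _ fun w hw => hb w fun h => h1 w hw (In6_iff'.1 h)

lemma af_inj : Function.Injective af := by
  intro f g h
  unfold af at h
  rw [Prod.mk.injEq] at h
  exact Prod.ext (by omega) (by omega)

lemma tE_sub (S : Set (ℤ × ℤ)) : tE S ⊆ (iE Sᶜ)ᶜ := by
  rintro w ⟨f, hf, hw⟩ ⟨f', hf', g', hg', h1, h2⟩
  rcases hw with h | h
  · rw [h1] at h
    exact hf' (af_inj h ▸ hf)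
  · rw [h2] at h
    exact hg' (af_inj h ▸ hf)

/-- Inside even faces. -/
lemma ins_ev {F : Set (ℤ × ℤ)} {q : Pt} (hq : Even (q.1 + q.2)) :
    Ins F q ↔ ∀ f, FK.Adj q (FP.fc (.inr f)) → f ∈ F := by
  have h1 : FP.cf q = .inl ((q.1 + q.2) / 2, (q.2 - q.1) / 2) := by
    unfold FP.cf
    rw [if_pos (Int.even_iff.1 hq)]
  have h2 : FP.fc (.inl ((q.1 + q.2) / 2, (q.2 - q.1) / 2)) = q := by
    obtain ⟨k, hk⟩ := hq
    unfold FP.fc
    ext <;> simp only <;> omega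
  unfold Ins
  rw [h1]
  simp only [Sum.elim_inl]
  refine forall_congr' fun f => ?_
  rw [← FK.adj_fc, h2]

/-- The edges which do not touch a box are inside the complement of a smaller box. -/
lemma in_of {p : ℤ × ℤ} {r : ℤ} {w : Pt} (hw : w ∉ tE (bx p (3 * r))) :
    In6 (rf ⁻¹' (bx p (2 * r))ᶜ) w ∧ Ins (rf ⁻¹' (bx p (2 * r))ᶜ) (e1 w) ∧
      Ins (rf ⁻¹' (bx p (2 * r))ᶜ) (e2 w) := by
  have hb : bx p (2 * r) ⊆ bx p (3 * r) := by
    rintro f ⟨h1, h2, h3, h4⟩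
    exact ⟨by omega, by omega, by omega, by omega⟩
  obtain ⟨x, y⟩ := w
  by_cases hp : Even (x + y)
  · obtain ⟨k, hk⟩ := hp
    have hp : Even (x + y) := ⟨k, hk⟩
    have f1 : (k - 1, k - 1 - y) ∉ bx p (3 * r) := fun h => hw ⟨_, h, Or.inl (by
      simp only [o1, af, if_pos hp, Prod.mk.injEq]; omega)⟩
    have f2 : (k - 1, k - y) ∉ bx p (3 * r) := fun h => hw ⟨_, h, Or.inr (by
      simp only [o2, af, if_pos hp, Prod.mk.injEq]; omega)⟩
    have g1 : e1 (x, y) = (x, y) := if_pos hp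
    have g2 : e2 (x, y) = (x - 1, y - 1) := if_pos hp
    refine ⟨In6_iff'.2 ⟨(k - 1, k - 1 - y), fun h => f1 (hb h), (k - 1, k - y),
      fun h => f2 (hb h), ?_, ?_⟩, ?_, ?_⟩
    · simp only [o1, af, if_pos hp, Prod.mk.injEq]; omega
    · simp only [o2, af, if_pos hp, Prod.mk.injEq]; omega
    · rw [g1, ins_ev hp]
      rintro ⟨a, b⟩ hab h
      simp only [FK.Adj, FP.fc] at hab
      simp only [bx, rf, Set.mem_ofPred_eq] at f1 h
      omega
    · rw [g2, ins_ev ⟨k - 1, by simp only; omega⟩]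
      rintro ⟨a, b⟩ hab h
      simp only [FK.Adj, FP.fc] at hab
      simp only [bx, rf, Set.mem_ofPred_eq] at f1 h
      omega
  · obtain ⟨k, hk⟩ := Int.not_even_iff_odd.1 hp
    have f1 : (k, k - y) ∉ bx p (3 * r) := fun h => hw ⟨_, h, Or.inl (by
      simp only [o1, af, if_neg hp, Prod.mk.injEq]; omega)⟩
    have f2 : (k - 1, k - y) ∉ bx p (3 * r) := fun h => hw ⟨_, h, Or.inr (by
      simp only [o2, af, if_neg hp, Prod.mk.injEq]; omega)⟩
    have g1 : e1 (x, y) = (x - 1, y) := if_neg hp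
    have g2 : e2 (x, y) = (x, y - 1) := if_neg hp
    refine ⟨In6_iff'.2 ⟨(k, k - y), fun h => f1 (hb h), (k - 1, k - y),
      fun h => f2 (hb h), ?_, ?_⟩, ?_, ?_⟩
    · simp only [o1, af, if_neg hp, Prod.mk.injEq]; omega
    · simp only [o2, af, if_neg hp, Prod.mk.injEq]; omega
    · rw [g1, ins_ev ⟨k, by simp only; omega⟩]
      rintro ⟨a, b⟩ hab h
      simp only [FK.Adj, FP.fc] at hab
      simp only [bx, rf, Set.mem_ofPred_eq] at f1 h
      omega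
    · rw [g2, ins_ev ⟨k, by simp only; omega⟩]
      rintro ⟨a, b⟩ hab h
      simp only [FK.Adj, FP.fc] at hab
      simp only [bx, rf, Set.mem_ofPred_eq] at f1 h
      omega

lemma st6_iff {b : Set Pt} {f g : ℤ × ℤ} : st6 b (rf f) (rf g) ↔ stp b f g := by
  unfold st6 stp
  rw [fc_rf, fc_rf]

lemma Cf6_iff {b : Set Pt} {S T : Set (ℤ × ℤ)} :
    Cf6 b (rf ⁻¹' S) (rf ⁻¹' T) ↔ Conf b S T := by
  have key : ∀ f g, Relation.ReflTransGen (stp b) f g →
      Relation.ReflTransGen (st6 b) (rf f) (rf g) := by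
    intro f g h
    exact Relation.ReflTransGen.lift rf (fun a c hac => st6_iff.2 hac) _ _ h
  have key' : ∀ f g, Relation.ReflTransGen (st6 b) f g →
      Relation.ReflTransGen (stp b) (rf f) (rf g) := by
    intro f g h
    refine Relation.ReflTransGen.lift rf (fun a c hac => ?_) _ _ h
    rw [← rf_rf a, ← rf_rf c] at hac
    exact st6_iff.1 hac
  constructor
  · intro h f hf g hfg
    have h1 := h (rf f) (by rw [Set.mem_preimage, rf_rf]; exact hf) (rf g) (key f g hfg)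
    rwa [Set.mem_preimage, rf_rf] at h1
  · intro h f hf g hfg
    exact h (rf f) hf (rf g) (key' f g hfg)

/-! ### Polynomials in the heights -/

/-- The polynomial as a function of the heights of the sites. -/
noncomputable def Ah (A : Om → ℝ) : (Site → ℤ) → ℝ := fun x => A fun v => vh x (rv v)

lemma vm_eq (h : Hgt) : vm h = fun v => vh (fun s => h (FP.fc s)) (rv v) := by
  funext v
  show (h (av v) : ℝ) / 2 = (h (FP.fc (Sum.inl (rv v))) : ℝ) / 2
  rw [fc_rv]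

lemma Ah_fc (A : Om → ℝ) (h : Hgt) : Ah A (fun s => h (FP.fc s)) = A (vm h) := by
  rw [vm_eq]
  rfl

lemma Ah_pos {A : Om → ℝ} (hA : Cone A) : PosH (Ah A) := by
  induction hA with
  | mon l =>
    induction l with
    | nil =>
      refine (congrArg PosH ?_).mp (PosH.const 1 zero_le_one)
      funext x
      simp [Ah]
    | cons v l ih =>
      refine (congrArg PosH ?_).mp
        (PosH.mul (PosH.mul (PosH.const (1 / 2) (by norm_num)) (PosH.ht (rv v))) ih)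
      funext x
      simp only [Ah, List.map_cons, List.prod_cons, vh]
      ring
  | zero => exact PosH.const 0 le_rfl
  | add _ _ h1 h2 => exact PosH.add h1 h2
  | smul c hc _ h1 => exact PosH.mul (PosH.const c hc) h1

/-- The polynomial depends on finitely many heights. -/
lemma Ah_fin {A : Om → ℝ} {P : ℝ → Prop} (hA : Top.Pol P A) :
    ∃ V : Finset (ℤ × ℤ), ∀ ω ω' : Om, (∀ v ∈ V, ω v = ω' v) → A ω = A ω' := by
  classical
  induction hA with
  | mon l =>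
    refine ⟨l.toFinset, fun ω ω' h => ?_⟩
    show (l.map ω).prod = (l.map ω').prod
    rw [List.map_congr_left fun v hv => h v (List.mem_toFinset.2 hv)]
  | zero => exact ⟨∅, fun _ _ _ => rfl⟩
  | @add f g _ _ h1 h2 =>
    obtain ⟨V, hV⟩ := h1
    obtain ⟨W, hW⟩ := h2
    refine ⟨V ∪ W, fun ω ω' h => ?_⟩
    show f ω + g ω = f ω' + g ω'
    rw [hV ω ω' fun v hv => h v (Finset.mem_union_left _ hv),
      hW ω ω' fun v hv => h v (Finset.mem_union_right _ hv)]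
  | @smul f c _ _ h1 =>
    obtain ⟨V, hV⟩ := h1
    refine ⟨V, fun ω ω' h => ?_⟩
    show c * f ω = c * f ω'
    rw [hV ω ω' h]

lemma Ah_loc {A : Om → ℝ} {P : ℝ → Prop} (hA : Top.Pol P A) :
    ∃ m : ℕ, ∀ n, m ≤ n → Loc6 n (fun h _ => A (vm h)) := by
  obtain ⟨V, hV⟩ := Ah_fin hA
  refine ⟨∑ v ∈ V, (v.1.natAbs + v.2.natAbs), fun n hn h h' b b' hh _ => hV _ _ fun v hv => ?_⟩
  have h1 : v.1.natAbs + v.2.natAbs ≤ ∑ v ∈ V, (v.1.natAbs + v.2.natAbs) :=
    Finset.single_le_sum (f := fun w : ℤ × ℤ => w.1.natAbs + w.2.natAbs)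
      (fun _ _ => Nat.zero_le _) hv
  unfold vm
  rw [hh (av v)]
  rw [mem_Sq]
  unfold av
  simp only
  rw [abs_le, abs_le]
  constructor <;> constructor <;> omega

/-- The inside vertices. -/
lemma ins_av {F : Set (ℤ × ℤ)} {v : ℤ × ℤ} (hv : v ∈ inV F) : Ins (rf ⁻¹' F) (av v) := by
  have he : Even ((av v).1 + (av v).2) := ⟨v.1, by unfold av; ring⟩
  rw [ins_ev he]
  rintro ⟨a, b⟩ hab
  obtain ⟨i, j⟩ := v
  obtain ⟨h1, h2, h3, h4⟩ := hv
  simp only [FK.Adj, FP.fc, av] at hab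
  show rf (a, b) ∈ F
  simp only at h1 h2 h3 h4
  have key : rf (a, b) = (i, j) ∨ rf (a, b) = (i - 1, j) ∨ rf (a, b) = (i, j - 1) ∨
      rf (a, b) = (i - 1, j - 1) := by
    simp only [rf, Prod.mk.injEq]
    omega
  rcases key with h | h | h | h <;> rw [h] <;> assumption

/-- Integrals in the two forms. -/
lemma II_fk (t : ℝ) (P : Measure (Ori (ℤ × ℤ))) (g : Set Pt → ℝ) (A : Om → ℝ) :
    II t P g A = ∫ x, g (FK.bl x) * Ah A (fun s => x.1 (FP.fc s)) ∂(MU t P) := by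
  unfold II
  congr 1
  funext x
  rw [Ah_fc, bl_eq]

lemma II_fk1 (t : ℝ) (P : Measure (Ori (ℤ × ℤ))) (g : Set Pt → ℝ) :
    II t P g (fun _ => 1) = ∫ x, g (FK.bl x) ∂(MU t P) := by
  unfold II
  congr 1
  funext x
  rw [bl_eq, mul_one]

lemma locU {A : Set Pt} {g : Set Pt → ℝ} (hg : LocS A g) : LocS Set.univ g := by
  obtain ⟨Λ, _, h2⟩ := hg
  exact ⟨Λ, fun _ _ => Set.mem_univ _, h2⟩

lemma locM {A B : Set Pt} {g h : Set Pt → ℝ} (hg : LocS A g) (hh : LocS B h) :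
    LocS Set.univ (fun b => g b * h b) := by
  classical
  obtain ⟨Λ, _, h2⟩ := hg
  obtain ⟨Λ', _, h2'⟩ := hh
  refine ⟨Λ ∪ Λ', fun _ _ => Set.mem_univ _, fun b b' hb => ?_⟩
  show g b * h b = g b' * h b'
  rw [h2 b b' fun w hw => hb w (Finset.mem_union_left _ hw),
    h2' b b' fun w hw => hb w (Finset.mem_union_right _ hw)]

end LowE

open LowE

/-- LOW. -/
theorem s_low {c t : ℝ} (hct : c * t = 1) (hc : 1 ≤ c) (hc2 : c ≤ 2) (hb : FA.BoxLim c)
    {P : Measure (Ori (ℤ × ℤ))} (hPl : FA.Pl c P) (hP : P152.GFF.B3.IsP c P) (hI : S_int t P) :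
    S_low c t P := by
  have ht : t = c⁻¹ := eq_inv_of_mul_eq_one_right hct
  subst ht
  intro F Θ A hΘ hA
  obtain ⟨m, hm⟩ := loc6_of hΘ.loc
  have i0 : Integrable (fun x : Hgt × Mk => Θ (FK.bl x)) (MU c⁻¹ P) := by
    have h := hI Θ (fun _ => 1) (locU hΘ.loc) hΘ.pin Top.Pol.one
    refine h.congr (Filter.Eventually.of_forall fun x => ?_)
    show Θ (bl x) * 1 = Θ (FK.bl x)
    rw [bl_eq, mul_one]
  have i1 : Integrable (fun x : Hgt × Mk => Θ (FK.bl x) * Ah A (fun s => x.1 (FP.fc s)))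
      (MU c⁻¹ P) := by
    have h := hI Θ A (locU hΘ.loc) hΘ.pin hA.alg
    refine h.congr (Filter.Eventually.of_forall fun x => ?_)
    show Θ (bl x) * A (vm x.1) = Θ (FK.bl x) * Ah A (fun s => x.1 (FP.fc s))
    rw [bl_eq, Ah_fc]
  have hF : ((F.image rf : Finset (ℤ × ℤ)) : Set (ℤ × ℤ)) = rf ⁻¹' (F : Set (ℤ × ℤ)) := by
    ext f
    rw [Finset.mem_coe, mem_image_rf, Set.mem_preimage, Finset.mem_coe]
  have key := FK.low_planeH hc hc2 hb hPl hP (F := F.image rf) (Θ := fun _ b => Θ b)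
    (fun _ b => hΘ.nonneg b) (by rw [hF]; exact out_of hΘ.loc) (hm m le_rfl) (Ah_pos hA) i0 i1
  rw [II_fk1, II_fk]
  have h1 : ze c (F.image rf) (Ah A) = ze c F (fun x => A (vh x)) := ze_rv' c F A
  rw [← h1]
  exact key

/-- EXT. -/
theorem s_ext {c t : ℝ} (hct : c * t = 1) (hc : 1 ≤ c) (hc2 : c ≤ 2) (hb : FA.BoxLim c)
    {P : Measure (Ori (ℤ × ℤ))} (hPl : FA.Pl c P) (hP : P152.GFF.B3.IsP c P) (hI : S_int t P) :
    S_ext t P := by
  have ht : t = c⁻¹ := eq_inv_of_mul_eq_one_right hct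
  subst ht
  intro p r X Θ a A hr hX hXm hXc hΘ ha0 hal haa hA hAon
  obtain ⟨m1, hm1⟩ := loc6_of hX.loc
  obtain ⟨m2, hm2⟩ := loc6_of hΘ.loc
  obtain ⟨m3, hm3⟩ := loc6_of hal
  obtain ⟨m4, hm4⟩ := Ah_loc hA
  set m := m1 + m2 + m3 + m4 with hm
  have hint : ∀ (g : Set Pt → ℝ) (B : Om → ℝ), LocS Set.univ g → g ∅ = 0 → Cone B →
      Integrable (fun x : Hgt × Mk => g (FK.bl x) * B (vm x.1)) (MU c⁻¹ P) := by
    intro g B hg h0 hB
    have h := hI g B hg h0 hB.alg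
    refine h.congr (Filter.Eventually.of_forall fun x => ?_)
    show g (bl x) * B (vm x.1) = g (FK.bl x) * B (vm x.1)
    rw [bl_eq]
  have hint1 : ∀ g : Set Pt → ℝ, LocS Set.univ g → g ∅ = 0 →
      Integrable (fun x : Hgt × Mk => g (FK.bl x)) (MU c⁻¹ P) := by
    intro g hg h0
    have h := hint g (fun _ => 1) hg h0 Top.Pol.one
    simpa only [mul_one] using h
  have hintA : ∀ g : Set Pt → ℝ, LocS Set.univ g → g ∅ = 0 →
      Integrable (fun x : Hgt × Mk => g (FK.bl x) * (a (FK.bl x) * A (vm x.1))) (MU c⁻¹ P) := by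
    intro g hg h0
    have h := hint (fun b => g b * a b) A (locM hg hal) (by simp only [h0, zero_mul]) hA
    simpa only [mul_assoc] using h
  have hOfin : (rf ⁻¹' (bx p r)).Finite := by
    refine Set.Finite.preimage rf_inj.injOn ?_
    refine (Finset.finite_toSet (Finset.Icc (p.1 - r) (p.1 + r) ×ˢ
      Finset.Icc (p.2 - r) (p.2 + r))).subset ?_
    rintro f ⟨h1, h2, h3, h4⟩
    rw [Finset.mem_coe, Finset.mem_product, Finset.mem_Icc, Finset.mem_Icc]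
    exact ⟨⟨h1, h2.le⟩, h3, h4.le⟩
  have hOne : (rf ⁻¹' (bx p r)).Nonempty := by
    refine ⟨rf p, ?_⟩
    rw [Set.mem_preimage, rf_rf]
    exact ⟨by omega, by omega, by omega, by omega⟩
  have hOc : (rf ⁻¹' (bx p r))ᶜ = rf ⁻¹' (bx p r)ᶜ := Set.preimage_compl.symm
  have hIc : (rf ⁻¹' (bx p (2 * r))ᶜ)ᶜ = rf ⁻¹' (bx p (2 * r)) := by
    rw [Set.preimage_compl, compl_compl]
  have hPM : PosM (fun h b => a b * A (vm h)) := by
    refine PosM.mul (PosM.dec ha0 haa) ?_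
    have h1 := (Ah_pos hA).posM
    simpa only [Ah_fc] using h1
  have hΘo : LocS (iE (bx p r)ᶜ)ᶜ Θ := by
    obtain ⟨Λ, h1, h2⟩ := hΘ.loc
    exact ⟨Λ, fun w hw => LowE.tE_sub _ (h1 w hw), h2⟩
  have hIn : InM (rf ⁻¹' (bx p (2 * r))ᶜ) (fun h b => a b * A (vm h)) := by
    intro h h' b b' hh hbb
    obtain ⟨Λ, h1, h2⟩ := hal
    have e1 : a b = a b' := h2 _ _ fun w hw => by
      obtain ⟨k1, k2, k3⟩ := in_of (h1 w hw)
      exact hbb w k1 k2 k3
    have e2 : A (vm h) = A (vm h') := hAon _ _ fun v hv => by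
      unfold vm
      rw [hh (av v) (ins_av hv)]
    show a b * A (vm h) = a b' * A (vm h')
    rw [e1, e2]
  have key := FK.ext_plane hc hc2 hb hPl hP (O := rf ⁻¹' (bx p r))
    (I := rf ⁻¹' (bx p (2 * r))ᶜ) hOfin hOne (X := fun _ b => X b) (Θ := fun _ b => Θ b)
    (A := fun h b => a b * A (vm h)) (m := m) (fun _ b => hX.nonneg b)
    (fun _ _ _ _ _ hb' => hXm hb')
    (fun _ b hne => by rw [hIc]; exact Cf6_iff.2 (hXc b hne))
    (fun _ b => hΘ.nonneg b) (by rw [hOc]; exact out_of hΘo) hPM hIn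
    (hm1 m (by omega)) (hm2 m (by omega))
    ((hm3 m (by omega)).mul (hm4 m (by omega)))
    (hint1 X (locU hX.loc) hX.pin) (hintA X (locU hX.loc) hX.pin) (hint1 Θ (locU hΘ.loc) hΘ.pin)
    (hintA Θ (locU hΘ.loc) hΘ.pin)
  have e1 : II c⁻¹ P (fun B => X B * a B) A =
      ∫ x, X (FK.bl x) * (a (FK.bl x) * A (vm x.1)) ∂(MU c⁻¹ P) := by
    unfold II
    congr 1
    funext x
    rw [bl_eq, mul_assoc]
  have e2 : II c⁻¹ P (fun B => Θ B * a B) A =
      ∫ x, Θ (FK.bl x) * (a (FK.bl x) * A (vm x.1)) ∂(MU c⁻¹ P) := by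
    unfold II
    congr 1
    funext x
    rw [bl_eq, mul_assoc]
  rw [e1, e2, II_fk1, II_fk1]
  exact key

end Vale.Agent.P145.X
end

section

/-!
P145, decay at the boundary: comparison of the probability of a connection under the zero boundary
condition with the one in the plane (`S_lowc`).
-/

namespace Vale.Agent.P145.X

open Filter Topology Set MeasureTheory
open Vale.Agent.P152 (Ori)
open Vale.Agent.P145.FA (Hgt)
open Vale.Agent.P145.FB (Pt Mk MU)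
open Vale.Agent.P145.FK (KF)

/-- Comparison of the probability of a connection under the zero boundary condition with the one
in the plane. -/
theorem s_lowc {c t : ℝ} (hct : c * t = 1) (hc : 1 ≤ c) (hc2 : c ≤ 2) (hb : FA.BoxLim c)
    {P : Measure (Ori (ℤ × ℤ))} (hPl : FA.Pl c P) (hP : P152.GFF.B3.IsP c P) (hI : S_int t P) :
    S_lowc c t P := by
  classical
  have ht : t = c⁻¹ := eq_inv_of_mul_eq_one_right hct
  subst ht
  intro F O I Θ hΘ hO hI'
  obtain ⟨a, b, a', b', hB⟩ := FK.exists_rect (F ∪ hO.toFinset ∪ hI'.toFinset)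
  have hok : BoxOK (Finset.Icc a b ×ˢ Finset.Icc a' b') F (KF F) O I := by
    refine ⟨hB.mono fun f hf => ?_, FK.boxN_loc_rect a b a' b', le_rfl,
      fun f hf => hB.mem ?_, fun f hf => hB.mem ?_⟩
    · simp only [Finset.coe_union, Set.mem_union]
      exact Or.inl (Or.inl hf)
    · simp only [Finset.coe_union, Set.mem_union, Set.Finite.coe_toFinset]
      exact Or.inl (Or.inr hf)
    · simp only [Finset.coe_union, Set.mem_union, Set.Finite.coe_toFinset]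
      exact Or.inr hf
  refine ⟨_, _, hok, ?_⟩
  obtain ⟨m1, hm1⟩ := LowE.loc6_of hΘ.loc
  obtain ⟨m2, hm2⟩ := LowE.loc6_of (LC.cn_loc F O I)
  obtain ⟨m3, hm3⟩ := LC.exists_VB (LC.Lf F)
  obtain ⟨n0, hn0⟩ := FK.exists_Nb6 (F.image rf)
  have i0 : Integrable (fun x : Hgt × Mk => Θ (FK.bl x)) (MU c⁻¹ P) := by
    have h := hI Θ (fun _ => 1) (LowE.locU hΘ.loc) hΘ.pin Top.Pol.one
    refine h.congr (Filter.Eventually.of_forall fun x => ?_)
    show Θ (FB.bl x) * 1 = Θ (FK.bl x)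
    rw [LowE.bl_eq, mul_one]
  have i1 : Integrable (fun x : Hgt × Mk => Θ (FK.bl x) *
      cn (F : Set (ℤ × ℤ)) O I (FK.bl x)) (MU c⁻¹ P) := by
    have h := hI (fun E => Θ E * cn (F : Set (ℤ × ℤ)) O I E) (fun _ => 1)
      (LowE.locM hΘ.loc (LC.cn_loc F O I)) (by simp only [hΘ.pin, zero_mul]) Top.Pol.one
    refine h.congr (Filter.Eventually.of_forall fun x => ?_)
    show Θ (FB.bl x) * cn (F : Set (ℤ × ℤ)) O I (FB.bl x) * 1 =
      Θ (FK.bl x) * cn (F : Set (ℤ × ℤ)) O I (FK.bl x)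
    rw [LowE.bl_eq, mul_one]
  have key := FK.low_plane hc hc2 hb hPl hP (F := F.image rf) (Θ := fun _ b => Θ b)
    (A := fun _ b => cn (F : Set (ℤ × ℤ)) O I b) (m := max m1 m2)
    (p := pcn c (Finset.Icc a b ×ˢ Finset.Icc a' b') F (KF F) O I) (K0 := KF (F.image rf))
    (fun _ b => hΘ.nonneg b) (LC.outM_of hΘ.loc) (hm1 _ (le_max_left _ _))
    (FK.PosM.dec (fun b => ind_nonnegD _ b) (LC.cn_anti _ O I)) (hm2 _ (le_max_right _ _)) i0 i1
    (by
      filter_upwards [eventually_ge_atTop (max n0 (max m3 1))] with n hn K hK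
      exact LC.Jz_cn hc hok
        (FK.NI_Sq ((le_max_right m3 1).trans ((le_max_right n0 _).trans hn)))
        (hn0 n ((le_max_left _ _).trans hn))
        (hm3 n ((le_max_left m3 1).trans ((le_max_right n0 _).trans hn))) hK)
  rw [LowE.II_fk1, LowE.II_fk1]
  exact key

end Vale.Agent.P145.X
end

section

/-!
P145, X-level: the statement `S_up`.
-/

namespace Vale.Agent.P145.X

open Filter Topology Set MeasureTheory
open Vale.Agent.P152 (Ori)
open Vale.Agent.P145.FA (Hgt mu0 Pl)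
open Vale.Agent.P145.FB (Pt Mk e1 e2 o1 o2 MU bl mkm om Swap)
open Vale.Agent.P145.Top (Om Cone vh Pol)
open Vale.Agent.P145.Dom (ze)
open Vale.Agent.P145.FP (Site fc)
open Vale.Agent.P145.FK (PosH Dep Cor oF mem_oF MU_sandwich)

/-- Reflection of the vertices. -/
def uv (v : ℤ × ℤ) : ℤ × ℤ := (v.1, -v.2)

/-- Reflection of the faces. -/
def uf (f : ℤ × ℤ) : ℤ × ℤ := (f.1, -f.2 - 1)

lemma uv_uv (v : ℤ × ℤ) : uv (uv v) = v := by simp [uv]

lemma uf_uf (f : ℤ × ℤ) : uf (uf f) = f := by simp [uf]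

lemma fc_uv (v : ℤ × ℤ) : fc (Sum.inl (uv v)) = av v := by
  simp only [fc, uv, av]
  refine Prod.ext ?_ ?_ <;> simp only <;> ring

lemma fc_uf (f : ℤ × ℤ) : fc (Sum.inr (uf f)) = af f := by
  simp only [fc, uf, af]; ext <;> simp <;> ring

lemma bl_eq (x : Hgt × Mk) : FK.bl x = bl x := by
  ext w
  show (x.1 (e1 w) = 0 ∧ x.1 (e2 w) = 0 ∧ x.2 w = true) ↔
    (x.2 w = true ∧ x.1 (e1 w) = 0 ∧ x.1 (e2 w) = 0)
  tauto

lemma mem_oF_uf {F : Finset (ℤ × ℤ)} {f : ℤ × ℤ} : af f ∈ oF (F.image uf) ↔ f ∈ F := by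
  rw [← fc_uf, mem_oF, Finset.mem_image]
  constructor
  · rintro ⟨f', h1, h2⟩
    rw [← uf_uf f, ← h2, uf_uf]
    exact h1
  · intro h
    exact ⟨f, h, rfl⟩

lemma o1_af (w : Pt) : ∃ f, o1 w = af f := by
  obtain ⟨x, y⟩ := w
  unfold o1
  by_cases h : Even (x + y)
  · rw [if_pos h]
    obtain ⟨k, hk⟩ := h
    refine ⟨(k - 1, x - 1 - k + 1 - 1), ?_⟩
    simp only [af]
    refine Prod.ext ?_ ?_ <;> simp only <;> omega
  · rw [if_neg h]
    rw [Int.not_even_iff_odd] at h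
    obtain ⟨k, hk⟩ := h
    refine ⟨(k, x - 1 - k), ?_⟩
    simp only [af]
    refine Prod.ext ?_ ?_ <;> simp only <;> omega

lemma o2_af (w : Pt) : ∃ f, o2 w = af f := by
  obtain ⟨x, y⟩ := w
  unfold o2
  by_cases h : Even (x + y)
  · rw [if_pos h]
    obtain ⟨k, hk⟩ := h
    refine ⟨(k - 1, x - k), ?_⟩
    simp only [af]
    refine Prod.ext ?_ ?_ <;> simp only <;> omega
  · rw [if_neg h]
    rw [Int.not_even_iff_odd] at h
    obtain ⟨k, hk⟩ := h
    refine ⟨(k - 1, x - 1 - k), ?_⟩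
    simp only [af]
    refine Prod.ext ?_ ?_ <;> simp only <;> omega

/-- Paths of odd faces as paths of faces, reversed. -/
lemma path_af {B : Set Pt} {f : ℤ × ℤ} {p : Pt}
    (h : Relation.ReflTransGen (FK.stp B) (af f) p) :
    ∃ g, p = af g ∧ Relation.ReflTransGen (stp B) g f := by
  induction h with
  | refl => exact ⟨f, rfl, Relation.ReflTransGen.refl⟩
  | @tail a b _ hab ih =>
    obtain ⟨g, rfl, hg⟩ := ih
    obtain ⟨w, hw, h1⟩ := hab
    have hb : ∃ g', b = af g' := by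
      rcases h1 with ⟨_, h2⟩ | ⟨_, h2⟩
      · rw [← h2]; exact o2_af w
      · rw [← h2]; exact o1_af w
    obtain ⟨g', rfl⟩ := hb
    refine ⟨g', rfl, Relation.ReflTransGen.head ?_ hg⟩
    refine ⟨w, hw, ?_⟩
    rcases h1 with ⟨h2, h3⟩ | ⟨h2, h3⟩
    · exact Or.inr ⟨h2, h3⟩
    · exact Or.inl ⟨h3, h2⟩

/-- Elements of the cone are polynomials with nonnegative coefficients. -/
lemma posH_cone {A : Om → ℝ} (hA : Cone A) (r : ℤ × ℤ → ℤ × ℤ) :
    PosH (fun x => A (fun v => vh x (r v))) := by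
  induction hA with
  | mon v =>
    induction v with
    | nil => simpa using PosH.const 1 zero_le_one
    | cons u v ih =>
      have h1 := PosH.mul (PosH.smul (c := 1 / 2) (by norm_num) (PosH.ht (r u))) ih
      refine (congrArg PosH ?_).mp h1
      funext x
      simp only [List.map_cons, List.prod_cons, vh]
      ring
  | zero => exact PosH.const 0 le_rfl
  | add _ _ h1 h2 => exact PosH.add h1 h2
  | smul c hc _ h => exact PosH.smul hc h

/-- **UP**, from the reflection lemma. -/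
theorem s_up' {c : ℝ} (hc : 1 ≤ c) {P : Measure (Ori (ℤ × ℤ))} (hP : Pl c P) (hS : Swap c P)
    (hint : S_int c⁻¹ P)
    (hrefl : ∀ (F : Finset (ℤ × ℤ)) (A : Om → ℝ), ze c (F.image uf) (fun x => A (vh x)) =
      ze c F (fun x => A (fun v => vh x (uv v)))) : S_up c c⁻¹ P := by
  intro F F' g A hFF hg hgm hgZ hA hAF
  obtain ⟨Λ, hΛ, hloc⟩ := hg.loc
  have hA' := posH_cone hA uv
  have hdep : Dep (F.image uf) (fun x => A (fun v => vh x (uv v))) := by
    intro x x' h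
    refine hAF _ _ fun v hv => ?_
    unfold vh
    rw [h]
    rintro f ⟨a, b, ha, hb, hvf⟩
    rw [Finset.mem_image]
    refine ⟨uf f, ?_, uf_uf f⟩
    have h1 : f.1 = v.1 - a := by have := congrArg Prod.fst hvf; simp only [uv] at this; omega
    have h2 : f.2 = -v.2 - b := by have := congrArg Prod.snd hvf; simp only [uv] at this; omega
    have h3 : uf f = (v.1 - a, v.2 + b - 1) := by
      unfold uf
      refine Prod.ext ?_ ?_ <;> simp only <;> omega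
    rw [h3]
    obtain ⟨q1, q2, q3, q4⟩ := hv
    rcases ha with rfl | rfl <;> rcases hb with rfl | rfl
    · have : ((v.1 - 0, v.2 + 0 - 1) : ℤ × ℤ) = (v.1, v.2 - 1) := by ext <;> simp
      rw [this]; exact_mod_cast q3
    · have : ((v.1 - 0, v.2 + 1 - 1) : ℤ × ℤ) = v := by ext <;> simp
      rw [this]; exact_mod_cast q1
    · have : ((v.1 - 1, v.2 + 0 - 1) : ℤ × ℤ) = (v.1 - 1, v.2 - 1) := by ext <;> simp
      rw [this]; exact_mod_cast q4
    · have : ((v.1 - 1, v.2 + 1 - 1) : ℤ × ℤ) = (v.1 - 1, v.2) := by ext <;> simp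
      rw [this]; exact_mod_cast q2
  have hAdm : FK.Adm (F.image uf) (F'.image uf) g := by
    refine ⟨hg.nonneg, hgm, ⟨Λ, hloc⟩, ?_, ?_⟩
    · intro S S' h
      refine hloc S S' fun w hw => h w ?_
      rintro ⟨h1, h2⟩
      apply hΛ w hw
      obtain ⟨f1, e1⟩ := o1_af w
      obtain ⟨f2, e2⟩ := o2_af w
      rw [e1, mem_oF_uf] at h1
      rw [e2, mem_oF_uf] at h2
      exact ⟨f1, h1, f2, h2, e1, e2⟩
    · intro S hSg f hf p hp
      rw [Finset.mem_image] at hf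
      obtain ⟨f', hf', rfl⟩ := hf
      rw [fc_uf] at hp
      obtain ⟨g', rfl, hpath⟩ := path_af hp
      rw [mem_oF_uf]
      by_contra hg'
      exact hgZ S hSg g' (fun h => hg' (by exact_mod_cast h)) f' hpath (by exact_mod_cast hf')
  have hval : ∀ x : Hgt × Mk, A (fun v => vh (fun s => x.1 (fc s)) (uv v)) = A (vm x.1) := by
    intro x
    congr 1
    funext v
    unfold vh vm
    simp only
    rw [fc_uv]
  have i0 : Integrable (fun x => g (FK.bl x)) (MU c⁻¹ P) := by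
    have := hint g (fun _ => 1) ⟨Λ, fun w _ => mem_univ w, hloc⟩ hg.pin
      (by simpa using (Pol.mon (P := fun _ => True) []))
    simp only [mul_one] at this
    simp only [bl_eq]
    exact this
  have i1 : Integrable (fun x => g (FK.bl x) * A (fun v => vh (fun s => x.1 (fc s)) (uv v)))
      (MU c⁻¹ P) := by
    simp only [bl_eq, hval]
    refine hint g A ⟨Λ, fun w _ => mem_univ w, hloc⟩ hg.pin ?_
    exact hA.alg
  have key := (MU_sandwich hc hP hS (F₁ := F.image uf) (F₂ := F'.image uf)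
    (Finset.image_subset_image hFF) hAdm hA' hdep i0 i1).1
  simp only [bl_eq, hval] at key
  have e1 := hrefl F' (fun ω => A (fun v => ω (uv v)))
  have e2 : (fun x : Site → ℤ => (fun ω : Om => A (fun v => ω (uv v))) (fun v => vh x (uv v))) =
      fun x => A (vh x) := by
    funext x
    simp only [uv_uv]
  rw [e2] at e1
  unfold II
  rw [← e1]
  simp only [mul_one]
  exact key

/-- **UP.** -/
theorem s_up {c : ℝ} (hc : 1 ≤ c) {P : Measure (Ori (ℤ × ℤ))} (hP : Pl c P) (hS : Swap c P)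
    (hint : S_int c⁻¹ P) : S_up c c⁻¹ P :=
  s_up' hc hP hS hint fun F A => ze_rv c F A

end Vale.Agent.P145.X
end

section

/-!
P145, X-level: `S_cnt`. Among the first `n` scales there is one such that, given a circuit at
level 0, there is another one at a larger scale, except with small relative probability; uniformly
in the centre, since the law of the heights and the marks is invariant under translations.
-/

namespace Vale.Agent.P145.X

open Finset MeasureTheory Relation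
open Vale.Agent.P152 (Ori pth Ice)
open Vale.Agent.P145.FA (Hgt mu0 pb)
open Vale.Agent.P145.FB

/-! ### Translations -/

/-- Translation of heights and bonds. -/
def shv (v : Pt) (x : Hgt × Mk) : Hgt × Mk := (pb (fun q => q + v) x.1, fun w => x.2 (w + v))

theorem measurable_shv (v : Pt) : Measurable (shv v) :=
  (measurable_pi_lambda _ fun q => (measurable_pi_apply (q + v)).comp measurable_fst).prodMk
    (measurable_pi_lambda _ fun w => (measurable_pi_apply (w + v)).comp measurable_snd)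

theorem e_add {v : Pt} (hv : Even (v.1 + v.2)) (w : Pt) :
    e1 (w + v) = e1 w + v ∧ e2 (w + v) = e2 w + v ∧ o1 (w + v) = o1 w + v ∧
      o2 (w + v) = o2 w + v := by
  obtain ⟨w1, w2⟩ := w
  obtain ⟨v1, v2⟩ := v
  simp only at hv
  have h : Even (w1 + v1 + (w2 + v2)) ↔ Even (w1 + w2) := by
    rw [Int.even_iff] at *
    rw [Int.even_iff]
    omega
  unfold e1 e2 o1 o2
  simp only [Prod.mk_add_mk, h]
  by_cases h1 : Even (w1 + w2)
  · simp only [if_pos h1, Prod.mk_add_mk]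
    refine ⟨?_, ?_, ?_, ?_⟩ <;>
      first | trivial | (refine Prod.ext ?_ ?_ <;> (try simp only) <;> ring)
  · simp only [if_neg h1, Prod.mk_add_mk]
    refine ⟨?_, ?_, ?_, ?_⟩ <;>
      first | trivial | (refine Prod.ext ?_ ?_ <;> (try simp only) <;> ring)

theorem om_shift {v : Pt} (hv : Even (v.1 + v.2)) (h : Hgt) (ξ : Mk) (w : Pt) :
    om (pb (fun q => q + v) h) (fun w => ξ (w + v)) w = om h ξ (w + v) := by
  obtain ⟨h1, h2, h3, h4⟩ := e_add hv w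
  unfold om pb
  rw [h1, h2, h3, h4]

theorem MU_shv {t : ℝ} {P : Measure (Ori (ℤ × ℤ))} [IsProbabilityMeasure P] {v : Pt}
    (hv : Even (v.1 + v.2)) (hinv : (mu0 P).map (pb (fun q => q + v)) = mu0 P) :
    (MU t P).map (shv v) = MU t P := by
  have hs : SFinite (mu0 P) := by unfold FA.mu0; infer_instance
  have m1 : Measurable (pb (fun q : Pt => q + v)) :=
    measurable_pi_lambda _ fun q => measurable_pi_apply (q + v)
  have m2 : Measurable fun (ξ : Mk) (w : Pt) => ξ (w + v) :=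
    measurable_pi_lambda _ fun w => measurable_pi_apply (w + v)
  have hm : (mkm t).map (fun (ξ : Mk) (w : Pt) => ξ (w + v)) = mkm t :=
    map_marks t (Equiv.addRight v)
  have e1 : (shv v) ∘ (fun x : Hgt × Mk => (x.1, om x.1 x.2)) =
      (fun x : Hgt × Mk => (x.1, om x.1 x.2)) ∘
        Prod.map (pb (fun q : Pt => q + v)) (fun (ξ : Mk) (w : Pt) => ξ (w + v)) := by
    funext x
    refine Prod.ext rfl ?_
    funext w
    exact (om_shift hv x.1 x.2 w).symm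
  unfold MU
  rw [Measure.map_map (measurable_shv v) measurable_om, e1,
    ← Measure.map_map measurable_om (m1.prodMap m2), ← Measure.map_prod_map _ _ m1 m2, hinv, hm]

theorem bl_shv {v : Pt} (hv : Even (v.1 + v.2)) (x : Hgt × Mk) :
    bl (shv v x) = {w | w + v ∈ bl x} := by
  ext w
  obtain ⟨h1, h2, -, -⟩ := e_add hv w
  unfold bl opl shv pb
  simp only [Set.mem_ofPred_eq, h1, h2]

theorem fine_shift (a b : ℤ) (B : Set Pt) :
    fine {w | w + (a + b, a - b) ∈ B} = {z | (z.1 + 2 * a, z.2 + 2 * b) ∈ fine B} := by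
  have hv : ∀ z : Pt, Odd (z.1 + z.2) → vx z + (a + b, a - b) = vx (z.1 + 2 * a, z.2 + 2 * b) := by
    intro z hz
    rw [Int.odd_iff] at hz
    unfold vx
    refine Prod.ext ?_ ?_ <;> simp only [Prod.mk_add_mk] <;> omega
  ext z
  simp only [fine, Set.mem_ofPred_eq]
  constructor
  · rintro (⟨h1, h2⟩ | ⟨h1, h2, q, h3, h4⟩)
    · left
      refine ⟨?_, ?_⟩
      · rw [Int.odd_iff] at h1 ⊢; omega
      · rw [← hv z h1]; exact h2
    · right
      refine ⟨?_, ?_, (q.1 + 2 * a, q.2 + 2 * b), nn_shift a b z q h3, ?_⟩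
      · rw [Int.even_iff] at h1 ⊢; omega
      · rw [Int.even_iff] at h2 ⊢; omega
      · rw [← hv q (by
          unfold NN at h3
          rw [Int.even_iff] at h1 h2
          rw [Int.odd_iff]; omega)]
        exact h4
  · rintro (⟨h1, h2⟩ | ⟨h1, h2, q, h3, h4⟩)
    · left
      have h5 : Odd (z.1 + z.2) := by rw [Int.odd_iff] at h1 ⊢; omega
      exact ⟨h5, by rw [hv z h5]; exact h2⟩
    · right
      have h6 : NN z (q.1 + 2 * (-a), q.2 + 2 * (-b)) := by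
        unfold NN at h3 ⊢
        simp only at h3 ⊢
        omega
      refine ⟨?_, ?_, (q.1 + 2 * (-a), q.2 + 2 * (-b)), h6, ?_⟩
      · rw [Int.even_iff] at h1 ⊢; omega
      · rw [Int.even_iff] at h2 ⊢; omega
      · rw [hv _ (by
          unfold NN at h3
          rw [Int.even_iff] at h1 h2
          rw [Int.odd_iff]
          simp only at h3 ⊢
          omega)]
        have e : ((q.1 + 2 * (-a) + 2 * a, q.2 + 2 * (-b) + 2 * b) : ℤ × ℤ) = q :=
          Prod.ext (by ring) (by ring)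
        rw [e]
        exact h4

theorem Zr_shift (c : ℤ × ℤ) (r a b : ℤ) (B : Set Pt) :
    Zr c r {w | w + (a + b, a - b) ∈ B} ↔ Zr (c.1 + a, c.2 + b) r B := by
  unfold Zr Ann
  rw [fine_shift, LRc_shift, LRc_shift, BTc_shift, BTc_shift]
  simp only
  have e1 : c.1 - 2 * r + a = c.1 + a - 2 * r := by ring
  have e2 : c.1 + 2 * r + a = c.1 + a + 2 * r := by ring
  have e3 : c.2 - 2 * r + b = c.2 + b - 2 * r := by ring
  have e4 : c.2 + 2 * r + b = c.2 + b + 2 * r := by ring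
  have e5 : c.2 + r + b = c.2 + b + r := by ring
  have e6 : c.2 - r + b = c.2 + b - r := by ring
  have e7 : c.1 + r + a = c.1 + a + r := by ring
  have e8 : c.1 - r + a = c.1 + a - r := by ring
  rw [e1, e2, e3, e4, e5, e6, e7, e8]

/-- The event of a circuit at level 0. -/
def ZE (p : ℤ × ℤ) (r : ℤ) : Set (Hgt × Mk) := {x | Zr p r (bl x)}

theorem meas_ZE (p : ℤ × ℤ) (r : ℤ) : MeasurableSet (ZE p r) := spos_meas_Ann p.1 p.2 r

/-- There is a circuit at scale `4 ^ k * s` and none at the scales from `k + 4` on. -/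
def ZD (s : ℤ) (k n : ℕ) (p : ℤ × ℤ) : Set (Hgt × Mk) :=
  ZE p (4 ^ k * s) \ ⋃ j ∈ Set.Ico (k + 4) n, ZE p (4 ^ j * s)

theorem meas_ZD (s : ℤ) (k n : ℕ) (p : ℤ × ℤ) : MeasurableSet (ZD s k n p) :=
  (meas_ZE _ _).diff (MeasurableSet.biUnion (Set.to_countable _) fun _ _ => meas_ZE _ _)

/-- The measure does not depend on the centre. -/
theorem MU_ZD {t : ℝ} {P : Measure (Ori (ℤ × ℤ))} [IsProbabilityMeasure P]
    (hinv : ∀ v : ℤ × ℤ, (2 : ℤ) ∣ v.1 + v.2 → (mu0 P).map (pb (fun q => q + v)) = mu0 P)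
    (s : ℤ) (k n : ℕ) (p : ℤ × ℤ) : MU t P (ZD s k n p) = MU t P (ZD s k n (0, 0)) := by
  have hv : Even (((p.1 + p.2, p.1 - p.2) : ℤ × ℤ).1 + ((p.1 + p.2, p.1 - p.2) : ℤ × ℤ).2) := by
    rw [Int.even_iff]; simp only; omega
  have h1 := MU_shv (t := t) (P := P) hv (hinv _ (by simp only; omega))
  have h2 : shv (p.1 + p.2, p.1 - p.2) ⁻¹' ZD s k n (0, 0) = ZD s k n p := by
    have h3 : ∀ (r : ℤ) (x : Hgt × Mk), shv (p.1 + p.2, p.1 - p.2) x ∈ ZE (0, 0) r ↔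
        x ∈ ZE p r := by
      intro r x
      change Zr (0, 0) r (bl (shv (p.1 + p.2, p.1 - p.2) x)) ↔ Zr p r (bl x)
      rw [bl_shv hv, Zr_shift]
      simp only [zero_add]
    ext x
    simp only [ZD, Set.mem_preimage, Set.mem_sdiff, Set.mem_iUnion, h3]
  rw [← h2, ← Measure.map_apply (measurable_shv _) (meas_ZD _ _ _ _), h1]

/-! ### Counting -/

/-- Fourth moments of an average of the heights at scale `s` given a circuit at scale
`4 ^ j * s`. -/
def MomJ (t : ℝ) (P : Measure (Ori (ℤ × ℤ))) : Prop :=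
  ∃ (w : ℤ → ((ℤ × ℤ) →₀ ℝ)) (D : ℝ) (s₁ : ℤ), 0 ≤ D ∧ (∀ s, s₁ ≤ s → FA.mass (w s) = 1) ∧
    ∀ j : ℕ, ∃ s₀ : ℤ, ∀ s, s₀ ≤ s →
      ∫⁻ x in ZE (0, 0) (4 ^ j * s), ENNReal.ofReal (FA.ev (w s) x.1 ^ 4) ∂(Jmu t P) ≤
        ENNReal.ofReal (D * (j + 1) ^ 2)

/-- Fourth moments of the differences of an average at scale `s` and averages outside the box of
size `2 * 4 ^ j * s`, in the plane. -/
def MomP (P : Measure (Ori (ℤ × ℤ))) : Prop :=
  ∃ (w : ℤ → ((ℤ × ℤ) →₀ ℝ)) (D : ℝ) (s₁ : ℤ), 0 ≤ D ∧ (∀ s, s₁ ≤ s → FA.mass (w s) = 1 ∧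
      ∀ v ∈ (w s).support, fi v ∈ rc (-s) s (-s) s) ∧
    ∀ j : ℕ, ∃ s₀ : ℤ, ∀ s, s₀ ≤ s → ∃ b : (ℤ × ℤ) →₀ ℝ, FA.mass b = -1 ∧
      (∀ v ∈ b.support, fi v ∉ rc (-(2 * (4 ^ j * s))) (2 * (4 ^ j * s)) (-(2 * (4 ^ j * s)))
        (2 * (4 ^ j * s))) ∧
      ∫⁻ ω, ENNReal.ofReal (FA.ev (w s + b) (pth ω) ^ 4) ∂P ≤ ENNReal.ofReal (D * (j + 1) ^ 2)

theorem mass_add (a b : (ℤ × ℤ) →₀ ℝ) : FA.mass (a + b) = FA.mass a + FA.mass b := by
  unfold FA.mass
  rw [Finsupp.sum_add_index' (fun _ => by simp) (fun _ _ _ => by ring)]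

theorem momJ_of {c t : ℝ} (hc : 0 < c) (hct : c * t = 1) (ht1 : t ≤ 1)
    {P : Measure (Ori (ℤ × ℤ))} [IsProbabilityMeasure P] (hice : ∀ᵐ a ∂P, ∀ x y, Ice a x y)
    (hS : Swap c P) (h : MomP P) : MomJ t P := by
  obtain ⟨w, D, s₁, hD, hw, hj⟩ := h
  refine ⟨w, D, s₁, hD, fun s hs => (hw s hs).1, fun j => ?_⟩
  obtain ⟨s₀, h0⟩ := hj j
  refine ⟨max (max s₀ s₁) 1, fun s hs => ?_⟩
  have hs0 : s₀ ≤ s := ((le_max_left _ _).trans (le_max_left _ _)).trans hs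
  have hs1 : s₁ ≤ s := ((le_max_right _ _).trans (le_max_left _ _)).trans hs
  have hs2 : 1 ≤ s := (le_max_right _ _).trans hs
  obtain ⟨b, hb1, hb2, hb3⟩ := h0 s hs0
  have h4 : (1 : ℤ) ≤ 4 ^ j := one_le_pow₀ (by norm_num)
  have hle : s ≤ 4 ^ j * s := by nlinarith only [h4, hs2]
  have hm := (mom hc hct ht1 hice hS (p := 0) (q := 0) (s := 4 ^ j * s) (a := w s) (b := b)
    (by omega) ?_ ?_ (by rw [mass_add, (hw s hs1).1, hb1]; ring) 2).1
  · exact hm.trans hb3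
  · intro v hv
    have := (hw s hs1).2 v hv
    simp only [rc, Set.mem_ofPred_eq] at this ⊢
    omega
  · intro v hv hh
    refine hb2 v hv ?_
    simp only [rc, Set.mem_ofPred_eq] at hh ⊢
    omega

/-- The circuits exist with positive mass, at one centre. -/
theorem s_cnt {t : ℝ} {P : Measure (Ori (ℤ × ℤ))} [IsProbabilityMeasure P]
    (hice : ∀ᵐ ω ∂P, ∀ x y, Ice ω x y)
    (hinv : ∀ v : ℤ × ℤ, (2 : ℤ) ∣ v.1 + v.2 → (mu0 P).map (pb (fun q => q + v)) = mu0 P)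
    (hrsw : S_rsw t P) (hmom : MomJ t P) : S_cnt t P := by
  obtain ⟨c₁, hc₁, r₀, hr₀, hr⟩ := hrsw
  obtain ⟨w, D, s₁, hD, hw, hj⟩ := hmom
  intro η hη N
  -- the number of scales
  obtain ⟨L, hL⟩ := exists_nat_ge (4 * (4 + D) / (η * c₁))
  set K : ℕ := max (max L N) 1 with hK
  have hK1 : 1 ≤ K := le_max_right _ _
  have hKL : (L : ℝ) ≤ K := by exact_mod_cast (le_max_left _ _).trans (le_max_left _ _)
  have hKN : N ≤ K := (le_max_right _ _).trans (le_max_left _ _)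
  have hK1' : (1 : ℝ) ≤ K := by exact_mod_cast hK1
  refine ⟨K ^ 4, hKN.trans (Nat.le_self_pow (by norm_num) K), ?_⟩
  choose S hS using hj
  set n : ℕ := 2 * K ^ 4 + 1 with hn
  obtain ⟨s₂, hs₂⟩ : ∃ s₂ : ℤ, ∀ j < n, S j ≤ s₂ := by
    refine ⟨∑ j ∈ range n, |S j|, fun j hj => (le_abs_self _).trans ?_⟩
    exact Finset.single_le_sum (f := fun j => |S j|) (fun i _ => abs_nonneg _)
      (Finset.mem_range.2 hj)
  refine ⟨max (max r₀ s₁) s₂, hr₀.trans ((le_max_left _ _).trans (le_max_left _ _)),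
    fun s hs => ?_⟩
  have h1 : r₀ ≤ s := ((le_max_left _ _).trans (le_max_left _ _)).trans hs
  have h2 : s₁ ≤ s := ((le_max_right _ _).trans (le_max_left _ _)).trans hs
  have h3 : s₂ ≤ s := (le_max_right _ _).trans hs
  have hs1 : 1 ≤ s := hr₀.trans h1
  have hn1 : (n : ℝ) = 2 * K ^ 4 + 1 := by rw [hn]; push_cast; ring
  have hnm : K ^ 4 ≤ n := by omega
  have hm0 : 0 < K ^ 4 := Nat.pos_of_ne_zero (by (clear * -; positivity))
  have hM : (0 : ℝ) < 3 * (K : ℝ) ^ 3 := by (clear * -; positivity)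
  have hMn : (n : ℝ) ^ 3 ≤ (3 * (K : ℝ) ^ 3) ^ 4 := by
    have hk : (1 : ℝ) ≤ (K : ℝ) ^ 4 := one_le_pow₀ hK1'
    have h5 : (n : ℝ) ≤ 3 * (K : ℝ) ^ 4 := by rw [hn1]; linarith only [hk]
    calc (n : ℝ) ^ 3 ≤ (3 * (K : ℝ) ^ 4) ^ 3 := pow_le_pow_left₀ (Nat.cast_nonneg n) h5 3
      _ = 27 * (K : ℝ) ^ 12 := by ring
      _ ≤ 81 * (K : ℝ) ^ 12 := by
        have : (0 : ℝ) ≤ (K : ℝ) ^ 12 := by (clear * -; positivity)
        linarith only [this]
      _ = (3 * (K : ℝ) ^ 3) ^ 4 := by ring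
  have hb : ∀ j < n, ∫⁻ x in ZE (0, 0) (4 ^ j * s), ENNReal.ofReal (FA.ev (w s) x.1 ^ 4)
      ∂(Jmu t P) ≤ ENNReal.ofReal (D * n ^ 2) := by
    intro j hj
    refine (hS j s ((hs₂ j hj).trans h3)).trans (ENNReal.ofReal_le_ofReal ?_)
    refine mul_le_mul_of_nonneg_left ?_ hD
    refine pow_le_pow_left₀ (by (clear * -; positivity)) ?_ 2
    exact_mod_cast hj
  obtain ⟨k, hk, hk2⟩ := count (t := t) (P := P) (hw s h2) (Z := fun j => ZE (0, 0) (4 ^ j * s))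
    (fun j => meas_ZE _ _) (g := 4) (by norm_num) hm0 hnm hD hb hM hMn
  refine ⟨k, hk, fun p => ?_⟩
  -- the event
  have he : {x : Hgt × Mk | (fun B => Zr p (4 ^ k * s) B ∧ ∀ i, k + 4 ≤ i → i ≤ 2 * K ^ 4 →
      ¬ Zr p (4 ^ i * s) B) (bl x)} = ZD s k n p := by
    ext x
    simp only [ZD, ZE, Set.mem_ofPred_eq, Set.mem_sdiff, Set.mem_iUnion, not_exists, Set.mem_Ico]
    refine and_congr_right fun _ => ?_
    constructor
    · intro h i hi
      exact h i hi.1 (by omega)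
    · intro h i h5 h6
      exact h i ⟨h5, by omega⟩
  have hme : MeasurableSet {x : Hgt × Mk | (fun B => Zr p (4 ^ k * s) B ∧ ∀ i, k + 4 ≤ i →
      i ≤ 2 * K ^ 4 → ¬ Zr p (4 ^ i * s) B) (bl x)} := by
    rw [he]; exact meas_ZD _ _ _ _
  rw [spos_II_ind hme, he]
  have h6 : (MU t P).real (ZD s k n p) ≤ 4 / (K : ℝ) ^ 4 * (3 * (K : ℝ) ^ 3 + 1 + D) := by
    rw [Measure.real, MU_ZD hinv, MU_eq_Jmu hice]
    have := ENNReal.toReal_le_of_le_ofReal (by (clear * - hD; positivity)) hk2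
    refine this.trans (le_of_eq ?_)
    push_cast
    ring
  have h7 : 4 / (K : ℝ) ^ 4 * (3 * (K : ℝ) ^ 3 + 1 + D) ≤ η * c₁ := by
    have hk3 : (1 : ℝ) ≤ (K : ℝ) ^ 3 := one_le_pow₀ hK1'
    have h8 : 3 * (K : ℝ) ^ 3 + 1 + D ≤ (4 + D) * (K : ℝ) ^ 3 := by nlinarith only [hk3, hD]
    have h9 : 4 * (4 + D) ≤ η * c₁ * K := by
      have := hL.trans hKL
      rw [div_le_iff₀ (by positivity)] at this
      linarith only [this]
    calc 4 / (K : ℝ) ^ 4 * (3 * (K : ℝ) ^ 3 + 1 + D)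
        ≤ 4 / (K : ℝ) ^ 4 * ((4 + D) * (K : ℝ) ^ 3) :=
          mul_le_mul_of_nonneg_left h8 (by (clear * -; positivity))
      _ = 4 * (4 + D) / K := by (clear * - hD hK1; field_simp)
      _ ≤ η * c₁ := by rw [div_le_iff₀ (by (clear * -; positivity))]; exact h9
  have h10 : r₀ ≤ 4 ^ k * s := by
    have h4 : (1 : ℤ) ≤ 4 ^ k := one_le_pow₀ (by norm_num)
    nlinarith only [h1, h4, hr₀]
  exact h6.trans (h7.trans (mul_le_mul_of_nonneg_left (hr _ h10 p).1 hη.le))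

end Vale.Agent.P145.X
end

section

/-! P145, X-level: `S_cnt` from the exponential bound `EGD`. -/

namespace Vale.Agent.P145.X

open Finset MeasureTheory
open Vale.Agent.P152 (Ori pth Ice)
open Vale.Agent.P145.FA (Hgt mu0 pb)
open Vale.Agent.P145.FB
open Vale.Agent.P145.FB.Mom (EGD)

theorem momJ_of_egd {c t : ℝ} (hc : 0 < c) (hct : c * t = 1) (ht1 : t ≤ 1)
    {P : Measure (Ori (ℤ × ℤ))} [IsProbabilityMeasure P] (hice : ∀ᵐ a ∂P, ∀ x y, Ice a x y)
    (hS : Swap c P) {C γ : ℝ} (hC : 0 ≤ C) (hγ : 0 < γ) (hE : EGD P C γ) : MomJ t P := by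
  obtain ⟨C', hC', s₀, hs₀, h⟩ := log_mom hc hct ht1 hice hS hC hγ hE
  choose! w hw using h
  refine ⟨fun s => w s.toNat, C', s₀, hC', fun s hs => (hw s.toNat (by omega)).1, fun j =>
    ⟨s₀, fun s hs => ?_⟩⟩
  have h1 := (hw s.toNat (by omega)).2 j
  have e : ((s.toNat : ℕ) : ℤ) = s := Int.toNat_of_nonneg (by omega)
  rw [e] at h1
  exact h1

/-- **COUNT.** -/
theorem s_cnt_egd {c t : ℝ} (hc : 0 < c) (hct : c * t = 1) (ht1 : t ≤ 1)
    {P : Measure (Ori (ℤ × ℤ))} [IsProbabilityMeasure P] (hice : ∀ᵐ a ∂P, ∀ x y, Ice a x y)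
    (hS : Swap c P) {C γ : ℝ} (hC : 0 ≤ C) (hγ : 0 < γ) (hE : EGD P C γ)
    (hinv : ∀ v : ℤ × ℤ, (2 : ℤ) ∣ v.1 + v.2 → (mu0 P).map (pb (fun q => q + v)) = mu0 P)
    (hrsw : S_rsw t P) : S_cnt t P :=
  s_cnt hice hinv hrsw (momJ_of_egd hc hct ht1 hice hS hC hγ hE)

end Vale.Agent.P145.X
end

section

/-!
P145: a ball which avoids the corridors of the pinwheel is in one of its four arms.
-/

namespace Vale.Agent.P145.X

open Set
open Vale.Agent.P145.FB (Pt e1 e2 o1 o2)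

theorem arm_dich {X : Type*} [TopologicalSpace X] {S : Set X} (hS : IsPreconnected S)
    {f : X → ℝ} (hf : Continuous f) {α β : ℝ} (hαβ : α ≤ β)
    (h : ∀ z ∈ S, f z < α ∨ β < f z) : (∀ z ∈ S, f z < α) ∨ (∀ z ∈ S, β < f z) := by
  by_contra hcon
  push Not at hcon
  obtain ⟨⟨x, hx, hxa⟩, y, hy, hyb⟩ := hcon
  have hx' : β < f x := by
    rcases h x hx with h1 | h1
    · linarith
    · exact h1
  have hy' : f y < α := by
    rcases h y hy with h1 | h1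
    · exact h1
    · linarith
  have := hS.intermediate_value hy hx hf.continuousOn
  obtain ⟨z, hz, hfz⟩ := this ⟨hy'.le, hxa⟩
  rcases h z hz with h1 | h1 <;> linarith

theorem arms_ball' {a b a' b' e ρ : ℝ} {c : ℝ × ℝ} {D : Set (ℝ × ℝ)} (hab' : a' < b')
    (he : 0 < e) (hD : Top.ccell a b a' b' ⊆ D) (hinf : ρ + e ≤ Metric.infDist c D)
    (hball : ∀ z, dist z c ≤ ρ → ∀ i, z ∉ cor (fun z => z.1 + z.2) (fun z => z.1 - z.2)
      (a - e / 2) (b + e / 2) (b' + e / 2) (e / 2) i) :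
    (∀ z : ℝ × ℝ, dist z c ≤ ρ → z.1 + z.2 ≤ a - e) ∨
    (∀ z : ℝ × ℝ, dist z c ≤ ρ → b' + e ≤ z.1 - z.2 ∧ a ≤ z.1 + z.2) ∨
    (∀ z : ℝ × ℝ, dist z c ≤ ρ → b + e ≤ z.1 + z.2 ∧ z.1 - z.2 ≤ b') ∨
    (∀ z : ℝ × ℝ, dist z c ≤ ρ → z.1 - z.2 ≤ a' - e ∧ a ≤ z.1 + z.2 ∧ z.1 + z.2 ≤ b) := by
  have hS : IsPreconnected (Metric.closedBall c ρ) := (convex_closedBall c ρ).isPreconnected
  have hs : Continuous fun z : ℝ × ℝ => z.1 + z.2 := continuous_fst.add continuous_snd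
  have hd : Continuous fun z : ℝ × ℝ => z.1 - z.2 := continuous_fst.sub continuous_snd
  have h0 : ∀ z ∈ Metric.closedBall c ρ, z.1 + z.2 < a - e ∨ a < z.1 + z.2 := by
    intro z hz
    by_contra hcon
    push Not at hcon
    refine hball z hz 0 ?_
    show |z.1 + z.2 - (a - e / 2)| ≤ e / 2
    rw [abs_le]
    constructor <;> linarith only [hcon]
  rcases arm_dich hS hs (by linarith) h0 with h0 | h0
  · exact Or.inl fun z hz => (h0 z hz).le
  right
  have h1 : ∀ z ∈ Metric.closedBall c ρ, z.1 - z.2 < b' ∨ b' + e < z.1 - z.2 := by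
    intro z hz
    by_contra hcon
    push Not at hcon
    refine hball z hz 1 ?_
    show |z.1 - z.2 - (b' + e / 2)| ≤ e / 2 ∧ a - e / 2 - e / 2 ≤ z.1 + z.2
    rw [abs_le]
    refine ⟨⟨?_, ?_⟩, ?_⟩ <;> linarith only [hcon, he, h0 z hz]
  rcases arm_dich hS hd (by linarith) h1 with h1 | h1
  swap
  · exact Or.inl fun z hz => ⟨(h1 z hz).le, (h0 z hz).le⟩
  right
  have h2 : ∀ z ∈ Metric.closedBall c ρ, z.1 + z.2 < b ∨ b + e < z.1 + z.2 := by
    intro z hz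
    by_contra hcon
    push Not at hcon
    refine hball z hz 2 ?_
    show |z.1 + z.2 - (b + e / 2)| ≤ e / 2 ∧ z.1 - z.2 ≤ b' + e / 2 + e / 2
    rw [abs_le]
    refine ⟨⟨?_, ?_⟩, ?_⟩ <;> linarith only [hcon, he, h1 z hz]
  rcases arm_dich hS hs (by linarith) h2 with h2 | h2
  swap
  · exact Or.inl fun z hz => ⟨(h2 z hz).le, (h1 z hz).le⟩
  right
  intro z hz
  have hz0 := h0 z hz
  have hz1 := h1 z hz
  have hz2 := h2 z hz
  refine ⟨?_, hz0.le, hz2.le⟩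
  by_contra hcon
  push Not at hcon
  -- a point of the cell close to `z`
  set m := max (z.1 - z.2) a' with hm
  have hm1 : z.1 - z.2 ≤ m := le_max_left _ _
  have hm2 : a' ≤ m := le_max_right _ _
  have hm3 : m ≤ b' := max_le hz1.le hab'.le
  have hm4 : m ≤ z.1 - z.2 + e := max_le (by linarith) (by linarith)
  have hp : ((z.1 + z.2 + m) / 2, (z.1 + z.2 - m) / 2) ∈ D := by
    apply hD
    refine ⟨?_, ?_, ?_, ?_⟩ <;> dsimp only <;> linarith only [hm2, hm3, hz0, hz2]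
  have hdist : dist z ((z.1 + z.2 + m) / 2, (z.1 + z.2 - m) / 2) ≤ e / 2 := by
    rw [Prod.dist_eq, Real.dist_eq, Real.dist_eq]
    refine max_le ?_ ?_ <;> dsimp only <;> rw [abs_le] <;> constructor <;> linarith only [he, hm1, hm4]
  have h3 := Metric.infDist_le_dist_of_mem (x := c) hp
  have h4 := dist_triangle c z ((z.1 + z.2 + m) / 2, (z.1 + z.2 - m) / 2)
  have h5 : dist c z ≤ ρ := by rw [dist_comm]; exact hz
  linarith only [he, hinf, hdist, h3, h4, h5]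

/-- A ball away from the cell which avoids the corridors is in one of the four regions. -/
theorem arms_ball {a b a' b' e ρ : ℝ} {c : ℝ × ℝ} {D : Set (ℝ × ℝ)} (hab' : a' < b')
    (he : 0 < e) (hD : Top.ccell a b a' b' ⊆ D) (hinf : ρ + e ≤ Metric.infDist c D)
    (hball : ∀ z, dist z c ≤ ρ → ∀ i, z ∉ cor (fun z => z.1 + z.2) (fun z => z.1 - z.2)
      (a - e / 2) (b + e / 2) (b' + e / 2) (e / 2) i) :
    ∃ i : Fin 4, ∀ z : ℝ × ℝ, dist z c ≤ ρ → (z.1 + z.2, z.1 - z.2) ∈ Kq a b a' b' e i := by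
  rcases arms_ball' hab' he hD hinf hball with h | h | h | h
  · exact ⟨0, fun z hz => Or.inl ⟨rfl, h z hz⟩⟩
  · exact ⟨1, fun z hz => Or.inr (Or.inl ⟨rfl, (h z hz).1, (h z hz).2⟩)⟩
  · exact ⟨2, fun z hz => Or.inr (Or.inr (Or.inl ⟨rfl, (h z hz).1, (h z hz).2⟩))⟩
  · exact ⟨3, fun z hz => Or.inr (Or.inr (Or.inr ⟨rfl, (h z hz).1, (h z hz).2.1, (h z hz).2.2⟩))⟩

/-- The faces (of the six-vertex lattice) of an edge are close together. -/
theorem near_faces {w q q' : Pt} (hq : q = e1 w ∨ q = e2 w ∨ q = o1 w ∨ q = o2 w)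
    (hq' : q' = o1 w ∨ q' = o2 w) : |q.1 - q'.1| ≤ 1 ∧ |q.2 - q'.2| ≤ 1 := by
  unfold e1 e2 o1 o2 at hq
  unfold o1 o2 at hq'
  split_ifs at hq hq' with h <;> rcases hq with rfl | rfl | rfl | rfl <;>
    rcases hq' with rfl | rfl <;> constructor <;> rw [abs_le] <;> constructor <;>
      (try dsimp only) <;> omega

/-- The point of the plane of a six-vertex face. -/
noncomputable def zpt (δ : ℝ) (q : Pt) : ℝ × ℝ :=
  (δ * ((q.1 : ℝ) + q.2) / 2, δ * ((q.1 : ℝ) - q.2) / 2)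

theorem zpt_sd (δ : ℝ) (q : Pt) :
    ((zpt δ q).1 + (zpt δ q).2, (zpt δ q).1 - (zpt δ q).2) = (δ * (q.1 : ℝ), δ * (q.2 : ℝ)) := by
  unfold zpt
  ext <;> dsimp only <;> ring

theorem zpt_dist {δ : ℝ} (hδ : 0 ≤ δ) {p : ℤ × ℤ} {r : ℤ} {w q : Pt} (hw : w ∈ tE (bx p r))
    (hq : q = e1 w ∨ q = e2 w ∨ q = o1 w ∨ q = o2 w) :
    dist (zpt δ q) (fpt δ p) ≤ δ * (r + 1) := by
  obtain ⟨f, ⟨h1, h2, h3, h4⟩, hf⟩ := hw
  obtain ⟨h5, h6⟩ := near_faces (q' := af f) hq (by rcases hf with h | h <;> [left; right] <;>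
    exact h.symm)
  unfold af at h5 h6
  dsimp only at h5 h6
  rw [abs_le] at h5 h6
  have key : ∀ x c : ℝ, -(2 * (r + 1 : ℝ)) ≤ x - 2 * c → x - 2 * c ≤ 2 * (r + 1) →
      |δ * x / 2 - δ * c| ≤ δ * (r + 1) := by
    intro x c h7 h8
    have : δ * x / 2 - δ * c = δ * ((x - 2 * c) / 2) := by ring
    rw [this, abs_mul, abs_of_nonneg hδ]
    refine mul_le_mul_of_nonneg_left ?_ hδ
    rw [abs_le]
    constructor <;> linarith only [h7, h8]
  rw [Prod.dist_eq, Real.dist_eq, Real.dist_eq]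
  refine max_le ?_ ?_
  · refine key _ _ ?_ ?_
    · have : (-(2 * (r + 1)) : ℤ) ≤ q.1 + q.2 - 2 * p.1 := by omega
      exact_mod_cast this
    · have : (q.1 + q.2 - 2 * p.1 : ℤ) ≤ 2 * (r + 1) := by omega
      exact_mod_cast this
  · refine key _ _ ?_ ?_
    · have : (-(2 * (r + 1)) : ℤ) ≤ q.1 - q.2 - 2 * p.2 := by omega
      exact_mod_cast this
    · have : (q.1 - q.2 - 2 * p.2 : ℤ) ≤ 2 * (r + 1) := by omega
      exact_mod_cast this

/-- If the ball of radius `ρ ≥ δ (r + 1)` around `δ p` is in a region, then so are all six-vertex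
faces of the edges touching the box. -/
theorem fin6_of_ball {δ ρ : ℝ} (hδ : 0 ≤ δ) {p : ℤ × ℤ} {r : ℤ} (hr : δ * (r + 1) ≤ ρ)
    {K : Set (ℝ × ℝ)} (h : ∀ z : ℝ × ℝ, dist z (fpt δ p) ≤ ρ → (z.1 + z.2, z.1 - z.2) ∈ K) :
    Fin6 δ (tE (bx p r)) K := by
  intro w hw q hq
  have := h (zpt δ q) ((zpt_dist hδ hw hq).trans hr)
  rwa [zpt_sd] at this

/-- **Arms.** A box of the net which avoids the corridors is in one of the four regions. -/
theorem arms_fin6 {a b a' b' e ρ δ : ℝ} {D : Set (ℝ × ℝ)} (hδ : 0 ≤ δ) (hab' : a' < b')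
    (he : 0 < e) (hD : Top.ccell a b a' b' ⊆ D) {p : ℤ × ℤ} {r : ℤ} (hr : δ * (r + 1) ≤ ρ)
    (hinf : ρ + e ≤ Metric.infDist (fpt δ p) D)
    (hball : ∀ z, dist z (fpt δ p) ≤ ρ → ∀ i, z ∉ cor (fun z => z.1 + z.2) (fun z => z.1 - z.2)
      (a - e / 2) (b + e / 2) (b' + e / 2) (e / 2) i) :
    ∃ i : Fin 4, Fin6 δ (tE (bx p r)) (Kq a b a' b' e i) := by
  obtain ⟨i, hi⟩ := arms_ball hab' he hD hinf hball
  exact ⟨i, fin6_of_ball hδ hr hi⟩

end Vale.Agent.P145.X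
end

section

/-!
P145, block F-X: SHELL, the net of circuits and the closing circuits.
-/

namespace Vale.Agent.P145.X

open Filter Topology Set Relation Metric
open Vale.Agent.P145.FB (Pt e1 e2 o1 o2)

/-- The point with coordinates `x = z.1 + z.2`, `y = z.1 - z.2`. -/
noncomputable def ptt (x y : ℝ) : ℝ × ℝ := ((x + y) / 2, (x - y) / 2)

theorem ptt_spec (x y : ℝ) : (ptt x y).1 + (ptt x y).2 = x ∧ (ptt x y).1 - (ptt x y).2 = y := by
  unfold ptt
  constructor <;> simp only <;> ring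

theorem geo_ptt {x y x' y' c : ℝ} (hx : |x - x'| + |y - y'| ≤ 2 * c) :
    dist (ptt x y) (ptt x' y') ≤ c := by
  have h := frame_std.dist_le (ptt x y) (ptt x' y')
  simp only [(ptt_spec _ _).1, (ptt_spec _ _).2] at h
  linarith

theorem geo_cbox {B : Set Pt} {p : ℤ × ℤ} {r : ℤ} (hr : 3 ≤ r)
    (h : Conf B (bx p r) (bx p (2 * r))) : CBox (stp B) p (r - 1) (3 * (r - 1)) := by
  intro u v h1 h2 huv
  obtain ⟨h3, h4⟩ := h.cbox h1 h2 huv
  exact ⟨h3.trans (by omega), h4.trans (by omega)⟩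

theorem geo_sp {D : Set (ℝ × ℝ)} {M a₁ b₁ b₂ l a b : ℝ}
    (hM : ∀ z, infDist z D ≤ 2 * b → |z.1| ≤ M ∧ |z.2| ≤ M) {i : Fin 3} {k : ℤ}
    (h : Sp ptt D a₁ b₁ b₂ l a b i k) : |l * (k : ℝ)| ≤ 2 * M := by
  have h1 := hM _ h.2.1
  rw [abs_le, abs_le] at h1
  rw [mul_comm, abs_le]
  fin_cases i
  · have h2 := (ptt_spec a₁ (k * l)).2
    change (-M ≤ (ptt a₁ (k * l)).1 ∧ (ptt a₁ (k * l)).1 ≤ M) ∧ -M ≤ (ptt a₁ (k * l)).2 ∧
      (ptt a₁ (k * l)).2 ≤ M at h1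
    constructor <;> linarith [h1.1.1, h1.1.2, h1.2.1, h1.2.2]
  · have h2 := (ptt_spec (k * l) b₂).1
    change (-M ≤ (ptt (k * l) b₂).1 ∧ (ptt (k * l) b₂).1 ≤ M) ∧ -M ≤ (ptt (k * l) b₂).2 ∧
      (ptt (k * l) b₂).2 ≤ M at h1
    constructor <;> linarith [h1.1.1, h1.1.2, h1.2.1, h1.2.2]
  · have h2 := (ptt_spec b₁ (k * l)).2
    change (-M ≤ (ptt b₁ (k * l)).1 ∧ (ptt b₁ (k * l)).1 ≤ M) ∧ -M ≤ (ptt b₁ (k * l)).2 ∧
      (ptt b₁ (k * l)).2 ≤ M at h1
    constructor <;> linarith [h1.1.1, h1.1.2, h1.2.1, h1.2.2]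

/-- The circuits at the centres and the closing circuits confine the clusters. -/
theorem geo_path (hC : S_conf) {D₁ D₂ : Set (ℝ × ℝ)} (hb : Bornology.IsBounded D₂)
    {g : ℝ} (hgD : ∀ z, infDist z D₁ < g → z ∈ D₂) {a b b' ε δ w : ℝ} (hδ : 0 < δ)
    (hε : 0 < ε) (hδε : 100 * δ ≤ ε) {n : ℤ} {j m : ℕ} (hn : n = sc ε δ (j + 1))
    (hw : w = δ * (n : ℝ)) (hεw : ε ≤ w) (hwb : 15 * w < b - a) (hwg : 1000 * w ≤ g)
    (hTε : 1000 * (4 ^ m * ε) ≤ g) (hq₀ : ptt (a - ε / 2) (b' + ε / 2) ∈ D₁)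
    (hq₁ : ptt (b + ε / 2) (b' + ε / 2) ∈ D₁) {B : Set Pt}
    (hY : ∀ y, Good (fun z => z.1 + z.2) (fun z => z.1 - z.2) D₁ (a - ε / 2) (b + ε / 2)
      (b' + ε / 2) (ε / 2) w (g / 4) (g / 2) y → Zr (ce n y) n B)
    (hQ : ∀ i k, Sp ptt D₁ (a - ε / 2) (b + ε / 2) (b' + ε / 2) (g / 16) (g / 4) (g / 2) i k →
      ∃ y i', dist (sp ptt (a - ε / 2) (b + ε / 2) (b' + ε / 2) (g / 16) i k) (fpt w y) ≤
        ε / 2 / 2 + 9 / 2 * w ∧ j + 4 ≤ i' ∧ i' ≤ m ∧ Zr (ce n y) (sc ε δ i') B) :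
    Conf B (Top.Fs δ D₂ : Set (ℤ × ℤ))ᶜ (Top.Fs δ D₁ : Set (ℤ × ℤ))ᶜ := by
  intro f hf f' hff' hf'
  have hw0 : 0 < w := by linarith
  have hn3 : 3 ≤ n := by
    have h1 : δ * 3 < δ * (n : ℝ) := by rw [← hw]; linarith
    have h2 : (3 : ℝ) < n := lt_of_mul_lt_mul_left h1 hδ.le
    exact_mod_cast h2.le
  have hf1 := le_infDist_of_notMem hδ hb hgD hf
  have hf2 : infDist (fpt δ f') D₁ = 0 := infDist_zero_of_mem (of_mem_Fs' hδ.le hf')
  have hrev : ReflTransGen (stp B) f' f := shell_symm (stp_symm B) hff'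
  have hXB : ∀ y, Good (fun z => z.1 + z.2) (fun z => z.1 - z.2) D₁ (a - ε / 2) (b + ε / 2)
      (b' + ε / 2) (ε / 2) w (g / 4) (g / 2) y →
      CBox (stp B) (cen w δ y) (n - 1) (3 * (n - 1)) := by
    intro y hy
    rw [hw, cen_ce hδ]
    exact geo_cbox hn3 (hC _ _ _ (by omega) (hY y hy))
  have hZB : ∀ i k, Sp ptt D₁ (a - ε / 2) (b + ε / 2) (b' + ε / 2) (g / 16) (g / 4) (g / 2) i k →
      ∃ (y : ℤ × ℤ) (R : ℤ),
      dist (sp ptt (a - ε / 2) (b + ε / 2) (b' + ε / 2) (g / 16) i k) (fpt w y) ≤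
        ε / 2 / 2 + 9 / 2 * w ∧ ε / 2 + 8 * w + 2 * δ ≤ δ * R ∧ 4 * δ * R < g / 8 ∧
      CBox (stp B) (cen w δ y) R (3 * R) := by
    intro i k hik
    obtain ⟨y, i', hd, hi1, hi2, hZ⟩ := hQ i k hik
    obtain ⟨k', rfl⟩ : ∃ k', i' = j + 1 + (3 + k') := ⟨i' - (j + 4), by omega⟩
    have h1 := sc_add ε δ (j + 1) (3 + k')
    have h2 : (64 : ℤ) ≤ 4 ^ (3 + k') := by
      rw [pow_add]
      have : (1 : ℤ) ≤ 4 ^ k' := one_le_pow₀ (by norm_num)
      linarith only [this]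
    rw [← hn] at h1
    obtain ⟨S, hS⟩ : ∃ S : ℤ, S = sc ε δ (j + 1 + (3 + k')) := ⟨_, rfl⟩
    have h4 : δ * (S : ℝ) ≤ 4 ^ m * ε := by
      rw [hS]
      refine (sc_le hδ _).trans (mul_le_mul_of_nonneg_right ?_ hε.le)
      exact pow_le_pow_right₀ (by norm_num) hi2
    rw [← hS] at h1 hZ
    have h3 : 64 * n ≤ S := by
      rw [h1]
      exact mul_le_mul_of_nonneg_right h2 (by omega)
    have h5 : 64 * w ≤ δ * (S : ℝ) := by
      have h6 : (64 : ℝ) * n ≤ (S : ℝ) := by exact_mod_cast h3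
      have h7 := mul_le_mul_of_nonneg_left h6 hδ.le
      rw [hw]
      linarith only [h7]
    refine ⟨y, S - 1, hd, ?_, ?_, ?_⟩
    · push_cast
      linarith only [hδ, hδε, hεw, h5]
    · push_cast
      linarith only [hδ, hδε, hεw, hTε, h4, h5]
    · rw [hw, cen_ce hδ]
      exact geo_cbox (by omega) (hC _ _ _ (by omega) hZ)
  refine shell_grid (E := stp B) (stp_symm B) (stp_le B) frame_std ptt_spec hq₀ hq₁
    (δ := δ) (W₀ := ε / 2) (w := w) (l := g / 16) (h := g / 8) (a := g / 4) (b := g / 2) hδ hw0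
    (by linarith only [hδ, hδε]) (by linarith only [hδ, hδε, hεw, hwg]) (by linarith only [hδ, hδε, hεw, hwg]) (by linarith) (by linarith only [hwb]) (by linarith only [hδ, hδε, hεw, hwg])
    (by linarith only [hδ, hδε, hεw, hwg]) (r := n - 1) ?_ ?_ hXB hZB (u := f') (v := f) (by linarith only [hδ, hδε, hεw, hwg, hf2]) (by linarith only [hδ, hδε, hεw, hwg, hf1]) hrev
  · push_cast
    linarith only [hδ, hδε, hw, hεw]
  · push_cast
    linarith only [hδ, hδε, hw, hεw, hwg]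

/-- The corners of the corridors. -/
theorem geo_corner {D₁ : Set (ℝ × ℝ)} {x y r₀ ε x' y' : ℝ} (h : ball (ptt x y) r₀ ⊆ D₁)
    (hε : ε / 2 < r₀) (h1 : |x' - x| = ε / 2) (h2 : |y' - y| = ε / 2) : ptt x' y' ∈ D₁ := by
  refine h (lt_of_le_of_lt (geo_ptt (c := ε / 2) ?_) hε)
  rw [h1, h2]
  linarith only []

/-- The finite sets of centres. -/
theorem geo_sets {D₁ : Set (ℝ × ℝ)} (hb₁ : Bornology.IsBounded D₁) (hne : D₁.Nonempty)
    {g M : ℝ} (hM : ∀ z, infDist z D₁ ≤ 2 * g → |z.1| ≤ M ∧ |z.2| ≤ M)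
    {a b b' ε w : ℝ} (hε : 0 < ε) (hw0 : 0 < w) (hεw : ε ≤ w) (hwb : 15 * w < b - a)
    (hwg : 1000 * w ≤ g) (hq₀ : ptt (a - ε / 2) (b' + ε / 2) ∈ D₁)
    (hq₁ : ptt (b + ε / 2) (b' + ε / 2) ∈ D₁) :
    ∃ Y Q : Finset (ℤ × ℤ), Q ⊆ Y ∧
      Q.card ≤ ((Finset.univ : Finset (Fin 3)) ×ˢ
        Finset.Icc (-⌈2 * M / (g / 16)⌉) ⌈2 * M / (g / 16)⌉).card ∧
      (∀ y, y ∈ Y ↔ Good (fun z => z.1 + z.2) (fun z => z.1 - z.2) D₁ (a - ε / 2) (b + ε / 2)
        (b' + ε / 2) (ε / 2) w (g / 4) (g / 2) y) ∧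
      ∀ i k, Sp ptt D₁ (a - ε / 2) (b + ε / 2) (b' + ε / 2) (g / 16) (g / 4) (g / 2) i k →
        ∃ y ∈ Q, dist (sp ptt (a - ε / 2) (b + ε / 2) (b' + ε / 2) (g / 16) i k) (fpt w y) ≤
          ε / 2 / 2 + 9 / 2 * w := by
  classical
  have hfin := good_finite (s := fun z => z.1 + z.2) (d := fun z => z.1 - z.2) hb₁ hne
    (a₁ := a - ε / 2) (b₁ := b + ε / 2) (b₂ := b' + ε / 2) (W₀ := ε / 2) (a := g / 4)
    (b := g / 2) hw0
  have hxc : ∀ q : Fin 3 × ℤ, ∃ y, Sp ptt D₁ (a - ε / 2) (b + ε / 2) (b' + ε / 2) (g / 16)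
      (g / 4) (g / 2) q.1 q.2 → Good (fun z => z.1 + z.2) (fun z => z.1 - z.2) D₁ (a - ε / 2)
      (b + ε / 2) (b' + ε / 2) (ε / 2) w (g / 4) (g / 2) y ∧
      dist (sp ptt (a - ε / 2) (b + ε / 2) (b' + ε / 2) (g / 16) q.1 q.2) (fpt w y) ≤
        ε / 2 / 2 + 9 / 2 * w := by
    intro q
    by_cases h : Sp ptt D₁ (a - ε / 2) (b + ε / 2) (b' + ε / 2) (g / 16) (g / 4) (g / 2) q.1 q.2
    · obtain ⟨y, hy⟩ := exists_xc frame_std ptt_spec hq₀ hq₁ hw0 (by linarith : 0 ≤ ε / 2)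
        (by linarith) (by linarith) (by linarith) h
      exact ⟨y, fun _ => hy⟩
    · exact ⟨0, fun h' => absurd h' h⟩
  choose xc hxc using hxc
  refine ⟨hfin.toFinset, ((Finset.univ ×ˢ Finset.Icc (-⌈2 * M / (g / 16)⌉)
    ⌈2 * M / (g / 16)⌉).filter fun q => Sp ptt D₁ (a - ε / 2) (b + ε / 2) (b' + ε / 2) (g / 16)
    (g / 4) (g / 2) q.1 q.2).image xc, ?_, ?_, ?_, ?_⟩
  · intro y hy
    obtain ⟨q, hq, rfl⟩ := Finset.mem_image.1 hy
    rw [Set.Finite.mem_toFinset]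
    rw [Finset.mem_filter] at hq
    exact (hxc q hq.2).1
  · exact Finset.card_image_le.trans (Finset.card_filter_le _ _)
  · intro y
    rw [Set.Finite.mem_toFinset]
    rfl
  · intro i k hik
    refine ⟨xc (i, k), Finset.mem_image_of_mem _ ?_, (hxc (i, k) hik).2⟩
    rw [Finset.mem_filter, Finset.mem_product]
    refine ⟨⟨Finset.mem_univ _, ?_⟩, hik⟩
    have h1 := geo_sp (M := M) (fun z hz => hM z (by linarith)) hik
    rw [abs_mul, abs_of_pos (by linarith only [hw0, hwg] : 0 < g / 16), mul_comm, ← le_div_iff₀ (by linarith only [hw0, hwg])]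
      at h1
    have h2 := h1.trans (Int.le_ceil _)
    rw [Finset.mem_Icc]
    exact abs_le.1 (by exact_mod_cast h2)

/-- SHELL. -/
theorem s_geom (hC : S_conf) : S_geom := by
  intro D₁ D₂ hD₁ hD₂ hb hcl a b a' b' hab hab' hcc
  have hb₁ : Bornology.IsBounded D₁ := hb.subset (subset_closure.trans hcl)
  -- corners of the cell
  have hc₀ : ptt a b' ∈ Top.ccell a b a' b' := by
    obtain ⟨h1, h2⟩ := ptt_spec a b'
    exact ⟨h1.ge, by rw [h1]; exact hab.le, by rw [h2]; exact hab'.le, h2.le⟩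
  have hc₁ : ptt b b' ∈ Top.ccell a b a' b' := by
    obtain ⟨h1, h2⟩ := ptt_spec b b'
    exact ⟨by rw [h1]; exact hab.le, h1.le, by rw [h2]; exact hab'.le, h2.le⟩
  have hne : D₁.Nonempty := ⟨_, hcc hc₀⟩
  obtain ⟨g, hg, hgD⟩ := exists_thick hne hD₂ hb hcl
  obtain ⟨r₀, hr₀, hr₀D⟩ := Metric.isOpen_iff.1 hD₁ _ (hcc hc₀)
  obtain ⟨r₁, hr₁, hr₁D⟩ := Metric.isOpen_iff.1 hD₁ _ (hcc hc₁)
  obtain ⟨M, hM⟩ := shell_bdd hb₁ hne (2 * g)
  refine ⟨((Finset.univ : Finset (Fin 3)) ×ˢ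
        Finset.Icc (-⌈2 * M / (g / 16)⌉) ⌈2 * M / (g / 16)⌉).card, fun m => ?_⟩
  obtain ⟨G, hG⟩ : ∃ G : ℝ, G = min (min g (b - a)) (min r₀ r₁) := ⟨_, rfl⟩
  have hG0 : 0 < G := by
    rw [hG]
    exact lt_min (lt_min hg (by linarith)) (lt_min hr₀ hr₁)
  have hGg : G ≤ g := by rw [hG]; exact (min_le_left _ _).trans (min_le_left _ _)
  have hGb : G ≤ b - a := by rw [hG]; exact (min_le_left _ _).trans (min_le_right _ _)
  have hG₀ : G ≤ r₀ := by rw [hG]; exact (min_le_right _ _).trans (min_le_left _ _)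
  have hG₁ : G ≤ r₁ := by rw [hG]; exact (min_le_right _ _).trans (min_le_right _ _)
  have hT : (1 : ℝ) ≤ 4 ^ m := one_le_pow₀ (by norm_num)
  refine ⟨G / (1000 * 4 ^ m), by positivity, fun ε hε hε₀ => ?_⟩
  have hTε : 1000 * (4 ^ m * ε) ≤ G := by
    rw [le_div_iff₀ (by positivity)] at hε₀
    linarith
  have hεG : 1000 * ε ≤ G := by nlinarith only [hTε, hT, hε]
  refine ⟨⌈2 * M / ε⌉₊, ε, hε, fun j hj => ?_⟩
  filter_upwards [Ioo_mem_nhdsGT (show (0 : ℝ) < ε / 1000 by positivity)] with δ hδ'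
  obtain ⟨hδ, hδε⟩ := hδ'
  -- the spacing
  obtain ⟨n, hn⟩ : ∃ n : ℤ, n = sc ε δ (j + 1) := ⟨_, rfl⟩
  obtain ⟨w, hw⟩ : ∃ w : ℝ, w = δ * (n : ℝ) := ⟨_, rfl⟩
  have hp1 : (4 : ℝ) ≤ 4 ^ (j + 1) := by
    rw [pow_succ]
    have : (1 : ℝ) ≤ 4 ^ j := one_le_pow₀ (by norm_num)
    linarith only [this]
  have hp2 : (4 : ℝ) ^ (j + 1) * 64 ≤ 4 ^ m := by
    have h1 : (4 : ℝ) ^ (j + 1) * 64 = 4 ^ (j + 4) := by
      rw [pow_add, pow_add]
      norm_num
      ring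
    rw [h1]
    exact pow_le_pow_right₀ (by norm_num) hj
  have hw1 : w ≤ 4 ^ (j + 1) * ε := by rw [hw, hn]; exact sc_le hδ _
  have hw2 : 4 ^ (j + 1) * (ε / 2) ≤ w := by rw [hw, hn]; exact le_sc hδ (by linarith only [hδ, hδε]) _
  have hw3 : 2 * ε ≤ w := by nlinarith only [hw2, hε, hp1]
  have hw4 : 64000 * w ≤ G := by nlinarith only [hTε, hw1, hε, hp2]
  have hw0 : 0 < w := by linarith only [hδ, hδε, hw3]
  have hq₀ : ptt (a - ε / 2) (b' + ε / 2) ∈ D₁ :=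
    geo_corner (ε := ε) hr₀D (by linarith only [hG₀, hδ, hδε, hw3, hw4]) (by
      rw [show a - ε / 2 - a = -(ε / 2) by ring, abs_neg, abs_of_pos (by linarith only [hδ, hδε])]) (by
      rw [show b' + ε / 2 - b' = ε / 2 by ring, abs_of_pos (by linarith only [hδ, hδε])])
  have hq₁ : ptt (b + ε / 2) (b' + ε / 2) ∈ D₁ :=
    geo_corner (ε := ε) hr₁D (by linarith only [hG₁, hδ, hδε, hw3, hw4]) (by
      rw [show b + ε / 2 - b = ε / 2 by ring, abs_of_pos (by linarith only [hδ, hδε])]) (by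
      rw [show b' + ε / 2 - b' = ε / 2 by ring, abs_of_pos (by linarith only [hδ, hδε])])
  obtain ⟨Y, Q, hQY, hQc, hY, hQ⟩ := geo_sets hb₁ hne hM (a := a) (b := b) (b' := b') hε hw0
    (by linarith only [hδ, hδε, hw3]) (by linarith only [hGb, hδ, hδε, hw3, hw4]) (by linarith only [hGg, hδ, hδε, hw3, hw4]) hq₀ hq₁
  rw [← hn]
  have hinf : ∀ y ∈ Y, g / 4 / 4 ≤ infDist (fpt δ (ce n y)) D₁ := by
    intro y hy
    rw [← fpt_ce, ← hw]
    exact ((hY y).1 hy).1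
  refine ⟨Y, Q, hQY, hQc, ?_, ?_, ?_, ?_⟩
  · intro y hy
    have h1 := hM _ (((hY y).1 hy).2.1.trans (by linarith only []))
    rw [hw, fpt_ce, hn] at h1
    exact ⟨abs_le_of_sc hδ (by linarith only [hδ, hδε]) (j + 1) h1.1, abs_le_of_sc hδ (by linarith only [hδ, hδε]) (j + 1) h1.2⟩
  · intro y hy
    have h1 := hinf y hy
    refine ⟨tE_bx_sub hδ.le ?_, ?_⟩
    · push_cast
      linarith only [hGg, hδ, hδε, hw, hw3, hw4, h1]
    · refine arms_fin6 (ρ := 3 * w) hδ.le hab' hε hcc ?_ (by linarith only [hGg, hδ, hδε, hw3, hw4, h1]) ?_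
      · push_cast
        linarith only [hδ, hδε, hw, hw3]
      · rw [← fpt_ce, ← hw]
        exact ((hY y).1 hy).2.2
  · intro y hy
    have h1 := hinf y (hQY hy)
    refine tE_bx_sub hδ.le ?_
    have h2 := sc_le (ε := ε) hδ m
    push_cast
    linarith only [hGg, hTε, hδ, hδε, hw3, hw4, h1, h2]
  · intro B hYB hQB
    refine geo_path hC hb hgD (a := a) (b := b) (b' := b') (j := j) (m := m) hδ hε (by linarith only [hδ, hδε])
      hn hw (by linarith only [hδ, hδε, hw3]) (by linarith only [hGb, hδ, hδε, hw3, hw4]) (by linarith only [hGg, hδ, hδε, hw3, hw4]) (by linarith only [hGg, hTε]) hq₀ hq₁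
      (fun y hy => hYB y ((hY y).2 hy)) fun i k hik => ?_
    obtain ⟨y, hyQ, hd⟩ := hQ i k hik
    obtain ⟨i', hi1, hi2, hZ⟩ := hQB y hyQ
    exact ⟨y, i', hd, hi1, hi2, hZ⟩

end Vale.Agent.P145.X
end

section

/-!
P145, block F-X: FAR, a big circuit far away on the left, at a centre of the same net.
-/

namespace Vale.Agent.P145.X

open Filter Topology Set MeasureTheory
open Vale.Agent.P145.FB (Pt e1 e2 o1 o2)

/-- The first coordinates of the faces next to an edge touching the face `f`. -/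
theorem far_q {F : Set (ℤ × ℤ)} {w q : Pt} (hw : w ∈ tE F)
    (hq : q = e1 w ∨ q = e2 w ∨ q = o1 w ∨ q = o2 w) :
    ∃ f ∈ F, q.1 ≤ f.1 + f.2 + 2 := by
  obtain ⟨f, hf, hw⟩ := hw
  refine ⟨f, hf, ?_⟩
  by_cases h : Even (w.1 + w.2)
  · simp only [e1, e2, o1, o2, h, if_true, af, Prod.ext_iff] at hw hq
    omega
  · simp only [e1, e2, o1, o2, h, if_false, af, Prod.ext_iff] at hw hq
    omega

/-- FAR. -/
theorem far : S_far := by
  intro D x₁ hD
  obtain ⟨ρ, hρ⟩ := hD.subset_ball (0 : ℝ × ℝ)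
  obtain ⟨K, hK⟩ : ∃ K : ℝ, K = |x₁| + |ρ| + 40 := ⟨_, rfl⟩
  have hx0 := abs_nonneg x₁
  have hx1 := neg_abs_le x₁
  have hr0 := abs_nonneg ρ
  have hr1 := le_abs_self ρ
  have hR1 : (1 : ℝ) ≤ 2 * K + 1 := by linarith only [hK, hx0, hr0]
  refine ⟨2 * K + 1, hR1, hρ.trans (Metric.ball_subset_ball (by linarith only [hK, hx0, hr0, hr1])), ?_⟩
  intro m ε hε hme
  refine ⟨(⌈2 * K / ε⌉ + 8 * ⌈1 / ε⌉).toNat, fun j hj => ?_⟩
  obtain ⟨σ, hσ⟩ : ∃ σ : ℝ, σ = 4 ^ (j + 1) * ε := ⟨_, rfl⟩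
  have hσε : ε ≤ σ := by
    rw [hσ]
    have : (1 : ℝ) ≤ 4 ^ (j + 1) := one_le_pow₀ (by norm_num)
    nlinarith only [hε, this]
  have hσ0 : 0 < σ := lt_of_lt_of_le hε hσε
  have hσ1 : σ ≤ 1 := by
    have h : (4 : ℝ) ^ (j + 1) ≤ 4 ^ (m + 2) := pow_le_pow_right₀ (by norm_num) (by omega)
    rw [hσ]
    exact (mul_le_mul_of_nonneg_right h hε.le).trans hme
  have hev : ∀ᶠ δ in 𝓝[>] (0 : ℝ), δ ∈ Set.Ioo (0 : ℝ) (min 1 (ε / 2)) :=
    Ioo_mem_nhdsGT (lt_min one_pos (by positivity))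
  filter_upwards [hev] with δ hδ
  obtain ⟨h0, h12⟩ := hδ
  have h1 : δ < 1 := h12.trans_le (min_le_left _ _)
  have h2 : δ < ε / 2 := h12.trans_le (min_le_right _ _)
  obtain ⟨s, hs⟩ : ∃ s : ℤ, s = sc ε δ (j + 1) := ⟨_, rfl⟩
  have hfl1 : δ * (⌊ε / δ⌋ : ℝ) ≤ ε := by
    have := Int.floor_le (ε / δ)
    calc δ * (⌊ε / δ⌋ : ℝ) ≤ δ * (ε / δ) := mul_le_mul_of_nonneg_left this h0.le
      _ = ε := by field_simp
  have hfl2 : ε / 2 ≤ δ * (⌊ε / δ⌋ : ℝ) := by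
    have := Int.lt_floor_add_one (ε / δ)
    have h3 : ε < δ * ((⌊ε / δ⌋ : ℝ) + 1) := by
      rw [div_lt_iff₀ h0] at this
      linarith only [this]
    linarith only [h2, h3]
  have hsr : δ * (s : ℝ) = 4 ^ (j + 1) * (δ * (⌊ε / δ⌋ : ℝ)) := by
    rw [hs, sc]; push_cast; ring
  have hp : (0 : ℝ) ≤ 4 ^ (j + 1) := by positivity
  have hs1 : σ / 2 ≤ δ * (s : ℝ) := by
    rw [hsr, hσ]
    nlinarith only [hfl2, hp]
  have hs2 : δ * (s : ℝ) ≤ σ := by
    rw [hsr, hσ]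
    exact mul_le_mul_of_nonneg_left hfl1 hp
  rw [← hs]
  obtain ⟨M, hM⟩ : ∃ M : ℤ, M = ⌈2 * K / σ⌉ := ⟨_, rfl⟩
  obtain ⟨l, hl⟩ : ∃ l : ℤ, l = ⌈1 / σ⌉ := ⟨_, rfl⟩
  have hK0 : 0 < K := by linarith only [hK, hx0, hr0]
  have hM1 : 2 * K / σ ≤ M := by rw [hM]; exact Int.le_ceil _
  have hM2 : (M : ℝ) < 2 * K / σ + 1 := by rw [hM]; exact Int.ceil_lt_add_one _
  have hl1 : 1 / σ ≤ l := by rw [hl]; exact Int.le_ceil _
  have hl2 : (l : ℝ) < 1 / σ + 1 := by rw [hl]; exact Int.ceil_lt_add_one _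
  rw [div_le_iff₀ hσ0] at hM1 hl1
  have hM3 : (M : ℝ) * σ ≤ 2 * K + σ := by
    have := mul_le_mul_of_nonneg_right hM2.le hσ0.le
    rwa [add_mul, one_mul, div_mul_cancel₀ _ hσ0.ne'] at this
  have hl3 : (l : ℝ) * σ ≤ 1 + σ := by
    have := mul_le_mul_of_nonneg_right hl2.le hσ0.le
    rwa [add_mul, one_mul, div_mul_cancel₀ _ hσ0.ne'] at this
  have hlp : 0 < l := by rw [hl]; exact Int.ceil_pos.2 (by positivity)
  have hMp : 0 < M := by rw [hM]; exact Int.ceil_pos.2 (by positivity)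
  have hlr : (0 : ℝ) < l := by exact_mod_cast hlp
  have hMr : (0 : ℝ) < M := by exact_mod_cast hMp
  have hMN : M ≤ ⌈2 * K / ε⌉ := by
    rw [hM]
    exact Int.ceil_le_ceil (div_le_div_of_nonneg_left (by (clear * - hK0; positivity)) hε hσε)
  have hlN : l ≤ ⌈1 / ε⌉ := by
    rw [hl]
    exact Int.ceil_le_ceil (div_le_div_of_nonneg_left (by positivity) hε hσε)
  -- the scaled centre and radius
  have hc1 : K ≤ (M : ℝ) * (δ * s) := by
    have := mul_le_mul_of_nonneg_left hs1 hMr.le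
    linarith only [hM1, this]
  have hc2 : (M : ℝ) * (δ * s) ≤ 2 * K + 1 := by
    have := mul_le_mul_of_nonneg_left hs2 hMr.le
    linarith only [hσ1, hM3, this]
  have hd1 : 1 / 2 ≤ (l : ℝ) * (δ * s) := by
    have := mul_le_mul_of_nonneg_left hs1 hlr.le
    linarith only [hl1, this]
  have hd2 : (l : ℝ) * (δ * s) ≤ 2 := by
    have := mul_le_mul_of_nonneg_left hs2 hlr.le
    linarith only [hσ1, hl3, this]
  refine ⟨(-M, 0), l, by omega, ?_, ?_, ?_, ?_, ?_, ?_, ?_, ?_⟩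
  · simp only [abs_neg, abs_of_pos hMp]
    rw [Int.toNat_of_nonneg (by omega)]
    omega
  · simp only [abs_zero]
    rw [Int.toNat_of_nonneg (by omega)]
    omega
  · have : δ * ((ce s (-M, 0)).1 : ℝ) = -((M : ℝ) * (δ * s)) := by
      simp only [ce]; push_cast; ring
    rw [this, abs_neg, abs_of_nonneg (by linarith only [hK, hx0, hr0, hc1])]
    exact hc2
  · have : δ * ((ce s (-M, 0)).2 : ℝ) = 0 := by
      simp only [ce]; push_cast; ring
    rw [this, abs_zero]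
    linarith only [hK, hx0, hr0]
  · have h5 : (2 * K + 1)⁻¹ ≤ 1 / 2 := by
      rw [inv_eq_one_div]
      exact one_div_le_one_div_of_le two_pos (by linarith only [hK, hx0, hr0])
    push_cast
    nlinarith only [hd1, h5]
  · push_cast
    nlinarith only [hK, hx0, hr0, h2, hd2]
  · intro w hw q hq
    obtain ⟨f, hf, hqf⟩ := far_q hw hq
    obtain ⟨-, hf1, -, hf2⟩ := hf
    simp only [ce, mul_zero] at hf1 hf2
    have h6 : q.1 ≤ s * (-M) + 8 * (l * s) + 8 * (l * s) + 2 := by linarith only [hqf, hf1, hf2]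
    have h7 : (q.1 : ℝ) ≤ s * (-M) + 8 * (l * s) + 8 * (l * s) + 2 := by exact_mod_cast h6
    have h8 := mul_le_mul_of_nonneg_left h7 h0.le
    show δ * (q.1 : ℝ) ≤ x₁ - 1
    have h9 : δ * ((s : ℝ) * (-M) + 8 * (l * s) + 8 * (l * s) + 2) =
        -((M : ℝ) * (δ * s)) + 16 * ((l : ℝ) * (δ * s)) + 2 * δ := by ring
    rw [h9] at h8
    linarith only [hK, hx1, hr0, hσε, hσ1, h2, hc1, hd2, h8]
  · intro v hv
    have hb := hρ hv
    rw [mem_ball_zero_iff, Prod.norm_def, max_lt_iff] at hb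
    have hb1 := (abs_lt.1 hb.1).1
    have key : ∀ f : ℤ × ℤ, v.1 - 1 ≤ f.1 → f ∉ bx (ce s (-M, 0)) (8 * (l * s)) := by
      intro f hf hfb
      obtain ⟨-, hf1, -, -⟩ := hfb
      simp only [ce] at hf1
      have h6 : v.1 - 1 ≤ s * (-M) + 8 * (l * s) := by linarith only [hf, hf1]
      have h7 : (v.1 : ℝ) - 1 ≤ s * (-M) + 8 * (l * s) := by exact_mod_cast h6
      have h8 := mul_le_mul_of_nonneg_left h7 h0.le
      have h9 : δ * ((s : ℝ) * (-M) + 8 * (l * s)) =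
        -((M : ℝ) * (δ * s)) + 8 * ((l : ℝ) * (δ * s)) := by ring
      rw [h9] at h8
      simp only at hb1
      linarith only [hK, hx0, hr1, hσε, hσ1, h2, hc1, hd2, hb1, h8]
    exact ⟨key _ (by omega), key _ (by simp), key _ (by simp only [tsub_le_iff_right, le_add_iff_nonneg_right, zero_le_one]), key _ (by simp)⟩

end Vale.Agent.P145.X
end

section

/-!
P145, block F-X: locality of the circuit event (`S_loc`).
-/

namespace Vale.Agent.P145.X

open Relation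
open Vale.Agent.P145.FB (Pt fine Ann NN NC LRc BTc rc vx o1 o2)

/-- The edges at the odd points of `R`. -/
def oE (R : Set Pt) : Set Pt := vx '' {z | z ∈ R ∧ Odd (z.1 + z.2)}

theorem nn_parity {u v : Pt} (h : NN u v) : Odd (u.1 + u.2) ↔ ¬ Odd (v.1 + v.2) := by
  unfold NN at h
  rw [Int.odd_iff, Int.odd_iff]
  omega

theorem nn_symm {u v : Pt} (h : NN u v) : NN v u := by
  unfold NN at h ⊢
  omega

theorem fine_odd {B : Set Pt} {u : Pt} (h : u ∈ fine B) (ho : Odd (u.1 + u.2)) : vx u ∈ B := by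
  rcases h with h | ⟨h1, h2, -⟩
  · exact h.2
  · rw [Int.odd_iff] at ho
    rw [Int.even_iff] at h1 h2
    omega

theorem fine_even {B : Set Pt} {u : Pt} (h : u ∈ fine B) (ho : ¬ Odd (u.1 + u.2)) :
    Even u.1 ∧ Even u.2 := by
  rcases h with h | ⟨h1, h2, -⟩
  · exact absurd h.1 ho
  · exact ⟨h1, h2⟩

/-- Both ends of a step inside `R` are seen by the edges of `R`. -/
theorem loc_step {B : Set Pt} {R : Set Pt} {u v : Pt} (hu : u ∈ fine B ∩ R)
    (hv : v ∈ fine B ∩ R) (huv : NN u v) :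
    u ∈ fine (B ∩ oE R) ∩ R ∧ v ∈ fine (B ∩ oE R) ∩ R := by
  have key : ∀ u v : Pt, u ∈ fine B ∩ R → v ∈ fine B ∩ R → NN u v → Odd (u.1 + u.2) →
      u ∈ fine (B ∩ oE R) ∩ R ∧ v ∈ fine (B ∩ oE R) ∩ R := by
    intro u v hu hv huv ho
    have h1 : vx u ∈ B ∩ oE R := ⟨fine_odd hu.1 ho, u, ⟨hu.2, ho⟩, rfl⟩
    have h2 := fine_even hv.1 ((nn_parity huv).1 ho)
    exact ⟨⟨Or.inl ⟨ho, h1⟩, hu.2⟩, Or.inr ⟨h2.1, h2.2, u, nn_symm huv, h1⟩, hv.2⟩
  by_cases ho : Odd (u.1 + u.2)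
  · exact key u v hu hv huv ho
  · have ho' : Odd (v.1 + v.2) := by
      by_contra hc
      exact ho ((nn_parity huv).2 hc)
    exact (key v u hv hu (nn_symm huv) ho').symm

theorem loc_path {B : Set Pt} {R : Set Pt} {x y : Pt} (h : NC (fine B ∩ R) x y) (hxy : x ≠ y) :
    NC (fine (B ∩ oE R) ∩ R) x y := by
  obtain ⟨hx, h⟩ := h
  have key : y ∈ fine B ∩ R ∧ (x = y ∨ NC (fine (B ∩ oE R) ∩ R) x y) := by
    clear hxy
    induction h with
    | refl => exact ⟨hx, Or.inl rfl⟩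
    | @tail u v _ huv ih =>
      obtain ⟨hu, ih⟩ := ih
      obtain ⟨h1, h2⟩ := loc_step hu huv.2 huv.1
      refine ⟨huv.2, Or.inr ?_⟩
      rcases ih with rfl | ih
      · exact ⟨h1, ReflTransGen.single ⟨huv.1, h2⟩⟩
      · exact ⟨ih.1, ih.2.tail ⟨huv.1, h2⟩⟩
  rcases key.2 with h1 | h1
  · exact absurd h1 hxy
  · exact h1

theorem nc_mono {S T : Set Pt} (h : S ⊆ T) {x y : Pt} (hxy : NC S x y) : NC T x y :=
  ⟨h hxy.1, hxy.2.lift id fun _ _ huv => ⟨huv.1, h huv.2⟩⟩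

theorem LRc_loc {B B' : Set Pt} {a b c d : ℤ} (hab : a < b) (h : LRc a b c d (fine B))
    (hB : B ∩ oE (rc a b c d) ⊆ B') : LRc a b c d (fine B') := by
  obtain ⟨x, y, h1, h2, h3⟩ := h
  refine ⟨x, y, nc_mono (Set.inter_subset_inter_left _ (FB.fine_mono hB)) (loc_path h1 ?_), h2, h3⟩
  rintro rfl
  omega

theorem BTc_loc {B B' : Set Pt} {a b c d : ℤ} (hcd : c < d) (h : BTc a b c d (fine B))
    (hB : B ∩ oE (rc a b c d) ⊆ B') : BTc a b c d (fine B') := by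
  obtain ⟨x, y, h1, h2, h3⟩ := h
  refine ⟨x, y, nc_mono (Set.inter_subset_inter_left _ (FB.fine_mono hB)) (loc_path h1 ?_), h2, h3⟩
  rintro rfl
  omega

theorem rc_finite (a b c d : ℤ) : (rc a b c d).Finite := by
  refine ((Set.finite_Icc (2 * a) (2 * b)).prod (Set.finite_Icc (2 * c) (2 * d))).subset ?_
  intro z hz
  obtain ⟨h1, h2, h3, h4⟩ := hz
  exact ⟨⟨h1, h2⟩, h3, h4⟩

theorem oE_finite (a b c d : ℤ) : (oE (rc a b c d)).Finite :=
  ((rc_finite a b c d).subset fun _ hz => hz.1).image _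

/-- The faces next to a horizontal edge. -/
theorem vx_hor {z : Pt} (h1 : Odd z.1) (h2 : Even z.2) :
    o1 (vx z) = af ((z.1 - 1) / 2, z.2 / 2 - 1) ∧ o2 (vx z) = af ((z.1 - 1) / 2, z.2 / 2) := by
  obtain ⟨x, hx⟩ := h1
  obtain ⟨y, hy⟩ := h2
  have e : vx z = (x + y + 1, x - y + 1) := by
    unfold vx
    exact Prod.ext (by simp only; omega) (by simp only; (clear * - hx hy; omega))
  have he : Even ((x + y + 1) + (x - y + 1)) := ⟨x + 1, by ring⟩
  rw [e]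
  unfold o1 o2 af
  simp only [he, if_true, Prod.mk.injEq]
  omega

/-- The faces next to a vertical edge. -/
theorem vx_ver {z : Pt} (h1 : Even z.1) (h2 : Odd z.2) :
    o1 (vx z) = af (z.1 / 2, (z.2 - 1) / 2) ∧ o2 (vx z) = af (z.1 / 2 - 1, (z.2 - 1) / 2) := by
  obtain ⟨x, hx⟩ := h1
  obtain ⟨y, hy⟩ := h2
  have e : vx z = (x + y + 1, x - y) := by
    unfold vx
    exact Prod.ext (by simp only; omega) (by simp only; omega)
  have he : ¬ Even ((x + y + 1) + (x - y)) := by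
    rw [Int.even_iff]
    omega
  rw [e]
  unfold o1 o2 af
  simp only [he, if_false, Prod.mk.injEq]
  omega

theorem loc_af_inj {f g : ℤ × ℤ} (h : af f = af g) : f = g := by
  simp only [af, Prod.mk.injEq] at h
  exact Prod.ext (by omega) (by omega)

/-- Edges in a rectangle of the annulus. -/
theorem oE_sub {p : ℤ × ℤ} {r a b c d : ℤ} (ha : p.1 - 2 * r ≤ a)
    (hb : b ≤ p.1 + 2 * r) (hc : p.2 - 2 * r ≤ c) (hd : d ≤ p.2 + 2 * r) (hab : a < b)
    (hcd : c < d) (h : p.1 + r ≤ a ∨ b ≤ p.1 - r ∨ p.2 + r ≤ c ∨ d ≤ p.2 - r) :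
    oE (rc a b c d) ⊆ {w | w ∈ tE (bx p (2 * r)) ∧ w ∉ iE (bx p r)} := by
  rintro w ⟨z, ⟨⟨h1, h2, h3, h4⟩, ho⟩, rfl⟩
  by_cases hz : Odd z.1
  · have hz2 : Even z.2 := by
      rw [Int.odd_iff] at hz ho
      rw [Int.even_iff]
      omega
    obtain ⟨k1, k2⟩ := vx_hor hz hz2
    rw [Int.odd_iff] at hz
    rw [Int.even_iff] at hz2
    constructor
    · by_cases hh : z.2 = 2 * d
      · refine ⟨_, ?_, Or.inl k1⟩
        simp only [bx, Set.mem_ofPred_eq]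
        omega
      · refine ⟨_, ?_, Or.inr k2⟩
        simp only [bx, Set.mem_ofPred_eq]
        omega
    · rintro ⟨f, hf, g, hg, h5, h6⟩
      have e1 := loc_af_inj (k1.symm.trans h5)
      have e2 := loc_af_inj (k2.symm.trans h6)
      rw [← e1] at hf
      rw [← e2] at hg
      simp only [bx, Set.mem_ofPred_eq] at hf hg
      omega
  · have hz1 : Even z.1 := Int.not_odd_iff_even.1 hz
    have hz2 : Odd z.2 := by
      rw [Int.odd_iff] at ho ⊢
      rw [Int.even_iff] at hz1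
      omega
    obtain ⟨k1, k2⟩ := vx_ver hz1 hz2
    rw [Int.even_iff] at hz1
    rw [Int.odd_iff] at hz2
    constructor
    · by_cases hh : z.1 = 2 * b
      · refine ⟨_, ?_, Or.inr k2⟩
        simp only [bx, Set.mem_ofPred_eq]
        omega
      · refine ⟨_, ?_, Or.inl k1⟩
        simp only [bx, Set.mem_ofPred_eq]
        omega
    · rintro ⟨f, hf, g, hg, h5, h6⟩
      have e1 := loc_af_inj (k1.symm.trans h5)
      have e2 := loc_af_inj (k2.symm.trans h6)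
      rw [← e1] at hf
      rw [← e2] at hg
      simp only [bx, Set.mem_ofPred_eq] at hf hg
      omega

theorem Zr_mono {p : ℤ × ℤ} {r : ℤ} {B B' : Set Pt} (h : B ⊆ B') (hZ : Zr p r B) : Zr p r B' := by
  have key : ∀ {S T : Set Pt}, S ⊆ T → Ann p.1 p.2 r S → Ann p.1 p.2 r T := by
    rintro S T hST ⟨⟨x, y, h1, h2⟩, ⟨x', y', h1', h2'⟩, ⟨x₂, y₂, k1, k2⟩, x₃, y₃, k1', k2'⟩
    exact ⟨⟨x, y, nc_mono (Set.inter_subset_inter_left _ hST) h1, h2⟩,
      ⟨x', y', nc_mono (Set.inter_subset_inter_left _ hST) h1', h2'⟩,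
      ⟨x₂, y₂, nc_mono (Set.inter_subset_inter_left _ hST) k1, k2⟩,
      x₃, y₃, nc_mono (Set.inter_subset_inter_left _ hST) k1', k2'⟩
  exact key (FB.fine_mono h) hZ

theorem not_Zr_empty (p : ℤ × ℤ) (r : ℤ) : ¬ Zr p r ∅ := by
  rintro ⟨⟨x, y, ⟨⟨h, -⟩, -⟩, -⟩, -⟩
  rcases h with ⟨-, h⟩ | ⟨-, -, q, -, h⟩ <;> exact h

theorem Zr_loc {p : ℤ × ℤ} {r : ℤ} (hr : 1 ≤ r) {B B' : Set Pt} (hZ : Zr p r B)
    (h : B ∩ (oE (rc (p.1 - 2 * r) (p.1 + 2 * r) (p.2 + r) (p.2 + 2 * r)) ∪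
      oE (rc (p.1 - 2 * r) (p.1 + 2 * r) (p.2 - 2 * r) (p.2 - r)) ∪
      oE (rc (p.1 - 2 * r) (p.1 - r) (p.2 - 2 * r) (p.2 + 2 * r)) ∪
      oE (rc (p.1 + r) (p.1 + 2 * r) (p.2 - 2 * r) (p.2 + 2 * r))) ⊆ B') : Zr p r B' := by
  obtain ⟨h1, h2, h3, h4⟩ := hZ
  refine ⟨LRc_loc (by omega) h1 fun z hz => h ⟨hz.1, Or.inl (Or.inl (Or.inl hz.2))⟩,
    LRc_loc (by omega) h2 fun z hz => h ⟨hz.1, Or.inl (Or.inl (Or.inr hz.2))⟩,
    BTc_loc (by omega) h3 fun z hz => h ⟨hz.1, Or.inl (Or.inr hz.2)⟩,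
    BTc_loc (by omega) h4 fun z hz => h ⟨hz.1, Or.inr hz.2⟩⟩

theorem s_loc : S_loc := by
  intro p r hr
  constructor
  · intro B B' hB
    unfold ind
    split_ifs with h1 h2
    · exact le_rfl
    · exact absurd (Zr_mono hB h1) h2
    · exact zero_le_one
    · exact le_rfl
  · refine ⟨fun B => ?_, ?_, ?_⟩
    · unfold ind
      split_ifs
      · exact zero_le_one
      · exact le_rfl
    · have hfin := (((oE_finite (p.1 - 2 * r) (p.1 + 2 * r) (p.2 + r) (p.2 + 2 * r)).union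
        (oE_finite (p.1 - 2 * r) (p.1 + 2 * r) (p.2 - 2 * r) (p.2 - r))).union
        (oE_finite (p.1 - 2 * r) (p.1 - r) (p.2 - 2 * r) (p.2 + 2 * r))).union
        (oE_finite (p.1 + r) (p.1 + 2 * r) (p.2 - 2 * r) (p.2 + 2 * r))
      refine ⟨hfin.toFinset, ?_, ?_⟩
      · intro w hw
        rw [Set.Finite.mem_toFinset] at hw
        rcases hw with ((hw | hw) | hw) | hw
        · exact oE_sub (by omega) (by omega) (by omega) (by omega) (by omega) (by omega)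
            (by omega) hw
        · exact oE_sub (by omega) (by omega) (by omega) (by omega) (by omega) (by omega)
            (by omega) hw
        · exact oE_sub (by omega) (by omega) (by omega) (by omega) (by omega) (by omega)
            (by omega) hw
        · exact oE_sub (by omega) (by omega) (by omega) (by omega) (by omega) (by omega)
            (by omega) hw
      · intro B B' h
        have key : Zr p r B ↔ Zr p r B' := by
          constructor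
          · intro hZ
            exact Zr_loc hr hZ fun z hz => (h z (by
              rw [Set.Finite.mem_toFinset]; exact hz.2)).1 hz.1
          · intro hZ
            exact Zr_loc hr hZ fun z hz => (h z (by
              rw [Set.Finite.mem_toFinset]; exact hz.2)).2 hz.1
        by_cases hB : Zr p r B
        · unfold ind
          rw [if_pos hB, if_pos (key.1 hB)]
        · unfold ind
          rw [if_neg hB, if_neg fun h => hB (key.2 h)]
    · unfold ind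
      rw [if_neg (not_Zr_empty p r)]

end Vale.Agent.P145.X
end

section

/-!
# P145, block F-X: gaps between the circuits and moments given a circuit

`s_gap` and `s_emom`: consequences of the exploration from inside `S_ext`.
-/

namespace Vale.Agent.P145.X

open Filter Topology Set MeasureTheory
open Vale.Agent.P152 (Ori)
open Vale.Agent.P145.FB (Pt Mk e1 e2 o1 o2 Ann MU bl fine mkm om)
open Vale.Agent.P145.Top (Om Cone)

namespace Gap

/-! ### Geometry -/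

lemma bx_mono (p : ℤ × ℤ) {r r' : ℤ} (h : r ≤ r') : bx p r ⊆ bx p r' := by
  rintro f ⟨h1, h2, h3, h4⟩
  exact ⟨by omega, by omega, by omega, by omega⟩

lemma tE_mono {F F' : Set (ℤ × ℤ)} (h : F ⊆ F') : tE F ⊆ tE F' := by
  rintro w ⟨f, hf, hw⟩
  exact ⟨f, h hf, hw⟩

lemma iE_mono {F F' : Set (ℤ × ℤ)} (h : F ⊆ F') : iE F ⊆ iE F' := by
  rintro w ⟨f, hf, g, hg, hw⟩
  exact ⟨f, h hf, g, h hg, hw⟩

/-- The other face of an edge is a neighbour. -/
lemma tE_sub_iE (p : ℤ × ℤ) (r : ℤ) : tE (bx p r) ⊆ iE (bx p (r + 1)) := by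
  rintro ⟨x, y⟩ ⟨⟨a, b⟩, ⟨h1, h2, h3, h4⟩, hw⟩
  simp only at h1 h2 h3 h4
  have key : ∀ f g : ℤ × ℤ, f ∈ bx p (r + 1) → g ∈ bx p (r + 1) → o1 (x, y) = af f →
      o2 (x, y) = af g → ((x, y) : Pt) ∈ iE (bx p (r + 1)) :=
    fun f g hf hg e1 e2 => ⟨f, hf, g, hg, e1, e2⟩
  by_cases hp : Even (x + y)
  · simp only [o1, o2, af, if_pos hp, Prod.mk.injEq] at hw
    rcases hw with ⟨e1, e2⟩ | ⟨e1, e2⟩
    · refine key (a, b) (a, b + 1) ⟨by simp only; omega, by simp only; omega,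
        by simp only; omega, by simp only; omega⟩ ⟨by simp only; omega, by simp only; omega,
        by simp only; omega, by simp only; omega⟩ ?_ ?_
      · simp only [o1, af, if_pos hp, Prod.mk.injEq]; omega
      · simp only [o2, af, if_pos hp, Prod.mk.injEq]; omega
    · refine key (a, b - 1) (a, b) ⟨by simp only; omega, by simp only; omega,
        by simp only; omega, by simp only; omega⟩ ⟨by simp only; omega, by simp only; omega,
        by simp only; omega, by simp only; omega⟩ ?_ ?_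
      · simp only [o1, af, if_pos hp, Prod.mk.injEq]; omega
      · simp only [o2, af, if_pos hp, Prod.mk.injEq]; omega
  · simp only [o1, o2, af, if_neg hp, Prod.mk.injEq] at hw
    rcases hw with ⟨e1, e2⟩ | ⟨e1, e2⟩
    · refine key (a, b) (a - 1, b) ⟨by simp only; omega, by simp only; omega,
        by simp only; omega, by simp only; omega⟩ ⟨by simp only; omega, by simp only; omega,
        by simp only; omega, by simp only; omega⟩ ?_ ?_
      · simp only [o1, af, if_neg hp, Prod.mk.injEq]; omega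
      · simp only [o2, af, if_neg hp, Prod.mk.injEq]; omega
    · refine key (a + 1, b) (a, b) ⟨by simp only; omega, by simp only; omega,
        by simp only; omega, by simp only; omega⟩ ⟨by simp only; omega, by simp only; omega,
        by simp only; omega, by simp only; omega⟩ ?_ ?_
      · simp only [o1, af, if_neg hp, Prod.mk.injEq]; omega
      · simp only [o2, af, if_neg hp, Prod.mk.injEq]; omega

/-! ### Locality -/

lemma LocS.mono {A A' : Set Pt} (h : A ⊆ A') {g : Set Pt → ℝ} (hg : LocS A g) : LocS A' g := by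
  obtain ⟨Λ, h1, h2⟩ := hg
  exact ⟨Λ, fun w hw => h (h1 w hw), h2⟩

lemma Fn.mono {A A' : Set Pt} (h : A ⊆ A') {g : Set Pt → ℝ} (hg : Fn A g) : Fn A' g :=
  ⟨hg.nonneg, LocS.mono h hg.loc, hg.pin⟩

lemma ind_nonneg (Q : Set Pt → Prop) (B : Set Pt) : 0 ≤ ind Q B := by
  unfold ind
  split_ifs <;> norm_num

lemma ind_eq_iff {Q : Set Pt → Prop} {B B' : Set Pt} (h : ind Q B = ind Q B') : Q B ↔ Q B' := by
  unfold ind at h
  by_cases h1 : Q B <;> by_cases h2 : Q B' <;> simp_all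

lemma ind_le {Q : Set Pt → Prop} {B B' : Set Pt} (h : ind Q B ≤ ind Q B') (hB : Q B) : Q B' := by
  unfold ind at h
  by_contra h2
  rw [if_pos hB, if_neg h2] at h
  norm_num at h

/-- The absence of circuits at finitely many scales is local. -/
lemma loc_no {A : Set Pt} (Q : ℕ → Set Pt → Prop) (m n : ℕ)
    (h : ∀ i, m ≤ i → i ≤ n → LocS A (ind (Q i))) :
    LocS A (ind fun B => ∀ i, m ≤ i → i ≤ n → ¬ Q i B) := by
  classical
  choose! Λ h1 h2 using h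
  refine ⟨(Finset.Icc m n).biUnion Λ, fun w hw => ?_, fun B B' hBB => ?_⟩
  · rw [Finset.mem_biUnion] at hw
    obtain ⟨i, hi, hw⟩ := hw
    rw [Finset.mem_Icc] at hi
    exact h1 i hi.1 hi.2 w hw
  · have h3 : ∀ i, m ≤ i → i ≤ n → (Q i B ↔ Q i B') := fun i hi hi' =>
      ind_eq_iff (h2 i hi hi' B B' fun w hw =>
        hBB w (Finset.mem_biUnion.2 ⟨i, Finset.mem_Icc.2 ⟨hi, hi'⟩, hw⟩))
    have h4 : (∀ i, m ≤ i → i ≤ n → ¬ Q i B) ↔ ∀ i, m ≤ i → i ≤ n → ¬ Q i B' :=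
      forall_congr' fun i => forall_congr' fun hi => forall_congr' fun hi' =>
        not_congr (h3 i hi hi')
    unfold ind
    by_cases h5 : ∀ i, m ≤ i → i ≤ n → ¬ Q i B
    · rw [if_pos h5, if_pos (h4.1 h5)]
    · rw [if_neg h5, if_neg fun h6 => h5 (h4.2 h6)]

lemma anti_no (Q : ℕ → Set Pt → Prop) (m n : ℕ) (h : ∀ i, m ≤ i → i ≤ n → Monotone (ind (Q i))) :
    Antitone (ind fun B => ∀ i, m ≤ i → i ≤ n → ¬ Q i B) := by
  intro B B' hBB
  unfold ind
  by_cases h1 : ∀ i, m ≤ i → i ≤ n → ¬ Q i B'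
  · have h2 : ∀ i, m ≤ i → i ≤ n → ¬ Q i B := fun i hi hi' h3 =>
      h1 i hi hi' (ind_le (h i hi hi' hBB) h3)
    rw [if_pos h1, if_pos h2]
  · rw [if_neg h1]
    split_ifs <;> norm_num

end Gap

open Gap

/-- GAP. -/
theorem s_gap {t : ℝ} {P : Measure (Ori (ℤ × ℤ))} (hE : S_ext t P) (hC : S_cnt t P)
    (hF : S_conf) (hL : S_loc) (_hI : S_int t P) (hR : S_rsw t P) : S_gap t P := by
  intro η hη N
  obtain ⟨n, hn, s₀, hs₀, hs⟩ := hC η hη N
  obtain ⟨c₁, hc₁, r₀, hr₀, hr⟩ := hR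
  refine ⟨n, hn, max s₀ r₀, le_max_of_le_left hs₀, fun s h1 => ?_⟩
  have hs1 : s₀ ≤ s := (le_max_left _ _).trans h1
  have hs2 : r₀ ≤ s := (le_max_right _ _).trans h1
  have hs3 : 1 ≤ s := hs₀.trans hs1
  obtain ⟨j, hj, h2⟩ := hs s hs1
  refine ⟨j, hj, fun p X hX hXm hXZ => ?_⟩
  have h3 := h2 p
  have hpow : ∀ i : ℕ, 1 ≤ (4 : ℤ) ^ i := fun i => one_le_pow₀ (by norm_num)
  have hps : ∀ i : ℕ, 1 ≤ 4 ^ i * s := fun i => by nlinarith only [hs₀, hs1, hpow i]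
  have hps' : ∀ i : ℕ, s ≤ 4 ^ i * s := fun i => by nlinarith only [hs₀, hs1, hpow i]
  have e4 : (4 : ℤ) ^ (j + 1) * s = 4 * (4 ^ j * s) := by rw [pow_succ]; ring
  -- the mass of the circuit is positive
  have hpos : 0 < II t P (ind (Zr p (4 ^ j * s))) (fun _ => 1) :=
    hc₁.trans_le (hr (4 ^ j * s) (hs2.trans (hps' j)) p).1
  have hΘ : Fn (tE (bx p (4 ^ (j + 1) * s))) (ind (Zr p (4 ^ j * s))) := by
    refine Fn.mono (fun w hw => ?_) (hL p (4 ^ j * s) (hps j)).2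
    exact Gap.tE_mono (Gap.bx_mono p (by rw [e4]; linarith only [hps j])) hw.1
  have ha : LocS (tE (bx p (3 * (4 ^ (j + 1) * s))))ᶜ
      (ind fun B => ∀ i, j + 4 ≤ i → i ≤ 2 * n → ¬ Zr p (4 ^ i * s) B) := by
    refine loc_no (fun i => Zr p (4 ^ i * s)) (j + 4) (2 * n) fun i hi _ => ?_
    have e0 : {w | w ∈ tE (bx p (2 * (4 ^ i * s))) ∧ w ∉ iE (bx p (4 ^ i * s))} ⊆
        (tE (bx p (3 * (4 ^ (j + 1) * s))))ᶜ := fun w hw hw' =>
      hw.2 (iE_mono (Gap.bx_mono p ?_) (tE_sub_iE p _ hw'))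
    · exact LocS.mono e0 (hL p (4 ^ i * s) (hps i)).2.loc
    have e5 : (4 : ℤ) ^ (j + 4) * s ≤ 4 ^ i * s :=
      mul_le_mul_of_nonneg_right (pow_le_pow_right₀ (by norm_num) hi) (by linarith only [hs₀, hs1])
    have e6 : (4 : ℤ) ^ (j + 4) * s = 256 * (4 ^ j * s) := by rw [pow_add]; ring
    rw [e4]
    linarith only [e5, e6, hps j]
  have hE' := hE p (4 ^ (j + 1) * s) X (ind (Zr p (4 ^ j * s)))
    (ind fun B => ∀ i, j + 4 ≤ i → i ≤ 2 * n → ¬ Zr p (4 ^ i * s) B) (fun _ => 1) (hps _) hX hXm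
    (fun B hB => hF p _ B (hps _) (hXZ B hB)) hΘ (fun B => Gap.ind_nonneg _ B) ha
    (anti_no (fun i => Zr p (4 ^ i * s)) (j + 4) (2 * n) fun i _ _ => (hL p (4 ^ i * s) (hps i)).1)
    Top.Pol.one (fun _ _ _ => rfl)
  have e7 : (fun B => ind (Zr p (4 ^ j * s)) B *
      ind (fun B => ∀ i, j + 4 ≤ i → i ≤ 2 * n → ¬ Zr p (4 ^ i * s) B) B) =
      ind fun B => Zr p (4 ^ j * s) B ∧ ∀ i, j + 4 ≤ i → i ≤ 2 * n → ¬ Zr p (4 ^ i * s) B := by
    funext B
    by_cases q1 : Zr p (4 ^ j * s) B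
    · by_cases q2 : ∀ i, j + 4 ≤ i → i ≤ 2 * n → ¬ Zr p (4 ^ i * s) B
      · have q3 : Zr p (4 ^ j * s) B ∧ ∀ i, j + 4 ≤ i → i ≤ 2 * n → ¬ Zr p (4 ^ i * s) B :=
          ⟨q1, q2⟩
        simp only [ind]
        rw [if_pos q1, if_pos q2, if_pos q3, one_mul]
      · have q3 : ¬ (Zr p (4 ^ j * s) B ∧ ∀ i, j + 4 ≤ i → i ≤ 2 * n →
            ¬ Zr p (4 ^ i * s) B) := fun h => q2 h.2
        simp only [ind]
        rw [if_neg q2, if_neg q3, mul_zero]
    · have q3 : ¬ (Zr p (4 ^ j * s) B ∧ ∀ i, j + 4 ≤ i → i ≤ 2 * n →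
            ¬ Zr p (4 ^ i * s) B) := fun h => q1 h.1
      simp only [ind]
      rw [if_neg q1, if_neg q3, zero_mul]
  rw [e7] at hE'
  have hX0 : 0 ≤ II t P X (fun _ => 1) := by
    unfold II
    exact integral_nonneg fun x => mul_nonneg (hX.nonneg _) zero_le_one
  have h4 := hE'.trans (mul_le_mul_of_nonneg_left h3 hX0)
  refine le_of_mul_le_mul_right (h4.trans_eq ?_) hpos
  ring

/-- Moments given a monotone event which contains a circuit. -/
theorem s_emom {t : ℝ} {P : Measure (Ori (ℤ × ℤ))} (hE : S_ext t P) (hF : S_conf) (hL : S_loc) :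
    S_emom t P := by
  intro p s X A hs hX hXm hXZ hA hAon
  have e1 : (2 : ℤ) * (4 * s) = 8 * s := by ring
  have hΘ : Fn (tE (bx p (4 * s))) (ind (Zr p s)) := by
    refine Fn.mono (fun w hw => ?_) (hL p s hs).2
    exact Gap.tE_mono (Gap.bx_mono p (by linarith)) hw.1
  have h1 := hE p (4 * s) X (ind (Zr p s)) (fun _ => 1) A (by linarith) hX hXm
    (fun B hB => hF p _ B (by linarith) (hXZ B hB)) hΘ (fun _ => zero_le_one)
    ⟨∅, fun w hw => absurd hw (Finset.notMem_empty w), fun _ _ _ => rfl⟩ (fun _ _ _ => le_rfl)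
    hA (by rw [e1]; exact hAon)
  simpa only [mul_one] using h1

end Vale.Agent.P145.X
end

section

/-!
P145, block F-B, item (R1): crossings and circuits of open bonds with spin plus at all scales, from
association, the symmetries of the arrow measure and the bound for long arms.
-/

namespace Vale.Agent.P145.FB

open MeasureTheory
open Vale.Agent.P152 Vale.Agent.P145.FA

theorem symS {P : Measure (Ori (ℤ × ℤ))} [IsProbabilityMeasure P] (hP : SymM P)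
    (hice : ∀ᵐ a ∂P, ∀ x y, Ice a x y) (t : ℝ) : SymS t P where
  shift a b _ hQ := SPev_shift hP hice t a b hQ
  reflx _ hQ := SPev_reflx hP hice t hQ
  refly _ hQ := SPev_refly hP hice t hQ
  swap _ hQ := SPev_swap hP hice t hQ

/-- **(R1)**, rectangles. -/
theorem r1_rect {t : ℝ} {P : Measure (Ori (ℤ × ℤ))} [IsProbabilityMeasure P] (hP : SymM P)
    (hice : ∀ᵐ a ∂P, ∀ x y, Ice a x y) (h0 : 1 / 2 ≤ t) (h1 : t ≤ 1) (hA : Assoc t P)
    (harm : ∀ c : ℝ, 0 < c → ∀ M0 : ℤ, ∃ M : ℤ, M0 ≤ M ∧ ∃ s0 : ℤ, ∀ s : ℤ, s0 ≤ s →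
      (J t P).real {x | Arm s (2 * M * s) (SP x)} < c) (k : ℕ) :
    ∃ c : ℝ, 0 < c ∧ ∃ r0 : ℤ, ∀ r : ℤ, r0 ≤ r →
      c ≤ (J t P).real {x | LRc 0 (k * r) 0 r (SQ x)} :=
  r1_long hice hA (symS hP hice t) (by norm_num : (0 : ℝ) < 1 / 4) (N := 1)
    (fun _ hn => square hP hice h0 h1 hn) harm k

/-- **(R1)**, circuits, around every centre. -/
theorem r1_circ {t : ℝ} {P : Measure (Ori (ℤ × ℤ))} [IsProbabilityMeasure P] (hP : SymM P)
    (hice : ∀ᵐ a ∂P, ∀ x y, Ice a x y) (h0 : 1 / 2 ≤ t) (h1 : t ≤ 1) (hA : Assoc t P)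
    (harm : ∀ c : ℝ, 0 < c → ∀ M0 : ℤ, ∃ M : ℤ, M0 ≤ M ∧ ∃ s0 : ℤ, ∀ s : ℤ, s0 ≤ s →
      (J t P).real {x | Arm s (2 * M * s) (SP x)} < c) :
    ∃ c : ℝ, 0 < c ∧ ∃ r0 : ℤ, ∀ r : ℤ, r0 ≤ r → ∀ p q : ℤ,
      c ≤ (J t P).real {x | Ann p q r (SQ x)} :=
  r1_ann hice hA (symS hP hice t) (by norm_num : (0 : ℝ) < 1 / 4) (N := 1)
    (fun _ hn => square hP hice h0 h1 hn) harm

end Vale.Agent.P145.FB
end

section

/-!
P145, X-level: circuits at level `0` exist with positive mass at all scales (`S_rsw`), from the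
circuits of item (R1).
-/

namespace Vale.Agent.P145.X

open MeasureTheory
open Vale.Agent.P152 (Ori)
open Vale.Agent.P145.FA (Hgt)
open Vale.Agent.P145.FB

/-- The mass of a circuit at level `0`. -/
theorem rsw_II {t : ℝ} {P : Measure (Ori (ℤ × ℤ))} [IsProbabilityMeasure P]
    (hice : ∀ᵐ a ∂P, ∀ x y, P152.Ice a x y) (p : ℤ × ℤ) (r : ℤ) :
    II t P (ind (Zr p r)) (fun _ => 1) =
      (Jmu t P {x | Ann p.1 p.2 r (fine (bl x))}).toReal := by
  classical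
  have hm : MeasurableSet {x : Hgt × Mk | Ann p.1 p.2 r (fine (bl x))} :=
    (levFam_Ann p.1 p.2 r).meas 0
  unfold II
  rw [MU_eq_Jmu hice]
  have h1 : (fun x : Hgt × Mk => ind (Zr p r) (bl x) * 1) =
      Set.indicator {x : Hgt × Mk | Ann p.1 p.2 r (fine (bl x))} (fun _ => (1 : ℝ)) := by
    funext x
    rw [mul_one]
    by_cases h : Ann p.1 p.2 r (fine (bl x))
    · rw [Set.indicator_of_mem (show x ∈ {x : Hgt × Mk | Ann p.1 p.2 r (fine (bl x))} from h)]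
      exact if_pos h
    · rw [Set.indicator_of_notMem (show x ∉ {x : Hgt × Mk | Ann p.1 p.2 r (fine (bl x))} from h)]
      exact if_neg h
  rw [h1, integral_indicator hm, integral_const, smul_eq_mul, mul_one, measureReal_restrict_apply
    MeasurableSet.univ, Set.univ_inter]
  rfl

/-- RSW, from circuits of open bonds at all scales. -/
theorem s_rsw_of {t : ℝ} {P : Measure (Ori (ℤ × ℤ))} [IsProbabilityMeasure P]
    (hice : ∀ᵐ a ∂P, ∀ x y, P152.Ice a x y)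
    (h : ∃ c : ℝ, 0 < c ∧ ∃ r0 : ℤ, ∀ r : ℤ, r0 ≤ r → ∀ p q : ℤ,
      c ≤ (J t P).real {x | Ann p q r (SQ x)}) : S_rsw t P := by
  obtain ⟨c, hc, r0, hr⟩ := h
  refine ⟨2 * c, by positivity, max r0 1, le_max_right _ _, fun r hr0 p => ?_⟩
  have h1 : 0 < r := lt_of_lt_of_le one_pos ((le_max_right _ _).trans hr0)
  have h2 := hr r ((le_max_left _ _).trans hr0) p.1 p.2
  have h3 : Jmu t P {x | Ann p.1 p.2 r (fine (bl x))} ≤ 2 := Jmu_Ann_le h1
  have h4 := Jmu_Ann_ge hice h1 h2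
  rw [rsw_II hice]
  have h5 : Jmu t P {x | Ann p.1 p.2 r (fine (bl x))} ≠ ⊤ := ne_top_of_le_ne_top (by norm_num) h3
  refine ⟨(ENNReal.ofReal_le_iff_le_toReal h5).1 h4, ?_⟩
  have := ENNReal.toReal_mono (by norm_num) h3
  simpa using this

/-- RSW. -/
theorem s_rsw {t : ℝ} {P : Measure (Ori (ℤ × ℤ))} [IsProbabilityMeasure P] (hP : SymM P)
    (hice : ∀ᵐ a ∂P, ∀ x y, P152.Ice a x y) (h0 : 1 / 2 ≤ t) (h1 : t ≤ 1) (hA : Assoc t P)
    (harm : ∀ c : ℝ, 0 < c → ∀ M0 : ℤ, ∃ M : ℤ, M0 ≤ M ∧ ∃ s0 : ℤ, ∀ s : ℤ, s0 ≤ s →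
      (J t P).real {x | Arm s (2 * M * s) (SP x)} < c) : S_rsw t P :=
  s_rsw_of hice (r1_circ hP hice h0 h1 hA harm)

end Vale.Agent.P145.X
end

section

/-!
# P145, block F-A: the plane measure of P152, `1 ≤ c ≤ 2`
-/

namespace Vale.Agent.P145.FA

open Finset Filter Topology MeasureTheory
open Vale.Agent.P152 Vale.Agent.P152.GFF.B3 Vale.Agent.P152.GFF.E2

/-- All plane inputs of block F-A from the output of block E2 of P152. -/
theorem pl_grp_of_uqC {c : ℝ} (hc : 1 ≤ c) (hc2 : c ≤ 2) (hu : UqC c)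
    {P : Measure (Ori (ℤ × ℤ))} (hP : IsP c P) :
    Pl c P ∧ GRP P dX RX ∧ GRP P dY RY ∧ GRP P dD RD ∧ GRP P dA RA :=
  ⟨pl_of_sym hP (stB_sym2 c (by linarith) hc2 P hP), grp_of_uqC hc hc2 hu hP⟩

end Vale.Agent.P145.FA
end

section

/-!
P145: all properties of the plane six-vertex measure, `1 ≤ c ≤ 2`, in one structure.
-/

set_option autoImplicit false

namespace Vale.Agent.P145.FA

open Finset Filter Topology MeasureTheory
open Vale.Agent.P152 Vale.Agent.P152.GFF.B3 Vale.Agent.P152.GFF.E2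
open Vale.Agent.P152.GFF (Pln ChP TorI VarLim)
open Vale.Agent.P152.GFF.S (GD SliceCLT)

/-- The plane measure `P` of the six-vertex model with weights `1, 1, c`, with stiffness `κ`. -/
structure PlIn (c : ℝ) (P : Measure (Ori (ℤ × ℤ))) (κ : ℝ) : Prop where
  prob : IsProbabilityMeasure P
  isP : IsP c P
  pl : Pl c P
  ice : ∀ᵐ ω ∂P, ∀ x y, Ice ω x y
  sym : SymP P
  symM : FB.SymM P
  lim : IsLimit c P
  pln : Pln c P
  chP : ChP c P
  tor : FB.TorL c P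
  swap : FB.Swap c P
  box : BoxLim c
  grp : GRP P dX RX ∧ GRP P dY RY ∧ GRP P dD RD ∧ GRP P dA RA
  inv : ∀ a : ℤ × ℤ, (2 : ℤ) ∣ a.1 + a.2 → (mu0 P).map (pb (fun q => q + a)) = mu0 P
  hyp : FP.Hyp P
  κpos : 0 < κ
  clt : CLT P κ
  charLim : FB.AC.CharLim P κ
  slice : SliceCLT P κ
  varLim : VarLim P κ
  gd : ∃ C : ℝ, 0 ≤ C ∧ GD P C
  egd : ∃ C > 0, ∃ γ > 0, FB.Mom.EGD P C γ
  ac : FB.AC.Stmt P

theorem plIn_of {c : ℝ} (hc : 1 ≤ c) (hc2 : c ≤ 2) {P : Measure (Ori (ℤ × ℤ))} (hP : IsP c P)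
    (hPl : Pln c P) (hch : ChP c P) (hpos : ∀ κ : ℝ, 0 ≤ κ → VarLim P κ → 0 < κ)
    (hb : BoxLim c) (hdec : Tendsto (fun m : ℕ => Cc P 0 m) atTop (𝓝 0))
    (hE : ∃ C > 0, ∃ γ > 0, FB.Mom.EGD P C γ) : ∃ κ : ℝ, PlIn c P κ := by
  have hc0 : 0 < c := by linarith
  have := hPl.prob
  obtain ⟨κ, hκ, hS, hV⟩ := GFF.gen_slice hc0 hPl hch GFF.stWeak
  have hκ0 := hpos κ hκ hV
  have hsym : SymP P := stB_sym2 c hc0 hc2 P hP
  obtain ⟨hsub, hice⟩ := hPl.ice
  obtain ⟨C, hC, hgd⟩ := hPl.gd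
  have hgrp := grp_of_box hc hc2 hb hP hsym
  have hpl : Pl c P := pl_of_sym hP hsym
  have hht : ∀ᵐ ω ∂P, IsHeight ω (pth ω) := by
    filter_upwards [hice] with ω hω
    exact pth_isHeight hω
  have hclt : CLT P κ := fun F hF =>
    GFF.S.char_limit' hC hgd hice hS (fun ω => pth ω) hht hF
  have htor : FB.TorL c P := hPl.tor
  exact ⟨κ, {
    prob := hPl.prob
    isP := hP
    pl := hpl
    ice := hice
    sym := hsym
    symM := ⟨hsym.1, hsym.2.1, hsym.2.2.1, hsym.2.2.2⟩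
    lim := hPl.lim
    pln := hPl
    chP := hch
    tor := htor
    swap := FB.swap_of_torL htor
    box := hb
    grp := hgrp
    inv := (s_inv c P hpl).1
    hyp := hyp_hi hP hsym ⟨C, hC, hgd⟩ hgrp.1 hdec
    κpos := hκ0
    clt := hclt
    charLim := hclt
    slice := hS
    varLim := hV
    gd := ⟨C, hC, hgd⟩
    egd := hE
    ac := FB.AC.main hC hgd hice hκ0 hclt }⟩

lemma tendsto_col {f : ℤ × ℤ → ℝ} (h : Tendsto f cofinite (𝓝 0)) :
    Tendsto (fun m : ℕ => f (0, (m : ℤ))) atTop (𝓝 0) := by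
  have h2 : Tendsto (fun m : ℕ => ((0, (m : ℤ)) : ℤ × ℤ)) atTop cofinite := by
    rw [← Nat.cofinite_eq_atTop]
    refine Function.Injective.tendsto_cofinite ?_
    intro a b hab
    simpa using hab
  exact h.comp h2

lemma dec_lo {c : ℝ} (hc0 : 0 < c) (hc2 : c ^ 2 ≤ 2) {P : Measure (Ori (ℤ × ℤ))}
    (hP : IsP c P) : Tendsto (fun m : ℕ => Cc P 0 m) atTop (𝓝 0) := by
  obtain ⟨C0, _, hCc⟩ := m_Cc c hc0 hc2 (s_a6 c hc0 hc2)
  exact tendsto_col (hCc P hP).2.2.1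

lemma egd_lo {c : ℝ} (hc0 : 0 < c) (hc2 : c ^ 2 ≤ 2) {P : Measure (Ori (ℤ × ℤ))}
    (hP : IsP c P) : ∃ C > 0, ∃ γ > 0, FB.Mom.EGD P C γ := by
  obtain ⟨C, hC, γ, hγ, hE⟩ := FB.Mom.egd m_GD m_muI m_tsym m_loc m_emb hc0 hc2
    (s_a6 c hc0 hc2)
  exact ⟨C, hC, γ, hγ, hE P hP⟩

/-- `1 ≤ c`, `c² ≤ 2`. -/
theorem exists_plIn_lo {c : ℝ} (hc : 1 ≤ c) (hc2 : c ^ 2 ≤ 2) :
    ∃ (P : Measure (Ori (ℤ × ℤ))) (κ : ℝ), PlIn c P κ := by
  have hc0 : 0 < c := by linarith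
  obtain ⟨P, hP, hPl, hch, hpos⟩ := GFF.lo_all hc0 hc2
  obtain ⟨κ, h⟩ := plIn_of hc (by nlinarith only [hc2]) hP hPl hch hpos (boxLim_of_sq hc0 hc2)
    (dec_lo hc0 hc2 hP) (egd_lo hc0 hc2 hP)
  exact ⟨P, κ, h⟩

/-- `√2 < c ≤ 2`. -/
theorem exists_plIn_hi {c : ℝ} (hc : 1 ≤ c) (h2 : 2 < c ^ 2) (hc2 : c ≤ 2) :
    ∃ (P : Measure (Ori (ℤ × ℤ))) (κ : ℝ), PlIn c P κ := by
  have hc0 : 0 < c := by linarith
  have hA : A6 (wc c) := by
    rcases hc2.lt_or_eq with h | h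
    · exact GFF.a6_all hc0 h
    · rw [h]
      exact GFF.A6u.a6_two
  have hu : UqC c := uqC hc0 h2 hc2
  obtain ⟨P, hP⟩ := stB_exist2 c hc0 hc2 hu
  obtain ⟨hsh, htr, hrev, -⟩ := stB_sym2 c hc0 hc2 P hP
  have htor := stB_tor2 c hu P hP
  obtain ⟨C, hC, hgd⟩ := stB_gd2 c hc0 hc2 hu hA
  have hPl : Pln c P := ⟨hP.1, hP.2.1, htor, hsh, htr, hrev, C, hC, hgd P hP⟩
  have hR : GFF.Rng c P := ⟨(stB_ice2 c hc0 hc2 P hP).2,
    stB_col2 stB_gd2 stB_sym2 c hc0 hc2 hu hA P hP,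
    stB_cov c hc0 P hP.1 htor hsh, stB_loc2 c hc0 hu⟩
  obtain ⟨CE, hCE, γ, hγ, hE⟩ := FB.Mom.egd_hi hc0 hc2 hu hA
  obtain ⟨κ, h⟩ := plIn_of hc hc2 hP hPl (GFF.hi_chP hc0 h2 hc2 hPl hR)
    (fun κ hκ hV => GFF.hi_kappa hc0 h2 hc2 hPl hR hκ hV) (boxLim_of_uqC hu)
    (GFF.hi_decay hc0 h2 hc2 hPl hR) ⟨CE, hCE, γ, hγ, hE P hP⟩
  exact ⟨P, κ, h⟩

/-- The plane measure for all `1 ≤ c ≤ 2`. -/
theorem exists_plIn {c : ℝ} (hc : 1 ≤ c) (hc2 : c ≤ 2) :
    ∃ (P : Measure (Ori (ℤ × ℤ))) (κ : ℝ), PlIn c P κ := by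
  rcases le_or_gt (c ^ 2) 2 with h | h
  · exact exists_plIn_lo hc h
  · exact exists_plIn_hi hc h hc2

end Vale.Agent.P145.FA
end

section

/-!
P145, block F-B, (A): counting form of the duality on the face grid of a box.
-/

namespace Vale.Agent.P145.FB.AsD

open Finset

variable {m r : ℕ}

/-- The sign. -/
def s2 (x : ZMod 2) : ℝ := if x = 0 then 1 else -1

lemma s2_zero : s2 0 = 1 := if_pos rfl

lemma s2_one : s2 1 = -1 := if_neg one_ne_zero

lemma s2_add (x y : ZMod 2) : s2 (x + y) = s2 x * s2 y := by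
  rcases z2c x with rfl | rfl <;> rcases z2c y with rfl | rfl
  · rw [add_zero, s2_zero, mul_one]
  · rw [zero_add, s2_zero, one_mul]
  · rw [add_zero, s2_zero, mul_one]
  · rw [z2, s2_zero, s2_one]
    norm_num

lemma s2_sum {ι : Type*} (s : Finset ι) (f : ι → ZMod 2) : s2 (∑ i ∈ s, f i) = ∏ i ∈ s, s2 (f i) := by
  classical
  induction s using Finset.induction_on with
  | empty => exact s2_zero
  | insert a s ha ih => rw [Finset.sum_insert ha, Finset.prod_insert ha, s2_add, ih]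

lemma one_add_s2 (x : ZMod 2) : 1 + s2 x = if x = 0 then 2 else 0 := by
  rcases z2c x with rfl | rfl
  · rw [s2_zero, if_pos rfl]; norm_num
  · rw [s2_one, if_neg one_ne_zero]; norm_num

/-- Closed `κ` supported outside `ω`. -/
def CC (p : ℕ) (ω : Finset (Vt m r)) : Finset (Vt m r → ZMod 2) :=
  univ.filter fun κ => (∀ v ∈ ω, κ v = 0) ∧ ∀ f : Fc m r, (f.1.val + f.2.val + p) % 2 = 1 → cl p κ f = 0

/-- Number of the `ξ`, zero on the rim, with `dx ξ = 0` on `ω`. -/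
def NE (p : ℕ) (ω : Finset (Vt m r)) : ℕ :=
  (univ.filter fun ξ : Fc m r → ZMod 2 => (∀ f, Rim f → ξ f = 0) ∧ ∀ v ∈ ω, dx p ξ v = 0).card

/-- Number of the `ρ` with `dO ρ = 0` on `D`. -/
def NO (p : ℕ) (D : Finset (Vt m r)) : ℕ :=
  (univ.filter fun ρ : Fc m r → ZMod 2 => ∀ v ∈ D, dO p ρ v = 0).card

lemma dx_add (p : ℕ) (ξ ξ' : Fc m r → ZMod 2) (v : Vt m r) :
    dx p (ξ + ξ') v = dx p ξ v + dx p ξ' v := by
  unfold dx
  rw [Pi.add_apply, Pi.add_apply]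
  ring

lemma NE_eq (p : ℕ) (ω : Finset (Vt m r)) : NE p ω = NE p (univ : Finset (Vt m r)) * (CC p ω).card := by
  classical
  unfold NE
  rw [Finset.card_eq_sum_card_fiberwise (f := fun ξ => dx p ξ) (t := CC p ω)]
  · rw [Finset.sum_congr rfl (g := fun _ => (univ.filter fun ξ : Fc m r → ZMod 2 =>
      (∀ f, Rim f → ξ f = 0) ∧ ∀ v ∈ (univ : Finset (Vt m r)), dx p ξ v = 0).card)]
    · rw [Finset.sum_const, smul_eq_mul, mul_comm]
    · intro κ hκ
      have hκ' := (Finset.mem_filter.1 hκ).2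
      obtain ⟨ξ0, h1, h2⟩ := exists_potential p κ hκ'.2
      refine Finset.card_bij (fun ξ _ => ξ + ξ0) ?_ ?_ ?_
      · intro ξ hξ
        rw [Finset.mem_filter, Finset.mem_filter] at hξ
        obtain ⟨⟨_, hr, _⟩, hd⟩ := hξ
        rw [Finset.mem_filter]
        refine ⟨Finset.mem_univ _, fun f hf => ?_, fun v _ => ?_⟩
        · rw [Pi.add_apply, hr f hf, h1 f hf, add_zero]
        · rw [dx_add, h2, show dx p ξ v = κ v from congrFun hd v]
          exact z2 _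
      · intro ξ _ ξ' _ h
        exact add_right_cancel h
      · intro ζ hζ
        rw [Finset.mem_filter] at hζ
        obtain ⟨_, hr, hd⟩ := hζ
        have hk : ∀ v, dx p (ζ + ξ0) v = κ v := fun v => by
          rw [dx_add, hd v (Finset.mem_univ _), h2, zero_add]
        refine ⟨ζ + ξ0, ?_, ?_⟩
        · rw [Finset.mem_filter, Finset.mem_filter]
          refine ⟨⟨Finset.mem_univ _, fun f hf => ?_, fun v hv => ?_⟩, funext hk⟩
          · rw [Pi.add_apply, hr f hf, h1 f hf, add_zero]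
          · rw [hk]; exact hκ'.1 v hv
        · rw [add_assoc]
          have : ξ0 + ξ0 = 0 := funext fun f => z2 _
          rw [this, add_zero]
  · intro ξ hξ
    have hξ' := (Finset.mem_filter.1 (Finset.mem_coe.1 hξ)).2
    refine Finset.mem_coe.2 (Finset.mem_filter.2 ⟨Finset.mem_univ _, fun v hv => hξ'.2 v hv, ?_⟩)
    intro f hf
    exact cl_dx p ξ hξ'.1 f hf

lemma cl_even (p : ℕ) (κ : Vt m r → ZMod 2) (f : Fc m r)
    (hf : (f.1.val + f.2.val + p) % 2 = 0) : cl p κ f = 0 := by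
  unfold cl
  refine Finset.sum_eq_zero fun v _ => ?_
  have h1 : po p v ≠ f := by
    rintro rfl
    unfold po at hf
    by_cases hv : Ev p v
    · rw [if_pos hv] at hf
      have hv' : (v.1.val + v.2.val + p) % 2 = 0 := hv
      have hf' : (v.1.val + 1 + v.2.val + p) % 2 = 0 := hf
      omega
    · rw [if_neg hv] at hf
      exact hv hf
  have h2 : qo p v ≠ f := by
    rintro rfl
    unfold qo at hf
    by_cases hv : Ev p v
    · rw [if_pos hv] at hf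
      have hv' : (v.1.val + v.2.val + p) % 2 = 0 := hv
      have hf' : (v.1.val + (v.2.val + 1) + p) % 2 = 0 := hf
      omega
    · rw [if_neg hv] at hf
      have hf' : (v.1.val + 1 + (v.2.val + 1) + p) % 2 = 0 := hf
      refine hv ?_
      show (v.1.val + v.2.val + p) % 2 = 0
      omega
  rw [if_neg h1, if_neg h2, add_zero, mul_zero]

lemma pairing (p : ℕ) (κ : Vt m r → ZMod 2) (ρ : Fc m r → ZMod 2) :
    ∑ v, κ v * dO p ρ v = ∑ f, ρ f * cl p κ f := by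
  unfold cl dO
  simp only [Finset.mul_sum]
  rw [Finset.sum_comm]
  refine Finset.sum_congr rfl fun v _ => ?_
  have e : ∀ g : Fc m r, ∑ f, ρ f * (κ v * (if g = f then (1 : ZMod 2) else 0)) = κ v * ρ g := by
    intro g
    rw [Finset.sum_eq_single g]
    · rw [if_pos rfl]; ring
    · intro f _ hf
      rw [if_neg (Ne.symm hf)]; ring
    · intro h; exact absurd (Finset.mem_univ g) h
  calc κ v * (ρ (po p v) + ρ (qo p v)) = κ v * ρ (po p v) + κ v * ρ (qo p v) := by ring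
    _ = ∑ f, ρ f * (κ v * (if po p v = f then (1 : ZMod 2) else 0)) +
        ∑ f, ρ f * (κ v * (if qo p v = f then (1 : ZMod 2) else 0)) := by rw [e, e]
    _ = ∑ f, ρ f * (κ v * ((if po p v = f then (1 : ZMod 2) else 0) +
        (if qo p v = f then 1 else 0))) := by
      rw [← Finset.sum_add_distrib]
      exact Finset.sum_congr rfl fun f _ => by ring

lemma sum_s2 (p : ℕ) (κ : Vt m r → ZMod 2) :
    ∑ ρ : Fc m r → ZMod 2, s2 (∑ v, κ v * dO p ρ v) =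
      if ∀ f : Fc m r, (f.1.val + f.2.val + p) % 2 = 1 → cl p κ f = 0 then
        2 ^ Fintype.card (Fc m r) else 0 := by
  classical
  split_ifs with h
  · have h' : ∀ f, cl p κ f = 0 := by
      intro f
      rcases Nat.mod_two_eq_zero_or_one (f.1.val + f.2.val + p) with hf | hf
      · exact cl_even p κ f hf
      · exact h f hf
    have e : ∀ ρ : Fc m r → ZMod 2, s2 (∑ v, κ v * dO p ρ v) = 1 := by
      intro ρ
      rw [pairing]
      simp only [h', mul_zero, Finset.sum_const_zero]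
      exact s2_zero
    simp only [e]
    rw [Finset.sum_const, Finset.card_univ, Fintype.card_fun, ZMod.card]
    simp only [Fintype.card_prod, Fintype.card_fin, nsmul_eq_mul, Nat.cast_pow, Nat.cast_ofNat, mul_one]
  · push Not at h
    obtain ⟨f0, _, hf0⟩ := h
    have hf1 : cl p κ f0 = 1 := (z2c _).resolve_left hf0
    have key : ∑ ρ : Fc m r → ZMod 2, s2 (∑ v, κ v * dO p ρ v) =
        ∑ ρ : Fc m r → ZMod 2, -s2 (∑ v, κ v * dO p ρ v) := by
      rw [← Equiv.sum_comp (Equiv.addRight (Pi.single f0 (1 : ZMod 2) : Fc m r → ZMod 2))]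
      refine Finset.sum_congr rfl fun ρ _ => ?_
      rw [Equiv.coe_addRight, pairing, pairing]
      have e : ∑ f, (ρ + (Pi.single f0 (1 : ZMod 2) : Fc m r → ZMod 2)) f * cl p κ f = ∑ f, ρ f * cl p κ f + 1 := by
        simp only [Pi.add_apply, add_mul, Finset.sum_add_distrib]
        congr 1
        rw [Finset.sum_eq_single f0]
        · rw [Pi.single_eq_same, one_mul, hf1]
        · intro f _ hf
          rw [Pi.single_eq_of_ne hf, zero_mul]
        · intro h; exact absurd (Finset.mem_univ f0) h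
      rw [e, s2_add, s2_one]
      ring
    rw [Finset.sum_neg_distrib] at key
    linarith only [key]

/-- Fourier form. -/
lemma NO_eq (p : ℕ) (D : Finset (Vt m r)) :
    (2 : ℝ) ^ D.card * NO p D = 2 ^ Fintype.card (Fc m r) * (CC p Dᶜ).card := by
  classical
  have e1 : ∑ ρ : Fc m r → ZMod 2, ∏ v : Vt m r,
      (∑ k : ZMod 2, if v ∈ D then s2 (k * dO p ρ v) else (if k = 0 then (1 : ℝ) else 0)) =
      (2 : ℝ) ^ D.card * NO p D := by
    have h1 : ∀ ρ : Fc m r → ZMod 2, ∏ v : Vt m r,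
        (∑ k : ZMod 2, if v ∈ D then s2 (k * dO p ρ v) else (if k = 0 then (1 : ℝ) else 0)) =
        if ∀ v ∈ D, dO p ρ v = 0 then (2 : ℝ) ^ D.card else 0 := by
      intro ρ
      have h2 : ∀ v : Vt m r,
          (∑ k : ZMod 2, if v ∈ D then s2 (k * dO p ρ v) else (if k = 0 then (1 : ℝ) else 0)) =
          if v ∈ D then (if dO p ρ v = 0 then (2 : ℝ) else 0) else 1 := by
        intro v
        have hs : ∀ F : ZMod 2 → ℝ, ∑ k : ZMod 2, F k = F 0 + F 1 := fun F => Fin.sum_univ_two F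
        rw [hs]
        by_cases hv : v ∈ D
        · rw [if_pos hv, if_pos hv, if_pos hv, zero_mul, one_mul, s2_zero, one_add_s2]
        · rw [if_neg hv, if_neg hv, if_neg hv, if_pos rfl, if_neg one_ne_zero, add_zero]
      simp only [h2]
      rw [Finset.prod_ite_mem, Finset.univ_inter]
      by_cases hD : ∀ v ∈ D, dO p ρ v = 0
      · rw [if_pos hD, Finset.prod_congr rfl (fun v hv => if_pos (hD v hv)), Finset.prod_const]
      · rw [if_neg hD]
        push Not at hD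
        obtain ⟨v, hv, hv'⟩ := hD
        exact Finset.prod_eq_zero hv (if_neg hv')
    simp only [h1]
    rw [← Finset.sum_filter, Finset.sum_const, nsmul_eq_mul, mul_comm]
    rfl
  rw [← e1]
  have e2 : ∀ ρ : Fc m r → ZMod 2, ∏ v : Vt m r,
      (∑ k : ZMod 2, if v ∈ D then s2 (k * dO p ρ v) else (if k = 0 then (1 : ℝ) else 0)) =
      ∑ κ : Vt m r → ZMod 2, if (∀ v ∈ Dᶜ, κ v = 0) then s2 (∑ v, κ v * dO p ρ v) else 0 := by
    intro ρ
    rw [Finset.prod_univ_sum, Fintype.piFinset_univ]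
    refine Finset.sum_congr rfl fun κ _ => ?_
    by_cases hκ : ∀ v ∈ Dᶜ, κ v = 0
    · rw [if_pos hκ, s2_sum]
      refine Finset.prod_congr rfl fun v _ => ?_
      by_cases hv : v ∈ D
      · rw [if_pos hv]
      · rw [if_neg hv, if_pos (hκ v (Finset.mem_compl.2 hv)), hκ v (Finset.mem_compl.2 hv),
          zero_mul, s2_zero]
    · rw [if_neg hκ]
      push Not at hκ
      obtain ⟨v, hv, hv'⟩ := hκ
      refine Finset.prod_eq_zero (Finset.mem_univ v) ?_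
      rw [if_neg (Finset.mem_compl.1 hv), if_neg hv']
  simp only [e2]
  rw [Finset.sum_comm]
  have e3 : ∀ κ : Vt m r → ZMod 2,
      (∑ ρ : Fc m r → ZMod 2, if (∀ v ∈ Dᶜ, κ v = 0) then s2 (∑ v, κ v * dO p ρ v) else 0) =
      if (∀ v ∈ Dᶜ, κ v = 0) ∧ ∀ f : Fc m r, (f.1.val + f.2.val + p) % 2 = 1 → cl p κ f = 0 then
        (2 : ℝ) ^ Fintype.card (Fc m r) else 0 := by
    intro κ
    by_cases hκ : ∀ v ∈ Dᶜ, κ v = 0
    · simp only [if_pos hκ]
      rw [sum_s2]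
      by_cases hc : ∀ f : Fc m r, (f.1.val + f.2.val + p) % 2 = 1 → cl p κ f = 0
      · rw [if_pos hc, if_pos ⟨hκ, hc⟩]
      · rw [if_neg hc, if_neg fun h => hc h.2]
    · simp only [if_neg hκ, Finset.sum_const_zero]
      rw [if_neg fun h => hκ h.1]
  simp only [e3]
  rw [← Finset.sum_filter, Finset.sum_const, nsmul_eq_mul, mul_comm]
  rfl

lemma NE_univ_pos (p : ℕ) : 0 < NE p (univ : Finset (Vt m r)) := by
  refine Finset.card_pos.2 ⟨0, Finset.mem_filter.2 ⟨Finset.mem_univ _, fun _ _ => rfl, fun v _ => ?_⟩⟩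
  show (0 : ZMod 2) + 0 = 0
  rfl

/-- **Duality**. -/
theorem dual (m r p : ℕ) : ∃ K : ℝ, 0 < K ∧ ∀ ω : Finset (Vt m r),
    (NO p ωᶜ : ℝ) = K * 2 ^ ω.card * NE p ω := by
  have hN : (0 : ℝ) < NE p (univ : Finset (Vt m r)) := by exact_mod_cast NE_univ_pos p
  refine ⟨2 ^ Fintype.card (Fc m r) / 2 ^ Fintype.card (Vt m r) /
    NE p (univ : Finset (Vt m r)), by positivity, fun ω => ?_⟩
  have h1 := NO_eq p ωᶜ
  rw [compl_compl] at h1
  have h2 : (NE p ω : ℝ) = NE p (univ : Finset (Vt m r)) * (CC p ω).card := by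
    exact_mod_cast NE_eq p ω
  have h3 : (2 : ℝ) ^ ωᶜ.card * 2 ^ ω.card = 2 ^ Fintype.card (Vt m r) := by
    rw [← pow_add, Finset.card_compl_add_card]
  rw [h2]
  have h4 : (0 : ℝ) < 2 ^ ωᶜ.card := by positivity
  have h5 : (0 : ℝ) < 2 ^ Fintype.card (Vt m r) := by positivity
  refine mul_left_cancel₀ h4.ne' ?_
  rw [h1]
  field_simp
  rw [← h3]
  ring

end Vale.Agent.P145.FB.AsD
end

section

/-!
P145, block F-B, (A): positive association in a box with free arrows.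
-/

namespace Vale.Agent.P145.FB.AsD

open Finset
open Vale.Agent.P152.GFF.E2 (DG FB boxD pty)

variable {m r : ℕ}

/-- Booleans as elements of `ZMod 2`. -/
def b2 : Bool ≃ ZMod 2 where
  toFun b := if b then 1 else 0
  invFun x := decide (x = 1)
  left_inv b := by cases b <;> decide
  right_inv x := by revert x; decide

lemma b2_add (a b : Bool) : b2 a + b2 b = 0 ↔ a = b := by revert a b; decide

lemma b2_zero (a : Bool) : b2 a = 0 ↔ a = false := by revert a; decide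

lemma NE_bool (p : ℕ) (ω : Finset (Vt m r)) : (NE p ω : ℝ) = NW Rim (px p) (qx p) ω := by
  unfold NE NW KW
  congr 1
  symm
  refine Finset.card_bij (fun ξ _ => fun f => b2 (ξ f)) ?_ ?_ ?_
  · intro ξ hξ
    rw [Finset.mem_filter] at hξ ⊢
    refine ⟨Finset.mem_univ _, fun f hf => (b2_zero _).2 (hξ.2.1 f hf), fun v hv => ?_⟩
    exact (b2_add _ _).2 (hξ.2.2 v hv)
  · intro ξ _ ξ' _ h
    funext f
    exact b2.injective (congrFun h f)
  · intro ζ hζ
    rw [Finset.mem_filter] at hζ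
    refine ⟨fun f => b2.symm (ζ f), ?_, funext fun f => b2.apply_symm_apply _⟩
    rw [Finset.mem_filter]
    refine ⟨Finset.mem_univ _, fun f hf => ?_, fun v hv => ?_⟩
    · rw [← b2_zero, b2.apply_symm_apply]
      exact hζ.2.1 f hf
    · rw [← b2_add, b2.apply_symm_apply, b2.apply_symm_apply]
      exact hζ.2.2 v hv

lemma pty_iff (par : ZMod 2) (v : Vt m r) : pty par v = 0 ↔ Ev par.val v := by
  have h : pty par v = ((v.1.val + v.2.val + par.val : ℕ) : ZMod 2) := by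
    unfold pty
    push_cast
    rw [ZMod.natCast_zmod_val]
  rw [h, ZMod.natCast_eq_zero_iff]
  unfold Ev
  omega

lemma x_false (par : ZMod 2) (v : Vt m r) : (boxD m r par).x v false = some (px par.val v) := by
  unfold px
  by_cases h : pty par v = 0
  · rw [if_pos ((pty_iff par v).1 h)]
    show (if pty par v = 0 then _ else _) = _
    rw [if_pos h]; rfl
  · rw [if_neg fun h' => h ((pty_iff par v).2 h')]
    show (if pty par v = 0 then _ else _) = _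
    rw [if_neg h]; rfl

lemma x_true (par : ZMod 2) (v : Vt m r) : (boxD m r par).x v true = some (qx par.val v) := by
  unfold qx
  by_cases h : pty par v = 0
  · rw [if_pos ((pty_iff par v).1 h)]
    show (if pty par v = 0 then _ else _) = _
    rw [if_pos h]; rfl
  · rw [if_neg fun h' => h ((pty_iff par v).2 h')]
    show (if pty par v = 0 then _ else _) = _
    rw [if_neg h]; rfl

lemma o_false (par : ZMod 2) (v : Vt m r) : (boxD m r par).o v false = some (po par.val v) := by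
  unfold po
  by_cases h : pty par v = 0
  · rw [if_pos ((pty_iff par v).1 h)]
    show (if pty par v = 0 then _ else _) = _
    rw [if_pos h]; rfl
  · rw [if_neg fun h' => h ((pty_iff par v).2 h')]
    show (if pty par v = 0 then _ else _) = _
    rw [if_neg h]; rfl

lemma o_true (par : ZMod 2) (v : Vt m r) : (boxD m r par).o v true = some (qo par.val v) := by
  unfold qo
  by_cases h : pty par v = 0
  · rw [if_pos ((pty_iff par v).1 h)]
    show (if pty par v = 0 then _ else _) = _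
    rw [if_pos h]; rfl
  · rw [if_neg fun h' => h ((pty_iff par v).2 h')]
    show (if pty par v = 0 then _ else _) = _
    rw [if_neg h]; rfl

lemma al_eq (par : ZMod 2) (p : FB m r → ZMod 2) (v : Vt m r) :
    (boxD m r par).al p v = p (px par.val v) + p (qx par.val v) := by
  unfold DG.al
  rw [x_false, x_true]
  rfl

lemma be_eq (par : ZMod 2) (p : FB m r → ZMod 2) (v : Vt m r) :
    (boxD m r par).be p v = p (po par.val v) + p (qo par.val v) := by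
  unfold DG.be
  rw [o_false, o_true]
  rfl

lemma zadd_iff (x y : ZMod 2) : x + y = 0 ↔ decide (x = 0) = decide (y = 0) := by
  revert x y; decide

/-- Spins as heights. -/
def eT : (Fc m r → ZMod 2) ≃ (Fc m r → Bool) where
  toFun p := fun q => decide (p q = 0)
  invFun t := fun q => if t q = true then 0 else 1
  left_inv p := by
    funext q
    show (if decide (p q = 0) = true then (0 : ZMod 2) else 1) = p q
    rcases z2c (p q) with h | h <;> rw [h] <;> decide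
  right_inv t := by
    funext q
    show decide ((if t q = true then (0 : ZMod 2) else 1) = 0) = t q
    cases t q <;> decide

/-- Bonds as sets. -/
def eO : (Vt m r → Bool) ≃ Finset (Vt m r) where
  toFun o := univ.filter fun v => o v = true
  invFun ω := fun v => decide (v ∈ ω)
  left_inv o := by
    funext v
    show decide (v ∈ univ.filter fun v => o v = true) = o v
    cases h : o v <;> simp [h]
  right_inv ω := by
    ext v
    show v ∈ (univ.filter fun v => decide (v ∈ ω) = true) ↔ v ∈ ω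
    simp

/-- For fixed `p`, `o`. -/
lemma sum_r (K : ℝ) (c : ℝ) (par : ZMod 2)
    (hd : ∀ ω : Finset (Vt m r), (NO par.val ωᶜ : ℝ) = K * 2 ^ ω.card * NE par.val ω)
    (p : FB m r → ZMod 2) (o : Vt m r → Bool) :
    ∑ ρ : FB m r → ZMod 2, ∏ v, Ub c ((boxD m r par).al p v) ((boxD m r par).be ρ v) (o v) =
      K * Jw Rim (px par.val) (qx par.val) c (eT p) (eO o) := by
  have h1 : ∀ (ρ : FB m r → ZMod 2) (v : Vt m r),
      Ub c ((boxD m r par).al p v) ((boxD m r par).be ρ v) (o v) =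
      (if v ∈ eO o then (if eT p (px par.val v) = eT p (qx par.val v) then (1 : ℝ) else 0)
        else (if eT p (px par.val v) = eT p (qx par.val v) then c - 1 else 1)) *
      (if v ∈ (eO o)ᶜ → dO par.val ρ v = 0 then 1 else 0) := by
    intro ρ v
    have a1 : v ∈ eO o ↔ o v = true := by
      show v ∈ (univ.filter fun v => o v = true) ↔ _
      simp only [mem_filter, mem_univ, true_and]
    have a2 : (boxD m r par).al p v = 0 ↔ eT p (px par.val v) = eT p (qx par.val v) := by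
      rw [al_eq]; exact zadd_iff _ _
    have a3 : (boxD m r par).be ρ v = dO par.val ρ v := be_eq par ρ v
    have a4 : v ∈ (eO o)ᶜ ↔ ¬ v ∈ eO o := Finset.mem_compl
    rw [a3]
    unfold Ub
    by_cases b1 : o v = true
    · have b2 : v ∈ eO o := a1.2 b1
      have b3 : ¬ v ∈ (eO o)ᶜ := fun h => a4.1 h b2
      rw [if_pos b1, if_pos b2, if_pos (fun h => absurd h b3), mul_one]
      by_cases b4 : (boxD m r par).al p v = 0
      · rw [if_pos b4, if_pos (a2.1 b4)]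
      · rw [if_neg b4, if_neg fun h => b4 (a2.2 h)]
    · have b2 : ¬ v ∈ eO o := fun h => b1 (a1.1 h)
      have b3 : v ∈ (eO o)ᶜ := a4.2 b2
      rw [if_neg b1, if_neg b2]
      by_cases b5 : dO par.val ρ v = 0
      · rw [if_pos b5, if_pos fun _ => b5, mul_one]
        by_cases b4 : (boxD m r par).al p v = 0
        · rw [if_pos b4, if_pos (a2.1 b4)]
        · rw [if_neg b4, if_neg fun h => b4 (a2.2 h)]
      · have b6 : ¬ (v ∈ (eO o)ᶜ → dO par.val ρ v = 0) := fun h => b5 (h b3)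
        rw [if_neg b5, if_neg b6, mul_zero]
  simp only [h1, Finset.prod_mul_distrib]
  rw [← Finset.mul_sum]
  have e4 : ∀ ρ : FB m r → ZMod 2, ∏ v : Vt m r,
      (if v ∈ (eO o)ᶜ → dO par.val ρ v = 0 then (1 : ℝ) else 0) =
      if ∀ v ∈ (eO o)ᶜ, dO par.val ρ v = 0 then 1 else 0 := by
    intro ρ
    by_cases h : ∀ v ∈ (eO o)ᶜ, dO par.val ρ v = 0
    · rw [if_pos h]
      exact Finset.prod_eq_one fun v _ => if_pos (h v)
    · rw [if_neg h]
      push Not at h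
      obtain ⟨v, hv, hv'⟩ := h
      exact Finset.prod_eq_zero (Finset.mem_univ v) (if_neg fun h' => hv' (h' hv))
  simp only [e4]
  have e6 : ∑ ρ : FB m r → ZMod 2, (if ∀ v ∈ (eO o)ᶜ, dO par.val ρ v = 0 then (1 : ℝ) else 0) =
      NO par.val (eO o)ᶜ := by
    rw [← Finset.sum_filter, Finset.sum_const, nsmul_eq_mul, mul_one]
    rfl
  rw [e6, hd, NE_bool]
  unfold Jw
  have e : ∏ v : Vt m r, (if v ∈ eO o then
      (if eT p (px par.val v) = eT p (qx par.val v) then (2 : ℝ) else 0)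
      else (if eT p (px par.val v) = eT p (qx par.val v) then c - 1 else 1)) =
      2 ^ (eO o).card * ∏ v : Vt m r, (if v ∈ eO o then
      (if eT p (px par.val v) = eT p (qx par.val v) then (1 : ℝ) else 0)
      else (if eT p (px par.val v) = eT p (qx par.val v) then c - 1 else 1)) := by
    have e5 : (2 : ℝ) ^ (eO o).card = ∏ v : Vt m r, if v ∈ eO o then (2 : ℝ) else 1 := by
      rw [Finset.prod_ite_mem, Finset.univ_inter, Finset.prod_const]
    rw [e5, ← Finset.prod_mul_distrib]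
    refine Finset.prod_congr rfl fun v _ => ?_
    by_cases h1 : v ∈ eO o <;> by_cases h2 : eT p (px par.val v) = eT p (qx par.val v) <;>
      simp [h1, h2]
  rw [e]
  ring

/-- The box sums are the sums of `AsFin`. -/
theorem Bx_eq (m r : ℕ) (par : ZMod 2) : ∃ K : ℝ, 0 < K ∧ ∀ (c : ℝ)
    (Φ : (FB m r → Bool) → (Fin m × Fin r → Bool) → ℝ),
    Bx c m r par Φ = K * ∑ τ : Fc m r → Bool, ∑ ω : Finset (Vt m r),
      Jw Rim (px par.val) (qx par.val) c τ ω * Φ τ (fun v => decide (v ∈ ω)) := by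
  obtain ⟨K, hK, hd⟩ := dual m r par.val
  refine ⟨K, hK, fun c Φ => ?_⟩
  have h1 : Bx c m r par Φ = ∑ p : Fc m r → ZMod 2, ∑ o : Vt m r → Bool,
      K * Jw Rim (px par.val) (qx par.val) c (eT p) (eO o) *
        Φ (eT p) (fun v => decide (v ∈ eO o)) := by
    unfold Bx
    refine Finset.sum_congr rfl fun p _ => ?_
    rw [Finset.sum_comm]
    refine Finset.sum_congr rfl fun o _ => ?_
    rw [← Finset.sum_mul, sum_r K c par hd p o]
    have h2 : (fun v => decide (v ∈ eO o)) = o := eO.symm_apply_apply o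
    rw [h2]
    rfl
  rw [h1, Finset.mul_sum, Equiv.sum_comp eT fun τ : Fc m r → Bool => ∑ o : Vt m r → Bool,
      K * Jw Rim (px par.val) (qx par.val) c τ (eO o) * Φ τ (fun v => decide (v ∈ eO o))]
  refine Finset.sum_congr rfl fun τ _ => ?_
  rw [Equiv.sum_comp eO fun ω : Finset (Vt m r) =>
      K * Jw Rim (px par.val) (qx par.val) c τ ω * Φ τ (fun v => decide (v ∈ ω)), Finset.mul_sum]
  exact Finset.sum_congr rfl fun ω _ => by ring

/-- The function of the triple. -/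
def tri (par : ZMod 2) (f : (FB m r → Bool) → (Fin m × Fin r → Bool) → ℝ)
    (s : Fc m r → Bool) (a b : Finset (Vt m r)) : ℝ :=
  f s fun v => if s (px par.val v) = true then decide (v ∈ a) else decide (v ∈ b)

lemma tri_eval (par : ZMod 2) (f : (FB m r → Bool) → (Fin m × Fin r → Bool) → ℝ)
    (s : Fc m r → Bool) (ω : Finset (Vt m r)) :
    tri par f s (ω.filter fun v => s (px par.val v) = true)
      (ω.filter fun v => s (px par.val v) = false) = f s (fun v => decide (v ∈ ω)) := by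
  unfold tri
  congr 1
  funext v
  by_cases h : s (px par.val v) = true
  · rw [if_pos h]
    simp [h]
  · rw [if_neg h]
    simp [h]

lemma tri_up (par : ZMod 2) (f : (FB m r → Bool) → (Fin m × Fin r → Bool) → ℝ)
    (hf : Mono3 (boxD m r par) f) : Up3 (tri par f) := by
  intro s t a a' b b' hst ha hb
  have hst' : ∀ q, s q = true → t q = true := fun q hq => by
    have := hst q
    rw [hq] at this
    exact Bool.eq_true_of_true_le this
  refine hf s t _ _ hst' ?_ ?_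
  · intro v q hq hs ho
    rw [x_false, Option.some.injEq] at hq
    subst hq
    rw [if_pos hs] at ho
    rw [if_pos (hst' _ hs)]
    simp only [decide_eq_true_eq] at ho ⊢
    exact ha ho
  · intro v q hq ht ho
    rw [x_false, Option.some.injEq] at hq
    subst hq
    have h1 : ¬ t (px par.val v) = true := by rw [ht]; decide
    have h2 : ¬ s (px par.val v) = true := fun h => h1 (hst' _ h)
    rw [if_neg h1] at ho
    rw [if_neg h2]
    simp only [decide_eq_true_eq] at ho ⊢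
    exact hb ho

end Vale.Agent.P145.FB.AsD

namespace Vale.Agent.P145.FB

open Vale.Agent.P152.GFF.E2 (FB boxD)

/-- Association for all monotone functions, no sign assumptions. -/
theorem box_assoc' {c : ℝ} (hc : 1 ≤ c) (M R : ℕ) (par : ZMod 2)
    (f g : (FB M R → Bool) → (Fin M × Fin R → Bool) → ℝ)
    (hf : Mono3 (boxD M R par) f) (hg : Mono3 (boxD M R par) g) :
    Bx c M R par f * Bx c M R par g ≤
      Bx c M R par (fun _ _ => 1) * Bx c M R par (fun τ o => f τ o * g τ o) := by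
  obtain ⟨K, hK, h⟩ := AsD.Bx_eq M R par
  have h3 := assoc_fin3 (bd := AsD.Rim) (p := AsD.px par.val) (q := AsD.qx par.val) hc
    (AsD.tri_up par f hf) (AsD.tri_up par g hg)
  have e : ∀ Φ : (FB M R → Bool) → (Fin M × Fin R → Bool) → ℝ, Bx c M R par Φ =
      K * SJ AsD.Rim (AsD.px par.val) (AsD.qx par.val) c (AsD.tri par Φ) := by
    intro Φ
    rw [h c Φ]
    unfold SJ
    congr 1
    refine Finset.sum_congr rfl fun τ _ => Finset.sum_congr rfl fun ω _ => ?_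
    rw [AsD.tri_eval]
  rw [e f, e g, e (fun _ _ => 1), e (fun τ o => f τ o * g τ o)]
  have e1 : AsD.tri par (fun _ _ => (1 : ℝ)) =
      (fun (_ : AsD.Fc M R → Bool) (_ _ : Finset (AsD.Vt M R)) => (1 : ℝ)) := rfl
  have e2 : AsD.tri par (fun τ o => f τ o * g τ o) =
      (fun s a b => AsD.tri par f s a b * AsD.tri par g s a b) := rfl
  rw [e1, e2]
  nlinarith only [mul_le_mul_of_nonneg_left h3 (mul_nonneg hK.le hK.le)]

theorem box_assoc {c : ℝ} (hc : 1 ≤ c) : BoxAssoc c :=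
  fun M R par f g _ _ hf hg => box_assoc' hc M R par f g hf hg

end Vale.Agent.P145.FB
end

section

/-!
P145, block F-B, (A): association for the infinite-volume arrow state.
-/

set_option autoImplicit false

namespace Vale.Agent.P145.FB

open Finset Filter Topology MeasureTheory
open Vale.Agent.P152
open Vale.Agent.P152.GFF.B3 (BE boxNet Net bxf bxg mu muI insW m_loc m_emb IsEmb)
open Vale.Agent.P152.GFF.E2 (DG FB boxD fSW fSE fNW fNE pty fg rim wd aE aO EvV Hts st_hbox st_emb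
  t3_fiber t3_w6 t3_ev Emb)
open Vale.Agent.P145.FA (BoxLim rg_evn rg_par rg_W6_nonneg)

/-! ### The box identity -/

lemma emb_al {V F V' F' : Type} {D : DG V F} {D' : DG V' F'} {f : V → V'} {g : F → F'}
    {R : F → Prop} (h : Emb D D' f g R) (p : F' → ZMod 2) (v : V) :
    D.al (fun q => p (g q)) v = D'.al p (f v) := by
  unfold DG.al
  rw [h.hx, h.hx]
  cases D.x v false <;> cases D.x v true <;> rfl

lemma box_par {m r M R : ℕ} (x y : ℕ) (hx : x + m ≤ M) (hy : y + r ≤ R) (par : ZMod 2)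
    (k : BE M R → ZMod 2) (v : Fin m × Fin r) :
    aE (boxNet m r) (pty (par + x + y)) (fun e => k (bxg x y hx hy e)) v =
      aE (boxNet M R) (pty par) k (bxf x y hx hy v) ∧
    aO (boxNet m r) (pty (par + x + y)) (fun e => k (bxg x y hx hy e)) v =
      aO (boxNet M R) (pty par) k (bxf x y hx hy v) := by
  have he := m_emb.2.2.1 m r M R x y hx hy
  have hp := Vale.Agent.P152.GFF.E2.emb_pty x y par hx hy v
  unfold aE aO
  rw [hp, he.hl, he.hb, he.ha]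
  exact ⟨rfl, rfl⟩

lemma box_id {c : ℝ} (hc : c ≠ 0) (M R : ℕ) (par : ZMod 2) : ∃ ν : ℝ, 0 < ν ∧
    ∀ (m r x y : ℕ) (hx : x + m ≤ M) (hy : y + r ≤ R), 1 ≤ m → 1 ≤ r →
    ∀ f : (FB m r → Bool) → (Fin m × Fin r → Bool) → ℝ, EvL (par + x + y) f →
      ν * (boxNet M R).ar (wc c)
        (fun k => phi c m r (par + x + y) f (fun e => k (bxg x y hx hy e))) =
      Bx c M R par (fun τ o => f (fun q => τ (fg x y hx hy q)) (fun v => o (bxf x y hx hy v))) := by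
  classical
  obtain ⟨T, k0, -, hT2, hT3, hT4⟩ := (st_hbox M R par).ex
  refine ⟨((univ.filter (fun g => T g = 0)).card : ℝ), ?_, ?_⟩
  · have : 0 < (univ.filter (fun g => T g = 0)).card :=
      Finset.card_pos.2 ⟨0, Finset.mem_filter.2 ⟨Finset.mem_univ _, map_zero T⟩⟩
    exact_mod_cast this
  intro m r x y hx hy hm hr f hf
  have hemb := st_emb.1 m r M R x y par hx hy
  have h1 := t3_fiber T k0 (fun k => phi c m r (par + x + y) f (fun e => k (bxg x y hx hy e)) *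
    (boxNet M R).W6 (wc c) k) (by
      intro k hk
      have hW : (boxNet M R).W6 (wc c) k ≠ 0 := right_ne_zero_of_mul hk
      unfold Net.W6 at hW
      rw [Finset.prod_ne_zero_iff] at hW
      refine hT4 k (fun v => ?_) trivial
      exact t3_ev (w6_ice (hW v (Finset.mem_univ v))))
  unfold Net.ar
  rw [← h1]
  have h2 : ∀ g : (FB M R → ZMod 2) × (FB M R → ZMod 2),
      phi c m r (par + x + y) f (fun e => (T g + k0) (bxg x y hx hy e)) *
        (boxNet M R).W6 (wc c) (T g + k0) =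
      1 / 2 * ∑ s : ZMod 2, ∑ o : Fin M × Fin R → Bool,
        (∏ v, Ub c ((boxD M R par).al g.1 v) ((boxD M R par).be g.2 v) (o v)) *
          f (fun q => decide (g.1 (fg x y hx hy q) + s = 0)) (fun v => o (bxf x y hx hy v)) := by
    intro g
    have ha : ∀ v, aE (boxNet m r) (pty (par + x + y))
        (fun e => (T g + k0) (bxg x y hx hy e)) v =
        (boxD M R par).al g.1 (bxf x y hx hy v) := by
      intro v
      rw [(box_par x y hx hy par (T g + k0) v).1]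
      exact ((hT3 g _).1).symm
    have hb : ∀ v, aO (boxNet m r) (pty (par + x + y))
        (fun e => (T g + k0) (bxg x y hx hy e)) v =
        (boxD M R par).be g.2 (bxf x y hx hy v) := by
      intro v
      rw [(box_par x y hx hy par (T g + k0) v).2]
      exact ((hT3 g _).2).symm
    have hW : (boxNet M R).W6 (wc c) (T g + k0) =
        ∏ v, wd c 0 ((boxD M R par).al g.1 v) ((boxD M R par).be g.2 v) := by
      unfold Net.W6
      refine Finset.prod_congr rfl fun v _ => ?_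
      rw [(hT3 g v).1, (hT3 g v).2, t3_w6 c (pty par v) _ _ _ _ (hT2 g v)]
      rfl
    rw [phi_eq hm hr hf (p := fun q => g.1 (fg x y hx hy q)) (fun v => by
      rw [emb_al hemb, ha]), hW]
    simp only [ha, hb]
    rw [← sum_ext (bxf x y hx hy) hemb.hf
      (fun v b => kpb c ((boxD M R par).al g.1 v) ((boxD M R par).be g.2 v) b)
      (fun v => kpb_sum _ _ _) (fun o => Av f (fun q => g.1 (fg x y hx hy q)) o)]
    unfold Av
    rw [Finset.sum_mul, Finset.sum_comm, Finset.mul_sum]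
    refine Finset.sum_congr rfl fun o _ => ?_
    have e1 : (∏ v, kpb c ((boxD M R par).al g.1 v) ((boxD M R par).be g.2 v) (o v)) *
        ∏ v, wd c 0 ((boxD M R par).al g.1 v) ((boxD M R par).be g.2 v) =
        ∏ v, Ub c ((boxD M R par).al g.1 v) ((boxD M R par).be g.2 v) (o v) := by
      rw [← Finset.prod_mul_distrib]
      exact Finset.prod_congr rfl fun v _ => by rw [mul_comm]; exact kpb_mul hc _ _ _
    rw [← e1, ← Finset.mul_sum]
    ring
  rw [Finset.sum_congr rfl fun g _ => h2 g, ← Finset.mul_sum, Finset.sum_comm]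
  have h3 : ∀ s : ZMod 2, ∑ g : (FB M R → ZMod 2) × (FB M R → ZMod 2),
      ∑ o : Fin M × Fin R → Bool,
        (∏ v, Ub c ((boxD M R par).al g.1 v) ((boxD M R par).be g.2 v) (o v)) *
          f (fun q => decide (g.1 (fg x y hx hy q) + s = 0)) (fun v => o (bxf x y hx hy v)) =
      Bx c M R par (fun τ o => f (fun q => τ (fg x y hx hy q))
        (fun v => o (bxf x y hx hy v))) := by
    intro s
    rw [← Bx_shift c M R par _ s, Fintype.sum_prod_type]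
  rw [Finset.sum_congr rfl fun s _ => h3 s, Finset.sum_const]
  have h4 : (univ : Finset (ZMod 2)).card = 2 := rfl
  rw [h4]
  simp only [nsmul_eq_mul]
  push_cast
  ring

lemma phi_one (c : ℝ) (m r : ℕ) (par : ZMod 2) (x : BE m r → ZMod 2) :
    phi c m r par (fun _ _ => 1) x = 1 := by
  unfold phi Av
  have h1 : ∀ o : Fin m × Fin r → Bool,
      (∏ v, kpb c (aE (boxNet m r) (pty par) x v) (aO (boxNet m r) (pty par) x v) (o v)) *
        (1 / 2 * ∑ _s : ZMod 2, (1 : ℝ)) =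
      ∏ v, kpb c (aE (boxNet m r) (pty par) x v) (aO (boxNet m r) (pty par) x v) (o v) := by
    intro o
    have h4 : (univ : Finset (ZMod 2)).card = 2 := rfl
    rw [Finset.sum_const, h4]
    norm_num
  rw [Finset.sum_congr rfl fun o _ => h1 o, ← Fintype.prod_sum]
  exact Finset.prod_eq_one fun v _ => kpb_sum _ _ _

lemma mono3_emb {V F V' F' : Type} {D : DG V F} {D' : DG V' F'} {ι : V → V'} {g : F → F'}
    {R : F → Prop} (h : Emb D D' ι g R) {f : (F → Bool) → (V → Bool) → ℝ} (hf : Mono3 D f) :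
    Mono3 D' (fun τ o => f (fun q => τ (g q)) (fun v => o (ι v))) := by
  intro τ τ' o o' h1 h2 h3
  refine hf _ _ _ _ (fun q => h1 (g q)) (fun v q hq => ?_) (fun v q hq => ?_)
  · exact h2 (ι v) (g q) (by rw [h.hx, hq]; rfl)
  · exact h3 (ι v) (g q) (by rw [h.hx, hq]; rfl)

/-- Association in a window of a box with free arrows. -/
lemma box_asc {c : ℝ} (hc : 1 ≤ c) {m r M R : ℕ} (hm : 1 ≤ m) (hr : 1 ≤ r) (x y : ℕ)
    (hx : x + m ≤ M) (hy : y + r ≤ R) (par : ZMod 2)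
    {f g : (FB m r → Bool) → (Fin m × Fin r → Bool) → ℝ}
    (hf : EvL par f) (hg : EvL par g) (hf3 : Mono3 (boxD m r par) f)
    (hg3 : Mono3 (boxD m r par) g) :
    (boxNet M R).ar (wc c) (fun k => phi c m r par f (fun e => k (bxg x y hx hy e))) *
      (boxNet M R).ar (wc c) (fun k => phi c m r par g (fun e => k (bxg x y hx hy e))) ≤
    (boxNet M R).ar (wc c) (fun _ => 1) *
      (boxNet M R).ar (wc c)
        (fun k => phi c m r par (fun τ o => f τ o * g τ o) (fun e => k (bxg x y hx hy e))) := by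
  obtain ⟨par', rfl⟩ : ∃ par', par = par' + x + y := ⟨par - x - y, by ring⟩
  obtain ⟨ν, hν, h⟩ := box_id (c := c) (by linarith only [hc]) M R par'
  have hfg : EvL (par' + x + y) (fun τ o => f τ o * g τ o) := by
    intro τ τ' o h
    show f τ o * g τ o = f τ' o * g τ' o
    rw [hf τ τ' o h, hg τ τ' o h]
  have h1 := h m r x y hx hy hm hr (fun _ _ => 1) (fun _ _ _ _ => rfl)
  have h2 := h m r x y hx hy hm hr f hf
  have h3 := h m r x y hx hy hm hr g hg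
  have h4 := h m r x y hx hy hm hr _ hfg
  have hemb := st_emb.1 m r M R x y par' hx hy
  have h5 := box_assoc' hc M R par' _ _ (mono3_emb hemb hf3) (mono3_emb hemb hg3)
  simp only [phi_one] at h1
  rw [← h2, ← h3, ← h1, ← h4] at h5
  have h6 : 0 < ν * ν := mul_pos hν hν
  refine le_of_mul_le_mul_left ?_ h6
  calc _ = ν * (boxNet M R).ar (wc c)
        (fun k => phi c m r (par' + x + y) f (fun e => k (bxg x y hx hy e))) *
      (ν * (boxNet M R).ar (wc c)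
        (fun k => phi c m r (par' + x + y) g (fun e => k (bxg x y hx hy e)))) := by ring
    _ ≤ _ := h5
    _ = _ := by ring

/-! ### The limit -/

/-- Convergence of the expectations of the arrows of a window. -/
lemma lim_ar {c : ℝ} (hb : BoxLim c) (m r : ℕ) (hm : 1 ≤ m) (hr : 1 ≤ r)
    (φ : (BE m r → ZMod 2) → ℝ) :
    Tendsto (fun q : ℕ => (boxNet (q + m + q) (q + r + q)).ar (wc c)
      (fun k => φ (fun e => k (bxg q q (by omega) (by omega) e))) /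
        (boxNet (q + m + q) (q + r + q)).ar (wc c) (fun _ => 1)) atTop
      (𝓝 (mu (wc c) m r φ)) := by
  rw [Metric.tendsto_atTop]
  intro ε hε
  obtain ⟨q0, hq0⟩ := hb m r hm hr
    (fun x => φ x * (boxNet m r).W6 (wc c) x) (rg_evn m r hm hr (wc c) φ) (ε / 2) (by linarith only [hε])
  refine ⟨q0, fun q hq => ?_⟩
  have h1 := hq0 q hq
  rw [← m_loc _ _ _ _ _ _ _ _ _ (m_emb.2.2.1 m r (q + m + q) (q + r + q) q q (by omega)
    (by omega)) φ] at h1
  rw [Real.dist_eq]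
  have h5 : muI (wc c) m r (fun x => φ x * (boxNet m r).W6 (wc c) x) = mu (wc c) m r φ := rfl
  rw [h5] at h1
  linarith only [hε, h1]

lemma div_aux {A F G H : ℝ} (hA : 0 < A) (h : F * G ≤ A * H) : F / A * (G / A) ≤ H / A := by
  rw [div_mul_div_comm, div_le_div_iff₀ (mul_pos hA hA) hA]
  have := mul_le_mul_of_nonneg_right h hA.le
  linarith

/-- Association for the infinite-volume arrow state. -/
theorem mu_asc {c : ℝ} (hc : 1 ≤ c) (hc2 : c ≤ 2) (hb : BoxLim c) {m r : ℕ} (hm : 1 ≤ m)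
    (hr : 1 ≤ r) (par : ZMod 2) {f g : (FB m r → Bool) → (Fin m × Fin r → Bool) → ℝ}
    (hf : EvL par f) (hg : EvL par g) (hf3 : Mono3 (boxD m r par) f)
    (hg3 : Mono3 (boxD m r par) g) :
    mu (wc c) m r (phi c m r par f) * mu (wc c) m r (phi c m r par g) ≤
      mu (wc c) m r (phi c m r par (fun τ o => f τ o * g τ o)) := by
  refine le_of_tendsto_of_tendsto' ((lim_ar hb m r hm hr _).mul (lim_ar hb m r hm hr _))
    (lim_ar hb m r hm hr _) (fun q => ?_)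
  have h1 := box_asc hc hm hr q q (M := q + m + q) (R := q + r + q) (by omega) (by omega) par
    hf hg hf3 hg3
  have h2 : 0 ≤ (boxNet (q + m + q) (q + r + q)).ar (wc c) (fun _ => 1) := by
    unfold Net.ar
    exact Finset.sum_nonneg (fun k _ => by
      rw [one_mul]; exact rg_W6_nonneg (by linarith only [hc]) hc2 _ _)
  rcases h2.eq_or_lt with h3 | h3
  · rw [← h3]; simp
  · exact div_aux h3 h1

end Vale.Agent.P145.FB
end

section

/-!
P145, block F-B, (A): association of the open bonds with spin plus in the plane.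
-/

set_option autoImplicit false

namespace Vale.Agent.P145.FB

open Finset Filter Topology MeasureTheory
open Vale.Agent.P152 Vale.Agent.P145.FA
open Vale.Agent.P152.GFF.B3 (BE boxNet Net bxf bxg mu muI insW m_loc m_emb IsEmb)
open Vale.Agent.P152.GFF.E2 (DG FB boxD fSW fSE fNW fNE pty fg rim wd aE aO EvV Hts)

/-- Spins of the faces of a window. -/
def wτ (m r : ℕ) (x0 y0 : ℤ) (x : Hgt × Mk) (q : FB m r) : Bool :=
  decide (x.1 (x0 - 1 + (q.1.val : ℤ), y0 - 1 + (q.2.val : ℤ)) % 4 = 0)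

/-- Bonds of a window. -/
def wω (m r : ℕ) (x0 y0 : ℤ) (x : Hgt × Mk) (v : Fin m × Fin r) : Bool :=
  x.2 (x0 + (v.1.val : ℤ), y0 + (v.2.val : ℤ))

/-- The transfer of window observables. -/
def PlMu (c : ℝ) (P : Measure (Ori (ℤ × ℤ))) : Prop :=
  ∀ (m r : ℕ), 1 ≤ m → 1 ≤ r → ∀ (x0 y0 : ℤ) (f : (FB m r → Bool) → (Fin m × Fin r → Bool) → ℝ),
    EvL ((x0 + y0 : ℤ) : ZMod 2) f →
    ∫ x, f (wτ m r x0 y0 x) (wω m r x0 y0 x) ∂(J (1 / c) P) =
      mu (wc c) m r (phi c m r ((x0 + y0 : ℤ) : ZMod 2) f)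

/-- Association of `(τ, ω₊, -ω₋)` in windows of the plane. -/
theorem win_asc {c : ℝ} (hc : 1 ≤ c) (hc2 : c ≤ 2) (hb : BoxLim c) {P : Measure (Ori (ℤ × ℤ))}
    (hpl : PlMu c P) {m r : ℕ} (hm : 1 ≤ m) (hr : 1 ≤ r) (x0 y0 : ℤ)
    {f g : (FB m r → Bool) → (Fin m × Fin r → Bool) → ℝ}
    (hf : EvL ((x0 + y0 : ℤ) : ZMod 2) f) (hg : EvL ((x0 + y0 : ℤ) : ZMod 2) g)
    (hf3 : Mono3 (boxD m r ((x0 + y0 : ℤ) : ZMod 2)) f)
    (hg3 : Mono3 (boxD m r ((x0 + y0 : ℤ) : ZMod 2)) g) :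
    (∫ x, f (wτ m r x0 y0 x) (wω m r x0 y0 x) ∂(J (1 / c) P)) *
      (∫ x, g (wτ m r x0 y0 x) (wω m r x0 y0 x) ∂(J (1 / c) P)) ≤
    ∫ x, f (wτ m r x0 y0 x) (wω m r x0 y0 x) * g (wτ m r x0 y0 x) (wω m r x0 y0 x)
      ∂(J (1 / c) P) := by
  have h1 := hpl m r hm hr x0 y0 f hf
  have h2 := hpl m r hm hr x0 y0 g hg
  have h3 := hpl m r hm hr x0 y0 (fun τ o => f τ o * g τ o) (by
    intro τ τ' o h
    show f τ o * g τ o = f τ' o * g τ' o
    rw [hf τ τ' o h, hg τ τ' o h])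
  rw [h1, h2]
  refine le_trans (mu_asc hc hc2 hb hm hr _ hf hg hf3 hg3) (le_of_eq ?_)
  rw [← h3]

/-- The lower even face of a vertex of the window. -/
def xf {m r : ℕ} (par : ZMod 2) (v : Fin m × Fin r) : FB m r :=
  if pty par v = 0 then fSW v else fSE v

lemma boxD_xf {m r : ℕ} (par : ZMod 2) (v : Fin m × Fin r) :
    (boxD m r par).x v false = some (xf par v) := by
  unfold boxD xf
  dsimp only
  by_cases h : pty par v = 0
  · rw [if_pos h, if_pos h, if_neg (by decide)]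
  · rw [if_neg h, if_neg h, if_neg (by decide)]

lemma evf_xf {m r : ℕ} (par : ZMod 2) (v : Fin m × Fin r) : Evf par (xf par v) := by
  unfold Evf xf
  split_ifs with h
  · exact h
  · have h1 : pty par v = 1 := by
      rcases z2_cases (pty par v) with h2 | h2
      · exact absurd h2 h
      · exact h2
    show (((v.1.succ : Fin (m + 1)).val : ℕ) : ZMod 2) + ((v.2.castSucc : Fin (r + 1)).val : ℕ) + par = 0
    have h2 : (v.1.val : ZMod 2) + v.2.val + par = 1 := h1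
    rw [Fin.val_succ, Fin.val_castSucc]
    push_cast
    have h3 : (v.1.val : ZMod 2) + 1 + v.2.val + par = (v.1.val : ZMod 2) + v.2.val + par + 1 := by
      ring
    rw [h3, h2]
    decide

lemma par_even {m r : ℕ} (x0 y0 : ℤ) (v : Fin m × Fin r) :
    pty ((x0 + y0 : ℤ) : ZMod 2) v = 0 ↔ Even (x0 + (v.1.val : ℤ) + (y0 + (v.2.val : ℤ))) := by
  have h1 : pty ((x0 + y0 : ℤ) : ZMod 2) v =
      ((x0 + (v.1.val : ℤ) + (y0 + (v.2.val : ℤ)) : ℤ) : ZMod 2) := by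
    unfold pty
    push_cast
    ring
  rw [h1, ZMod.intCast_zmod_eq_zero_iff_dvd]
  norm_num
  exact even_iff_two_dvd.symm

lemma wτ_xf {m r : ℕ} (x0 y0 : ℤ) (x : Hgt × Mk) (v : Fin m × Fin r) :
    wτ m r x0 y0 x (xf ((x0 + y0 : ℤ) : ZMod 2) v) =
      decide (x.1 (e2 (x0 + (v.1.val : ℤ), y0 + (v.2.val : ℤ))) % 4 = 0) := by
  have key : (x0 - 1 + ((xf ((x0 + y0 : ℤ) : ZMod 2) v).1.val : ℤ),
      y0 - 1 + ((xf ((x0 + y0 : ℤ) : ZMod 2) v).2.val : ℤ)) =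
      e2 (x0 + (v.1.val : ℤ), y0 + (v.2.val : ℤ)) := by
    unfold xf e2
    have h := par_even x0 y0 v
    by_cases hp : pty ((x0 + y0 : ℤ) : ZMod 2) v = 0
    · rw [if_pos hp, if_pos (h.1 hp)]
      refine Prod.ext ?_ ?_
      · show x0 - 1 + ((v.1.castSucc : Fin (m + 1)).val : ℤ) = x0 + (v.1.val : ℤ) - 1
        rw [Fin.val_castSucc]
        ring
      · show y0 - 1 + ((v.2.castSucc : Fin (r + 1)).val : ℤ) = y0 + (v.2.val : ℤ) - 1
        rw [Fin.val_castSucc]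
        ring
    · rw [if_neg hp, if_neg (fun hh => hp (h.2 hh))]
      refine Prod.ext ?_ ?_
      · show x0 - 1 + ((v.1.succ : Fin (m + 1)).val : ℤ) = x0 + (v.1.val : ℤ)
        rw [Fin.val_succ]
        push_cast
        ring
      · show y0 - 1 + ((v.2.castSucc : Fin (r + 1)).val : ℤ) = y0 + (v.2.val : ℤ) - 1
        rw [Fin.val_castSucc]
        ring
  unfold wτ
  rw [key]

/-- The set of bonds given by a window configuration. -/
def Aset (m r : ℕ) (x0 y0 : ℤ) (τ : FB m r → Bool) (o : Fin m × Fin r → Bool) : Set Pt :=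
  {w | ∃ v : Fin m × Fin r, w = (x0 + (v.1.val : ℤ), y0 + (v.2.val : ℤ)) ∧ o v = true ∧
    τ (xf ((x0 + y0 : ℤ) : ZMod 2) v) = true}

open Classical in
/-- The indicator of an event of the open bonds with spin plus. -/
noncomputable def fU (m r : ℕ) (x0 y0 : ℤ) (U : Set Pt → Prop) (τ : FB m r → Bool)
    (o : Fin m × Fin r → Bool) : ℝ := if U (Aset m r x0 y0 τ o) then 1 else 0

lemma fU_evl (m r : ℕ) (x0 y0 : ℤ) (U : Set Pt → Prop) :
    EvL ((x0 + y0 : ℤ) : ZMod 2) (fU m r x0 y0 U) := by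
  intro τ τ' o h
  unfold fU
  have : Aset m r x0 y0 τ o = Aset m r x0 y0 τ' o := by
    unfold Aset
    ext w
    simp only [Set.mem_ofPred_eq]
    refine exists_congr fun v => ?_
    rw [h _ (evf_xf _ v)]
  rw [this]

lemma fU_mono (m r : ℕ) (x0 y0 : ℤ) {U : Set Pt → Prop} (hU : ∀ A B, A ⊆ B → U A → U B) :
    Mono3 (boxD m r ((x0 + y0 : ℤ) : ZMod 2)) (fU m r x0 y0 U) := by
  classical
  intro τ τ' o o' h1 h2 _
  unfold fU
  have h4 : Aset m r x0 y0 τ o ⊆ Aset m r x0 y0 τ' o' := by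
    rintro w ⟨v, hw, ho, hτ⟩
    exact ⟨v, hw, h2 v _ (boxD_xf _ v) hτ ho, h1 _ hτ⟩
  split_ifs with h5 h6
  · exact le_refl _
  · exact absurd (hU _ _ h4 h5) h6
  · exact zero_le_one
  · exact le_refl _

/-- **(A)**: association of the open bonds with spin plus. -/
theorem assoc_of {c : ℝ} (hc : 1 ≤ c) (hc2 : c ≤ 2) (hb : BoxLim c) {P : Measure (Ori (ℤ × ℤ))}
    [IsProbabilityMeasure P] (hice : ∀ᵐ a ∂P, ∀ x y, Ice a x y) (hpl : PlMu c P) :
    Assoc (1 / c) P := by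
  classical
  intro U V hU hV hUl hVl
  obtain ⟨FU, hFU⟩ := hUl
  obtain ⟨FV, hFV⟩ := hVl
  -- the window
  obtain ⟨N, hN⟩ : ∃ N : ℕ, ∀ w ∈ FU ∪ FV, |w.1| ≤ (N : ℤ) ∧ |w.2| ≤ (N : ℤ) := by
    refine ⟨(FU ∪ FV).sup (fun w => max w.1.natAbs w.2.natAbs), fun w hw => ?_⟩
    have h1 := Finset.le_sup (f := fun w : Pt => max w.1.natAbs w.2.natAbs) hw
    have h2 := le_trans (le_max_left _ _) h1
    have h3 := le_trans (le_max_right _ _) h1
    constructor
    · rw [Int.abs_eq_natAbs]; exact_mod_cast h2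
    · rw [Int.abs_eq_natAbs]; exact_mod_cast h3
  set m : ℕ := 2 * N + 1 with hm
  set z0 : ℤ := -(N : ℤ) with hz0
  have hA : ∀ᵐ x ∂(J (1 / c) P), ∀ w ∈ FU ∪ FV, (w ∈ opp x ↔
      w ∈ Aset m m z0 z0 (wτ m m z0 z0 x) (wω m m z0 z0 x)) := by
    filter_upwards [open_even (1 / c) P hice] with x hx w hw
    obtain ⟨h1, h2⟩ := hN w hw
    rw [abs_le] at h1 h2
    constructor
    · rintro ⟨h3, h4⟩
      refine ⟨(⟨(w.1 + N).toNat, by omega⟩, ⟨(w.2 + N).toNat, by omega⟩), ?_, ?_, ?_⟩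
      · refine Prod.ext ?_ ?_
        · show w.1 = z0 + ((w.1 + N).toNat : ℤ)
          omega
        · show w.2 = z0 + ((w.2 + N).toNat : ℤ)
          omega
      · show x.2 (z0 + ((w.1 + N).toNat : ℤ), z0 + ((w.2 + N).toNat : ℤ)) = true
        have e1 : z0 + ((w.1 + N).toNat : ℤ) = w.1 := by omega
        have e2 : z0 + ((w.2 + N).toNat : ℤ) = w.2 := by omega
        rw [e1, e2]
        exact h3
      · rw [wτ_xf, decide_eq_true_eq]
        have e1 : z0 + ((w.1 + N).toNat : ℤ) = w.1 := by omega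
        have e2' : z0 + ((w.2 + N).toNat : ℤ) = w.2 := by omega
        simp only [e1, e2']
        rw [← hx w h3]
        exact h4
    · rintro ⟨v, hv, ho, hτ⟩
      rw [wτ_xf, decide_eq_true_eq, ← hv] at hτ
      have ho' : x.2 w = true := by rw [hv]; exact ho
      exact ⟨ho', by rw [hx w ho']; exact hτ⟩
  have key : ∀ (U : Set Pt → Prop) (F : Finset Pt), F ⊆ FU ∪ FV →
      (∀ A B : Set Pt, (∀ w ∈ F, w ∈ A ↔ w ∈ B) → U A → U B) →
      ∀ᵐ x ∂(J (1 / c) P), (U (opp x) ↔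
        U (Aset m m z0 z0 (wτ m m z0 z0 x) (wω m m z0 z0 x))) := by
    intro U F hF hl
    filter_upwards [hA] with x hx
    exact ⟨hl _ _ fun w hw => hx w (hF hw), hl _ _ fun w hw => (hx w (hF hw)).symm⟩
  have kU := key U FU Finset.subset_union_left hFU
  have kV := key V FV Finset.subset_union_right hFV
  -- measurability of the window
  have hmw : Measurable (fun x : Hgt × Mk => (wτ m m z0 z0 x, wω m m z0 z0 x)) := by
    refine Measurable.prodMk (measurable_pi_lambda _ fun q => ?_)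
      (measurable_pi_lambda _ fun v => ?_)
    · exact (measurable_of_countable (fun z : ℤ => decide (z % 4 = 0))).comp
        ((measurable_pi_apply _).comp measurable_fst)
    · exact (measurable_pi_apply _).comp measurable_snd
  have hint : ∀ G : (FB m m → Bool) × (Fin m × Fin m → Bool) → Prop,
      (J (1 / c) P).real {x | G (wτ m m z0 z0 x, wω m m z0 z0 x)} =
        ∫ x, (if G (wτ m m z0 z0 x, wω m m z0 z0 x) then (1 : ℝ) else 0) ∂(J (1 / c) P) := by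
    intro G
    have hms : MeasurableSet {x : Hgt × Mk | G (wτ m m z0 z0 x, wω m m z0 z0 x)} :=
      hmw (Set.toFinite {y | G y}).measurableSet
    rw [← integral_indicator_one hms]
    refine integral_congr_ae (Eventually.of_forall fun x => ?_)
    simp only [Set.indicator_apply, Set.mem_ofPred_eq, Pi.one_apply]
  have h1 : (J (1 / c) P).real {x | U (opp x)} =
      ∫ x, fU m m z0 z0 U (wτ m m z0 z0 x) (wω m m z0 z0 x) ∂(J (1 / c) P) := by
    rw [show (J (1 / c) P).real {x | U (opp x)} = (J (1 / c) P).real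
      {x | U (Aset m m z0 z0 (wτ m m z0 z0 x) (wω m m z0 z0 x))} from measureReal_congr (by
        filter_upwards [kU] with x hx
        exact propext hx)]
    exact hint (fun y => U (Aset m m z0 z0 y.1 y.2))
  have h2 : (J (1 / c) P).real {x | V (opp x)} =
      ∫ x, fU m m z0 z0 V (wτ m m z0 z0 x) (wω m m z0 z0 x) ∂(J (1 / c) P) := by
    rw [show (J (1 / c) P).real {x | V (opp x)} = (J (1 / c) P).real
      {x | V (Aset m m z0 z0 (wτ m m z0 z0 x) (wω m m z0 z0 x))} from measureReal_congr (by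
        filter_upwards [kV] with x hx
        exact propext hx)]
    exact hint (fun y => V (Aset m m z0 z0 y.1 y.2))
  have h3 : (J (1 / c) P).real {x | U (opp x) ∧ V (opp x)} =
      ∫ x, fU m m z0 z0 U (wτ m m z0 z0 x) (wω m m z0 z0 x) *
        fU m m z0 z0 V (wτ m m z0 z0 x) (wω m m z0 z0 x) ∂(J (1 / c) P) := by
    rw [show (J (1 / c) P).real {x | U (opp x) ∧ V (opp x)} = (J (1 / c) P).real
      {x | U (Aset m m z0 z0 (wτ m m z0 z0 x) (wω m m z0 z0 x)) ∧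
        V (Aset m m z0 z0 (wτ m m z0 z0 x) (wω m m z0 z0 x))} from measureReal_congr (by
        filter_upwards [kU, kV] with x hx hx'
        exact propext (and_congr hx hx'))]
    rw [hint (fun y => U (Aset m m z0 z0 y.1 y.2) ∧ V (Aset m m z0 z0 y.1 y.2))]
    refine integral_congr_ae (Eventually.of_forall fun x => ?_)
    unfold fU
    dsimp only
    by_cases hu : U (Aset m m z0 z0 (wτ m m z0 z0 x) (wω m m z0 z0 x))
    · by_cases hv : V (Aset m m z0 z0 (wτ m m z0 z0 x) (wω m m z0 z0 x))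
      · rw [if_pos hu, if_pos hv, if_pos ⟨hu, hv⟩, one_mul]
      · rw [if_pos hu, if_neg hv, if_neg (fun h => hv h.2), mul_zero]
    · rw [if_neg hu, if_neg (fun h => hu h.1), zero_mul]
  rw [h1, h2, h3]
  exact win_asc hc hc2 hb hpl (by omega) (by omega) z0 z0 (fU_evl _ _ _ _ _) (fU_evl _ _ _ _ _)
    (fU_mono _ _ _ _ hU) (fU_mono _ _ _ _ hV)

end Vale.Agent.P145.FB
end

section

/-!
P145, block F-B, (A): association of the open bonds with spin plus in the plane.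
-/

set_option autoImplicit false

namespace Vale.Agent.P145.FB

open MeasureTheory
open Vale.Agent.P152 Vale.Agent.P145.FA
open Vale.Agent.P152.GFF.B3 (IsP)
open Vale.Agent.P152.GFF.E2 (FB boxD)

theorem plMu {c : ℝ} (hc : 1 ≤ c) {P : Measure (Ori (ℤ × ℤ))} [IsProbabilityMeasure P]
    (hP : IsP c P) : PlMu c P :=
  fun m r hm hr x0 y0 f hf => pl_mu hc hP m r hm hr x0 y0 f hf

/-- **(A)**: association of the open bonds with spin plus. -/
theorem assoc_pl {c : ℝ} (hc : 1 ≤ c) (hc2 : c ≤ 2) (hb : BoxLim c) {P : Measure (Ori (ℤ × ℤ))}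
    [IsProbabilityMeasure P] (hP : IsP c P) (hice : ∀ᵐ a ∂P, ∀ x y, Ice a x y) :
    Assoc (1 / c) P :=
  assoc_of hc hc2 hb hice (plMu hc hP)

/-- **(A)**, general form: association of `(τ, ω₊, -ω₋)` in windows of the plane. -/
theorem assoc3_pl {c : ℝ} (hc : 1 ≤ c) (hc2 : c ≤ 2) (hb : BoxLim c) {P : Measure (Ori (ℤ × ℤ))}
    [IsProbabilityMeasure P] (hP : IsP c P) {m r : ℕ} (hm : 1 ≤ m) (hr : 1 ≤ r) (x0 y0 : ℤ)
    {f g : (FB m r → Bool) → (Fin m × Fin r → Bool) → ℝ}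
    (hf : EvL ((x0 + y0 : ℤ) : ZMod 2) f) (hg : EvL ((x0 + y0 : ℤ) : ZMod 2) g)
    (hf3 : Mono3 (boxD m r ((x0 + y0 : ℤ) : ZMod 2)) f)
    (hg3 : Mono3 (boxD m r ((x0 + y0 : ℤ) : ZMod 2)) g) :
    (∫ x, f (wτ m r x0 y0 x) (wω m r x0 y0 x) ∂(J (1 / c) P)) *
      (∫ x, g (wτ m r x0 y0 x) (wω m r x0 y0 x) ∂(J (1 / c) P)) ≤
    ∫ x, f (wτ m r x0 y0 x) (wω m r x0 y0 x) * g (wτ m r x0 y0 x) (wω m r x0 y0 x)
      ∂(J (1 / c) P) :=
  win_asc hc hc2 hb (plMu hc hP) hm hr x0 y0 hf hg hf3 hg3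

end Vale.Agent.P145.FB
end

section

/-!
P145, block F-TOP, leaf K3: a test function is a finite sum of test functions supported in cells.
-/

namespace Vale.Agent.P145.Top

open Filter Topology Set MeasureTheory
open Vale.Agent.P145.PT
open scoped Manifold ContDiff

private theorem cells_isOpen (a b a' b' : ℝ) : IsOpen (cell a b a' b') := by
  have h : cell a b a' b' = {z : ℝ × ℝ | a < z.1 + z.2} ∩ {z | z.1 + z.2 < b} ∩
      {z | a' < z.1 - z.2} ∩ {z | z.1 - z.2 < b'} := by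
    ext z
    simp only [cell, Set.mem_setOf_eq, Set.mem_inter_iff]
    tauto
  rw [h]
  exact (((isOpen_lt continuous_const (continuous_fst.add continuous_snd)).inter
    (isOpen_lt (continuous_fst.add continuous_snd) continuous_const)).inter
    (isOpen_lt continuous_const (continuous_fst.sub continuous_snd))).inter
    (isOpen_lt (continuous_fst.sub continuous_snd) continuous_const)

private theorem cells_small {D : Set (ℝ × ℝ)} (hD : IsOpen D) {z : ℝ × ℝ} (hz : z ∈ D) :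
    ∃ e : ℝ, 0 < e ∧
      ccell (z.1 + z.2 - e) (z.1 + z.2 + e) (z.1 - z.2 - e) (z.1 - z.2 + e) ⊆ D := by
  obtain ⟨e, he, hb⟩ := Metric.nhds_basis_closedBall.mem_iff.1 (hD.mem_nhds hz)
  refine ⟨e, he, fun w hw => hb ?_⟩
  obtain ⟨h1, h2, h3, h4⟩ := hw
  rw [Metric.mem_closedBall, Prod.dist_eq, Real.dist_eq, Real.dist_eq]
  refine max_le (abs_le.2 ⟨by linarith, by linarith⟩) (abs_le.2 ⟨by linarith, by linarith⟩)

/-- **Leaf K3**: decomposition of a test function into test functions of cells. -/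
theorem exists_cells {D : Set (ℝ × ℝ)} (hD : IsOpen D) {ψ : ℝ × ℝ → ℝ} (hψ : TestOn D ψ) :
    ∃ (m : ℕ) (g : Fin m → ℝ × ℝ → ℝ) (a b a' b' : Fin m → ℝ),
      (∀ i, a i < b i ∧ a' i < b' i ∧ ccell (a i) (b i) (a' i) (b' i) ⊆ D ∧
        TestOn (cell (a i) (b i) (a' i) (b' i)) (g i)) ∧ ∀ z, ψ z = ∑ i, g i z := by
  classical
  have hK : IsCompact (tsupport ψ) := hψ.2.1
  have hKD : tsupport ψ ⊆ D := hψ.2.2
  choose! e he heD using fun (z : ℝ × ℝ) (hz : z ∈ D) => cells_small hD hz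
  let U : ℝ × ℝ → Set (ℝ × ℝ) := fun z =>
    cell (z.1 + z.2 - e z) (z.1 + z.2 + e z) (z.1 - z.2 - e z) (z.1 - z.2 + e z)
  obtain ⟨t, htK, htc⟩ := hK.elim_nhds_subcover U (fun z hz => (cells_isOpen _ _ _ _).mem_nhds (by
    have h := he z (hKD hz)
    exact ⟨by linarith, by linarith, by linarith, by linarith⟩))
  -- enumerate
  let q : Fin t.card ≃ t := t.equivFin.symm
  let c : Fin t.card → ℝ × ℝ := fun i => (q i : ℝ × ℝ)
  have hcK : ∀ i, c i ∈ tsupport ψ := fun i => htK _ (q i).2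
  have hcov : tsupport ψ ⊆ ⋃ i, U (c i) := by
    intro z hz
    obtain ⟨x, hx, hxz⟩ := Set.mem_iUnion₂.1 (htc hz)
    refine Set.mem_iUnion.2 ⟨q.symm ⟨x, hx⟩, ?_⟩
    simpa [c] using hxz
  obtain ⟨f, hf⟩ := SmoothPartitionOfUnity.exists_isSubordinate 𝓘(ℝ, ℝ × ℝ)
    (isClosed_tsupport ψ) (fun i => U (c i)) (fun i => cells_isOpen _ _ _ _) hcov
  refine ⟨t.card, fun i z => ψ z * f i z, fun i => (c i).1 + (c i).2 - e (c i),
    fun i => (c i).1 + (c i).2 + e (c i), fun i => (c i).1 - (c i).2 - e (c i),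
    fun i => (c i).1 - (c i).2 + e (c i), fun i => ?_, fun z => ?_⟩
  · have h := he (c i) (hKD (hcK i))
    refine ⟨by linarith, by linarith, heD _ (hKD (hcK i)), ?_, ?_, ?_⟩
    · have h1 : ContDiff ℝ ∞ (fun z => f i z) := (f i).contMDiff.contDiff
      exact hψ.1.mul h1
    · exact hψ.2.1.mul_right
    · exact (tsupport_mul_subset_right).trans (hf i)
  · by_cases hz : z ∈ tsupport ψ
    · rw [← Finset.mul_sum]
      have h1 : ∑ᶠ i, f i z = 1 := f.sum_eq_one hz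
      rw [finsum_eq_sum_of_fintype] at h1
      rw [h1, mul_one]
    · have h0 : ψ z = 0 := image_eq_zero_of_notMem_tsupport hz
      simp only [h0, zero_mul, Finset.sum_const_zero]

end Vale.Agent.P145.Top
end

section

/-!
From `Inputs` to the convergence in law in all Jordan domains.
-/

namespace Vale.Agent.P145.Top

open Filter Topology Set MeasureTheory ProbabilityTheory
open Vale.Agent.P145.PT Vale.Agent.P145.FP Vale.Agent.P145.Dom

/-- The key statement, from the inputs. -/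
theorem key {c κ : ℝ} {δ : ℕ → ℝ} (H : Inputs c κ δ) : S_key c κ δ :=
  key_of H exists_cells exists_dom exists_big pos_part

/-- The outer inclusion (helper180, D4). -/
def S_out : Prop := ∀ (D : Set (ℝ × ℝ)), JordanDomain D → ∀ (δ : ℕ → ℝ) (N : ℕ → ℕ)
  (p : ∀ n, ZMod (N n) → ℤ × ℤ) (F : ℕ → Finset (ℤ × ℤ)), Approx D δ N p F →
  ∀ D' : Set (ℝ × ℝ), IsOpen D' → Bornology.IsBounded D' → closure D ⊆ D' →
    ∀ᶠ n in atTop, F n ⊆ Fs (δ n) D'

/-- Convergence in all Jordan domains, from the inputs. -/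
theorem conv_of_inputs {t κ s : ℝ} (ht : 0 < t) (hs : κ = s ^ 2 * (2 * Real.pi)) (hκ : 0 < κ)
    (hm : S_mono (1 / t)) (hin : ∀ δ : ℕ → ℝ, (∀ n, 0 < δ n) → Tendsto δ atTop (𝓝 0) →
      S_mb (1 / t) δ ∧ S_l2 (1 / t) δ ∧ S_dec (1 / t) δ ∧ S_xst (1 / t) κ δ)
    (hout : S_out) : ∀ D : Set (ℝ × ℝ), JordanDomain D → Conv t s D := fun D hJ =>
  conv_of_key ht hs hJ hm (fun δ hδ hl => key
    { cpos := by positivity
      κpos := hκ
      δpos := hδ
      δlim := hl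
      mono := hm
      mb := (hin δ hδ hl).1
      l2 := (hin δ hδ hl).2.1
      dec := (hin δ hδ hl).2.2.1
      xst := (hin δ hδ hl).2.2.2 }) (fun δ N p F hA => hout D hJ δ N p F hA)

end Vale.Agent.P145.Top
end

section

/-!
The outer inclusion.
-/

namespace Vale.Agent.P145.Top

open Filter Topology Set MeasureTheory ProbabilityTheory
open Vale.Agent.P145.PT Vale.Agent.P145.FP Vale.Agent.P145.Dom

theorem s_out : S_out := by
  intro D hJ δ N p F h D' hD' hb hcl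
  obtain ⟨Φ, rfl⟩ := JordanDomain.exists hJ
  filter_upwards [approx_outer Φ h hD' hcl] with n hn f hf
  rw [mem_Fs (h.pos n) hb]
  exact fun z hz => hn f hf ⟨⟨hz.1, hz.2.1⟩, hz.2.2⟩

end Vale.Agent.P145.Top
end

section

/-!
P145, block X: the assembly, from the properties `PlIn` of the plane measure.
-/

namespace Vale.Agent.P145.X

open Filter Topology Set MeasureTheory
open Vale.Agent.P152 (Ori Ice Edge)
open Vale.Agent.P145.FA (PlIn)
open Vale.Agent.P145.FB (Assoc J Ann SQ)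

namespace PL

variable {c κ : ℝ} {P : Measure (Ori (ℤ × ℤ))}

theorem ct (hc : 1 ≤ c) : c * (1 / c) = 1 := by
  have : c ≠ 0 := by linarith
  field_simp

theorem t1 (hc : 1 ≤ c) : 1 / c ≤ 1 := by
  rw [div_le_one (by linarith)]; exact hc

theorem th (hc : 1 ≤ c) (hc2 : c ≤ 2) : 1 / 2 ≤ 1 / c :=
  one_div_le_one_div_of_le (by linarith) hc2

theorem harm (hc : 1 ≤ c) (h : PlIn c P κ) : ∀ ε > 0, ∀ M0 : ℤ, ∃ M : ℤ, M0 ≤ M ∧
    ∃ s0 : ℤ, ∀ s : ℤ, s0 ≤ s → (J (1 / c) P).real {x | FB.Arm s (2 * M * s) (FB.SP x)} < ε := by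
  have := h.prob
  exact FB.harm_of (by linarith) (ct hc) (t1 hc) h.ice h.swap h.ac

theorem assoc (hc : 1 ≤ c) (hc2 : c ≤ 2) (h : PlIn c P κ) : Assoc (1 / c) P := by
  have := h.prob
  exact FB.assoc_pl hc hc2 h.box h.isP h.ice

/-- **(R1)**: circuits. -/
theorem circ (hc : 1 ≤ c) (hc2 : c ≤ 2) (h : PlIn c P κ) :
    ∃ c' : ℝ, 0 < c' ∧ ∃ r0 : ℤ, ∀ r : ℤ, r0 ≤ r → ∀ p q : ℤ,
      c' ≤ (J (1 / c) P).real {x | Ann p q r (SQ x)} := by
  have := h.prob
  exact FB.r1_circ h.symM h.ice (th hc hc2) (t1 hc) (assoc hc hc2 h) (harm hc h)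

theorem int (h : PlIn c P κ) : S_int (1 / c) P := by
  have := h.prob
  exact s_int _ P

theorem avg (h : PlIn c P κ) : S_avg (1 / c) P := by
  have := h.prob
  exact s_avg _ P

theorem low (hc : 1 ≤ c) (hc2 : c ≤ 2) (h : PlIn c P κ) : S_low c (1 / c) P :=
  s_low (ct hc) hc hc2 h.box h.pl h.isP (int h)

theorem ext (hc : 1 ≤ c) (hc2 : c ≤ 2) (h : PlIn c P κ) : S_ext (1 / c) P :=
  s_ext (ct hc) hc hc2 h.box h.pl h.isP (int h)

theorem up (hc : 1 ≤ c) (h : PlIn c P κ) : S_up c (1 / c) P := by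
  have hi := int h
  rw [one_div] at hi ⊢
  exact s_up hc h.pl h.swap hi

theorem pos (hc : 1 ≤ c) (hc2 : c ≤ 2) (h : PlIn c P κ) : S_pos (1 / c) P := by
  have := h.prob
  exact s_pos h.ice (assoc hc hc2 h) (circ hc hc2 h)

theorem rsw (hc : 1 ≤ c) (hc2 : c ≤ 2) (h : PlIn c P κ) : S_rsw (1 / c) P := by
  have := h.prob
  exact s_rsw h.symM h.ice (th hc hc2) (t1 hc) (assoc hc hc2 h) (harm hc h)

theorem cnt (hc : 1 ≤ c) (hc2 : c ≤ 2) (h : PlIn c P κ) : S_cnt (1 / c) P := by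
  have := h.prob
  obtain ⟨C, hC, γ, hγ, hE⟩ := h.egd
  exact s_cnt_egd (by linarith) (ct hc) (t1 hc) h.ice h.swap hC.le hγ hE h.inv (rsw hc hc2 h)

theorem gap (hc : 1 ≤ c) (hc2 : c ≤ 2) (h : PlIn c P κ) : S_gap (1 / c) P :=
  s_gap (ext hc hc2 h) (cnt hc hc2 h) s_conf s_loc (int h) (rsw hc hc2 h)

theorem emom (hc : 1 ≤ c) (hc2 : c ≤ 2) (h : PlIn c P κ) : S_emom (1 / c) P :=
  s_emom (ext hc hc2 h) s_conf s_loc

theorem mom (hc : 1 ≤ c) (hc2 : c ≤ 2) (h : PlIn c P κ) : S_mom (1 / c) P := by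
  have := h.prob
  obtain ⟨C, hC, γ, hγ, hE⟩ := h.egd
  exact s_mom hc (ct hc) h.hyp h.swap hC.le hγ hE h.symM (low hc hc2 h) (int h) s_loc

theorem lowc (hc : 1 ≤ c) (hc2 : c ≤ 2) (h : PlIn c P κ) : S_lowc c (1 / c) P :=
  s_lowc (ct hc) hc hc2 h.box h.pl h.isP (int h)

theorem mm (hc : 1 ≤ c) (h : PlIn c P κ) {δ : ℕ → ℝ} (hδ : ∀ n, 0 < δ n)
    (hlim : Tendsto δ atTop (𝓝 0)) : S_mm (1 / c) P δ := by
  have := h.prob
  obtain ⟨C, hC, γ, hγ, hE⟩ := h.egd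
  exact s_mm (by linarith) (ct hc) (t1 hc) h.hyp h.swap hC.le hγ hE h.symM hδ hlim

/-- All the inputs of the identification of the limit. -/
theorem inputs (hc : 1 ≤ c) (hc2 : c ≤ 2) (h : PlIn c P (4 * κ)) {δ : ℕ → ℝ}
    (hδ : ∀ n, 0 < δ n) (hlim : Tendsto δ atTop (𝓝 0)) :
    Top.S_mb c δ ∧ Top.S_l2 c δ ∧ Top.S_dec c δ ∧ Top.S_xst c κ δ := by
  have c0 : 0 < c := by linarith
  have hm : Top.S_mono c := FK.s_mono hc
  have hr := rsw hc hc2 h
  have hg := gap hc hc2 h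
  have hl := low hc hc2 h
  have hmm := mm hc h hδ hlim
  have hmb : Top.S_mb c δ := s_mb c0 hδ hlim hl hmm hr s_loc
  have hl2 : Top.S_l2 c δ := s_l2 c0 hδ hlim hl hmm hr s_loc
  refine ⟨hmb, hl2, s_dec hc (int h) hl (lowc hc hc2 h) hg (mom hc hc2 h) hr s_loc s_conf hδ hlim
    hmb, xst_of_xst0 c0 hδ hm hmb hl2 ?_⟩
  exact xst0_of' c0 hδ hlim hm (int h) hl (up hc h) s_loc hr hg (pos hc hc2 h) (emom hc hc2 h) hmm
    (s_geom s_conf) far (sdH_of h.pl h.grp h.hyp h.clt (avg h) (int h) s_loc hδ hlim)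

/-- The scaling limit in all Jordan domains, from the properties of the plane measure. -/
theorem conv (hc : 1 ≤ c) (hc2 : c ≤ 2) (h : PlIn c P κ) {s : ℝ}
    (hs : κ = s ^ 2 * (8 * Real.pi)) :
    ∀ D : Set (ℝ × ℝ), Dom.JordanDomain D → Dom.Conv (1 / c) s D := by
  have e : 1 / (1 / c) = c := one_div_one_div c
  have c0 : 0 < c := by linarith only [hc]
  have hκ := h.κpos
  have e2 : 4 * (κ / 4) = κ := by ring
  refine Top.conv_of_inputs (κ := κ / 4) (by positivity) (by rw [hs]; ring) (by positivity) ?_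
    ?_ Top.s_out
  · rw [e]; exact FK.s_mono hc
  · intro δ hδ hlim
    rw [e]
    exact inputs hc hc2 (by rw [e2]; exact h) hδ hlim

end PL

/-- **Scaling limit in all Jordan domains**, `1 ≤ c ≤ 2`, up to the value of the constant. -/
theorem conv_exists {c : ℝ} (hc : 1 ≤ c) (hc2 : c ≤ 2) : ∃ κ : ℝ, 0 < κ ∧
    ∀ s : ℝ, κ = s ^ 2 * (2 * Real.pi) →
      ∀ D : Set (ℝ × ℝ), Dom.JordanDomain D → Dom.Conv (1 / c) s D := by
  obtain ⟨P, κ, h⟩ := FA.exists_plIn hc hc2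
  have hκ := h.κpos
  exact ⟨κ / 4, by positivity, fun s hs => PL.conv hc hc2 h (by linarith)⟩

end Vale.Agent.P145.X
end

section

/-!
The scaling limit in all Jordan domains.
-/

namespace Vale.Agent.P145.JG

theorem jordan {J U : ℝ} (hUJ : U ≤ J) (hself : Real.sinh (2 * J) = Real.exp (-2 * U)) :
    ∃ s : ℝ, 0 < s ∧
      ∀ D : Set (ℝ × ℝ), JordanDomain D → Conv (1 / √(1 + Real.exp (4 * U))) s D :=
  jordan_of (fun _ h1 h2 => X.conv_exists h1 h2) hUJ hself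

end Vale.Agent.P145.JG
end

section

/-!
P145: the constants of the final theorem in Jordan domains: from the inputs of the block Top for
the plane measure with weights `1, 1, c` and the value `1 / arcsin (c / 2)` of the stiffness to the
convergence at the points `(J, U)` of the self-dual line.
-/

set_option autoImplicit false

namespace Vale.Agent.P145.X

open Filter Topology Set MeasureTheory
open Vale.Agent.P152 (Ori)
open Vale.Agent.P145.FA (PlIn)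
open Vale.Agent.P145.Dom (JordanDomain Conv)

/-- The inputs of the block Top hold for the plane measure with stiffness `4 κ`. -/
def InOK (c : ℝ) : Prop := ∀ (P : Measure (Ori (ℤ × ℤ))) (κ : ℝ), PlIn c P (4 * κ) →
  ∀ δ : ℕ → ℝ, (∀ n, 0 < δ n) → Tendsto δ atTop (𝓝 0) →
    Top.S_mb c δ ∧ Top.S_l2 c δ ∧ Top.S_dec c δ ∧ Top.S_xst c κ δ

/-- The value of the stiffness. -/
def Val (c : ℝ) : Prop := ∀ (P : Measure (Ori (ℤ × ℤ))) (κ : ℝ), PlIn c P κ →
  κ = 1 / Real.arcsin (c / 2)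

theorem val_of {c : ℝ} (h : P152.GFF.Val c) : Val c :=
  fun P κ hP => h P hP.pln hP.chP κ hP.κpos.le hP.varLim

/-- The value of the stiffness, from the value for one plane limit. -/
theorem val_of_plane {c : ℝ} {P' : Measure (Ori (ℤ × ℤ))} [IsProbabilityMeasure P']
    (hlim : P152.IsLimit c P')
    (hv : ∀ κ : ℝ, 0 < κ → P152.GFF.VarLim P' κ → κ = 1 / Real.arcsin (c / 2)) : Val c := by
  intro P κ h
  have := h.prob
  have e : P = P' := FP.limit_unique h.lim hlim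
  subst e
  exact hv κ h.κpos h.varLim

/-- The value of the stiffness, from the final theorem on the six-vertex model. -/
theorem val_of_mainV {c : ℝ} (h : P152.GFF.MainV c) : Val c := by
  obtain ⟨P', hP', hlim', -, H⟩ := h
  intro P κ hp
  have := hp.prob
  have e : P = P' := FP.limit_unique hp.lim hlim'
  subst e
  exact kappa_eq hp.ice hp.clt H

/-- Convergence, in terms of `c`. -/
theorem conv_c {c : ℝ} (hc : 1 ≤ c) (hc2 : c ≤ 2) (hL : InOK c) (hV : Val c) {s : ℝ}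
    (hs : 1 / (4 * Real.arcsin (c / 2)) = s ^ 2 * (2 * Real.pi)) :
    ∀ D : Set (ℝ × ℝ), JordanDomain D → Conv c⁻¹ s D := by
  have hc0 : 0 < c := by linarith only [hc]
  obtain ⟨P, κ, h⟩ := FA.exists_plIn hc hc2
  have hval := hV P κ h
  have hκ := h.κpos
  have h' : PlIn c P (4 * (κ / 4)) := by
    have e : 4 * (κ / 4) = κ := by ring
    rw [e]; exact h
  have e1 : (1 : ℝ) / c⁻¹ = c := by rw [one_div, inv_inv]
  have hs' : κ / 4 = s ^ 2 * (2 * Real.pi) := by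
    rw [← hs, hval, div_div, mul_comm]
  refine Top.conv_of_inputs (inv_pos.2 hc0) hs' (by linarith only [hκ]) ?_ ?_ Top.s_out
  · rw [e1]; exact FK.s_mono hc
  · rw [e1]
    exact fun δ hδ hl => hL P (κ / 4) h' δ hδ hl

/-- Convergence at the points of the self-dual line, in terms of `U`. -/
theorem conv_U {U : ℝ} (hU : Real.exp (4 * U) ≤ 3) (hL : InOK √(1 + Real.exp (4 * U)))
    (hV : Val √(1 + Real.exp (4 * U))) {t g : ℝ} (ht : t = (1 + Real.exp (4 * U)) ^ (-(1 / 2) : ℝ))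
    (hg : g = 8 / Real.pi * Real.arcsin (√(1 + Real.exp (4 * U)) / 2)) :
    ∀ D : Set (ℝ × ℝ), JordanDomain D → Conv t (1 / (Real.pi * √g)) D := by
  have h0 : 0 < Real.exp (4 * U) := Real.exp_pos _
  have hc : 1 ≤ √(1 + Real.exp (4 * U)) := by
    rw [Real.one_le_sqrt]; linarith only [h0]
  have hc2 : √(1 + Real.exp (4 * U)) ≤ 2 := by
    rw [Real.sqrt_le_left (by norm_num)]; linarith only [hU]
  have htc : t = (√(1 + Real.exp (4 * U)))⁻¹ := by
    rw [ht, Real.rpow_neg (by linarith only [h0]), Real.sqrt_eq_rpow]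
  have ha : 0 < Real.arcsin (√(1 + Real.exp (4 * U)) / 2) := Real.arcsin_pos.2 (by linarith only [hc])
  have hpi := Real.pi_pos
  have hg0 : 0 < g := by rw [hg]; positivity
  rw [htc]
  refine conv_c hc hc2 hL hV ?_
  rw [div_pow, mul_pow, Real.sq_sqrt hg0.le, one_pow, hg]
  field_simp
  ring

/-- **The theorem on the self-dual line**, from `InOK` and `Val`. -/
theorem main_of (hL : ∀ c : ℝ, 1 < c → c ≤ 2 → InOK c) (hV : ∀ c : ℝ, 1 < c → c ≤ 2 → Val c)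
    (J U : ℝ) (hUJ : U ≤ J) (hself : Real.sinh (2 * J) = Real.exp (-2 * U)) (t g : ℝ)
    (ht : t = (1 + Real.exp (4 * U)) ^ (-(1 / 2) : ℝ))
    (hg : g = 8 / Real.pi * Real.arcsin (√(1 + Real.exp (4 * U)) / 2)) :
    ∀ D : Set (ℝ × ℝ), JordanDomain D → Conv t (1 / (Real.pi * √g)) D := by
  have h0 : 0 < Real.exp (4 * U) := Real.exp_pos _
  have hU := FP.exp_le_three hUJ hself
  have hc : 1 < √(1 + Real.exp (4 * U)) := by
    rw [Real.lt_sqrt (by norm_num)]; linarith only [h0]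
  have hc2 : √(1 + Real.exp (4 * U)) ≤ 2 := by
    rw [Real.sqrt_le_left (by norm_num)]; linarith only [hU]
  exact conv_U hU (hL _ hc hc2) (hV _ hc hc2) ht hg

/-- The statement for `U < 0`. -/
theorem mainNeg_of (hL : ∀ c : ℝ, 1 < c → c ^ 2 < 2 → InOK c)
    (hV : ∀ c : ℝ, 1 < c → c ^ 2 < 2 → Val c) : Dom.Main := by
  intro J U hJ hU hself t g ht hg
  have h0 : 0 < Real.exp (4 * U) := Real.exp_pos _
  have h1 : Real.exp (4 * U) < 1 := by
    rw [← Real.exp_zero]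
    exact Real.exp_lt_exp.2 (by linarith only [hU])
  have hc : 1 < √(1 + Real.exp (4 * U)) := by
    rw [Real.lt_sqrt (by norm_num)]; linarith only [h0]
  have hc2 : √(1 + Real.exp (4 * U)) ^ 2 < 2 := by
    rw [Real.sq_sqrt (by linarith only [h0])]; linarith only [h1]
  exact conv_U (by linarith only [h1]) (hL _ hc hc2) (hV _ hc hc2) ht hg

end Vale.Agent.P145.X
end
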